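import Claimed.Agent.R285.Ent.If
import Claimed.Agent.R285.F4a.Map
import Claimed.Agent.R285.Base.Spaces

/-!
# ROW 285, THE ENTRY ENGINE: the vocabulary of the contract `F4b.initialization`, THE CONSTRUCTION, and the exit statements which speak about volumes            (owner helper56)
Nothing is sorried here.
* Part A (namespace `F4b`): the definitions of `Read/F4b.lean`, moved here VERBATIM so that proofs can import them.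
* Part B (namespace `Ent`): `entData a b0 : F4b.EntryData`, the construction.
* Part C: exit statements `PropStmt`, `SymStmt`, `CopyStmt`, `GaugeStmt` (post TRANSPORT), `GeoUStmt` (post GEO), `NormUStmt`, `HolUStmt` (post CPLX), `EtaStmt` (post UNIT).
-/

set_option autoImplicit false

namespace Claimed.Agent.R285.F4b

open scoped BigOperators ENNReal NNReal
open MeasureTheory ProbabilityTheory
open Claimed.Agent.R285 Claimed.Agent.R285.RG Claimed.Agent.R285.B4 Claimed.Agent.R285.F4a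

noncomputable section

/-! ## 0. Finite volumes -/

/-- a finite volume (torus or free square) with observation cells of side `s` and entry blocks of side `m`, `s ∣ m ∣ M`; all grids are full-block grids with origin `0` -/
structure Vol where
  G : Geom
  s : ℕ
  m : ℕ
  hsm : s ∣ m
  hmM : m ∣ G.M

namespace Vol

variable (𝒱 : Vol)

/-- the grid of observation cells -/
def c : Grid 𝒱.G := torusGrid 𝒱.G 𝒱.s (dvd_trans 𝒱.hsm 𝒱.hmM)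

/-- the grid of entry blocks -/
def g : Grid 𝒱.G := torusGrid 𝒱.G 𝒱.m 𝒱.hmM

/-- the centre of the square -/
def ctr : ℤ × ℤ := ((𝒱.G.M / 2 : ℕ), (𝒱.G.M / 2 : ℕ))

/-- the block under the plane block index `B`, in the chart with origin `o` -/
def bemb (o B : ℤ × ℤ) : 𝒱.g.I := 𝒱.g.blk (𝒱.G.π (((𝒱.m : ℤ) * B.1, (𝒱.m : ℤ) * B.2) + o))

open Classical in
/-- the rectangle spanned by a set of sites (free square) -/
def hull (D : Finset 𝒱.G.V) : Finset 𝒱.G.V :=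
  Finset.univ.filter fun v => (∃ a ∈ D, a.1 ≤ v.1) ∧ (∃ a ∈ D, v.1 ≤ a.1) ∧ (∃ a ∈ D, a.2 ≤ v.2) ∧ (∃ a ∈ D, v.2 ≤ a.2)

end Vol

/-! ## 1. Copies between two volumes -/

/-- the plane set `S`, padded by `r` sites, sits in the volume in the chart `x ↦ π (x + o)`: its bounding square unwraps (torus) / it misses the walls (free square) -/
def Fits (G : Geom) (o : ℤ × ℤ) (r : ℕ) (S : Finset (ℤ × ℤ)) : Prop :=
  (G.bc = BC.per → pdiam S + 2 * r < G.M) ∧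
  (G.bc = BC.free → ∀ x ∈ S, (r : ℤ) ≤ (x + o).1 ∧ (x + o).1 + r < G.M ∧ (r : ℤ) ≤ (x + o).2 ∧ (x + o).2 + r < G.M)

/-- `K'` (chart origin `o'`) is a copy of `K` (chart origin `o`) on all supports which fit in both volumes with `r` sites of padding.
`CopyAt h0 (c0 * g.m) g g' 0 0` on two tori is `RG.Copy h0 c0 g g'`. -/
def CopyAt (h0 : ℝ≥0) (r : ℕ) {G G' : Geom} (g : Grid G) (g' : Grid G') (o o' : ℤ × ℤ) (K : Act g) (K' : Act g') : Prop :=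
  ∀ S : Finset (ℤ × ℤ), Fits G o r S → Fits G' o' r S →
    ∀ z ∈ strip h0 g (g.foldS (S.image (· + o))), ∀ z' ∈ strip h0 g' (g'.foldS (S.image (· + o'))),
      (∀ x : ℤ × ℤ, (∃ y ∈ S, max (x.1 - y.1).natAbs (x.2 - y.2).natAbs ≤ r) → z (G.π (x + o)) = z' (G'.π (x + o'))) →
      K (g.foldS (S.image (· + o))) z = K' (g'.foldS (S.image (· + o'))) z'

/-! ## 2. Theorem 4.6 (`ent:initialization`) + [E] Proposition 3.1 (`prop:entry`) as ONE contract -/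

/-- `‖K‖_{m, A_w, V} ≤ ε`, `V` the observation regulator at the entry side -/
def NormLE (𝒱 : Vol) (p : Par) (o : ObsPar) (K : Act 𝒱.g) (ε : ℝ) : Prop :=
  ∀ V : Extra 𝒱.g, IsObs o 𝒱.c 𝒱.g V → actNorm p 𝒱.g V K ≤ ENNReal.ofReal ε

/-- translation of the field argument by a real background -/
def shiftA {G : Geom} {g : Grid G} (K : Act g) (lam : G.V → ℝ) : Act g := fun X z => K X (z + toC lam)

/-- ALL the objects produced by the entry construction.  They depend on `(q, R, s)` only through the volume (`s = 𝒱.s`, `m = 𝒱.m = q R s`), NOT on the norms. -/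
structure EntryData where
  /-- centred activities `K_{𝒢,m}^0` at the complex parameter `b` -/
  K0 : (𝒱 : Vol) → ℂ → Act 𝒱.g
  /-- the scalar `c_{𝒢,m}` -/
  sc : Vol → ℝ → ℝ
  /-- unit sector at `b₀`, as functions of the TOTAL field: `K_{𝒢,m}^τ(X, ψ) = KT X (ψ + v_n/α)` -/
  KT : (𝒱 : Vol) → Act 𝒱.g
  /-- `J_{𝒢,m}(X, ψ) = JT X (ψ + v_n/α)` -/
  JT : (𝒱 : Vol) → Act 𝒱.g
  /-- the compulsory set `𝔠_{⋆,m}`, in plane block indices centred at the source; arguments `s`, `m` -/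
  Cst : ℕ → ℕ → Finset (ℤ × ℤ)

/-- compatible tori and aligned free squares of T4.6 -/
structure Vol.Adm (𝒱 : Vol) (q R s : ℕ) : Prop where
  hs : 𝒱.s = s
  hm : 𝒱.m = q * R * s
  side : s * R ^ 5 ≤ 𝒱.G.M
  centred : 𝒱.G.bc = BC.free → 2 * 𝒱.m ∣ 𝒱.G.M

/-- T4.6 (i) and [E] P3.1 in one volume; `r` = radius of the parameter disk, `ε` = bound of the norm -/
structure BulkOK (D : EntryData) (b0 a : ℝ) (p : Par) (o : ObsPar) (r ε : ℝ) (𝒱 : Vol) : Prop where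
  ok : ∀ b ∈ Metric.ball (b0 : ℂ) r, Act.Ok p 0 RR (D.K0 𝒱 b)
  hol : ∀ X, ∀ z ∈ strip p.h0 𝒱.g X, DifferentiableOn ℂ (fun b => D.K0 𝒱 b X z) (Metric.ball (b0 : ℂ) r)
  real : ∀ b : ℝ, |b - b0| < r → Act.Real (D.K0 𝒱 b)
  even : ∀ b ∈ Metric.ball (b0 : ℂ) r, Act.Even p.h0 (D.K0 𝒱 b)
  /-- block translations and square symmetries; on TORI only (the only consumer is `Asm/EntSp.lean`; the squares inherit what they need from `CopyOK.bulk`) -/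
  sym : 𝒱.G.bc = BC.per → ∀ b ∈ Metric.ball (b0 : ℂ) r, Act.Sym p.h0 𝒱.c (D.K0 𝒱 b)
  norm : ∀ b ∈ Metric.ball (b0 : ℂ) r, NormLE 𝒱 p o (D.K0 𝒱 b) ε
  /-- (ent:ordinary-subset) -/
  ident : ∀ b : ℝ, |b - b0| < r → TargetOrd b a 𝒱.c 𝒱.g (D.sc 𝒱 b) (D.K0 𝒱 b)

/-- T4.6 (ii), (iii) in one marked square -/
structure UnitOK (D : EntryData) (b0 a : ℝ) (p : Par) (o : ObsPar) (ε εJ : ℝ) (𝒱 : Vol) : Prop where
  okK : Act.Ok p 0 RR (D.KT 𝒱)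
  okJ : Act.Ok p 0 RR (D.JT 𝒱)
  realK : Act.Real (D.KT 𝒱)
  realJ : Act.Real (D.JT 𝒱)
  /-- (ent:labelled-subset) in the total field, with the SAME scalar -/
  ident : TargetLab b0 a 𝒱.c 𝒱.g (D.sc 𝒱 b0) 0 (D.KT 𝒱) (D.JT 𝒱)
  /-- (ent:label-norm); `v` is any co-closed branch -/
  normK : ∀ v, (Top.full 𝒱.c).CoClosed ((Top.full 𝒱.c).eta (tauU 𝒱.c) v) →
    NormLE 𝒱 p o (shiftA (D.KT 𝒱) fun x => v x / Real.sqrt a) ε
  normJ : ∀ v, (Top.full 𝒱.c).CoClosed ((Top.full 𝒱.c).eta (tauU 𝒱.c) v) →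
    NormLE 𝒱 p o (shiftA (D.JT 𝒱) fun x => v x / Real.sqrt a) εJ
  /-- (ent:compulsory-support) -/
  supp : ∀ X, ¬ ((D.Cst 𝒱.s 𝒱.m).image (𝒱.bemb 𝒱.ctr) ⊆ X) → D.JT 𝒱 X = 0
  /-- (ent:translated-copy): an integral gauge `κ` on the rectangle spanned by `D_m(X)` (it exists iff the rectangle misses the source: `F4a.unit_lift`);
  `λ_X = v_n/α + ω κ` -/
  transl : ∀ (X : Finset 𝒱.g.I) (κ : 𝒱.G.V → ℤ),
    (∀ e : 𝒱.G.V × Bool, stp e.1 e.2 ≠ e.1 → e.1 ∈ 𝒱.hull (𝒱.g.Dm X) → stp e.1 e.2 ∈ 𝒱.hull (𝒱.g.Dm X) →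
      κ (stp e.1 e.2) - κ e.1 = tauE (𝒱.G.M / 2) e) →
    ∀ z ∈ strip p.h0 𝒱.g X, D.KT 𝒱 X z = D.K0 𝒱 b0 X (z + toC fun x => 2 * Real.pi / Real.sqrt a * (κ x : ℝ))

/-- the copy statements of T4.6 (i), (iii) between two admissible volumes with the same `s`, `m` -/
structure CopyOK (D : EntryData) (b0 : ℝ) (h0 : ℝ≥0) (c0 : ℕ) (r : ℝ) (big : ℕ) (𝒱 𝒱' : Vol) : Prop where
  /-- centred sector, every pair of aligned charts -/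
  bulk : ∀ b ∈ Metric.ball (b0 : ℂ) r, ∀ o o' : ℤ × ℤ, (𝒱.m : ℤ) ∣ o.1 → (𝒱.m : ℤ) ∣ o.2 → (𝒱.m : ℤ) ∣ o'.1 → (𝒱.m : ℤ) ∣ o'.2 →
    CopyAt h0 (c0 * 𝒱.m) 𝒱.g 𝒱'.g o o' (D.K0 𝒱 b) (D.K0 𝒱' b)
  /-- (ent:plane-background) in total-field form: two marked squares, charts centred at the sources -/
  unitK : 𝒱.G.bc = BC.free → 𝒱'.G.bc = BC.free → big ≤ 𝒱.G.M → big ≤ 𝒱'.G.M →
    CopyAt h0 (c0 * 𝒱.m) 𝒱.g 𝒱'.g 𝒱.ctr 𝒱'.ctr (D.KT 𝒱) (D.KT 𝒱')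
  unitJ : 𝒱.G.bc = BC.free → 𝒱'.G.bc = BC.free → big ≤ 𝒱.G.M → big ≤ 𝒱'.G.M →
    CopyAt h0 (c0 * 𝒱.m) 𝒱.g 𝒱'.g 𝒱.ctr 𝒱'.ctr (D.JT 𝒱) (D.JT 𝒱')

end

end Claimed.Agent.R285.F4b

namespace Claimed.Agent.R285.Ent

open scoped BigOperators ENNReal NNReal
open MeasureTheory ProbabilityTheory
open Claimed.Agent.R285 Claimed.Agent.R285.RG Claimed.Agent.R285.B4 Claimed.Agent.R285.F4a Claimed.Agent.R285.F4b

noncomputable section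

/-! ## B. The construction -/

/-- the isolation scale of a volume (`q = 1`) -/
def vR (𝒱 : Vol) : ℕ := 𝒱.m / 𝒱.s

theorem vol_site_lt (𝒱 : Vol) (j : Fin 𝒱.c.n) : (j : ℕ) * 𝒱.s < 𝒱.G.M := by
  have hj : (j : ℕ) < 𝒱.G.M / 𝒱.s := j.2
  have hs : 0 < 𝒱.s := by
    rcases Nat.eq_zero_or_pos 𝒱.s with h | h
    · rw [h, Nat.div_zero] at hj; omega
    · exact h
  have h1 : ((j : ℕ) + 1) * 𝒱.s ≤ 𝒱.G.M / 𝒱.s * 𝒱.s := Nat.mul_le_mul_right _ hj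
  have h2 := Nat.div_mul_le_self 𝒱.G.M 𝒱.s
  nlinarith

/-- the cells are nested in the blocks -/
def vNest (𝒱 : Vol) : Nest 𝒱.c 𝒱.g where
  up1 := fun j => 𝒱.g.blk1 ⟨(j : ℕ) * 𝒱.s, vol_site_lt 𝒱 j⟩
  comm := fun i => by
    obtain ⟨k, hk⟩ := 𝒱.hsm
    have hs : 0 < 𝒱.s := by
      rcases Nat.eq_zero_or_pos 𝒱.s with h | h
      · have hM : 𝒱.G.M = 0 := by
          obtain ⟨l, hl⟩ := 𝒱.hmM
          rw [hl, hk, h]; simp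
        exact absurd i.2 (by omega)
      · exact h
    apply Fin.ext
    show (i : ℕ) / 𝒱.m = ((i : ℕ) / 𝒱.s * 𝒱.s) / 𝒱.m
    rw [hk, ← Nat.div_div_eq_div_mul, ← Nat.div_div_eq_div_mul, Nat.mul_div_cancel _ hs]

/-- the weights of a volume -/
def vW (a b0 : ℝ) (𝒱 : Vol) (b : ℂ) (τ : Face 𝒱.c → ℤ) : Wt 𝒱.c := xyWt 𝒱.c a b0 b τ

/-- the centred activities -/
def entK0 (a b0 : ℝ) (𝒱 : Vol) (b : ℂ) : Act 𝒱.g := (vW a b0 𝒱 b 0).Kact a (vNest 𝒱) (vR 𝒱)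

/-- the scalar -/
def entSc (a b0 : ℝ) (𝒱 : Vol) (b : ℝ) : ℝ := (vW a b0 𝒱 b 0).scal (vR 𝒱) / (Top.full 𝒱.c).Zobs b 0 0

/-- the compulsory set in plane block indices: the blocks of the zone of radius `2 R⁵` cells, made symmetric -/
def entCst (s m : ℕ) : Finset (ℤ × ℤ) :=
  Finset.Icc (-(2 * ((m / s : ℕ) : ℤ) ^ 4 + 1)) (2 * ((m / s : ℕ) : ℤ) ^ 4) ×ˢ Finset.Icc (-(2 * ((m / s : ℕ) : ℤ) ^ 4 + 1)) (2 * ((m / s : ℕ) : ℤ) ^ 4)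

/-- the compulsory set in the volume -/
def entCs (𝒱 : Vol) : Finset 𝒱.g.I := (entCst 𝒱.s 𝒱.m).image (𝒱.bemb 𝒱.ctr)

/-- the vertex tile which contains the source -/
def entT0 (𝒱 : Vol) : Tile := (false, true, 𝒱.c.n / 2 / vR 𝒱, 𝒱.c.n / 2 / vR 𝒱)

/-- the labelled activity -/
def entJT (a b0 : ℝ) (𝒱 : Vol) : Act 𝒱.g := (vW a b0 𝒱 b0 (tauU 𝒱.c)).Jact a (vNest 𝒱) (vR 𝒱) (entT0 𝒱) (entCs 𝒱)

/-- an integral gauge on the rectangle spanned by `D_m (X)` -/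
def IsGauge (𝒱 : Vol) (X : Finset 𝒱.g.I) (κ : 𝒱.G.V → ℤ) : Prop :=
  ∀ e : 𝒱.G.V × Bool, stp e.1 e.2 ≠ e.1 → e.1 ∈ 𝒱.hull (𝒱.g.Dm X) → stp e.1 e.2 ∈ 𝒱.hull (𝒱.g.Dm X) →
    κ (stp e.1 e.2) - κ e.1 = tauE (𝒱.G.M / 2) e

open Classical in
/-- the ordinary activities of the unit sector, in the total field.  On supports which can coexist with the compulsory set: the engine in the sector `τ`;
on the other supports (they do not enter the identity) the translated copy, if the rectangle misses the source. -/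
def entKT (a b0 : ℝ) (𝒱 : Vol) : Act 𝒱.g := fun X z =>
  if 𝒱.g.Sep RR (entCs 𝒱) X then (vW a b0 𝒱 b0 (tauU 𝒱.c)).Kact a (vNest 𝒱) (vR 𝒱) X z
  else if h : ∃ κ, IsGauge 𝒱 X κ then entK0 a b0 𝒱 b0 X (z + toC fun x => 2 * Real.pi / Real.sqrt a * (h.choose x : ℝ))
  else 0

/-- **the construction** -/
def entData (a b0 : ℝ) : EntryData where
  K0 := entK0 a b0
  sc := entSc a b0
  KT := entKT a b0
  JT := entJT a b0
  Cst := entCst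

/-! ## C. Exit statements -/

/-- **POST TRANSPORT, exit 1: elementary properties of the activities** (no estimate; Bochner integrals, junk included). -/
def PropStmt : Prop :=
  ∀ (G : Geom) (c g : Grid G) (N : Nest c g) (R : ℕ) (a b0 : ℝ) (b : ℂ) (τ : Face c → ℤ), GeoOK c R → g.Ok → NestOK N R → 0 < a → 0 < b0 →
    -- the structural hypotheses
    (xyWt c a b0 b τ).Str ∧
    -- locality and period
    (∀ X z z', (∀ v ∈ g.sites X, z v = z' v) → (xyWt c a b0 b τ).Kact a N R X z = (xyWt c a b0 b τ).Kact a N R X z') ∧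
    (∀ X z, (xyWt c a b0 b τ).Kact a N R X (fun v => z v + ((2 * Real.pi / Real.sqrt a : ℝ) : ℂ)) = (xyWt c a b0 b τ).Kact a N R X z) ∧
    (∀ t0 Cs X z z', N.cl (cellsOf c R {t0}) ⊆ Cs → (∀ v ∈ g.sites X, z v = z' v) →
      (xyWt c a b0 b τ).Jact a N R t0 Cs X z = (xyWt c a b0 b τ).Jact a N R t0 Cs X z') ∧
    (∀ t0 Cs X z, (xyWt c a b0 b τ).Jact a N R t0 Cs X (fun v => z v + ((2 * Real.pi / Real.sqrt a : ℝ) : ℂ)) = (xyWt c a b0 b τ).Jact a N R t0 Cs X z) ∧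
    -- reality
    (b.im = 0 → Act.Real ((xyWt c a b0 b τ).Kact a N R) ∧ ∀ t0 Cs, Act.Real ((xyWt c a b0 b τ).Jact a N R t0 Cs)) ∧
    -- parity
    (τ = 0 → ∀ X z, (xyWt c a b0 b τ).Kact a N R X (-z) = (xyWt c a b0 b τ).Kact a N R X z) ∧
    -- holomorphy of the weights in the parameter
    (∀ T y, Differentiable ℂ fun b' => (xyWt c a b0 b' τ).Zh T y)

/-- **POST TRANSPORT, exit 2: covariance** under the symmetries of the blocks which preserve the cells (tori only). -/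
def SymStmt : Prop :=
  ∀ (G : Geom) (c g : Grid G) (N : Nest c g) (R : ℕ) (a b0 : ℝ) (b : ℂ) (h0 : ℝ≥0), G.bc = BC.per → GeoOK c R → g.Ok → NestOK N R → 0 < a → 0 < b0 →
    Act.Sym h0 c ((xyWt c a b0 b 0).Kact a N R)

/-- **POST TRANSPORT, exit 3: copies** between two volumes with the same `(s, m)`; padding `c0` blocks (`c0` absolute: range of `C_{<m}`). -/
def CopyStmt : Prop :=
  ∃ c0 : ℕ, ∀ (a b0 : ℝ) (h0 : ℝ≥0) (𝒱 𝒱' : Vol), 0 < a → 0 < b0 → 𝒱.s = 𝒱'.s → 𝒱.m = 𝒱'.m →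
    GeoOK 𝒱.c (vR 𝒱) → GeoOK 𝒱'.c (vR 𝒱') →
    (∀ (b : ℂ) (o o' : ℤ × ℤ), (𝒱.m : ℤ) ∣ o.1 → (𝒱.m : ℤ) ∣ o.2 → (𝒱.m : ℤ) ∣ o'.1 → (𝒱.m : ℤ) ∣ o'.2 →
      CopyAt h0 (c0 * 𝒱.m) 𝒱.g 𝒱'.g o o' (entK0 a b0 𝒱 b) (entK0 a b0 𝒱' b)) ∧
    (𝒱.G.bc = BC.free → 𝒱'.G.bc = BC.free → 2 * 𝒱.m ∣ 𝒱.G.M → 2 * 𝒱'.m ∣ 𝒱'.G.M →
      8 * (𝒱.s * vR 𝒱 ^ 5) ≤ 𝒱.G.M → 8 * (𝒱.s * vR 𝒱 ^ 5) ≤ 𝒱'.G.M →
      CopyAt h0 (c0 * 𝒱.m) 𝒱.g 𝒱'.g 𝒱.ctr 𝒱'.ctr (entKT a b0 𝒱) (entKT a b0 𝒱') ∧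
      CopyAt h0 (c0 * 𝒱.m) 𝒱.g 𝒱'.g 𝒱.ctr 𝒱'.ctr (entJT a b0 𝒱) (entJT a b0 𝒱'))

/-- **POST TRANSPORT, exit 4: gauge covariance** (ent:translated-copy): on a rectangle which misses the source the sector `τ` is the centred sector in a shifted field. -/
def GaugeStmt : Prop :=
  ∀ (a b0 : ℝ) (𝒱 : Vol), 0 < a → 0 < b0 → 𝒱.G.bc = BC.free → 2 * 𝒱.m ∣ 𝒱.G.M → GeoOK 𝒱.c (vR 𝒱) →
    ∀ (X : Finset 𝒱.g.I) (κ : 𝒱.G.V → ℤ), IsGauge 𝒱 X κ → ∀ z,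
      (vW a b0 𝒱 b0 (tauU 𝒱.c)).Kact a (vNest 𝒱) (vR 𝒱) X z = entK0 a b0 𝒱 b0 X (z + toC fun x => 2 * Real.pi / Real.sqrt a * (κ x : ℝ)) ∧
      -- two gauges differ by a constant on the rectangle
      ∀ κ' : 𝒱.G.V → ℤ, IsGauge 𝒱 X κ' → entK0 a b0 𝒱 b0 X (z + toC fun x => 2 * Real.pi / Real.sqrt a * (κ' x : ℝ))
        = entK0 a b0 𝒱 b0 X (z + toC fun x => 2 * Real.pi / Real.sqrt a * (κ x : ℝ))

/-- **POST GEO, exit: the compulsory set** of a marked square. -/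
def GeoUStmt : Prop :=
  ∀ 𝒱 : Vol, 𝒱.G.bc = BC.free → 2 * 𝒱.m ∣ 𝒱.G.M → GeoOK 𝒱.c (vR 𝒱) → NestOK (vNest 𝒱) (vR 𝒱) → 8 * (𝒱.s * vR 𝒱 ^ 5) ≤ 𝒱.G.M →
    entT0 𝒱 ∈ tiles 𝒱.c (vR 𝒱) ∧ cellsOf 𝒱.c (vR 𝒱) {entT0 𝒱} ⊆ zone 𝒱.c (2 * vR 𝒱 ^ 5) ∧
    zone 𝒱.c (2 * vR 𝒱 ^ 5) ⊆ under (vNest 𝒱) (entCs 𝒱) ∧ 𝒱.g.Conn RR (entCs 𝒱) ∧
    ((events 𝒱.c (vR 𝒱)).filter fun k => ¬ Disjoint (halC 𝒱.c (vR 𝒱) {k}) (zone 𝒱.c (2 * vR 𝒱 ^ 5))).card ≤ 3 * (4 * vR 𝒱 ^ 4 + 8) ^ 2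

/-- **POST UNIT, exit: the background** ([F] L4.2 `F4a.center_background` + uniqueness of the co-closed branch): energy of `η = ∇ v + 2π τ` under a set of blocks; and the smooth branch on a rectangle. -/
def EtaStmt : Prop :=
  ∃ Ce : ℝ, 0 ≤ Ce ∧ ∀ (𝒱 : Vol), 𝒱.G.bc = BC.free → 2 * 𝒱.m ∣ 𝒱.G.M → 0 < 𝒱.s → 0 < 𝒱.m →
    ∀ v : 𝒱.G.V → ℝ, (Top.full 𝒱.c).CoClosed ((Top.full 𝒱.c).eta (tauU 𝒱.c) v) →
      (∀ X : Finset 𝒱.g.I, etaSq (tauU 𝒱.c) v (under (vNest 𝒱) X) ≤ Ce * X.card + Ce * Real.log (2 + 𝒱.m)) ∧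
      (∀ X : Finset 𝒱.g.I, 𝒱.g.Sep 0 (({(0, 0), (-1, 0), (0, -1), (-1, -1)} : Finset (ℤ × ℤ)).image (𝒱.bemb 𝒱.ctr)) X →
        etaSq (tauU 𝒱.c) v (under (vNest 𝒱) X) ≤ Ce * X.card) ∧
      -- (helper185) the branch `v + 2π κ` itself can have energy `~ log m` on `D_m (X)`: it is replaced off the sites of `X` ([F] l.2466-2552, `λ_ext`)
      (∀ (X : Finset 𝒱.g.I) (κ : 𝒱.G.V → ℤ), IsGauge 𝒱 X κ → ∃ u : 𝒱.G.V → ℝ,
        (∀ x ∈ 𝒱.g.sites X, u x = v x + 2 * Real.pi * (κ x : ℝ)) ∧ bondE (𝒱.g.Dm X) u ≤ Ce * X.card ∧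
        ∀ a : ℝ, 0 < a → openE a 𝒱.c (𝒱.g.Dm X) (fun i => avg 𝒱.c u i) ≤ Ce / a * X.card)

/-- **POST CPLX, exit 3: the norms of the unit sector** (one weight, real parameter; zone `Z` under the compulsory set `Cs`; background `v`).
`lg` = the logarithmic part of the energy of the background. -/
def NormUStmt : Prop :=
  ∀ (a hs p1 cb h1 h2 : ℝ), 0 < a → 1 < p1 → p1 * hs < 1 → 0 < cb → cb < h1 → h1 < h2 → h2 < hs →
  ∀ (h0 : ℝ≥0) (A : ℝ), 1 ≤ A → ∀ (C cg Cl cl Ce : ℝ), 0 < cg → 0 < cl →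
  ∃ (C' c' : ℝ) (k1 : ℕ), 0 < c' ∧ ∀ kR ≥ k1, ∀ (nC : ℕ) (CR : ℝ), ∃ (CJ : ℝ) (nJ : ℕ), 0 ≤ CJ ∧
  ∀ (G : Geom) (c g : Grid G) (N : Nest c g), GeoOK c (2 ^ kR) → g.Ok → NestOK N (2 ^ kR) →
  ∀ (W : Wt c) (Z : Finset c.I) (Cs : Finset g.I) (t0 : Tile) (big big' lg : ℝ) (v : G.V → ℝ), W.Str → LinkOK W (2 ^ kR) Cl cl → 1 ≤ big → 0 ≤ lg →
    Phys W (2 ^ kR) Z a cb (thetaOf h1 h2) 0 (C * Real.exp (-cg * 2 ^ kR)) big →
    Phys W (2 ^ kR) Z a cb (thetaOf h1 h2) (5 * Real.sqrt a * h0) CR big' →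
    Z ⊆ under N Cs → Cs.card ≤ nC → t0 ∈ tiles c (2 ^ kR) → cellsOf c (2 ^ kR) {t0} ⊆ Z →
    (∀ X, etaSq W.τ v (under N X) ≤ Ce * X.card + lg) → (∀ X, g.Sep RR Cs X → etaSq W.τ v (under N X) ≤ Ce * X.card) →
    ∀ X : Finset g.I, X.Nonempty → ∀ (φ : G.V → ℝ) (f : G.V → ℂ), tnorm g X f < h0 →
      (g.Sep RR Cs X →
        ∑ π ∈ (items c (2 ^ kR)).powerset.filter (fun π => cover N (2 ^ kR) π = X),
            ‖W.EF a g.m (2 ^ kR) π (toC φ + toC (fun x => v x / Real.sqrt a) + f)‖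
          ≤ C' * Real.exp (-c' * 2 ^ kR) * (A ^ X.card)⁻¹ * Real.exp (Vobs a hs p1 c g (Cless G g.m) X φ)) ∧
      (∑ π ∈ (items c (2 ^ kR)).powerset.filter (fun π => Cs ∪ cover N (2 ^ kR) π = X),
            ‖eav a c g.m (W.pfacL (2 ^ kR) t0 π) (toC φ + toC (fun x => v x / Real.sqrt a) + f)‖
          ≤ CJ * big ^ nJ * Real.exp (CJ * lg) * (A ^ X.card)⁻¹ * Real.exp (Vobs a hs p1 c g (Cless G g.m) X φ))

/-- **POST CPLX, exit 4: regularity in the unit sector** (total field; no smallness is used). -/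
def HolUStmt : Prop :=
  ∀ (a hs p1 cb h1 h2 : ℝ), 0 < a → 1 < p1 → p1 * hs < 1 → 0 < cb → cb < h1 → h1 < h2 → h2 < hs →
  ∀ (h0 : ℝ≥0) (Cl cl : ℝ), 0 < cl → ∃ k1 : ℕ, ∀ kR ≥ k1,
  ∀ (G : Geom) (c g : Grid G) (N : Nest c g), GeoOK c (2 ^ kR) → g.Ok → NestOK N (2 ^ kR) →
  ∀ (W : Wt c) (Z : Finset c.I) (Cs : Finset g.I) (t0 : Tile) (rg big : ℝ), W.Str → LinkOK W (2 ^ kR) Cl cl →
    Phys W (2 ^ kR) Z a cb (thetaOf h1 h2) (5 * Real.sqrt a * h0) rg big → t0 ∈ tiles c (2 ^ kR) → N.cl (cellsOf c (2 ^ kR) {t0}) ⊆ Cs →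
  ∀ π ⊆ items c (2 ^ kR),
    Hol h0 g (cover N (2 ^ kR) π) (W.EF a g.m (2 ^ kR) π) ∧ Hol h0 g (Cs ∪ cover N (2 ^ kR) π) (eav a c g.m (W.pfacL (2 ^ kR) t0 π)) ∧
    ∀ ψ : G.V → ℝ, Itg a c g.m (W.pfac (2 ^ kR) π) (toC ψ) ∧ Itg a c g.m (W.pfacL (2 ^ kR) t0 π) (toC ψ)

end

end Claimed.Agent.R285.Ent
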