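import Claimed.Agent.R285.Ent.CxSum
import Claimed.Agent.R285.Ent.Vol

/-!
# ROW 285, post BP-ENT-CPLX, file `Ent/CxHol`: REGULARITY OF THE AVERAGED FACTORS            (owner helper161; chief helper140)
EXITS: `cx_hol : HolStmt` (`Ent/If.lean`), `cx_holU : HolUStmt` (`Ent/Vol.lean`);  both from `AvgStmt`, `CostStmt` (`Ent/Avg.lean`).   Prefix `cxh_`.   PAPER-FREE.
* s1: the parts of a weight which do not depend on the parameter (`τ`, `Q`, `N`): congruence lemmas;  `cx_pfac_par`: `b ↦ (W b).pfac R π y` is holomorphic.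
* s2: `cxh_phys_mono`: `Phys` is monotone in `|gm|`, `|big|` (the statements allow ANY real constants).
* s3: `cxh_bd_pfacL`: `Bd` of the labelled factor when the source tile need not meet the zone (`HolUStmt` has no such hypothesis).
* s4: assembly with the engine `cx_eng_hol`, `cx_eng_par`, `cx_eng_itg` (`Ent/CxEng.lean`).
-/

set_option autoImplicit false

namespace Claimed.Agent.R285.Ent

open scoped BigOperators ENNReal NNReal
open MeasureTheory ProbabilityTheory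
open Claimed.Agent.R285 Claimed.Agent.R285.RG Claimed.Agent.R285.F4a

noncomputable section

variable {G : Geom} {c g : Grid G}

/-! ## 1. What does not depend on the parameter -/

theorem cxh_w_congr {W W' : Wt c} (h1 : W.τ = W'.τ) (y : c.I → ℂ) (f : Face c) : W.w y f = W'.w y f := by
  unfold Wt.w
  rw [h1]

theorem cxh_En_congr {W W' : Wt c} (h1 : W.τ = W'.τ) (h2 : W.Q = W'.Q) (T : Top c) (y : c.I → ℂ) : W.En T y = W'.En T y := by
  unfold Wt.En Wt.w
  rw [h1, h2]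

theorem cxh_prox_congr {W W' : Wt c} (h1 : W.τ = W'.τ) (h2 : W.Q = W'.Q) (h3 : W.N = W'.N) (R : ℕ) (k : EvId) (y : c.I → ℂ) :
    W.prox R k y = W'.prox R k y := by
  unfold Wt.prox
  rw [cxh_En_congr h1 h2, cxh_En_congr h1 h2, h3]

theorem cxh_tdiv_congr {W W' : Wt c} (h1 : W.τ = W'.τ) (h2 : W.Q = W'.Q) (h3 : W.N = W'.N) (R : ℕ) (t : Tile) (y : c.I → ℂ) :
    W.tdiv R t y = W'.tdiv R t y := by
  unfold Wt.tdiv
  rw [cxh_En_congr h1 h2, h3]

theorem cxh_lkc_congr {W W' : Wt c} (h2 : W.Q = W'.Q) (R : ℕ) (l : Link c) : W.lkc R l = W'.lkc R l := by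
  unfold Wt.lkc Wt.Mbox
  rw [h2]

theorem cxh_lfac_congr {W W' : Wt c} (h1 : W.τ = W'.τ) (h2 : W.Q = W'.Q) (R : ℕ) (l : Link c) (y : c.I → ℂ) :
    W.lfac R l y = W'.lfac R l y := by
  unfold Wt.lfac
  rw [cxh_lkc_congr h2, cxh_w_congr h1, cxh_w_congr h1]

theorem cxh_link_congr {W W' : Wt c} (h2 : W.Q = W'.Q) {R : ℕ} {Cl cl : ℝ} (h : LinkOK W' R Cl cl) : LinkOK W R Cl cl := by
  intro l
  rw [cxh_lkc_congr h2]
  exact h l

theorem cxh_link_mono {W : Wt c} {R : ℕ} {Cl Cl' cl : ℝ} (hC : Cl ≤ Cl') (h : LinkOK W R Cl cl) : LinkOK W R Cl' cl :=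
  fun l => (h l).trans (mul_le_mul_of_nonneg_right hC (Real.exp_pos _).le)

theorem cxh_WI_congr {W W' : Wt c} (h2 : W.Q = W'.Q) (R : ℕ) (Z : Finset c.I) (CF θ H gm big : ℝ) (I : Item c) :
    cxWI W R Z CF θ H gm big I = cxWI W' R Z CF θ H gm big I := by
  rcases I with k | t | l
  · rfl
  · rfl
  · simp only [cxWI, cxWl, cxh_lkc_congr h2]

/-- **the factor of a pattern is holomorphic in the parameter** -/
theorem cx_pfac_par {W : ℂ → Wt c} {U : Set ℂ} (W0 : Wt c) (hτ : ∀ b, (W b).τ = W0.τ) (hQ : ∀ b, (W b).Q = W0.Q)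
    (hN : ∀ b, (W b).N = W0.N) (hol : ∀ T y, DifferentiableOn ℂ (fun b => (W b).Zh T y) U) (R : ℕ) (π : Finset (Item c))
    (y : c.I → ℂ) : DifferentiableOn ℂ (fun b => (W b).pfac R π y) U := by
  classical
  by_cases hp : PatOk c R π
  swap
  · simp only [Wt.pfac, if_neg hp]
    exact differentiableOn_const _
  simp only [Wt.pfac, if_pos hp]
  have hhalo : DifferentiableOn ℂ (fun b => (W b).halo R (pS π) y) U := by
    unfold Wt.halo
    refine DifferentiableOn.fun_sum fun O _ => DifferentiableOn.const_mul ?_ _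
    have e : (fun b => (W b).haloTerm R (pS π) O y) = fun b => (W b).Zh (halTop c R (pS π) O) y /
        ((∏ k ∈ skp c R (pS π) ∪ O, W0.prox R k y) * ∏ t ∈ halT c R (pS π), W0.tdiv R t y) := by
      funext b
      unfold Wt.haloTerm
      simp only [cxh_prox_congr (hτ b) (hQ b) (hN b), cxh_tdiv_congr (hτ b) (hQ b) (hN b)]
    rw [e]
    exact (hol _ _).div_const _
  have htile : DifferentiableOn ℂ (fun b => ∏ t ∈ pQ π, ((W b).tfac R t y - 1)) U := by
    refine DifferentiableOn.fun_finsetProd fun t _ => DifferentiableOn.sub_const ?_ _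
    have e : (fun b => (W b).tfac R t y) = fun b => (W b).Zh (tileTop c R t) y / W0.tdiv R t y := by
      funext b
      unfold Wt.tfac
      rw [cxh_tdiv_congr (hτ b) (hQ b) (hN b)]
    rw [e]
    exact (hol _ _).div_const _
  have hlink : DifferentiableOn ℂ (fun b => ∏ l ∈ pL π, (W b).lfac R l y) U := by
    simp only [fun b => cxh_lfac_congr (hτ b) (hQ b) R]
    exact differentiableOn_const _
  exact (hhalo.mul htile).mul hlink

/-! ## 2. `Phys` is monotone -/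

theorem cxh_phys_mono (hC : CostStmt) {W : Wt c} {R : ℕ} {Z : Finset c.I} {a cb θ H gm big gm' big' : ℝ} (hθ : 0 ≤ θ)
    (h1 : |gm| ≤ gm') (h2 : |big| ≤ big') (hP : Phys W R Z a cb θ H gm big) : Phys W R Z a cb θ H gm' big' := by
  classical
  have mono := (hC G c a W.τ R H θ hθ).2.1
  refine ⟨fun S hS => ?_, fun t ht hd => ?_, fun t ht hd => ?_⟩
  · refine mono _ _ _ _ _ _ _ (Finset.Subset.refl _) le_rfl ?_ (hP.halo S hS)
    have hp : ∀ n : ℕ, |gm ^ n| ≤ gm' ^ n := fun n => by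
      rw [abs_pow]
      exact pow_le_pow_left₀ (abs_nonneg _) h1 n
    split_ifs
    · rw [mul_one, mul_one]
      exact (le_abs_self _).trans (hp _)
    · refine (le_abs_self _).trans ?_
      rw [abs_mul]
      exact mul_le_mul (hp _) h2 (abs_nonneg _) ((abs_nonneg _).trans (hp _))
  · exact mono _ _ _ _ _ _ _ (Finset.Subset.refl _) le_rfl ((le_abs_self _).trans h1) (hP.tile t ht hd)
  · exact mono _ _ _ _ _ _ _ (Finset.Subset.refl _) le_rfl ((le_abs_self _).trans h2) (hP.tileZ t ht hd)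

/-- the factor of ANY tile is bounded -/
theorem cxh_bd_tfac (hC : CostStmt) {W : Wt c} {R : ℕ} {Z : Finset c.I} {a cb θ H gm big : ℝ} (hθ : 0 ≤ θ) (hcb : 0 ≤ cb)
    (hgm : 0 ≤ gm) (hbig : 0 ≤ big) (hP : Phys W R Z a cb θ H gm big) (t : Tile) (ht : t ∈ tiles c R) :
    Bd a W.τ R H θ (cellsOf c R {t}) cb (W.tfac R t) (big + gm + 1) := by
  classical
  have mono := (hC G c a W.τ R H θ hθ).2.1
  by_cases hd : Disjoint (cellsOf c R {t}) Z
  · have h1 := (hC G c a W.τ R H θ hθ).2.2.1 _ _ _ _ _ _ (hP.tile t ht hd) ((hC G c a W.τ R H θ hθ).1 (cellsOf c R {t}) cb 1 hcb)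
    simp only [sub_add_cancel, norm_one] at h1
    exact mono _ _ _ _ _ _ _ (Finset.Subset.refl _) le_rfl (by linarith) h1
  · exact mono _ _ _ _ _ _ _ (Finset.Subset.refl _) le_rfl (by linarith) (hP.tileZ t ht hd)

/-! ## 3. The labelled factor, source tile anywhere -/

/-- `cx_bd_pfacL` with the bound of the source tile as a hypothesis -/
theorem cxh_bd_pfacL (hC : CostStmt) {a CF cb θ H hl gm big big0 : ℝ} (hCF : FaceCF a CF) (hCF0 : 0 ≤ CF) (hθ : 0 ≤ θ) (hcb : 0 ≤ cb)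
    (hc : Whole c) {W : Wt c} (hW : W.Str) {R : ℕ} (hLk : CxLk W R CF hl) {Z : Finset c.I} (hP : Phys W R Z a cb θ H gm big)
    (hgm : 0 ≤ gm) (hbig : 1 ≤ big) (t0 : Tile) (hbig0 : 1 ≤ big0) (h0 : Bd a W.τ R H θ (cellsOf c R {t0}) cb (W.tfac R t0) big0)
    (π : Finset (Item c)) (hπ : π ⊆ items c R) :
    Bd a W.τ R H θ (cellsOf c R {t0} ∪ pcells c R π) (cb + hl) (W.pfacL R t0 π) (big0 * ∏ I ∈ π, cxWI W R Z CF θ H gm big I) := by
  classical
  have hl0 := cx_hl_nonneg hc hLk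
  have hprod : 0 ≤ ∏ I ∈ π, cxWI W R Z CF θ H gm big I := Finset.prod_nonneg fun I _ => cxWI_nonneg W R Z CF θ H hgm hbig I
  have hw0 : 0 ≤ big0 * ∏ I ∈ π, cxWI W R Z CF θ H gm big I := mul_nonneg (by linarith) hprod
  by_cases h1 : t0 ∈ pQ π
  · have e : W.pfacL R t0 π = fun _ => 0 := by
      funext y
      unfold Wt.pfacL
      rw [if_pos h1]
    rw [e]
    exact cx_bd_zero hC hθ (add_nonneg hcb hl0) hw0 W.τ R _
  by_cases h2 : t0 ∈ halT c R (pS π)
  · have e : W.pfacL R t0 π = W.pfac R π := by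
      funext y
      unfold Wt.pfacL
      rw [if_neg h1, if_pos h2]
    rw [e]
    exact (hC G c a W.τ R H θ hθ).2.1 _ _ _ _ _ _ _ Finset.subset_union_right le_rfl (le_mul_of_one_le_left hprod hbig0)
      (cx_bd_pfac hC hCF hCF0 hθ hcb hc hW hLk hP hgm hbig π hπ)
  by_cases hp : PatOk c R π
  swap
  · have e : W.pfacL R t0 π = fun _ => 0 := by
      funext y
      unfold Wt.pfacL Wt.pfac
      rw [if_neg h1, if_neg h2, if_neg hp, zero_mul]
    rw [e]
    exact cx_bd_zero hC hθ (add_nonneg hcb hl0) hw0 W.τ R _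
  have e : W.pfacL R t0 π = fun y => W.halo R (pS π) y *
      (∏ t ∈ insert t0 (pQ π), (if t = t0 then W.tfac R t0 else fun y => W.tfac R t y - 1) y) * ∏ l ∈ pL π, W.lfac R l y := by
    funext y
    unfold Wt.pfacL Wt.pfac
    have e1 : ∏ t ∈ pQ π, (if t = t0 then W.tfac R t0 else fun y => W.tfac R t y - 1) y = ∏ t ∈ pQ π, (W.tfac R t y - 1) :=
      Finset.prod_congr rfl fun t ht => by rw [if_neg (fun h : t = t0 => h1 (h ▸ ht))]
    rw [if_neg h1, if_neg h2, if_pos hp, Finset.prod_insert h1, if_pos rfl, e1]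
    ring
  have ew : big0 * ∏ I ∈ π, cxWI W R Z CF θ H gm big I = (∏ k ∈ pS π, cxWI W R Z CF θ H gm big (Sum.inl k)) *
      (∏ t ∈ insert t0 (pQ π), if t = t0 then big0 else cxWI W R Z CF θ H gm big (Sum.inr (Sum.inl t))) *
      ∏ l ∈ pL π, cxWl W R CF θ H l := by
    have e1 : ∏ t ∈ pQ π, (if t = t0 then big0 else cxWI W R Z CF θ H gm big (Sum.inr (Sum.inl t)))
        = ∏ t ∈ pQ π, cxWI W R Z CF θ H gm big (Sum.inr (Sum.inl t)) :=
      Finset.prod_congr rfl fun t ht => by rw [if_neg (fun h : t = t0 => h1 (h ▸ ht))]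
    have e2 : ∏ l ∈ pL π, cxWI W R Z CF θ H gm big (Sum.inr (Sum.inr l)) = ∏ l ∈ pL π, cxWl W R CF θ H l := rfl
    rw [cx_prod_items, Finset.prod_insert h1, if_pos rfl, e1, e2]
    ring
  rw [e, ew]
  have hdis : Disjoint (insert t0 (pQ π)) (halT c R (pS π)) := by
    rw [Finset.disjoint_insert_left]
    exact ⟨h2, hp.2⟩
  have h := cx_bd_pat hC hCF hCF0 hθ hcb hc hW hLk (pS π) _ (cx_bd_halo1 (CF := CF) hC hθ hP hgm hbig (pS π) hp.1) (insert t0 (pQ π)) hdis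
    (fun t => if t = t0 then W.tfac R t0 else fun y => W.tfac R t y - 1)
    (fun t => if t = t0 then big0 else cxWI W R Z CF θ H gm big (Sum.inr (Sum.inl t)))
    (fun t ht => by
      by_cases htt : t = t0
      · subst htt
        simpa only [if_true] using h0
      · simp only [if_neg htt]
        exact cx_bd_tile1 hC hθ hcb hP t (pQ_subset hπ ((Finset.mem_insert.1 ht).resolve_left htt))) (pL π)
  refine (hC G c a W.τ R H θ hθ).2.1 _ _ _ _ _ _ _ ?_ le_rfl le_rfl h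
  refine Finset.union_subset (Finset.union_subset ((halC_subset_pcells R π).trans Finset.subset_union_right) ?_) ?_
  · rw [Finset.insert_eq, cellsOf_union]
    exact Finset.union_subset_union_right (cellsOf_pQ_subset_pcells R π)
  · exact Finset.biUnion_subset.2 fun l hl => (lcells_subset_pcells hl).trans Finset.subset_union_right

theorem cxh_fn_pfacL (hC : CostStmt) {a CF cb θ H hl h1 gm big big0 : ℝ} (hCF : FaceCF a CF) (hCF0 : 0 ≤ CF) (hθ : 0 ≤ θ) (hcb : 0 ≤ cb)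
    (hh : cb + hl ≤ h1) (hc : Whole c) {W : Wt c} (hW : W.Str) {R : ℕ} (hgeo : PatchIn c R) (hLk : CxLk W R CF hl) {Z : Finset c.I}
    (hP : Phys W R Z a cb θ H gm big) (hgm : 0 ≤ gm) (hbig : 1 ≤ big) (N : Nest c g) (t0 : Tile) (hbig0 : 1 ≤ big0)
    (h0 : Bd a W.τ R H θ (cellsOf c R {t0}) cb (W.tfac R t0) big0) (Cs : Finset g.I) (hCs : N.cl (cellsOf c R {t0}) ⊆ Cs)
    (π : Finset (Item c)) (hπ : π ⊆ items c R) :
    CxFn a N R W.τ θ h1 H (Cs ∪ cover N R π) (W.pfacL R t0 π) (big0 * ∏ I ∈ π, cxWI W R Z CF θ H gm big I) := by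
  have hsub : cellsOf c R {t0} ∪ pcells c R π ⊆ under N (Cs ∪ cover N R π) := by
    refine Finset.union_subset (fun i hi => ?_) ((cx_pcells_under N R π).trans (cx_under_mono N Finset.subset_union_right))
    rw [cx_mem_under]
    exact Finset.mem_union_left _ (hCs (Finset.mem_image_of_mem _ hi))
  refine ⟨pfacL_hol hW R t0 π, fun y y' h => pfacL_loc hW hgeo t0 π fun i hi => h i (hsub hi), ?_⟩
  exact (hC G c a W.τ R H θ hθ).2.1 _ _ _ _ _ _ _ hsub hh le_rfl
    (cxh_bd_pfacL hC hCF hCF0 hθ hcb hc hW hLk hP hgm hbig t0 hbig0 h0 π hπ)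

/-! ## 4. Assembly -/

theorem cxh_theta_nonneg {hs p1 h1 h2 : ℝ} (hp1 : 1 < p1) (hm : p1 * hs < 1) (h10 : 0 < h1) (h12 : h1 < h2) (h2s : h2 < hs) :
    0 ≤ thetaOf h1 h2 := by
  have hs1 : hs < 1 := by nlinarith
  unfold thetaOf
  have : 0 < 1 - h2 := by linarith
  have : 0 < h2 := by linarith
  positivity

theorem cxh_strip_toC (h0 : ℝ≥0) (X : Finset g.I) (ψ : G.V → ℝ) : tnorm g X (fun v => (toC ψ v).im) ≤ h0 := by
  have e : (fun v => (toC ψ v).im) = (0 : G.V → ℝ) := by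
    ext v
    simp [toC]
  rw [e, Hol.tnorm_zero]
  exact zero_le

/-- **POST CPLX, exit 2** -/
theorem cx_hol (hA : AvgStmt) (hC : CostStmt) : HolStmt := by
  intro a hs p1 cb h1 h2 ha hp1 hm hcb hcb1 h12 h2s h0 Cl cl hcl
  have h10 : 0 < h1 := hcb.trans hcb1
  have hθ := cxh_theta_nonneg hp1 hm h10 h12 h2s
  obtain ⟨Ct, hCt, hL⟩ := cx_lintOK hA a hs p1 h1 h2 ha hp1 hm h10 h12 h2s
  obtain ⟨CF, hCF0, hCF⟩ := cx_faceCF a ha
  obtain ⟨k1, hk1⟩ := cx_lk CF (max Cl 0) cl (h1 - cb) hCF0.le (le_max_right _ _) hcl (by linarith) 24000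
  refine ⟨k1, fun kR hkR G c g N hgeo hg hN b0 r gm CR W hr hW π hπ => ?_⟩
  have hV := cx_vol hgeo hg hN
  have hG := cx_geo hgeo hg hN
  have hfn : ∀ b ∈ Metric.ball (b0 : ℂ) r, CxFn a N (2 ^ kR) 0 (thetaOf h1 h2) h1 (5 * Real.sqrt a * h0) (cover N (2 ^ kR) π)
      ((W b).pfac (2 ^ kR) π) (∏ I ∈ π, cxWI (W b0) (2 ^ kR) ∅ CF (thetaOf h1 h2) (5 * Real.sqrt a * h0) |CR| 1 I) := by
    intro b hb
    have hLk := hk1 kR hkR G c g N hG (W b) (hW.str b hb) (cxh_link_mono (le_max_left _ _) (cxh_link_congr (hW.Qc b) hW.link))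
    have h := cx_fn_pfac hC hCF hCF0.le hθ hcb.le (by linarith : cb + (h1 - cb) ≤ h1) hgeo.whole (hW.str b hb) hG.patch hLk
      (cxh_phys_mono hC hθ le_rfl (by rw [abs_one]) (hW.cplx b hb)) (abs_nonneg CR) le_rfl N π hπ
    rw [hW.tau b] at h
    simpa only [cxh_WI_congr (hW.Qc b)] using h
  refine ⟨fun b hb => cx_eng_hol ha hCt hL hV (hfn b hb), fun z hz => ?_, fun b hb z hz => cx_eng_itg ha hCt hL hV (hfn b hb) z hz⟩
  exact cx_eng_par ha hCt hL hV (Metric.ball (b0 : ℂ) r) Metric.isOpen_ball (fun b => (W b).pfac (2 ^ kR) π) hfn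
    (fun y => cx_pfac_par (W b0) (fun b => (hW.tau b).trans (hW.tau b0).symm) hW.Qc hW.Nc hW.hol (2 ^ kR) π y) z (le_of_lt hz)

/-- **POST CPLX, exit 4** -/
theorem cx_holU (hA : AvgStmt) (hC : CostStmt) : HolUStmt := by
  intro a hs p1 cb h1 h2 ha hp1 hm hcb hcb1 h12 h2s h0 Cl cl hcl
  have h10 : 0 < h1 := hcb.trans hcb1
  have hθ := cxh_theta_nonneg hp1 hm h10 h12 h2s
  obtain ⟨Ct, hCt, hL⟩ := cx_lintOK hA a hs p1 h1 h2 ha hp1 hm h10 h12 h2s
  obtain ⟨CF, hCF0, hCF⟩ := cx_faceCF a ha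
  obtain ⟨k1, hk1⟩ := cx_lk CF (max Cl 0) cl (h1 - cb) hCF0.le (le_max_right _ _) hcl (by linarith) 24000
  refine ⟨k1, fun kR hkR G c g N hgeo hg hN W Z Cs t0 rg big hW hlink hP ht0 hCs π hπ => ?_⟩
  have hV := cx_vol hgeo hg hN
  have hG := cx_geo hgeo hg hN
  have hLk := hk1 kR hkR G c g N hG W hW (cxh_link_mono (le_max_left _ _) hlink)
  have hP' : Phys W (2 ^ kR) Z a cb (thetaOf h1 h2) (5 * Real.sqrt a * h0) |rg| (max |big| 1) :=
    cxh_phys_mono hC hθ le_rfl (le_max_left _ _) hP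
  have hb1 : (1 : ℝ) ≤ max |big| 1 := le_max_right _ _
  have hfn := cx_fn_pfac hC hCF hCF0.le hθ hcb.le (by linarith : cb + (h1 - cb) ≤ h1) hgeo.whole hW hG.patch hLk hP' (abs_nonneg rg) hb1 N π hπ
  have hfnL := cxh_fn_pfacL hC hCF hCF0.le hθ hcb.le (by linarith : cb + (h1 - cb) ≤ h1) hgeo.whole hW hG.patch hLk hP' (abs_nonneg rg) hb1 N t0
    (by have := abs_nonneg rg; linarith : (1 : ℝ) ≤ max |big| 1 + |rg| + 1)
    (cxh_bd_tfac hC hθ hcb.le (abs_nonneg rg) (by linarith) hP' t0 ht0) Cs hCs π hπ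
  exact ⟨cx_eng_hol ha hCt hL hV hfn, cx_eng_hol ha hCt hL hV hfnL, fun ψ =>
    ⟨cx_eng_itg ha hCt hL hV hfn _ (cxh_strip_toC h0 _ ψ), cx_eng_itg ha hCt hL hV hfnL _ (cxh_strip_toC h0 _ ψ)⟩⟩

/-- the exits, with the exits of post AVG -/
theorem cx_hol_main : HolStmt := cx_hol av_avg av_cost

theorem cx_holU_main : HolUStmt := cx_holU av_avg av_cost

end

end Claimed.Agent.R285.Ent
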