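import Claimed.Agent.R285.Ent.CxSum
import Claimed.Agent.R285.Ent.Vol

/-!
# ROW 285, post BP-ENT-CPLX, file `Ent/CxNorm`: THE EXITS `NormStmt`, `NormUStmt`            (owner helper15; plan of constants: helper140 + helper15)
PAPER-FREE.  Nothing is sorried in this file; it rests on the leaves of `Ent/CxEng` (`cx_eng_bound`), `Ent/CxBd`, `Ent/CxSum`.
* s0 small lemmas: `cxn_phys_mono` (`Phys` is monotone in `|gm|`, `|big|`), `cxn_phys_H0`, `cxn_link_mono`, congruences in `W.Q` (`cxn_lkc_congr`, `cxn_WI_congr`, `cxn_Lk_congr`),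
  `cxn_pfac_par` (`b ↦ (W b).pfac R π y` is holomorphic), `cxn_etaSq_zero`, `cxn_openE_zero`.
* s1 one pattern, one weight: `cxn_pat`, `cxn_patL` (`cx_fn_pfac(L)` + `cx_eng_bound`).
* s2 one pattern, a holomorphic family: `cxn_pat_cplx` (two constants; per item `gp^{1-θ} CRp^θ ≤ 2 √gp`).
* s3 sums with the reserve `A4^{-|X|}`: `cxn_sum_eq`, `cxn_sum_zone`.      * s4 numerics `cxA4`, `cxn_eta_le`.
* s5 `cx_norm : NormStmt`.      * s6 `cx_normU`.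
-/

set_option autoImplicit false

namespace Claimed.Agent.R285.Ent

open scoped BigOperators ENNReal NNReal
open MeasureTheory ProbabilityTheory
open Claimed.Agent.R285 Claimed.Agent.R285.RG Claimed.Agent.R285.F4a Claimed.Agent.R285.Hol

noncomputable section

variable {G : Geom} {c g : Grid G}

/-! ## 0. Small lemmas -/

theorem cxn_theta_pos {hs p1 h1 h2 : ℝ} (hp1 : 1 < p1) (hm : p1 * hs < 1) (h10 : 0 < h1) (h12 : h1 < h2) (h2s : h2 < hs) :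
    0 < thetaOf h1 h2 := by
  have hs0 : 0 < hs := by linarith
  have hs1 : hs < 1 := by nlinarith
  unfold thetaOf
  have : 0 < 1 - h2 := by linarith
  have h20 : 0 < h2 := by linarith
  positivity

/-- monotonicity of the physical input in its two constants -/
theorem cxn_phys_mono (hC : CostStmt) {W : Wt c} {R : ℕ} {Z : Finset c.I} {a cb θ H gm big gm' big' : ℝ} (hθ : 0 ≤ θ)
    (h : Phys W R Z a cb θ H gm big) (hg : |gm| ≤ gm') (hb : |big| ≤ big') : Phys W R Z a cb θ H gm' big' := by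
  classical
  have mono := (hC G c a W.τ R H θ hθ).2.1
  refine ⟨fun S hS => ?_, fun t ht hd => ?_, fun t ht hd => ?_⟩
  · refine mono _ _ _ _ _ _ _ (Finset.Subset.refl _) le_rfl ?_ (h.halo S hS)
    have h1 : ∀ n : ℕ, |gm ^ n| ≤ gm' ^ n := fun n => by
      rw [abs_pow]
      exact pow_le_pow_left₀ (abs_nonneg _) hg n
    have h2 : |if Disjoint (halC c R S) Z then (1 : ℝ) else big| ≤ if Disjoint (halC c R S) Z then 1 else big' := by
      split_ifs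
      · simp
      · exact hb
    calc _ ≤ |gm ^ (S.filter fun k => Disjoint (halC c R {k}) Z).card * if Disjoint (halC c R S) Z then (1 : ℝ) else big| :=
          le_abs_self _
      _ = |gm ^ (S.filter fun k => Disjoint (halC c R {k}) Z).card| * |if Disjoint (halC c R S) Z then (1 : ℝ) else big| :=
          abs_mul _ _
      _ ≤ _ := mul_le_mul (h1 _) h2 (abs_nonneg _) ((abs_nonneg _).trans (h1 _))
  · exact mono _ _ _ _ _ _ _ (Finset.Subset.refl _) le_rfl ((le_abs_self _).trans hg) (h.tile t ht hd)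
  · exact mono _ _ _ _ _ _ _ (Finset.Subset.refl _) le_rfl ((le_abs_self _).trans hb) (h.tileZ t ht hd)

theorem cxn_link_mono {W : Wt c} {R : ℕ} {Cl cl : ℝ} (h : LinkOK W R Cl cl) : LinkOK W R (max Cl 0) cl := fun l =>
  (h l).trans (mul_le_mul_of_nonneg_right (le_max_left _ _) (Real.exp_pos _).le)

/-- the link coefficients only see the matrices `Q` -/
theorem cxn_lkc_congr {W W' : Wt c} (h : W.Q = W'.Q) (R : ℕ) (l : Link c) : W.lkc R l = W'.lkc R l := by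
  unfold Wt.lkc Wt.Mbox
  rw [h]

theorem cxn_WI_congr {W W' : Wt c} (h : W.Q = W'.Q) (R : ℕ) (Z : Finset c.I) (CF θ H gm big : ℝ) (I : Item c) :
    cxWI W R Z CF θ H gm big I = cxWI W' R Z CF θ H gm big I := by
  rcases I with k | t | l
  · rfl
  · rfl
  · simp only [cxWI, cxWl, cxn_lkc_congr h]

theorem cxn_Lk_congr {W W' : Wt c} (h : W.Q = W'.Q) {R : ℕ} {CF hl : ℝ} (hL : CxLk W R CF hl) : CxLk W' R CF hl := by
  refine ⟨fun l => ?_, fun L i => ?_⟩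
  · rw [← cxn_lkc_congr h]
    exact hL.le_one l
  · have := hL.load L i
    simpa only [cxLd, cxn_lkc_congr h] using this

theorem cxn_etaSq_zero (D : Finset c.I) : etaSq (0 : Face c → ℤ) (0 : G.V → ℝ) D = 0 := by
  unfold etaSq
  refine Finset.sum_eq_zero fun e _ => ?_
  simp [Top.eta, Top.econn]

theorem cxn_openE_zero (a : ℝ) (ha : 0 < a) (c : Grid G) (D : Finset G.V) :
    openE a c D (fun i => avg c (fun x => Real.sqrt a * (0 : G.V → ℝ) x) i) ≤ 0 := by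
  refine (Avg.openE_le_bondE a ha c D 0).trans (le_of_eq ?_)
  simp [bondE, dif, Geom.lift]

theorem cxn_toC_zero : toC (0 : G.V → ℝ) = 0 := by
  funext v
  simp [toC]

theorem cxn_toC_zero_div (a : ℝ) : toC (fun x => (0 : G.V → ℝ) x / Real.sqrt a) = 0 := by
  funext v
  simp [toC]

/-- the factor of a pattern is holomorphic in the parameter -/
theorem cxn_pfac_par {W : ℂ → Wt c} {U : Set ℂ} (b0 : ℂ) (hτ : ∀ b, (W b).τ = (W b0).τ) (hQ : ∀ b, (W b).Q = (W b0).Q)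
    (hN : ∀ b, (W b).N = (W b0).N) (hol : ∀ T y, DifferentiableOn ℂ (fun b => (W b).Zh T y) U) (R : ℕ) (π : Finset (Item c))
    (y : c.I → ℂ) : DifferentiableOn ℂ (fun b => (W b).pfac R π y) U := by
  classical
  have eEn : ∀ b T, (W b).En T y = (W b0).En T y := fun b T => by
    unfold Wt.En Wt.w
    rw [hQ, hτ]
  have eprox : ∀ b k, (W b).prox R k y = (W b0).prox R k y := fun b k => by
    unfold Wt.prox
    rw [eEn b (topO c R k), eEn b (topC c R k), hN]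
  have etdiv : ∀ b t, (W b).tdiv R t y = (W b0).tdiv R t y := fun b t => by
    unfold Wt.tdiv
    rw [eEn, hN]
  have elfac : ∀ b l, (W b).lfac R l y = (W b0).lfac R l y := fun b l => by
    unfold Wt.lfac Wt.w
    rw [cxn_lkc_congr (hQ b), hτ]
  unfold Wt.pfac
  by_cases hp : PatOk c R π
  · simp only [if_pos hp]
    refine DifferentiableOn.mul (DifferentiableOn.mul ?_ ?_) ?_
    · unfold Wt.halo
      refine DifferentiableOn.fun_sum fun O _ => DifferentiableOn.const_mul ?_ _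
      unfold Wt.haloTerm
      simp only [eprox, etdiv]
      exact (hol _ y).div_const _
    · refine DifferentiableOn.fun_finsetProd fun t _ => DifferentiableOn.sub_const ?_ _
      unfold Wt.tfac
      simp only [etdiv]
      exact (hol _ y).div_const _
    · simp only [elfac]
      exact differentiableOn_const _
  · simp only [if_neg hp]
    exact differentiableOn_const _

theorem cxn_phys_H0 {W : Wt c} {R : ℕ} {Z : Finset c.I} {a cb θ H gm big : ℝ} (hH : 0 ≤ H) (h : Phys W R Z a cb θ H gm big) :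
    Phys W R Z a cb θ 0 gm big :=
  ⟨fun S hS => cx_bd_H0 hH (h.halo S hS), fun t ht hd => cx_bd_H0 hH (h.tile t ht hd), fun t ht hd => cx_bd_H0 hH (h.tileZ t ht hd)⟩

/-! ## 1. One pattern, one weight -/

/-- the constants which are fixed before the volume -/
structure CxCtx (a hs p1 cb h1 h2 Ct CF : ℝ) : Prop where
  ha : 0 < a
  hCt : 0 ≤ Ct
  hL : LintOK a hs p1 h1 h2 Ct
  hCF : FaceCF a CF
  hCF0 : 0 ≤ CF
  hθ : 0 ≤ thetaOf h1 h2
  hcb : 0 ≤ cb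

/-- the exponential factor of a support -/
def cxE (a hs p1 Ct : ℝ) (c g : Grid G) (h0 : ℝ≥0) (X : Finset g.I) (φ lam : G.V → ℝ) (e : ℝ) : ℝ :=
  Real.exp (cxKd Ct * (h0 : ℝ) ^ 2 * X.card) * Real.exp (Vobs a hs p1 c g (Cless G g.m) X φ
    + 2 * Ct * openE a c (g.Dm X) (fun i => avg c (fun x => Real.sqrt a * lam x) i) + Ct * e)

theorem cxE_pos (a hs p1 Ct : ℝ) (c g : Grid G) (h0 : ℝ≥0) (X : Finset g.I) (φ lam : G.V → ℝ) (e : ℝ) :
    0 < cxE a hs p1 Ct c g h0 X φ lam e := mul_pos (Real.exp_pos _) (Real.exp_pos _)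

/-- **one pattern**: the real estimate `hP0` gives the size, the crude estimate `hP1` is only used qualitatively -/
theorem cxn_pat (hC : CostStmt) {a hs p1 cb h1 h2 Ct CF : ℝ} (K : CxCtx a hs p1 cb h1 h2 Ct CF) {N : Nest c g} {R : ℕ}
    (hV : CxVol N R) (hgeo : PatchIn c R) {W : Wt c} (hW : W.Str) (hLk : CxLk W R CF (h1 - cb)) {Z : Finset c.I} {h0 : ℝ≥0}
    {gm big CR big' : ℝ} (hP0 : Phys W R Z a cb (thetaOf h1 h2) 0 gm big)
    (hP1 : Phys W R Z a cb (thetaOf h1 h2) (5 * Real.sqrt a * h0) CR big') (hgm : 0 ≤ gm) (hbig : 1 ≤ big)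
    (π : Finset (Item c)) (hπ : π ⊆ items c R) (φ lam v : G.V → ℝ) (f : G.V → ℂ) (hf : tnorm g (cover N R π) f < h0) :
    ‖W.EF a g.m R π (toC φ + toC lam + toC (fun x => v x / Real.sqrt a) + f)‖
      ≤ (∏ I ∈ π, cxWI W R Z CF (thetaOf h1 h2) 0 gm big I)
        * cxE a hs p1 Ct c g h0 (cover N R π) φ lam (etaSq W.τ v (under N (cover N R π))) := by
  have hP1' := cxn_phys_mono hC K.hθ hP1 (le_refl |CR|) (le_max_left |big'| 1)
  have hF := cx_fn_pfac hC K.hCF K.hCF0 K.hθ K.hcb (by linarith : cb + (h1 - cb) ≤ h1) hV.whole hW hgeo hLk hP1' (abs_nonneg _)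
    (le_max_right _ _) N π hπ
  have hF0 := cx_fn_pfac hC K.hCF K.hCF0 K.hθ K.hcb (by linarith : cb + (h1 - cb) ≤ h1) hV.whole hW hgeo hLk hP0 hgm hbig N π hπ
  have := cx_eng_bound K.ha K.hCt K.hL hV hF hF0.bd φ lam v f hf
  unfold cxE
  rw [← mul_assoc]
  exact this

/-- **one labelled pattern** -/
theorem cxn_patL (hC : CostStmt) {a hs p1 cb h1 h2 Ct CF : ℝ} (K : CxCtx a hs p1 cb h1 h2 Ct CF) {N : Nest c g} {R : ℕ}
    (hV : CxVol N R) (hgeo : PatchIn c R) {W : Wt c} (hW : W.Str) (hLk : CxLk W R CF (h1 - cb)) {Z : Finset c.I} {h0 : ℝ≥0}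
    {gm big CR big' : ℝ} (hP0 : Phys W R Z a cb (thetaOf h1 h2) 0 gm big)
    (hP1 : Phys W R Z a cb (thetaOf h1 h2) (5 * Real.sqrt a * h0) CR big') (hgm : 0 ≤ gm) (hbig : 1 ≤ big)
    (t0 : Tile) (ht0 : t0 ∈ tiles c R) (hZ0 : ¬ Disjoint (cellsOf c R {t0}) Z) (Cs : Finset g.I) (hCs : N.cl (cellsOf c R {t0}) ⊆ Cs)
    (π : Finset (Item c)) (hπ : π ⊆ items c R) (φ lam v : G.V → ℝ) (f : G.V → ℂ) (hf : tnorm g (Cs ∪ cover N R π) f < h0) :
    ‖eav a c g.m (W.pfacL R t0 π) (toC φ + toC lam + toC (fun x => v x / Real.sqrt a) + f)‖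
      ≤ (big * ∏ I ∈ π, cxWI W R Z CF (thetaOf h1 h2) 0 gm big I)
        * cxE a hs p1 Ct c g h0 (Cs ∪ cover N R π) φ lam (etaSq W.τ v (under N (Cs ∪ cover N R π))) := by
  have hP1' := cxn_phys_mono hC K.hθ hP1 (le_refl |CR|) (le_max_left |big'| 1)
  have hF := cx_fn_pfacL hC K.hCF K.hCF0 K.hθ K.hcb (by linarith : cb + (h1 - cb) ≤ h1) hV.whole hW hgeo hLk hP1' (abs_nonneg _)
    (le_max_right _ _) N t0 ht0 hZ0 Cs hCs π hπ
  have hF0 := cx_fn_pfacL hC K.hCF K.hCF0 K.hθ K.hcb (by linarith : cb + (h1 - cb) ≤ h1) hV.whole hW hgeo hLk hP0 hgm hbig N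
    t0 ht0 hZ0 Cs hCs π hπ
  have := cx_eng_bound K.ha K.hCt K.hL hV hF hF0.bd φ lam v f hf
  unfold cxE
  rw [← mul_assoc]
  exact this

/-! ## 2. One pattern, a holomorphic family: two constants -/

/-- the conclusion of `cx_two_const` -/
def CxTwo (θ ρ : ℝ) : Prop :=
  ∀ (u : ℂ → ℂ) (b0 r M0 M1 : ℝ), 0 < r → 0 < M0 → M0 ≤ M1 →
    DifferentiableOn ℂ u (Metric.ball (b0 : ℂ) r) → (∀ b ∈ Metric.ball (b0 : ℂ) r, ‖u b‖ ≤ M1) →
    (∀ b : ℝ, |b - b0| < r → ‖u b‖ ≤ M0) → ∀ b ∈ Metric.ball (b0 : ℂ) (ρ * r), ‖u b‖ ≤ M0 ^ (1 - θ) * M1 ^ θ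

/-- interpolation of products -/
theorem cxn_interp_prod {ι : Type} (π : Finset ι) (w0 w1 wt : ι → ℝ) (θ : ℝ) (h0 : ∀ I ∈ π, 0 ≤ w0 I) (h1 : ∀ I ∈ π, 0 ≤ w1 I)
    (h : ∀ I ∈ π, w0 I ^ (1 - θ) * w1 I ^ θ ≤ wt I) :
    (∏ I ∈ π, w0 I) ^ (1 - θ) * (∏ I ∈ π, w1 I) ^ θ ≤ ∏ I ∈ π, wt I := by
  rw [← Real.finsetProd_rpow π w0 h0, ← Real.finsetProd_rpow π w1 h1, ← Finset.prod_mul_distrib]
  exact Finset.prod_le_prod (fun I hI => mul_nonneg (Real.rpow_nonneg (h0 I hI) _) (Real.rpow_nonneg (h1 I hI) _)) h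

theorem cxn_rpow_self (x θ : ℝ) (hx : 0 ≤ x) (hθ : 0 < θ) : x ^ (1 - θ) * x ^ θ ≤ x := by
  rcases hx.eq_or_lt with rfl | hx
  · rw [Real.zero_rpow hθ.ne', mul_zero]
  · rw [← Real.rpow_add hx]
    simp

theorem cxn_real_mem_ball {b b0 r : ℝ} (h : |b - b0| < r) : (b : ℂ) ∈ Metric.ball (b0 : ℂ) r := by
  rw [Metric.mem_ball, dist_eq_norm, ← Complex.ofReal_sub, Complex.norm_real, Real.norm_eq_abs]
  exact h

/-- **one pattern, complex parameter** -/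
theorem cxn_pat_cplx (hC : CostStmt) {a hs p1 cb h1 h2 Ct CF : ℝ} (K : CxCtx a hs p1 cb h1 h2 Ct CF) {N : Nest c g} {R : ℕ}
    (hV : CxVol N R) (hgeo : PatchIn c R) {W : ℂ → Wt c} {b0 r gm CR Cl cl : ℝ} {h0 : ℝ≥0} (hr : 0 < r)
    (hF : FamOK W R b0 r a cb (thetaOf h1 h2) (5 * Real.sqrt a * h0) gm CR Cl cl) (hLk : CxLk (W b0) R CF (h1 - cb))
    {gp CRp θ ρ : ℝ} (hgp0 : 0 < gp) (hgp1 : gp ≤ 1) (hgm : |gm| ≤ gp) (hCRp : 1 ≤ CRp) (hCR : |CR| ≤ CRp) (hθ : 0 < θ)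
    (hint : gp ^ (1 - θ) * CRp ^ θ ≤ 2 * Real.sqrt gp) (hρ : ρ ≤ 1) (htc : CxTwo θ ρ) (b : ℂ) (hb : b ∈ Metric.ball (b0 : ℂ) (ρ * r))
    (π : Finset (Item c)) (hπ : π ⊆ items c R) (φ lam : G.V → ℝ) (f : G.V → ℂ) (hf : tnorm g (cover N R π) f < h0) :
    ‖(W b).EF a g.m R π (toC φ + toC lam + f)‖
      ≤ (∏ I ∈ π, cxWI (W b0) R ∅ CF (thetaOf h1 h2) 0 (2 * Real.sqrt gp) 1 I) * cxE a hs p1 Ct c g h0 (cover N R π) φ lam 0 := by
  have hH : 0 ≤ 5 * Real.sqrt a * (h0 : ℝ) := by positivity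
  obtain ⟨E, hE⟩ : ∃ E, E = cxE a hs p1 Ct c g h0 (cover N R π) φ lam 0 := ⟨_, rfl⟩
  have hE0 : 0 < E := hE ▸ cxE_pos _ _ _ _ _ _ _ _ _ _ _
  obtain ⟨w0, hw0⟩ : ∃ w0 : Item c → ℝ, w0 = cxWI (W b0) R ∅ CF (thetaOf h1 h2) 0 gp 1 := ⟨_, rfl⟩
  obtain ⟨w1, hw1⟩ : ∃ w1 : Item c → ℝ, w1 = cxWI (W b0) R ∅ CF (thetaOf h1 h2) 0 CRp 1 := ⟨_, rfl⟩
  obtain ⟨wt, hwt⟩ : ∃ wt : Item c → ℝ, wt = cxWI (W b0) R ∅ CF (thetaOf h1 h2) 0 (2 * Real.sqrt gp) 1 := ⟨_, rfl⟩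
  have n0 : ∀ I, 0 ≤ w0 I := fun I => hw0 ▸ cxWI_nonneg _ _ _ _ _ _ hgp0.le le_rfl I
  have n1 : ∀ I, 0 ≤ w1 I := fun I => hw1 ▸ cxWI_nonneg _ _ _ _ _ _ (by linarith) le_rfl I
  have nt : ∀ I, 0 ≤ wt I := fun I => hwt ▸ cxWI_nonneg _ _ _ _ _ _ (by positivity) le_rfl I
  have hz : toC φ + toC lam + f = toC φ + toC lam + toC (fun x => (0 : G.V → ℝ) x / Real.sqrt a) + f := by
    rw [cxn_toC_zero_div, add_zero]
  -- all parameters of the disc
  have hLkb : ∀ b', CxLk (W b') R CF (h1 - cb) := fun b' => cxn_Lk_congr (hF.Qc b').symm hLk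
  have hP1 : ∀ b' ∈ Metric.ball (b0 : ℂ) r, Phys (W b') R ∅ a cb (thetaOf h1 h2) (5 * Real.sqrt a * h0) CRp 1 := fun b' hb' =>
    cxn_phys_mono hC K.hθ (hF.cplx b' hb') hCR (by simp)
  have bd1 : ∀ b' ∈ Metric.ball (b0 : ℂ) r, ‖(W b').EF a g.m R π (toC φ + toC lam + f)‖ ≤ (∏ I ∈ π, w1 I) * E := by
    intro b' hb'
    have := cxn_pat hC K hV hgeo (hF.str b' hb') (hLkb b') (cxn_phys_H0 hH (hP1 b' hb')) (hP1 b' hb') (by linarith) le_rfl π hπ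
      φ lam 0 f hf
    rw [← hz, hF.tau b', cxn_etaSq_zero, ← hE] at this
    simpa only [hw1, cxn_WI_congr (hF.Qc b')] using this
  have bd0 : ∀ b' : ℝ, |b' - b0| < r → ‖(W b').EF a g.m R π (toC φ + toC lam + f)‖ ≤ (∏ I ∈ π, w0 I) * E := by
    intro b' hb'
    have hb'' := cxn_real_mem_ball hb'
    have := cxn_pat hC K hV hgeo (hF.str b' hb'') (hLkb b') (cxn_phys_mono hC K.hθ (hF.real b' hb') hgm (by simp)) (hP1 b' hb'')
      hgp0.le le_rfl π hπ φ lam 0 f hf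
    rw [← hz, hF.tau b', cxn_etaSq_zero, ← hE] at this
    simpa only [hw0, cxn_WI_congr (hF.Qc b')] using this
  have hbr : b ∈ Metric.ball (b0 : ℂ) r := by
    refine Metric.ball_subset_ball ?_ hb
    nlinarith
  rw [← hE, ← hwt]
  by_cases hzero : ∏ I ∈ π, w1 I = 0
  · have := bd1 b hbr
    rw [hzero, zero_mul] at this
    exact this.trans (mul_nonneg (Finset.prod_nonneg fun I _ => nt I) hE0.le)
  -- the weights are positive
  have hpos : ∀ I ∈ π, 0 < w0 I := by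
    intro I hI
    have h1' : w1 I ≠ 0 := (Finset.prod_ne_zero_iff.1 hzero) I hI
    rcases I with k | t | l
    · simpa [hw0, cxWI] using hgp0
    · simpa [hw0, cxWI] using hgp0
    · have e : w0 (Sum.inr (Sum.inr l)) = w1 (Sum.inr (Sum.inr l)) := by rw [hw0, hw1]; rfl
      rw [e]
      exact lt_of_le_of_ne (n1 _) h1'.symm
  have hle : ∀ I ∈ π, w0 I ≤ w1 I := by
    intro I _
    rcases I with k | t | l
    · simp only [hw0, hw1, cxWI, Finset.disjoint_empty_right, if_true]; linarith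
    · simp only [hw0, hw1, cxWI, Finset.disjoint_empty_right, if_true]; linarith
    · rw [hw0, hw1]; exact le_rfl
  have hM0 : 0 < (∏ I ∈ π, w0 I) * E := mul_pos (Finset.prod_pos hpos) hE0
  have hM01 : (∏ I ∈ π, w0 I) * E ≤ (∏ I ∈ π, w1 I) * E :=
    mul_le_mul_of_nonneg_right (Finset.prod_le_prod (fun I _ => n0 I) hle) hE0.le
  -- holomorphy in the parameter
  have hdiff : DifferentiableOn ℂ (fun b' => (W b').EF a g.m R π (toC φ + toC lam + f)) (Metric.ball (b0 : ℂ) r) := by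
    refine cx_eng_par K.ha K.hCt K.hL hV (τ := 0) (h0 := h0) (X := cover N R π)
      (w := ∏ I ∈ π, cxWI (W b0) R ∅ CF (thetaOf h1 h2) (5 * Real.sqrt a * h0) CRp 1 I) (Metric.ball (b0 : ℂ) r) Metric.isOpen_ball
      (fun b' => (W b').pfac R π) (fun b' hb' => ?_) (fun y => ?_) _ ?_
    · have := cx_fn_pfac hC K.hCF K.hCF0 K.hθ K.hcb (by linarith : cb + (h1 - cb) ≤ h1) hV.whole (hF.str b' hb') hgeo (hLkb b')
        (hP1 b' hb') (by linarith) le_rfl N π hπ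
      rw [hF.tau b'] at this
      simpa only [cxn_WI_congr (hF.Qc b')] using this
    · exact cxn_pfac_par (b0 : ℂ) (fun b' => by rw [hF.tau, hF.tau]) hF.Qc hF.Nc hF.hol R π y
    · have e : toC φ + toC lam + f = toC (φ + lam) + f := by
        funext x
        simp [toC]
      rw [e]
      exact le_of_lt (toC_add_mem_strip (φ + lam) hf)
  have key := htc _ b0 r _ _ hr hM0 hM01 hdiff bd1 bd0 b hb
  refine key.trans ?_
  rw [Real.mul_rpow (Finset.prod_nonneg fun I _ => n0 I) hE0.le, Real.mul_rpow (Finset.prod_nonneg fun I _ => n1 I) hE0.le]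
  have eE : E ^ (1 - θ) * E ^ θ = E := by
    rw [← Real.rpow_add hE0]
    simp
  have hprod := cxn_interp_prod π w0 w1 wt θ (fun I _ => n0 I) (fun I _ => n1 I) (fun I _ => by
    rcases I with k | t | l
    · simpa only [hw0, hw1, hwt, cxWI, Finset.disjoint_empty_right, if_true] using hint
    · simpa only [hw0, hw1, hwt, cxWI, Finset.disjoint_empty_right, if_true] using hint
    · have e1 : w1 (Sum.inr (Sum.inr l)) = w0 (Sum.inr (Sum.inr l)) := by rw [hw0, hw1]; rfl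
      have e2 : wt (Sum.inr (Sum.inr l)) = w0 (Sum.inr (Sum.inr l)) := by rw [hw0, hwt]; rfl
      rw [e1, e2]
      exact cxn_rpow_self _ θ (n0 _) hθ)
  calc (∏ I ∈ π, w0 I) ^ (1 - θ) * E ^ (1 - θ) * ((∏ I ∈ π, w1 I) ^ θ * E ^ θ)
      = ((∏ I ∈ π, w0 I) ^ (1 - θ) * (∏ I ∈ π, w1 I) ^ θ) * (E ^ (1 - θ) * E ^ θ) := by ring
    _ ≤ (∏ I ∈ π, wt I) * E := by
        rw [eE]
        exact mul_le_mul_of_nonneg_right hprod hE0.le

/-! ## 3. Sums over patterns, with the factor `A4^{-|X|}` -/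

theorem cxn_term_le {ι β : Type} [DecidableEq β] (cov : ι → Finset β) (w : ι → ℝ) (hw : ∀ I, 0 ≤ w I) (A4 : ℝ) (hA4 : 1 ≤ A4)
    (S X : Finset β) (π : Finset ι) (h : X ⊆ S ∪ π.biUnion cov) :
    ∏ I ∈ π, w I ≤ A4 ^ S.card * (A4 ^ X.card)⁻¹ * ∏ I ∈ π, w I * A4 ^ (cov I).card := by
  have hA0 : 0 < A4 := by linarith
  have h1 := cx_pow_card_le A4 hA4 cov S X π h
  have hp : 0 ≤ ∏ I ∈ π, w I := Finset.prod_nonneg fun I _ => hw I
  have hX : 0 < A4 ^ X.card := pow_pos hA0 _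
  rw [Finset.prod_mul_distrib]
  calc ∏ I ∈ π, w I = A4 ^ X.card * (A4 ^ X.card)⁻¹ * ∏ I ∈ π, w I := by rw [mul_inv_cancel₀ hX.ne', one_mul]
    _ ≤ (A4 ^ S.card * ∏ I ∈ π, A4 ^ (cov I).card) * (A4 ^ X.card)⁻¹ * ∏ I ∈ π, w I := by gcongr
    _ = _ := by ring

theorem cxn_sum_eq {ι β : Type} [DecidableEq ι] [DecidableEq β] (It : Finset ι) (cov : ι → Finset β) (w : ι → ℝ) (hw : ∀ I, 0 ≤ w I)
    (A4 η : ℝ) (hA4 : 1 ≤ A4) (h0 : 0 ≤ η) (h1 : η ≤ 1 / 2) (hne : ∀ I ∈ It, w I ≠ 0 → (cov I).Nonempty)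
    (hpl : ∀ B, ∑ I ∈ It.filter (fun I => B ∈ cov I), w I * A4 ^ (cov I).card ≤ η) (X : Finset β) (hX : X.Nonempty) :
    ∑ π ∈ It.powerset.filter (fun π => π.biUnion cov = X), ∏ I ∈ π, w I ≤ η * (4 ^ X.card * (A4 ^ X.card)⁻¹) := by
  have hA0 : 0 < A4 := by linarith
  have hw' : ∀ I, 0 ≤ w I * A4 ^ (cov I).card := fun I => mul_nonneg (hw I) (pow_pos hA0 _).le
  have hs := cx_sum_eq It cov (fun I => w I * A4 ^ (cov I).card) hw' η
    (fun I hI h => hne I hI (fun h' => h (by simp only [h', zero_mul]))) hpl X hX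
  have h4 := (cx_exp_sub_one_le_four η h0 h1 X.card).1
  calc ∑ π ∈ It.powerset.filter (fun π => π.biUnion cov = X), ∏ I ∈ π, w I
      ≤ ∑ π ∈ It.powerset.filter (fun π => π.biUnion cov = X), (A4 ^ X.card)⁻¹ * ∏ I ∈ π, w I * A4 ^ (cov I).card := by
        refine Finset.sum_le_sum fun π hπ => ?_
        have := cxn_term_le cov w hw A4 hA4 ∅ X π (by rw [(Finset.mem_filter.1 hπ).2, Finset.empty_union])
        simpa using this
    _ = (A4 ^ X.card)⁻¹ * ∑ π ∈ It.powerset.filter (fun π => π.biUnion cov = X), ∏ I ∈ π, w I * A4 ^ (cov I).card := by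
        rw [Finset.mul_sum]
    _ ≤ (A4 ^ X.card)⁻¹ * (η * 4 ^ X.card) :=
        mul_le_mul_of_nonneg_left (hs.trans h4) (inv_pos.2 (pow_pos hA0 _)).le
    _ = _ := by ring

theorem cxn_sum_zone {ι β : Type} [DecidableEq ι] [DecidableEq β] (It : Finset ι) (cov : ι → Finset β) (w : ι → ℝ) (hw : ∀ I, 0 ≤ w I)
    (zn : ι → Prop) [DecidablePred zn] (A4 η M : ℝ) (hA4 : 1 ≤ A4) (h0 : 0 ≤ η) (h1 : η ≤ 1 / 2)
    (hne : ∀ I ∈ It, w I ≠ 0 → (cov I).Nonempty)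
    (hpl : ∀ B, ∑ I ∈ It.filter (fun I => B ∈ cov I ∧ ¬ zn I), w I * A4 ^ (cov I).card ≤ η)
    (hM : ∏ I ∈ It.filter zn, (1 + w I * A4 ^ (cov I).card) ≤ M) (S X : Finset β) :
    ∑ π ∈ It.powerset.filter (fun π => S ∪ π.biUnion cov = X), ∏ I ∈ π, w I
      ≤ A4 ^ S.card * M * (4 ^ X.card * (A4 ^ X.card)⁻¹) := by
  have hA0 : 0 < A4 := by linarith
  have hw' : ∀ I, 0 ≤ w I * A4 ^ (cov I).card := fun I => mul_nonneg (hw I) (pow_pos hA0 _).le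
  have hs := cx_sum_zone It cov (fun I => w I * A4 ^ (cov I).card) hw' zn η M
    (fun I hI h => hne I hI (fun h' => h (by simp only [h', zero_mul]))) hpl hM X
  have h4 := (cx_exp_sub_one_le_four η h0 h1 X.card).2
  have hM0 : 0 ≤ M := le_trans (Finset.prod_nonneg fun I _ => by have := hw' I; linarith) hM
  have hc : 0 ≤ A4 ^ S.card * (A4 ^ X.card)⁻¹ := mul_nonneg (pow_pos hA0 _).le (inv_pos.2 (pow_pos hA0 _)).le
  calc ∑ π ∈ It.powerset.filter (fun π => S ∪ π.biUnion cov = X), ∏ I ∈ π, w I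
      ≤ ∑ π ∈ It.powerset.filter (fun π => S ∪ π.biUnion cov = X),
          A4 ^ S.card * (A4 ^ X.card)⁻¹ * ∏ I ∈ π, w I * A4 ^ (cov I).card := by
        refine Finset.sum_le_sum fun π hπ => ?_
        exact cxn_term_le cov w hw A4 hA4 S X π (by rw [(Finset.mem_filter.1 hπ).2])
    _ = A4 ^ S.card * (A4 ^ X.card)⁻¹ * ∑ π ∈ It.powerset.filter (fun π => S ∪ π.biUnion cov = X),
          ∏ I ∈ π, w I * A4 ^ (cov I).card := by rw [Finset.mul_sum]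
    _ ≤ A4 ^ S.card * (A4 ^ X.card)⁻¹ * ∑ π ∈ It.powerset.filter (fun π => π.biUnion cov ⊆ X),
          ∏ I ∈ π, w I * A4 ^ (cov I).card := by
        refine mul_le_mul_of_nonneg_left ?_ hc
        refine Finset.sum_le_sum_of_subset_of_nonneg (fun π hπ => ?_) fun π _ _ => Finset.prod_nonneg fun I _ => hw' I
        rw [Finset.mem_filter] at hπ ⊢
        exact ⟨hπ.1, hπ.2 ▸ Finset.subset_union_right⟩
    _ ≤ A4 ^ S.card * (A4 ^ X.card)⁻¹ * (M * 4 ^ X.card) :=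
        mul_le_mul_of_nonneg_left (hs.trans (mul_le_mul_of_nonneg_left h4 hM0)) hc
    _ = _ := by ring

/-! ## 4. Numerics -/

/-- the reserve per block -/
def cxA4 (A K : ℝ) : ℝ := 4 * A * Real.exp |K|

theorem cxA4_one_le {A : ℝ} (hA : 1 ≤ A) (K : ℝ) : 1 ≤ cxA4 A K := by
  unfold cxA4
  have : 1 ≤ Real.exp |K| := Real.one_le_exp (abs_nonneg K)
  nlinarith

theorem cxA4_spec {A : ℝ} (hA : 1 ≤ A) (K : ℝ) (n : ℕ) : 4 ^ n * (cxA4 A K ^ n)⁻¹ * Real.exp (K * n) ≤ (A ^ n)⁻¹ := by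
  unfold cxA4
  have hA0 : 0 < A := by linarith
  have h1 : Real.exp (K * n) ≤ Real.exp |K| ^ n := by
    rw [← Real.exp_nat_mul]
    refine Real.exp_le_exp.2 ?_
    rw [mul_comm]
    exact mul_le_mul_of_nonneg_left (le_abs_self K) (Nat.cast_nonneg n)
  have h2 : 0 < Real.exp |K| ^ n := pow_pos (Real.exp_pos _) _
  rw [mul_pow, mul_pow, mul_inv, mul_inv]
  calc 4 ^ n * (((4 : ℝ) ^ n)⁻¹ * (A ^ n)⁻¹ * (Real.exp |K| ^ n)⁻¹) * Real.exp (K * n)
      = (4 ^ n * ((4 : ℝ) ^ n)⁻¹) * (A ^ n)⁻¹ * ((Real.exp |K| ^ n)⁻¹ * Real.exp (K * n)) := by ring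
    _ ≤ 1 * (A ^ n)⁻¹ * 1 := by
        have e4 : (4 : ℝ) ^ n * ((4 : ℝ) ^ n)⁻¹ = 1 := mul_inv_cancel₀ (by positivity)
        rw [e4]
        refine mul_le_mul_of_nonneg_left ?_ (by positivity)
        rw [inv_mul_le_iff₀ h2, mul_one]
        exact h1
    _ = _ := by ring

/-- the total small factor -/
theorem cxn_eta_le (D1 D2 Cp cg cl x : ℝ) (hD1 : 0 ≤ D1) (hD2 : 0 ≤ D2) (hCp : 0 ≤ Cp) (hx : 0 ≤ x) :
    D1 * (2 * Real.sqrt (Cp * Real.exp (-cg * x))) + D2 * Real.exp (-cl * x / 8)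
      ≤ (2 * D1 * Real.sqrt Cp + D2) * Real.exp (-(min (cg / 2) (cl / 8)) * x) := by
  have e1 : Real.sqrt (Cp * Real.exp (-cg * x)) = Real.sqrt Cp * Real.exp (-cg * x / 2) := by
    rw [Real.sqrt_mul hCp, Real.exp_half]
  have h1 : Real.exp (-cg * x / 2) ≤ Real.exp (-(min (cg / 2) (cl / 8)) * x) := by
    refine Real.exp_le_exp.2 ?_
    have := mul_le_mul_of_nonneg_right (min_le_left (cg / 2) (cl / 8)) hx
    linarith
  have h2 : Real.exp (-cl * x / 8) ≤ Real.exp (-(min (cg / 2) (cl / 8)) * x) := by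
    refine Real.exp_le_exp.2 ?_
    have := mul_le_mul_of_nonneg_right (min_le_right (cg / 2) (cl / 8)) hx
    linarith
  rw [e1]
  have hs := Real.sqrt_nonneg Cp
  calc D1 * (2 * (Real.sqrt Cp * Real.exp (-cg * x / 2))) + D2 * Real.exp (-cl * x / 8)
      = (2 * D1 * Real.sqrt Cp) * Real.exp (-cg * x / 2) + D2 * Real.exp (-cl * x / 8) := by ring
    _ ≤ (2 * D1 * Real.sqrt Cp) * Real.exp (-(min (cg / 2) (cl / 8)) * x) + D2 * Real.exp (-(min (cg / 2) (cl / 8)) * x) :=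
        add_le_add (mul_le_mul_of_nonneg_left h1 (by positivity)) (mul_le_mul_of_nonneg_left h2 hD2)
    _ = _ := by ring

/-! ## 5. Exit 1: the centred sector -/

/-- **POST CPLX, exit 1** -/
theorem cx_norm (hA : AvgStmt) (hC : CostStmt) : NormStmt := by
  intro a hs p1 cb h1 h2 ha hp1 hm hcb hcb1 h12 h2s
  have h10 : 0 < h1 := by linarith
  obtain ⟨Ct, hCt, hL⟩ := cx_lintOK hA a hs p1 h1 h2 ha hp1 hm h10 h12 h2s
  obtain ⟨CF, hCF0, hCF⟩ := cx_faceCF a ha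
  have hθ := cxn_theta_pos hp1 hm h10 h12 h2s
  have K : CxCtx a hs p1 cb h1 h2 Ct CF := ⟨ha, hCt, hL, hCF, hCF0.le, hθ.le, hcb.le⟩
  refine ⟨2 * Ct, by positivity, fun h0 A hA1 C cg Cl cl hcg hcl => ?_⟩
  obtain ⟨A4, hA4def⟩ : ∃ A4, A4 = cxA4 A (cxKd Ct * (h0 : ℝ) ^ 2) := ⟨_, rfl⟩
  have hA4 : 1 ≤ A4 := hA4def ▸ cxA4_one_le hA1 _
  obtain ⟨ka, Ha⟩ := cx_lk CF (max Cl 0) cl (h1 - cb) hCF0.le (le_max_right _ _) hcl (by linarith) 24000
  obtain ⟨kb, Hb⟩ := cx_place CF (thetaOf h1 h2) 0 (max Cl 0) cl A4 hCF0.le hθ.le (le_max_right _ _) hcl hA4 24000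
  obtain ⟨kc, Hc⟩ := cx_small (|C| + 1) cg 1 hcg one_pos
  obtain ⟨D1, hD1⟩ : ∃ D1 : ℝ, D1 = 2 * ((24000 : ℕ) : ℝ) * A4 ^ 24000 := ⟨_, rfl⟩
  obtain ⟨D2, hD2⟩ : ∃ D2 : ℝ, D2 = Real.sqrt (max Cl 0) * Real.exp ((0 : ℝ) ^ 2 + 4 * thetaOf h1 h2 * CF) := ⟨_, rfl⟩
  have hD10 : 0 ≤ D1 := by rw [hD1]; positivity
  have hD20 : 0 ≤ D2 := by rw [hD2]; positivity
  have hc' : 0 < min (cg / 2) (cl / 8) := lt_min (by linarith) (by linarith)
  obtain ⟨kd, Hd⟩ := cx_small (2 * D1 * Real.sqrt (|C| + 1) + D2) (min (cg / 2) (cl / 8)) (1 / 2) hc' (by norm_num)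
  refine ⟨2 * D1 * Real.sqrt (|C| + 1) + D2, min (cg / 2) (cl / 8), max ka (max kb (max kc kd)), hc', fun kR hk CR => ?_⟩
  have hka : ka ≤ kR := le_trans (le_max_left _ _) hk
  have hkb : kb ≤ kR := le_trans (le_trans (le_max_left _ _) (le_max_right _ _)) hk
  have hkc : kc ≤ kR := le_trans (le_trans (le_trans (le_max_left _ _) (le_max_right _ _)) (le_max_right _ _)) hk
  have hkd : kd ≤ kR := le_trans (le_trans (le_trans (le_max_right _ _) (le_max_right _ _)) (le_max_right _ _)) hk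
  obtain ⟨θ', t0, -, Hθ'⟩ := cx_interp (max |CR| 1) (le_max_right _ _)
  obtain ⟨ρ, r0, r1, Hρ⟩ := cx_two_const θ' t0
  refine ⟨ρ, r0, r1.le, fun G c g N hgeo hg hN b0 r W hr hF b hb X hX φ lam f hf => ?_⟩
  have hG := cx_geo hgeo hg hN
  have hV := cx_vol hgeo hg hN
  have hStr := hF.str _ (Metric.mem_ball_self hr)
  have hLink := cxn_link_mono hF.link
  have hLk := Ha kR hka G c g N hG (W b0) hStr hLink
  obtain ⟨gp, hgp⟩ : ∃ gp : ℝ, gp = (|C| + 1) * Real.exp (-cg * 2 ^ kR) := ⟨_, rfl⟩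
  have hgp0 : 0 < gp := by rw [hgp]; positivity
  have hgp1 : gp ≤ 1 := hgp ▸ Hc kR hkc
  have hgm : |C * Real.exp (-cg * 2 ^ kR)| ≤ gp := by
    rw [abs_mul, abs_of_pos (Real.exp_pos _), hgp]
    exact mul_le_mul_of_nonneg_right (by linarith) (Real.exp_pos _).le
  obtain ⟨wt, hwt⟩ : ∃ wt : Item c → ℝ, wt = cxWI (W b0) (2 ^ kR) ∅ CF (thetaOf h1 h2) 0 (2 * Real.sqrt gp) 1 := ⟨_, rfl⟩
  have nt : ∀ I, 0 ≤ wt I := fun I => hwt ▸ cxWI_nonneg _ _ _ _ _ _ (by positivity) le_rfl I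
  -- one pattern
  have hpat : ∀ π ∈ (items c (2 ^ kR)).powerset.filter (fun π => cover N (2 ^ kR) π = X),
      ‖(W b).EF a g.m (2 ^ kR) π (toC φ + toC lam + f)‖ ≤ (∏ I ∈ π, wt I) * cxE a hs p1 Ct c g h0 X φ lam 0 := by
    intro π hπ
    obtain ⟨hπ1, hπ2⟩ := Finset.mem_filter.1 hπ
    have := cxn_pat_cplx hC K hV hG.patch hr hF hLk hgp0 hgp1 hgm (le_max_right |CR| 1) (le_max_left |CR| 1) t0 (Hθ' gp hgp0 hgp1)
      r1.le Hρ b hb π (Finset.mem_powerset.1 hπ1) φ lam f (hπ2.symm ▸ hf)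
    rw [hπ2, ← hwt] at this
    exact this
  -- the sum
  obtain ⟨η, hη⟩ : ∃ η : ℝ, η = D1 * (2 * Real.sqrt gp) + D2 * Real.exp (-cl * 2 ^ kR / 8) := ⟨_, rfl⟩
  have hη0 : 0 ≤ η := by rw [hη]; positivity
  have hηC : η ≤ (2 * D1 * Real.sqrt (|C| + 1) + D2) * Real.exp (-(min (cg / 2) (cl / 8)) * 2 ^ kR) := by
    rw [hη, hgp]
    exact cxn_eta_le D1 D2 (|C| + 1) cg cl (2 ^ kR) hD10 hD20 (by positivity) (by positivity)
  have hη2 : η ≤ 1 / 2 := hηC.trans (Hd kR hkd)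
  have hsum := cxn_sum_eq (items c (2 ^ kR)) (cov N (2 ^ kR)) wt nt A4 η hA4 hη0 hη2
    (fun I hI h => cx_cov_ne hG hStr ∅ CF (thetaOf h1 h2) 0 (2 * Real.sqrt gp) 1 I hI (hwt ▸ h))
    (fun B => by
      have := Hb kR hkb G c g N hG (W b0) hStr hLink (2 * Real.sqrt gp) (by positivity) B
      rw [hη, hD1, hD2, hwt]
      convert this using 2) X hX
  have hE0 := cxE_pos a hs p1 Ct c g h0 X φ lam 0
  have hspec := cxA4_spec hA1 (cxKd Ct * (h0 : ℝ) ^ 2) X.card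
  rw [← hA4def] at hspec
  obtain ⟨EV, hEV⟩ : ∃ EV : ℝ, EV = Real.exp (Vobs a hs p1 c g (Cless G g.m) X φ
      + 2 * Ct * openE a c (g.Dm X) (fun i => avg c (fun x => Real.sqrt a * lam x) i)) := ⟨_, rfl⟩
  have hEV0 : 0 < EV := hEV ▸ Real.exp_pos _
  have hcxE : cxE a hs p1 Ct c g h0 X φ lam 0 = Real.exp (cxKd Ct * (h0 : ℝ) ^ 2 * X.card) * EV := by
    unfold cxE
    rw [mul_zero, add_zero, hEV]
  have hAn : 0 < (A ^ X.card)⁻¹ := inv_pos.2 (pow_pos (by linarith) _)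
  rw [← hEV]
  calc ∑ π ∈ (items c (2 ^ kR)).powerset.filter (fun π => cover N (2 ^ kR) π = X), ‖(W b).EF a g.m (2 ^ kR) π (toC φ + toC lam + f)‖
      ≤ ∑ π ∈ (items c (2 ^ kR)).powerset.filter (fun π => cover N (2 ^ kR) π = X),
          (∏ I ∈ π, wt I) * cxE a hs p1 Ct c g h0 X φ lam 0 := Finset.sum_le_sum hpat
    _ = (∑ π ∈ (items c (2 ^ kR)).powerset.filter (fun π => cover N (2 ^ kR) π = X), ∏ I ∈ π, wt I)
          * cxE a hs p1 Ct c g h0 X φ lam 0 := by rw [Finset.sum_mul]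
    _ ≤ η * (4 ^ X.card * (A4 ^ X.card)⁻¹) * cxE a hs p1 Ct c g h0 X φ lam 0 := mul_le_mul_of_nonneg_right hsum hE0.le
    _ = η * (4 ^ X.card * (A4 ^ X.card)⁻¹ * Real.exp (cxKd Ct * (h0 : ℝ) ^ 2 * X.card)) * EV := by rw [hcxE]; ring
    _ ≤ η * (A ^ X.card)⁻¹ * EV := by gcongr
    _ ≤ (2 * D1 * Real.sqrt (|C| + 1) + D2) * Real.exp (-(min (cg / 2) (cl / 8)) * 2 ^ kR) * (A ^ X.card)⁻¹ * EV := by gcongr

/-! ## 6. Exit 3: the unit sector -/

/-- items inside a support which is separated from the compulsory set are off the zone -/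
theorem cxn_off_zone {N : Nest c g} {R : ℕ} {Z : Finset c.I} {Cs X : Finset g.I} (hZ : Z ⊆ under N Cs) (hS : g.Sep RR Cs X)
    (I : Item c) (hI : cov N R I ⊆ X) : ¬ cxZn c R Z I := by
  have key : ∀ A : Finset c.I, N.cl A ⊆ X → Disjoint A Z := by
    intro A hA
    rw [Finset.disjoint_left]
    intro i hi hiZ
    have h1 : N.up i ∈ X := hA (Finset.mem_image_of_mem _ hi)
    have h2 : N.up i ∈ Cs := (cx_mem_under N Cs i).1 (hZ hiZ)
    have := hS _ h2 _ h1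
    rw [Geo.geo_idist_self] at this
    exact absurd this (Nat.not_lt_zero _)
  rcases I with k | t | l
  · simp only [cxZn, not_not]
    exact key _ hI
  · simp only [cxZn, not_not]
    exact key _ hI
  · simp [cxZn]

theorem cxE_le (a hs p1 Ct : ℝ) (ha : 0 < a) (hCt : 0 ≤ Ct) (c g : Grid G) (h0 : ℝ≥0) (X : Finset g.I) (φ : G.V → ℝ) (e Ce lg : ℝ)
    (he : e ≤ Ce * X.card + lg) :
    cxE a hs p1 Ct c g h0 X φ 0 e ≤ Real.exp ((cxKd Ct * (h0 : ℝ) ^ 2 + Ct * Ce) * X.card) * Real.exp (Ct * lg)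
      * Real.exp (Vobs a hs p1 c g (Cless G g.m) X φ) := by
  unfold cxE
  rw [← Real.exp_add, ← Real.exp_add, ← Real.exp_add]
  refine Real.exp_le_exp.2 ?_
  have h1 := mul_le_mul_of_nonneg_left (cxn_openE_zero a ha c (g.Dm X)) (by positivity : 0 ≤ 2 * Ct)
  have h2 := mul_le_mul_of_nonneg_left he hCt
  nlinarith

theorem cxn_eta_le' (D1 D2 Cp cg cl x : ℝ) (hD1 : 0 ≤ D1) (hD2 : 0 ≤ D2) (hCp : 0 ≤ Cp) (hx : 0 ≤ x) :
    D1 * (Cp * Real.exp (-cg * x)) + D2 * Real.exp (-cl * x / 8)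
      ≤ (D1 * Cp + D2) * Real.exp (-(min cg (cl / 8)) * x) := by
  have h1 : Real.exp (-cg * x) ≤ Real.exp (-(min cg (cl / 8)) * x) := by
    refine Real.exp_le_exp.2 ?_
    have := mul_le_mul_of_nonneg_right (min_le_left cg (cl / 8)) hx
    linarith
  have h2 : Real.exp (-cl * x / 8) ≤ Real.exp (-(min cg (cl / 8)) * x) := by
    refine Real.exp_le_exp.2 ?_
    have := mul_le_mul_of_nonneg_right (min_le_right cg (cl / 8)) hx
    linarith
  calc D1 * (Cp * Real.exp (-cg * x)) + D2 * Real.exp (-cl * x / 8)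
      = (D1 * Cp) * Real.exp (-cg * x) + D2 * Real.exp (-cl * x / 8) := by ring
    _ ≤ (D1 * Cp) * Real.exp (-(min cg (cl / 8)) * x) + D2 * Real.exp (-(min cg (cl / 8)) * x) :=
        add_le_add (mul_le_mul_of_nonneg_left h1 (by positivity)) (mul_le_mul_of_nonneg_left h2 hD2)
    _ = _ := by ring

/-- **POST CPLX, exit 3** -/
theorem cx_normU (hA : AvgStmt) (hC : CostStmt) : NormUStmt := by
  classical
  intro a hs p1 cb h1 h2 ha hp1 hm hcb hcb1 h12 h2s h0 A hA1 C cg Cl cl Ce hcg hcl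
  have h10 : 0 < h1 := by linarith
  obtain ⟨Ct, hCt, hL⟩ := cx_lintOK hA a hs p1 h1 h2 ha hp1 hm h10 h12 h2s
  obtain ⟨CF, hCF0, hCF⟩ := cx_faceCF a ha
  have hθ := cxn_theta_pos hp1 hm h10 h12 h2s
  have K : CxCtx a hs p1 cb h1 h2 Ct CF := ⟨ha, hCt, hL, hCF, hCF0.le, hθ.le, hcb.le⟩
  obtain ⟨A4, hA4def⟩ : ∃ A4, A4 = cxA4 A (cxKd Ct * (h0 : ℝ) ^ 2 + Ct * Ce) := ⟨_, rfl⟩
  have hA4 : 1 ≤ A4 := hA4def ▸ cxA4_one_le hA1 _
  obtain ⟨ka, Ha⟩ := cx_lk CF (max Cl 0) cl (h1 - cb) hCF0.le (le_max_right _ _) hcl (by linarith) 24000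
  obtain ⟨kb, Hb⟩ := cx_place CF (thetaOf h1 h2) 0 (max Cl 0) cl A4 hCF0.le hθ.le (le_max_right _ _) hcl hA4 24000
  obtain ⟨D1, hD1⟩ : ∃ D1 : ℝ, D1 = 2 * ((24000 : ℕ) : ℝ) * A4 ^ 24000 := ⟨_, rfl⟩
  obtain ⟨D2, hD2⟩ : ∃ D2 : ℝ, D2 = Real.sqrt (max Cl 0) * Real.exp ((0 : ℝ) ^ 2 + 4 * thetaOf h1 h2 * CF) := ⟨_, rfl⟩
  have hD10 : 0 ≤ D1 := by rw [hD1]; positivity
  have hD20 : 0 ≤ D2 := by rw [hD2]; positivity
  have hc' : 0 < min cg (cl / 8) := lt_min hcg (by linarith)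
  obtain ⟨kd, Hd⟩ := cx_small (D1 * |C| + D2) (min cg (cl / 8)) (1 / 2) hc' (by norm_num)
  refine ⟨D1 * |C| + D2, min cg (cl / 8), max ka (max kb kd), hc', fun kR hk nC CR => ?_⟩
  have hka : ka ≤ kR := le_trans (le_max_left _ _) hk
  have hkb : kb ≤ kR := le_trans (le_trans (le_max_left _ _) (le_max_right _ _)) hk
  have hkd : kd ≤ kR := le_trans (le_trans (le_max_right _ _) (le_max_right _ _)) hk
  obtain ⟨M0, hM0⟩ : ∃ M0 : ℝ, M0 = A4 ^ nC * (3 * A4 ^ 24000) ^ (2 * 24000 * nC) := ⟨_, rfl⟩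
  have hM00 : 0 ≤ M0 := by rw [hM0]; positivity
  refine ⟨max M0 Ct, 2 * 24000 * nC + 1, le_max_of_le_left hM00,
    fun G c g N hgeo hg hN W Z Cs t0 big big' lg v hStr hLink0 hbig hlg hP0' hP1 hZ hCsc ht0 ht0Z heta hetaS X hX φ f hf => ?_⟩
  have hG := cx_geo hgeo hg hN
  have hV := cx_vol hgeo hg hN
  have hLink := cxn_link_mono hLink0
  have hLk := Ha kR hka G c g N hG W hStr hLink
  obtain ⟨gp, hgp⟩ : ∃ gp : ℝ, gp = |C| * Real.exp (-cg * 2 ^ kR) := ⟨_, rfl⟩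
  have hgp0 : 0 ≤ gp := by rw [hgp]; positivity
  have hP0 : Phys W (2 ^ kR) Z a cb (thetaOf h1 h2) 0 gp big := by
    refine cxn_phys_mono hC hθ.le hP0' ?_ (by rw [abs_of_nonneg (by linarith)])
    rw [abs_mul, abs_of_pos (Real.exp_pos _), hgp]
  obtain ⟨η, hη⟩ : ∃ η : ℝ, η = D1 * gp + D2 * Real.exp (-cl * 2 ^ kR / 8) := ⟨_, rfl⟩
  have hη0 : 0 ≤ η := by rw [hη]; positivity
  have hηC : η ≤ (D1 * |C| + D2) * Real.exp (-(min cg (cl / 8)) * 2 ^ kR) := by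
    rw [hη, hgp]
    exact cxn_eta_le' D1 D2 |C| cg cl (2 ^ kR) hD10 hD20 (abs_nonneg _) (by positivity)
  have hη2 : η ≤ 1 / 2 := hηC.trans (Hd kR hkd)
  have hplace : ∀ B : g.I, ∑ I ∈ (items c (2 ^ kR)).filter (fun I => B ∈ cov N (2 ^ kR) I),
      cxWI W (2 ^ kR) ∅ CF (thetaOf h1 h2) 0 gp 1 I * A4 ^ (cov N (2 ^ kR) I).card ≤ η := by
    intro B
    have := Hb kR hkb G c g N hG W hStr hLink gp hgp0 B
    rw [hη, hD1, hD2]
    convert this using 2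
  have hspec := cxA4_spec hA1 (cxKd Ct * (h0 : ℝ) ^ 2 + Ct * Ce) X.card
  rw [← hA4def] at hspec
  obtain ⟨EV, hEV⟩ : ∃ EV : ℝ, EV = Real.exp (Vobs a hs p1 c g (Cless G g.m) X φ) := ⟨_, rfl⟩
  have hEV0 : 0 < EV := hEV ▸ Real.exp_pos _
  have hAn : 0 < (A ^ X.card)⁻¹ := inv_pos.2 (pow_pos (by linarith) _)
  have hz : toC φ + toC (fun x => v x / Real.sqrt a) + f = toC φ + toC 0 + toC (fun x => v x / Real.sqrt a) + f := by
    rw [cxn_toC_zero, add_zero]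
  rw [← hEV]
  refine ⟨fun hSep => ?_, ?_⟩
  · -- clause K
    obtain ⟨wt, hwt⟩ : ∃ wt : Item c → ℝ, wt = cxWI W (2 ^ kR) ∅ CF (thetaOf h1 h2) 0 gp 1 := ⟨_, rfl⟩
    have nt : ∀ I, 0 ≤ wt I := fun I => hwt ▸ cxWI_nonneg _ _ _ _ _ _ hgp0 le_rfl I
    obtain ⟨E, hE⟩ : ∃ E : ℝ, E = Real.exp ((cxKd Ct * (h0 : ℝ) ^ 2 + Ct * Ce) * X.card) * EV := ⟨_, rfl⟩
    have hE0 : 0 < E := by rw [hE]; positivity
    have hpat : ∀ π ∈ (items c (2 ^ kR)).powerset.filter (fun π => cover N (2 ^ kR) π = X),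
        ‖W.EF a g.m (2 ^ kR) π (toC φ + toC (fun x => v x / Real.sqrt a) + f)‖ ≤ (∏ I ∈ π, wt I) * E := by
      intro π hπ
      obtain ⟨hπ1, hπ2⟩ := Finset.mem_filter.1 hπ
      have h1' := cxn_pat hC K hV hG.patch hStr hLk hP0 hP1 hgp0 hbig π (Finset.mem_powerset.1 hπ1) φ 0 v f (hπ2.symm ▸ hf)
      rw [hπ2, ← hz] at h1'
      have e1 : ∏ I ∈ π, cxWI W (2 ^ kR) Z CF (thetaOf h1 h2) 0 gp big I = ∏ I ∈ π, wt I := by
        refine Finset.prod_congr rfl fun I hI => ?_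
        rw [hwt]
        refine cxWI_off W _ Z CF _ 0 gp big I (cxn_off_zone hZ hSep I ?_)
        rw [← hπ2]
        exact Finset.subset_biUnion_of_mem (cov N (2 ^ kR)) hI
      rw [e1] at h1'
      refine h1'.trans (mul_le_mul_of_nonneg_left ?_ (Finset.prod_nonneg fun I _ => nt I))
      have := cxE_le a hs p1 Ct ha hCt c g h0 X φ _ Ce 0 (by simpa using hetaS X hSep)
      rw [mul_zero, Real.exp_zero, mul_one, ← hEV, ← hE] at this
      exact this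
    have hsum := cxn_sum_eq (items c (2 ^ kR)) (cov N (2 ^ kR)) wt nt A4 η hA4 hη0 hη2
      (fun I hI h => cx_cov_ne hG hStr ∅ CF (thetaOf h1 h2) 0 gp 1 I hI (hwt ▸ h)) (fun B => hwt ▸ hplace B) X hX
    calc ∑ π ∈ (items c (2 ^ kR)).powerset.filter (fun π => cover N (2 ^ kR) π = X),
          ‖W.EF a g.m (2 ^ kR) π (toC φ + toC (fun x => v x / Real.sqrt a) + f)‖
        ≤ ∑ π ∈ (items c (2 ^ kR)).powerset.filter (fun π => cover N (2 ^ kR) π = X), (∏ I ∈ π, wt I) * E :=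
          Finset.sum_le_sum hpat
      _ = (∑ π ∈ (items c (2 ^ kR)).powerset.filter (fun π => cover N (2 ^ kR) π = X), ∏ I ∈ π, wt I) * E := by
          rw [Finset.sum_mul]
      _ ≤ η * (4 ^ X.card * (A4 ^ X.card)⁻¹) * E := mul_le_mul_of_nonneg_right hsum hE0.le
      _ = η * (4 ^ X.card * (A4 ^ X.card)⁻¹ * Real.exp ((cxKd Ct * (h0 : ℝ) ^ 2 + Ct * Ce) * X.card)) * EV := by rw [hE]; ring
      _ ≤ η * (A ^ X.card)⁻¹ * EV := by gcongr
      _ ≤ (D1 * |C| + D2) * Real.exp (-(min cg (cl / 8)) * 2 ^ kR) * (A ^ X.card)⁻¹ * EV := by gcongr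
  · -- clause J
    obtain ⟨wt, hwt⟩ : ∃ wt : Item c → ℝ, wt = cxWI W (2 ^ kR) Z CF (thetaOf h1 h2) 0 gp big := ⟨_, rfl⟩
    have nt : ∀ I, 0 ≤ wt I := fun I => hwt ▸ cxWI_nonneg _ _ _ _ _ _ hgp0 hbig I
    obtain ⟨E, hE⟩ : ∃ E : ℝ, E = Real.exp ((cxKd Ct * (h0 : ℝ) ^ 2 + Ct * Ce) * X.card) * Real.exp (Ct * lg) * EV := ⟨_, rfl⟩
    have hE0 : 0 < E := by rw [hE]; positivity
    have hZ0 : ¬ Disjoint (cellsOf c (2 ^ kR) {t0}) Z := by
      obtain ⟨i, -, hi⟩ := Finset.mem_image.1 ht0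
      have hi' : i ∈ cellsOf c (2 ^ kR) {t0} := mem_cellsOf.2 (by simp [hi])
      exact Finset.not_disjoint_iff.2 ⟨i, hi', ht0Z hi'⟩
    have hCs : N.cl (cellsOf c (2 ^ kR) {t0}) ⊆ Cs := by
      intro B hB
      obtain ⟨i, hi, rfl⟩ := Finset.mem_image.1 hB
      exact (cx_mem_under N Cs i).1 (hZ (ht0Z hi))
    have hpat : ∀ π ∈ (items c (2 ^ kR)).powerset.filter (fun π => Cs ∪ cover N (2 ^ kR) π = X),
        ‖eav a c g.m (W.pfacL (2 ^ kR) t0 π) (toC φ + toC (fun x => v x / Real.sqrt a) + f)‖ ≤ (∏ I ∈ π, wt I) * (big * E) := by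
      intro π hπ
      obtain ⟨hπ1, hπ2⟩ := Finset.mem_filter.1 hπ
      have h1' := cxn_patL hC K hV hG.patch hStr hLk hP0 hP1 hgp0 hbig t0 ht0 hZ0 Cs hCs π (Finset.mem_powerset.1 hπ1) φ 0 v f
        (hπ2.symm ▸ hf)
      rw [hπ2, ← hz, ← hwt] at h1'
      have h2' := cxE_le a hs p1 Ct ha hCt c g h0 X φ _ Ce lg (heta X)
      rw [← hEV, ← hE] at h2'
      have hp0 : 0 ≤ big * ∏ I ∈ π, wt I := mul_nonneg (by linarith) (Finset.prod_nonneg fun I _ => nt I)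
      calc _ ≤ _ := h1'
        _ ≤ (big * ∏ I ∈ π, wt I) * E := mul_le_mul_of_nonneg_left h2' hp0
        _ = _ := by ring
    have hzone := cx_zone_prod hG W Z Cs hZ nC hCsc CF (thetaOf h1 h2) 0 gp big A4 hbig hA4
    have hsum := cxn_sum_zone (items c (2 ^ kR)) (cov N (2 ^ kR)) wt nt (cxZn c (2 ^ kR) Z) A4 η
      ((3 * A4 ^ 24000) ^ (2 * 24000 * nC) * big ^ (2 * 24000 * nC)) hA4 hη0 hη2
      (fun I hI h => cx_cov_ne hG hStr Z CF (thetaOf h1 h2) 0 gp big I hI (hwt ▸ h))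
      (fun B => by
        refine le_trans ?_ (hplace B)
        have e1 : ∑ I ∈ (items c (2 ^ kR)).filter (fun I => B ∈ cov N (2 ^ kR) I ∧ ¬ cxZn c (2 ^ kR) Z I),
            wt I * A4 ^ (cov N (2 ^ kR) I).card
            = ∑ I ∈ (items c (2 ^ kR)).filter (fun I => B ∈ cov N (2 ^ kR) I ∧ ¬ cxZn c (2 ^ kR) Z I),
              cxWI W (2 ^ kR) ∅ CF (thetaOf h1 h2) 0 gp 1 I * A4 ^ (cov N (2 ^ kR) I).card := by
          refine Finset.sum_congr rfl fun I hI => ?_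
          rw [hwt, cxWI_off W _ Z CF _ 0 gp big I (Finset.mem_filter.1 hI).2.2]
        rw [e1]
        refine Finset.sum_le_sum_of_subset_of_nonneg (fun I hI => ?_) fun I _ _ =>
          mul_nonneg (cxWI_nonneg _ _ _ _ _ _ hgp0 le_rfl I) (by positivity)
        rw [Finset.mem_filter] at hI ⊢
        exact ⟨hI.1, hI.2.1⟩)
      (by rw [hwt]; exact hzone) Cs X
    have hAC : A4 ^ Cs.card ≤ A4 ^ nC := pow_le_pow_right₀ hA4 hCsc
    have hbp : 0 < big ^ (2 * 24000 * nC) := pow_pos (by linarith) _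
    have hlgE : Real.exp (Ct * lg) ≤ Real.exp (max M0 Ct * lg) :=
      Real.exp_le_exp.2 (mul_le_mul_of_nonneg_right (le_max_right _ _) hlg)
    calc ∑ π ∈ (items c (2 ^ kR)).powerset.filter (fun π => Cs ∪ cover N (2 ^ kR) π = X),
          ‖eav a c g.m (W.pfacL (2 ^ kR) t0 π) (toC φ + toC (fun x => v x / Real.sqrt a) + f)‖
        ≤ ∑ π ∈ (items c (2 ^ kR)).powerset.filter (fun π => Cs ∪ cover N (2 ^ kR) π = X), (∏ I ∈ π, wt I) * (big * E) :=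
          Finset.sum_le_sum hpat
      _ = (∑ π ∈ (items c (2 ^ kR)).powerset.filter (fun π => Cs ∪ cover N (2 ^ kR) π = X), ∏ I ∈ π, wt I) * (big * E) := by
          rw [Finset.sum_mul]
      _ ≤ A4 ^ Cs.card * ((3 * A4 ^ 24000) ^ (2 * 24000 * nC) * big ^ (2 * 24000 * nC)) * (4 ^ X.card * (A4 ^ X.card)⁻¹) * (big * E) :=
          mul_le_mul_of_nonneg_right hsum (mul_nonneg (by linarith) hE0.le)
      _ ≤ A4 ^ nC * ((3 * A4 ^ 24000) ^ (2 * 24000 * nC) * big ^ (2 * 24000 * nC)) * (4 ^ X.card * (A4 ^ X.card)⁻¹) * (big * E) := by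
          gcongr
      _ = M0 * big ^ (2 * 24000 * nC + 1) * Real.exp (Ct * lg)
            * (4 ^ X.card * (A4 ^ X.card)⁻¹ * Real.exp ((cxKd Ct * (h0 : ℝ) ^ 2 + Ct * Ce) * X.card)) * EV := by
          rw [hE, hM0, pow_succ]; ring
      _ ≤ M0 * big ^ (2 * 24000 * nC + 1) * Real.exp (Ct * lg) * (A ^ X.card)⁻¹ * EV := by gcongr
      _ ≤ max M0 Ct * big ^ (2 * 24000 * nC + 1) * Real.exp (max M0 Ct * lg) * (A ^ X.card)⁻¹ * EV := by
          have : M0 ≤ max M0 Ct := le_max_left _ _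
          gcongr

/-- the exits in closed form -/
theorem cx_norm_main : NormStmt := cx_norm av_avg av_cost

theorem cx_normU_main : NormUStmt := cx_normU av_avg av_cost

end

end Claimed.Agent.R285.Ent
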