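import Claimed.Agent.R285.Ent.Vol
import Claimed.Agent.R285.F4a.Unit
import Claimed.Agent.R285.F4a.Flow
import Claimed.Agent.R285.Map.Defs

/-!
# ROW 285, THE ENTRY ENGINE, post UNIT (#16190): `eta_main : EtaStmt`                         (owner helper185)
Nothing is sorried here.  Inputs: `F4a.center_background` ([F] L4.2, proved), `F4a.cfl_sumE*`, `Reg/Lat`, `Reg/Grid`, `B8.torusGrid_ok`.

ROUTE.
1. On the aligned marked square the connection of `tauU` on the retained bonds is `tauE (M / 2)` (`etu_conn`), so `T.eta (tauU c) v e = etaE (M / 2) v e` for EVERY topology `T` (`etu_eta_eq`).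
2. Two co-closed branches have the same bond field (`etu_unique`: test the difference with `v - v'`), hence `|η (x, d)| ≤ C / (1 + dist (x, centre))` for every co-closed branch (`etu_bound`).
3. `∑_{|x| < m} (1 + |x|)⁻² ≤ 24 log (2 + m)` by induction over square shells (`etu_box_sum`); the sites at distance `≥ m` cost `≤ 4` per block.  Off the four central blocks all sites are at distance `≥ m` (`etu_far_of_sep`).
4. Clause 3': `u = (v + 2π κ) ∘ clamp`, the clamp onto the bounding rectangle of the sites of `X`.  If the rectangle spanned by `D_m (X)` carries a gauge, it does not contain the four corners of the source plaquette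
   (`etu_no_gauge`), so the bounding rectangle of the sites of `X` (two blocks further inside) is at distance `≥ 2 m` from the centre (`etu_gauge_far`).  A bond is clamped to a point or to a bond of that rectangle (`etu_clamp_step`),
   where the gradient of `v + 2π κ` is `η`: `|∇ u| ≤ C / (1 + 2 m)` on ALL bonds (`etu_branch`), `bondE (D_m X) u ≤ 50 C² |X|`; `openE` is tested with `u` itself.
-/

set_option autoImplicit false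

namespace Claimed.Agent.R285.Ent

open scoped BigOperators ENNReal NNReal
open Claimed.Agent.R285 Claimed.Agent.R285.RG Claimed.Agent.R285.B4 Claimed.Agent.R285.F4a Claimed.Agent.R285.F4b

noncomputable section

variable {G : Geom}

/-! ## 1. steps of the free square -/

theorem etu_fold_succ (hG : G.bc = BC.free) (i : Fin G.M) :
    ((G.fold (((i : ℕ) : ℤ) + 1) : Fin G.M) : ℕ) = if (i : ℕ) + 1 < G.M then (i : ℕ) + 1 else (i : ℕ) := by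
  have hi := i.2
  split_ifs with h
  · have := Reg.regl_fold_in G (((i : ℕ) : ℤ) + 1) (by omega) (by omega)
    omega
  · have h1 : ((i : ℕ) : ℤ) + 1 = G.M := by omega
    rw [h1]
    have := Reg.regl_fold_M_free G hG
    omega

theorem etu_stp_true (hG : G.bc = BC.free) (x : G.V) :
    ((stp x true).1 : ℕ) = (if (x.1 : ℕ) + 1 < G.M then (x.1 : ℕ) + 1 else (x.1 : ℕ)) ∧ (stp x true).2 = x.2 := by
  constructor
  · have : (stp x true).1 = G.fold (((x.1 : ℕ) : ℤ) + 1) := rfl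
    rw [this, etu_fold_succ hG]
  · have : (stp x true).2 = G.fold (((x.2 : ℕ) : ℤ) + 0) := rfl
    rw [this, add_zero, Reg.reg_fold_coe]

theorem etu_stp_false (hG : G.bc = BC.free) (x : G.V) :
    (stp x false).1 = x.1 ∧ ((stp x false).2 : ℕ) = (if (x.2 : ℕ) + 1 < G.M then (x.2 : ℕ) + 1 else (x.2 : ℕ)) := by
  constructor
  · have : (stp x false).1 = G.fold (((x.1 : ℕ) : ℤ) + 0) := rfl
    rw [this, add_zero, Reg.reg_fold_coe]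
  · have : (stp x false).2 = G.fold (((x.2 : ℕ) : ℤ) + 1) := rfl
    rw [this, etu_fold_succ hG]

theorem etu_stp_ne_true (hG : G.bc = BC.free) (x : G.V) : stp x true ≠ x ↔ (x.1 : ℕ) + 1 < G.M := by
  have h := etu_stp_true hG x
  constructor
  · intro hne
    by_contra hlt
    rw [if_neg hlt] at h
    exact hne (Prod.ext (Fin.ext h.1) h.2)
  · intro hlt he
    rw [if_pos hlt, he] at h
    omega

theorem etu_stp_ne_false (hG : G.bc = BC.free) (x : G.V) : stp x false ≠ x ↔ (x.2 : ℕ) + 1 < G.M := by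
  have h := etu_stp_false hG x
  constructor
  · intro hne
    by_contra hlt
    rw [if_neg hlt] at h
    exact hne (Prod.ext h.1 (Fin.ext h.2))
  · intro hlt he
    rw [if_pos hlt, he] at h
    omega

/-- the reflected stencil at a canonical lift, forwards -/
theorem etu_elift (η : G.V × Bool → ℝ) (x : G.V) (d : Bool) :
    elift η (G.ι x) d = if stp x d = x then 0 else η (x, d) := by
  unfold elift
  rw [Reg.reg_pi_iota]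
  have h : G.π (G.ι x + bdir d) = stp x d := rfl
  rw [h, if_pos rfl]

/-! ## 2. the aligned marked square: `η` on the retained bonds is `etaE` -/

theorem etu_half (𝒱 : Vol) (hcen : 2 * 𝒱.m ∣ 𝒱.G.M) :
    ∃ k, 𝒱.G.M / 2 = 𝒱.m * k ∧ 𝒱.G.M = 2 * (𝒱.G.M / 2) ∧ 0 < k := by
  obtain ⟨k, hk⟩ := hcen
  have h1 : 𝒱.G.M / 2 = 𝒱.m * k := by
    rw [hk, mul_assoc]
    exact Nat.mul_div_cancel_left _ (by norm_num)
  refine ⟨k, h1, ?_, ?_⟩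
  · rw [h1, hk, mul_assoc]
  · rcases Nat.eq_zero_or_pos k with h | h
    · have := 𝒱.G.hM
      rw [hk, h] at this
      simp at this
    · exact h

theorem etu_conn (𝒱 : Vol) (hG : 𝒱.G.bc = BC.free) (hcen : 2 * 𝒱.m ∣ 𝒱.G.M) (hs : 0 < 𝒱.s) (e : 𝒱.G.V × Bool)
    (he : stp e.1 e.2 ≠ e.1) :
    (if 𝒱.c.blk (stp e.1 e.2) = 𝒱.c.blk e.1 then 0 else tauU 𝒱.c (𝒱.c.blk e.1, e.2)) = tauE (𝒱.G.M / 2) e := by
  obtain ⟨x, d⟩ := e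
  cases d
  · simp only at he ⊢
    obtain ⟨k, hk, hM, hk0⟩ := etu_half 𝒱 hcen
    obtain ⟨l, hl⟩ := 𝒱.hsm
    have hn : 𝒱.G.M / 2 = 𝒱.s * (l * k) := by rw [hk, hl, mul_assoc]
    have hcn : 𝒱.c.n / 2 = l * k := by
      have h1 : 𝒱.c.n = 𝒱.G.M / 𝒱.s := rfl
      have h2 : 𝒱.G.M = 𝒱.s * (2 * (l * k)) := by rw [hM, hn]; ring
      rw [h1, h2, Nat.mul_div_cancel_left _ hs]
      exact Nat.mul_div_cancel_left _ (by norm_num)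
    have hx : (x.2 : ℕ) + 1 < 𝒱.G.M := (etu_stp_ne_false hG x).1 he
    have h1 := etu_stp_false hG x
    rw [if_pos hx] at h1
    have hb1 : ((𝒱.c.blk x).2 : ℕ) = (x.2 : ℕ) / 𝒱.s := rfl
    have hb0 : ((𝒱.c.blk x).1 : ℕ) = (x.1 : ℕ) / 𝒱.s := rfl
    have hb2 : ((𝒱.c.blk (stp x false)).2 : ℕ) = ((x.2 : ℕ) + 1) / 𝒱.s := by
      have : ((𝒱.c.blk (stp x false)).2 : ℕ) = ((stp x false).2 : ℕ) / 𝒱.s := rfl
      rw [this, h1.2]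
    have hsd := Nat.succ_div (a := (x.2 : ℕ)) (b := 𝒱.s)
    by_cases hdiv : 𝒱.s ∣ (x.2 : ℕ) + 1
    · rw [if_pos hdiv] at hsd
      have hne : 𝒱.c.blk (stp x false) ≠ 𝒱.c.blk x := by
        intro h
        have := congrArg (fun y : 𝒱.c.I => (y.2 : ℕ)) h
        simp only [hb1, hb2] at this
        omega
      rw [if_neg hne]
      obtain ⟨q, hq⟩ := hdiv
      have hq' : ((x.2 : ℕ) + 1) / 𝒱.s = q := by rw [hq]; exact Nat.mul_div_cancel_left _ hs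
      unfold tauU tauE
      simp only [hb1, hb0, hcn, hn, true_and]
      have i1 : ((x.2 : ℕ) / 𝒱.s + 1 = l * k) ↔ ((x.2 : ℕ) + 1 = 𝒱.s * (l * k)) := by
        rw [← hsd, hq', hq]
        constructor
        · intro h; rw [h]
        · intro h; exact Nat.eq_of_mul_eq_mul_left hs h
      have i2 : (l * k ≤ (x.1 : ℕ) / 𝒱.s) ↔ (𝒱.s * (l * k) ≤ (x.1 : ℕ)) := by
        rw [Nat.le_div_iff_mul_le hs, mul_comm]
      simp only [i1, i2]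
    · rw [if_neg hdiv, add_zero] at hsd
      have heq : 𝒱.c.blk (stp x false) = 𝒱.c.blk x := by
        apply Prod.ext
        · show 𝒱.c.blk1 (stp x false).1 = 𝒱.c.blk1 x.1
          rw [h1.1]
        · apply Fin.ext
          rw [hb1, hb2, hsd]
      rw [if_pos heq]
      unfold tauE
      rw [if_neg]
      rintro ⟨_, h2, _⟩
      simp only at h2
      exact hdiv ⟨l * k, by rw [h2, hn]⟩
  · simp [tauU, tauE]

theorem etu_eta_eq (𝒱 : Vol) (hG : 𝒱.G.bc = BC.free) (hcen : 2 * 𝒱.m ∣ 𝒱.G.M) (hs : 0 < 𝒱.s) (T : Top 𝒱.c)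
    (v : 𝒱.G.V → ℝ) (e : T.graph.E) : T.eta (tauU 𝒱.c) v e = etaE (𝒱.G.M / 2) v e.1 := by
  unfold Top.eta Top.econn etaE
  rw [etu_conn 𝒱 hG hcen hs e.1 e.2.1]

theorem etu_full_edge (𝒱 : Vol) (hG : 𝒱.G.bc = BC.free) (e : 𝒱.G.V × Bool) (he : stp e.1 e.2 ≠ e.1) :
    (Top.full 𝒱.c).IsEdge e := by
  classical
  refine ⟨he, Finset.mem_univ _, Finset.mem_univ _, ?_⟩
  by_cases hb : 𝒱.c.blk (stp e.1 e.2) = 𝒱.c.blk e.1
  · exact Or.inl hb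
  · right
    refine Finset.mem_filter.2 ⟨Finset.mem_univ _, Or.inr ?_⟩
    obtain ⟨x, d⟩ := e
    cases d
    · simp only at he hb ⊢
      have hx : (x.2 : ℕ) + 1 < 𝒱.G.M := (etu_stp_ne_false hG x).1 he
      have h1 := etu_stp_false hG x
      rw [if_pos hx] at h1
      have hlt : ((𝒱.c.blk (stp x false)).2 : ℕ) < 𝒱.c.n := (𝒱.c.blk (stp x false)).2.2
      have hb2 : ((𝒱.c.blk (stp x false)).2 : ℕ) = ((x.2 : ℕ) + 1) / 𝒱.s := by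
        have : ((𝒱.c.blk (stp x false)).2 : ℕ) = ((stp x false).2 : ℕ) / 𝒱.s := rfl
        rw [this, h1.2]
      have hb1 : ((𝒱.c.blk x).2 : ℕ) = (x.2 : ℕ) / 𝒱.s := rfl
      have hsd := Nat.succ_div (a := (x.2 : ℕ)) (b := 𝒱.s)
      have hne : ((x.2 : ℕ) + 1) / 𝒱.s ≠ (x.2 : ℕ) / 𝒱.s := by
        intro h
        apply hb
        apply Prod.ext
        · show 𝒱.c.blk1 (stp x false).1 = 𝒱.c.blk1 x.1
          rw [h1.1]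
        · apply Fin.ext
          rw [hb1, hb2, h]
      simp only [Bool.false_eq_true, if_false]
      rw [hb1]
      split_ifs at hsd <;> omega
    · simp only at he hb ⊢
      have hx : (x.1 : ℕ) + 1 < 𝒱.G.M := (etu_stp_ne_true hG x).1 he
      have h1 := etu_stp_true hG x
      rw [if_pos hx] at h1
      have hlt : ((𝒱.c.blk (stp x true)).1 : ℕ) < 𝒱.c.n := (𝒱.c.blk (stp x true)).1.2
      have hb2 : ((𝒱.c.blk (stp x true)).1 : ℕ) = ((x.1 : ℕ) + 1) / 𝒱.s := by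
        have : ((𝒱.c.blk (stp x true)).1 : ℕ) = ((stp x true).1 : ℕ) / 𝒱.s := rfl
        rw [this, h1.1]
      have hb1 : ((𝒱.c.blk x).1 : ℕ) = (x.1 : ℕ) / 𝒱.s := rfl
      have hsd := Nat.succ_div (a := (x.1 : ℕ)) (b := 𝒱.s)
      have hne : ((x.1 : ℕ) + 1) / 𝒱.s ≠ (x.1 : ℕ) / 𝒱.s := by
        intro h
        apply hb
        apply Prod.ext
        · apply Fin.ext
          rw [hb1, hb2, h]
        · show 𝒱.c.blk1 (stp x true).2 = 𝒱.c.blk1 x.2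
          rw [h1.2]
      simp only [if_true]
      rw [hb1]
      split_ifs at hsd <;> omega

theorem etu_coclosed (𝒱 : Vol) (hG : 𝒱.G.bc = BC.free) (hcen : 2 * 𝒱.m ∣ 𝒱.G.M) (hs : 0 < 𝒱.s) (v : 𝒱.G.V → ℝ)
    (hv : (Top.full 𝒱.c).CoClosed ((Top.full 𝒱.c).eta (tauU 𝒱.c) v)) (f : 𝒱.G.V → ℝ) :
    ∑ e : 𝒱.G.V × Bool, etaE (𝒱.G.M / 2) v e * (f (stp e.1 e.2) - f e.1) = 0 := by
  have h1 := hv f
  have h2 : ∑ e : (Top.full 𝒱.c).graph.E, (Top.full 𝒱.c).eta (tauU 𝒱.c) v e * (f (stp e.1.1 e.1.2) - f e.1.1)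
      = ∑ e : (Top.full 𝒱.c).graph.E, (fun e : 𝒱.G.V × Bool => etaE (𝒱.G.M / 2) v e * (f (stp e.1 e.2) - f e.1)) e.1 :=
    Finset.sum_congr rfl fun e _ => by rw [etu_eta_eq 𝒱 hG hcen hs]
  have h3 := cfl_sumE_eq (Top.full 𝒱.c) (fun e : 𝒱.G.V × Bool => etaE (𝒱.G.M / 2) v e * (f (stp e.1 e.2) - f e.1)) (by
    intro e he
    apply etu_full_edge 𝒱 hG
    intro h
    apply he
    simp only [h, sub_self, mul_zero])
  exact h3.symm.trans (h2.symm.trans h1)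

theorem etu_unique (n : ℕ) (v v' : G.V → ℝ)
    (h : ∀ f : G.V → ℝ, ∑ e : G.V × Bool, etaE n v e * (f (stp e.1 e.2) - f e.1) = 0)
    (h' : ∀ f : G.V → ℝ, ∑ e : G.V × Bool, etaE n v' e * (f (stp e.1 e.2) - f e.1) = 0) (e : G.V × Bool) :
    etaE n v e = etaE n v' e := by
  have h1 := h (fun x => v x - v' x)
  have h2 := h' (fun x => v x - v' x)
  have h3 : ∑ e : G.V × Bool, (etaE n v e - etaE n v' e) ^ 2 = 0 := by
    have : ∀ e : G.V × Bool, (etaE n v e - etaE n v' e) ^ 2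
        = etaE n v e * ((v (stp e.1 e.2) - v' (stp e.1 e.2)) - (v e.1 - v' e.1))
          - etaE n v' e * ((v (stp e.1 e.2) - v' (stp e.1 e.2)) - (v e.1 - v' e.1)) := by
      intro e
      unfold etaE
      ring
    simp only [this, Finset.sum_sub_distrib]
    rw [h1, h2, sub_zero]
  have h4 := (Finset.sum_eq_zero_iff_of_nonneg (fun e _ => sq_nonneg _)).1 h3 e (Finset.mem_univ _)
  have h5 := pow_eq_zero_iff (n := 2) (by norm_num) |>.1 h4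
  linarith

/-- **the decay of the unit field**, for EVERY co-closed branch -/
theorem etu_bound : ∃ C : ℝ, 0 ≤ C ∧ ∀ 𝒱 : Vol, 𝒱.G.bc = BC.free → 2 * 𝒱.m ∣ 𝒱.G.M → 0 < 𝒱.s →
    ∀ v : 𝒱.G.V → ℝ, (Top.full 𝒱.c).CoClosed ((Top.full 𝒱.c).eta (tauU 𝒱.c) v) →
    ∀ e : 𝒱.G.V × Bool, stp e.1 e.2 ≠ e.1 → |etaE (𝒱.G.M / 2) v e| ≤ C * (1 + cdist (𝒱.G.M / 2) (𝒱.G.ι e.1))⁻¹ := by
  obtain ⟨C, c0, vinf, _, hC, _, _, H⟩ := center_background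
  refine ⟨C, (abs_nonneg _).trans (hC 0), fun 𝒱 hG hcen hs v hv e he => ?_⟩
  obtain ⟨k, hk, hM, hk0⟩ := etu_half 𝒱 hcen
  have hn : 0 < 𝒱.G.M / 2 := by have := 𝒱.G.hM; omega
  obtain ⟨v0, _, h0, hb, _⟩ := H 𝒱.G (𝒱.G.M / 2) hn hG hM
  rw [etu_unique _ v v0 (etu_coclosed 𝒱 hG hcen hs v hv) h0 e]
  have h1 := hb 0 (by norm_num) Fin.elim0 e.1 e.2
  have h2 : difs Fin.elim0 (fun x' => elift (etaE (𝒱.G.M / 2) v0) x' e.2) (𝒱.G.ι e.1)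
      = elift (etaE (𝒱.G.M / 2) v0) (𝒱.G.ι e.1) e.2 := by
    simp [difs]
  rw [h2, etu_elift, if_neg he] at h1
  simpa using h1

/-! ## 3. the logarithmic sum -/

theorem etu_log_step (m : ℕ) : 8 / (1 + (m : ℝ)) ≤ 24 * Real.log (2 + ((m + 1 : ℕ) : ℝ)) - 24 * Real.log (2 + (m : ℝ)) := by
  have hm : (0 : ℝ) ≤ m := Nat.cast_nonneg m
  have h1 : 1 - ((3 + (m : ℝ)) / (2 + (m : ℝ)))⁻¹ ≤ Real.log ((3 + (m : ℝ)) / (2 + (m : ℝ))) :=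
    Real.one_sub_inv_le_log_of_pos (by positivity)
  rw [Real.log_div (by positivity) (by positivity)] at h1
  have h2 : 1 - ((3 + (m : ℝ)) / (2 + (m : ℝ)))⁻¹ = 1 / (3 + (m : ℝ)) := by
    field_simp
    ring
  rw [h2] at h1
  have h3 : 8 / (1 + (m : ℝ)) ≤ 24 * (1 / (3 + (m : ℝ))) := by
    rw [div_le_iff₀ (by positivity)]
    have : 24 * (1 / (3 + (m : ℝ))) * (1 + (m : ℝ)) = 24 * (1 + (m : ℝ)) / (3 + (m : ℝ)) := by ring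
    rw [this, le_div_iff₀ (by positivity)]
    nlinarith
  have h4 : (2 : ℝ) + ((m + 1 : ℕ) : ℝ) = 3 + (m : ℝ) := by push_cast; ring
  rw [h4]
  linarith

theorem etu_box_sum (m : ℕ) :
    ∑ p ∈ Finset.Ico (-(m : ℤ)) m ×ˢ Finset.Ico (-(m : ℤ)) m, ((1 + max |(p.1 : ℝ)| |(p.2 : ℝ)|) ^ 2)⁻¹
      ≤ 24 * Real.log (2 + (m : ℝ)) := by
  induction m with
  | zero =>
    simp
    exact Real.log_nonneg (by norm_num)
  | succ m ih =>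
    have hsub : Finset.Ico (-(m : ℤ)) m ×ˢ Finset.Ico (-(m : ℤ)) m ⊆
        Finset.Ico (-((m + 1 : ℕ) : ℤ)) ((m + 1 : ℕ) : ℤ) ×ˢ Finset.Ico (-((m + 1 : ℕ) : ℤ)) ((m + 1 : ℕ) : ℤ) := by
      intro p hp
      simp only [Finset.mem_product, Finset.mem_Ico] at hp ⊢
      push_cast
      omega
    rw [← Finset.sum_sdiff hsub]
    have hm : (0 : ℝ) ≤ m := Nat.cast_nonneg m
    have hshell : ∑ p ∈ (Finset.Ico (-((m + 1 : ℕ) : ℤ)) ((m + 1 : ℕ) : ℤ) ×ˢ Finset.Ico (-((m + 1 : ℕ) : ℤ)) ((m + 1 : ℕ) : ℤ)) \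
        (Finset.Ico (-(m : ℤ)) m ×ˢ Finset.Ico (-(m : ℤ)) m), ((1 + max |(p.1 : ℝ)| |(p.2 : ℝ)|) ^ 2)⁻¹
        ≤ 8 / (1 + (m : ℝ)) := by
      have hterm : ∀ p ∈ (Finset.Ico (-((m + 1 : ℕ) : ℤ)) ((m + 1 : ℕ) : ℤ) ×ˢ Finset.Ico (-((m + 1 : ℕ) : ℤ)) ((m + 1 : ℕ) : ℤ)) \
          (Finset.Ico (-(m : ℤ)) m ×ˢ Finset.Ico (-(m : ℤ)) m),
          ((1 + max |(p.1 : ℝ)| |(p.2 : ℝ)|) ^ 2)⁻¹ ≤ ((1 + (m : ℝ)) ^ 2)⁻¹ := by
        intro p hp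
        simp only [Finset.mem_sdiff, Finset.mem_product, Finset.mem_Ico, not_and, not_lt] at hp
        have hmax : (m : ℝ) ≤ max |(p.1 : ℝ)| |(p.2 : ℝ)| := by
          have h : (m : ℤ) ≤ |p.1| ∨ (m : ℤ) ≤ |p.2| := by
            by_cases h1 : (m : ℤ) ≤ |p.1|
            · exact Or.inl h1
            · right
              have h2 : -(m : ℤ) ≤ p.1 ∧ p.1 < m := by
                rw [not_le, abs_lt] at h1
                exact ⟨h1.1.le, h1.2⟩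
              by_cases h3 : -(m : ℤ) ≤ p.2
              · have := hp.2 h2 h3
                exact this.trans (le_abs_self _)
              · have : (m : ℤ) ≤ -p.2 := by omega
                exact this.trans (neg_le_abs _)
          rcases h with h | h
          · refine le_max_of_le_left ?_
            have : ((m : ℤ) : ℝ) ≤ ((|p.1| : ℤ) : ℝ) := by exact_mod_cast h
            simpa using this
          · refine le_max_of_le_right ?_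
            have : ((m : ℤ) : ℝ) ≤ ((|p.2| : ℤ) : ℝ) := by exact_mod_cast h
            simpa using this
        apply inv_anti₀ (by positivity)
        apply pow_le_pow_left₀ (by positivity)
        linarith
      refine (Finset.sum_le_card_nsmul _ _ _ hterm).trans ?_
      rw [Finset.card_sdiff_of_subset hsub]
      simp only [Finset.card_product, Int.card_Ico]
      have e1 : (((m + 1 : ℕ) : ℤ) - -((m + 1 : ℕ) : ℤ)).toNat = 2 * m + 2 := by push_cast; omega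
      have e2 : ((m : ℤ) - -(m : ℤ)).toNat = 2 * m := by omega
      rw [e1, e2]
      have e3 : (2 * m + 2) * (2 * m + 2) - 2 * m * (2 * m) = 8 * m + 4 := by
        have : (2 * m + 2) * (2 * m + 2) = 2 * m * (2 * m) + (8 * m + 4) := by ring
        omega
      rw [e3, nsmul_eq_mul]
      push_cast
      rw [le_div_iff₀ (by positivity)]
      have : (8 * (m : ℝ) + 4) * ((1 + (m : ℝ)) ^ 2)⁻¹ * (1 + (m : ℝ)) = (8 * (m : ℝ) + 4) / (1 + (m : ℝ)) := by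
        field_simp
      rw [this, div_le_iff₀ (by positivity)]
      nlinarith
    have := etu_log_step m
    linarith

/-! ## 4. sums of the squared decay -/

theorem etu_cdist_nonneg (n : ℕ) (x : ℤ × ℤ) : 0 ≤ cdist n x := (abs_nonneg _).trans (le_max_left _ _)

theorem etu_sum_far (n m : ℕ) (S : Finset G.V) (h : ∀ x ∈ S, (m : ℝ) ≤ cdist n (G.ι x)) :
    ∑ x ∈ S, ((1 + cdist n (G.ι x)) ^ 2)⁻¹ ≤ (S.card : ℝ) * ((1 + (m : ℝ)) ^ 2)⁻¹ := by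
  have hm : (0 : ℝ) ≤ m := Nat.cast_nonneg m
  rw [← nsmul_eq_mul]
  refine Finset.sum_le_card_nsmul _ _ _ fun x hx => ?_
  apply inv_anti₀ (by positivity)
  apply pow_le_pow_left₀ (by positivity)
  linarith [h x hx]

theorem etu_sum_sites (n m : ℕ) (S : Finset G.V) :
    ∑ x ∈ S, ((1 + cdist n (G.ι x)) ^ 2)⁻¹ ≤ 24 * Real.log (2 + (m : ℝ)) + (S.card : ℝ) * ((1 + (m : ℝ)) ^ 2)⁻¹ := by
  classical
  have hm : (0 : ℝ) ≤ m := Nat.cast_nonneg m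
  rw [← Finset.sum_filter_add_sum_filter_not S (fun x => cdist n (G.ι x) < m)]
  apply add_le_add
  · have hinj : Set.InjOn (fun x : G.V => ((((x.1 : ℕ) : ℤ) - n, ((x.2 : ℕ) : ℤ) - n) : ℤ × ℤ))
        (S.filter (fun x => cdist n (G.ι x) < m) : Finset G.V) := by
      intro x _ y _ hxy
      simp only [Prod.mk.injEq] at hxy
      exact Prod.ext (Fin.ext (by omega)) (Fin.ext (by omega))
    have h1 : ∑ x ∈ S.filter (fun x => cdist n (G.ι x) < m), ((1 + cdist n (G.ι x)) ^ 2)⁻¹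
        = ∑ p ∈ (S.filter (fun x => cdist n (G.ι x) < m)).image
            (fun x : G.V => ((((x.1 : ℕ) : ℤ) - n, ((x.2 : ℕ) : ℤ) - n) : ℤ × ℤ)),
            ((1 + max |(p.1 : ℝ)| |(p.2 : ℝ)|) ^ 2)⁻¹ := by
      rw [Finset.sum_image hinj]
      refine Finset.sum_congr rfl fun x _ => ?_
      simp [cdist, Geom.ι]
    rw [h1]
    refine (Finset.sum_le_sum_of_subset_of_nonneg ?_ fun p _ _ => by positivity).trans (etu_box_sum m)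
    intro p hp
    obtain ⟨x, hx, rfl⟩ := Finset.mem_image.1 hp
    have hx2 := (Finset.mem_filter.1 hx).2
    unfold cdist at hx2
    rw [max_lt_iff, abs_lt, abs_lt] at hx2
    obtain ⟨⟨a1, a2⟩, b1, b2⟩ := hx2
    simp only [Geom.ι, Int.cast_natCast] at a1 a2 b1 b2
    simp only [Finset.mem_product, Finset.mem_Ico]
    have a1' : -(m : ℤ) < ((x.1 : ℕ) : ℤ) - n := by exact_mod_cast a1
    have a2' : ((x.1 : ℕ) : ℤ) - n < m := by exact_mod_cast a2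
    have b1' : -(m : ℤ) < ((x.2 : ℕ) : ℤ) - n := by exact_mod_cast b1
    have b2' : ((x.2 : ℕ) : ℤ) - n < m := by exact_mod_cast b2
    omega
  · refine (etu_sum_far n m _ fun x hx => not_lt.1 (Finset.mem_filter.1 hx).2).trans ?_
    apply mul_le_mul_of_nonneg_right _ (by positivity)
    exact_mod_cast Finset.card_filter_le _ _

theorem etu_sites_card (g : Grid G) (hg : g.Ok) (Y : Finset g.I) : (g.sites Y).card ≤ 4 * g.m ^ 2 * Y.card := by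
  rw [Finset.card_eq_sum_ones, Reg.reg_sites_sum]
  have : ∀ b ∈ Y, ∑ v ∈ g.sites {b}, 1 ≤ 4 * g.m ^ 2 := by
    intro b _
    rw [← Finset.card_eq_sum_ones]
    exact Reg.reg_block_card_le g hg b
  refine (Finset.sum_le_card_nsmul _ _ _ this).trans ?_
  rw [smul_eq_mul, mul_comm]

theorem etu_card_mul (m k : ℕ) (N : ℕ) (A : ℕ) (h : N ≤ A * m ^ 2 * k) :
    (N : ℝ) * ((1 + (m : ℝ)) ^ 2)⁻¹ ≤ A * k := by
  have hm : (0 : ℝ) ≤ m := Nat.cast_nonneg m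
  have h1 : (N : ℝ) ≤ A * (m : ℝ) ^ 2 * k := by exact_mod_cast h
  rw [← div_eq_mul_inv, div_le_iff₀ (by positivity)]
  have h2 : (0 : ℝ) ≤ (A : ℝ) * k := by positivity
  nlinarith

/-- the energy of the background under a set of blocks -/
theorem etu_etaSq_le (C : ℝ) (𝒱 : Vol) (hG : 𝒱.G.bc = BC.free) (hcen : 2 * 𝒱.m ∣ 𝒱.G.M) (hs : 0 < 𝒱.s)
    (v : 𝒱.G.V → ℝ)
    (hb : ∀ e : 𝒱.G.V × Bool, stp e.1 e.2 ≠ e.1 → |etaE (𝒱.G.M / 2) v e| ≤ C * (1 + cdist (𝒱.G.M / 2) (𝒱.G.ι e.1))⁻¹)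
    (X : Finset 𝒱.g.I) :
    etaSq (tauU 𝒱.c) v (under (vNest 𝒱) X) ≤ 2 * C ^ 2 * ∑ x ∈ 𝒱.g.sites X, ((1 + cdist (𝒱.G.M / 2) (𝒱.G.ι x)) ^ 2)⁻¹ := by
  classical
  unfold etaSq
  have h1 : ∑ e : (Top.opn 𝒱.c (under (vNest 𝒱) X)).graph.E, (Top.opn 𝒱.c (under (vNest 𝒱) X)).eta (tauU 𝒱.c) v e ^ 2
      = ∑ e : (Top.opn 𝒱.c (under (vNest 𝒱) X)).graph.E, (fun e : 𝒱.G.V × Bool => etaE (𝒱.G.M / 2) v e ^ 2) e.1 :=
    Finset.sum_congr rfl fun e _ => by rw [etu_eta_eq 𝒱 hG hcen hs]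
  have h2 := cfl_sumE (Top.opn 𝒱.c (under (vNest 𝒱) X)) (fun e : 𝒱.G.V × Bool => etaE (𝒱.G.M / 2) v e ^ 2)
  rw [h1, h2]
  calc ∑ e ∈ Finset.univ.filter (Top.opn 𝒱.c (under (vNest 𝒱) X)).IsEdge, etaE (𝒱.G.M / 2) v e ^ 2
      ≤ ∑ e ∈ Finset.univ.filter (Top.opn 𝒱.c (under (vNest 𝒱) X)).IsEdge,
          C ^ 2 * ((1 + cdist (𝒱.G.M / 2) (𝒱.G.ι e.1)) ^ 2)⁻¹ := by
        refine Finset.sum_le_sum fun e he => ?_
        have he' := (Finset.mem_filter.1 he).2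
        have h3 := pow_le_pow_left₀ (abs_nonneg _) (hb e he'.1) 2
        rwa [sq_abs, mul_pow, inv_pow] at h3
    _ ≤ ∑ e ∈ 𝒱.g.sites X ×ˢ (Finset.univ : Finset Bool), C ^ 2 * ((1 + cdist (𝒱.G.M / 2) (𝒱.G.ι e.1)) ^ 2)⁻¹ := by
        refine Finset.sum_le_sum_of_subset_of_nonneg ?_ fun e _ _ => by
          have := etu_cdist_nonneg (𝒱.G.M / 2) (𝒱.G.ι e.1)
          positivity
        intro e he
        have he' := (Finset.mem_filter.1 he).2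
        have h3 : 𝒱.c.blk e.1 ∈ under (vNest 𝒱) X := (Finset.mem_inter.1 he'.2.1).2
        have h4 : (vNest 𝒱).up (𝒱.c.blk e.1) ∈ X := (Finset.mem_filter.1 h3).2
        rw [Reg.reg_up_blk] at h4
        exact Finset.mem_product.2 ⟨(Reg.reg_mem_sites _ _ _).2 h4, Finset.mem_univ _⟩
    _ = 2 * C ^ 2 * ∑ x ∈ 𝒱.g.sites X, ((1 + cdist (𝒱.G.M / 2) (𝒱.G.ι x)) ^ 2)⁻¹ := by
        rw [Finset.sum_product, Finset.mul_sum]
        refine Finset.sum_congr rfl fun x _ => ?_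
        simp only [Finset.sum_const, Finset.card_univ, Fintype.card_bool, nsmul_eq_mul]
        push_cast
        ring

/-! ## 5. the four central blocks -/

theorem etu_central1 (𝒱 : Vol) (hcen : 2 * 𝒱.m ∣ 𝒱.G.M) (hm : 0 < 𝒱.m) (i : Fin 𝒱.G.M)
    (h1 : ((𝒱.G.M / 2 : ℕ) : ℤ) - 𝒱.m < (i : ℕ)) (h2 : ((i : ℕ) : ℤ) < ((𝒱.G.M / 2 : ℕ) : ℤ) + 𝒱.m) :
    ∃ B : ℤ, (B = 0 ∨ B = -1) ∧ 𝒱.g.blk1 i = 𝒱.g.blk1 (𝒱.G.fold ((𝒱.m : ℤ) * B + ((𝒱.G.M / 2 : ℕ) : ℤ))) := by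
  obtain ⟨k, hk, hM, hk0⟩ := etu_half 𝒱 hcen
  have hn : 0 < 𝒱.G.M / 2 := by have := 𝒱.G.hM; omega
  have hmn : 𝒱.m ≤ 𝒱.G.M / 2 := by rw [hk]; exact Nat.le_mul_of_pos_right _ hk0
  by_cases hi : 𝒱.G.M / 2 ≤ (i : ℕ)
  · refine ⟨0, Or.inl rfl, Fin.ext ?_⟩
    show (i : ℕ) / 𝒱.m = ((𝒱.G.fold ((𝒱.m : ℤ) * 0 + ((𝒱.G.M / 2 : ℕ) : ℤ)) : Fin 𝒱.G.M) : ℕ) / 𝒱.m
    have hf := Reg.regl_fold_in 𝒱.G ((𝒱.m : ℤ) * 0 + ((𝒱.G.M / 2 : ℕ) : ℤ)) (by omega) (by omega)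
    have hf' : ((𝒱.G.fold ((𝒱.m : ℤ) * 0 + ((𝒱.G.M / 2 : ℕ) : ℤ)) : Fin 𝒱.G.M) : ℕ) = 𝒱.m * k := by omega
    rw [hf', Nat.mul_div_cancel_left _ hm]
    apply Nat.div_eq_of_lt_le
    · rw [mul_comm, ← hk]; exact hi
    · have : (k + 1) * 𝒱.m = 𝒱.G.M / 2 + 𝒱.m := by rw [hk]; ring
      rw [this]; omega
  · refine ⟨-1, Or.inr rfl, Fin.ext ?_⟩
    show (i : ℕ) / 𝒱.m = ((𝒱.G.fold ((𝒱.m : ℤ) * (-1) + ((𝒱.G.M / 2 : ℕ) : ℤ)) : Fin 𝒱.G.M) : ℕ) / 𝒱.m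
    have hf := Reg.regl_fold_in 𝒱.G ((𝒱.m : ℤ) * (-1) + ((𝒱.G.M / 2 : ℕ) : ℤ)) (by omega) (by omega)
    obtain ⟨k', rfl⟩ : ∃ k', k = k' + 1 := ⟨k - 1, by omega⟩
    have hk' : 𝒱.G.M / 2 = 𝒱.m * k' + 𝒱.m := by rw [hk]; ring
    have hf' : ((𝒱.G.fold ((𝒱.m : ℤ) * (-1) + ((𝒱.G.M / 2 : ℕ) : ℤ)) : Fin 𝒱.G.M) : ℕ) = 𝒱.m * k' := by omega
    rw [hf', Nat.mul_div_cancel_left _ hm]
    apply Nat.div_eq_of_lt_le
    · rw [mul_comm]; omega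
    · have : (k' + 1) * 𝒱.m = 𝒱.G.M / 2 := by rw [hk]; ring
      rw [this]; omega

theorem etu_central (𝒱 : Vol) (hcen : 2 * 𝒱.m ∣ 𝒱.G.M) (hm : 0 < 𝒱.m) (x : 𝒱.G.V)
    (hx : cdist (𝒱.G.M / 2) (𝒱.G.ι x) < 𝒱.m) :
    𝒱.g.blk x ∈ ({(0, 0), (-1, 0), (0, -1), (-1, -1)} : Finset (ℤ × ℤ)).image (𝒱.bemb 𝒱.ctr) := by
  unfold cdist at hx
  rw [max_lt_iff, abs_lt, abs_lt] at hx
  obtain ⟨⟨a1, a2⟩, b1, b2⟩ := hx
  simp only [Geom.ι, Int.cast_natCast] at a1 a2 b1 b2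
  have a1' : -(𝒱.m : ℤ) < ((x.1 : ℕ) : ℤ) - ((𝒱.G.M / 2 : ℕ) : ℤ) := by exact_mod_cast a1
  have a2' : ((x.1 : ℕ) : ℤ) - ((𝒱.G.M / 2 : ℕ) : ℤ) < 𝒱.m := by exact_mod_cast a2
  have b1' : -(𝒱.m : ℤ) < ((x.2 : ℕ) : ℤ) - ((𝒱.G.M / 2 : ℕ) : ℤ) := by exact_mod_cast b1
  have b2' : ((x.2 : ℕ) : ℤ) - ((𝒱.G.M / 2 : ℕ) : ℤ) < 𝒱.m := by exact_mod_cast b2
  obtain ⟨B1, hB1, e1⟩ := etu_central1 𝒱 hcen hm x.1 (by omega) (by omega)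
  obtain ⟨B2, hB2, e2⟩ := etu_central1 𝒱 hcen hm x.2 (by omega) (by omega)
  refine Finset.mem_image.2 ⟨(B1, B2), ?_, ?_⟩
  · rcases hB1 with rfl | rfl <;> rcases hB2 with rfl | rfl <;> simp
  · exact (Prod.ext e1 e2).symm

theorem etu_far_of_sep (𝒱 : Vol) (hcen : 2 * 𝒱.m ∣ 𝒱.G.M) (hm : 0 < 𝒱.m) (X : Finset 𝒱.g.I)
    (hX : 𝒱.g.Sep 0 (({(0, 0), (-1, 0), (0, -1), (-1, -1)} : Finset (ℤ × ℤ)).image (𝒱.bemb 𝒱.ctr)) X)
    (x : 𝒱.G.V) (hx : x ∈ 𝒱.g.sites X) : (𝒱.m : ℝ) ≤ cdist (𝒱.G.M / 2) (𝒱.G.ι x) := by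
  by_contra h
  have h1 := hX _ (etu_central 𝒱 hcen hm x (not_le.1 h)) _ ((Reg.reg_mem_sites _ _ _).1 hx)
  rw [Reg.reg_idist_self] at h1
  exact lt_irrefl _ h1

/-! ## 6. the clamp onto a rectangle -/

/-- the nearest point of the rectangle `[lo, hi]` -/
def etuClamp (lo hi x : G.V) : G.V :=
  (⟨max (lo.1 : ℕ) (min (hi.1 : ℕ) (x.1 : ℕ)), by have := lo.1.2; have := x.1.2; omega⟩,
   ⟨max (lo.2 : ℕ) (min (hi.2 : ℕ) (x.2 : ℕ)), by have := lo.2.2; have := x.2.2; omega⟩)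

theorem etu_clamp_self (lo hi x : G.V) (h1 : lo.1 ≤ x.1) (h2 : x.1 ≤ hi.1) (h3 : lo.2 ≤ x.2) (h4 : x.2 ≤ hi.2) :
    etuClamp lo hi x = x := by
  have h1' : (lo.1 : ℕ) ≤ x.1 := h1
  have h2' : (x.1 : ℕ) ≤ hi.1 := h2
  have h3' : (lo.2 : ℕ) ≤ x.2 := h3
  have h4' : (x.2 : ℕ) ≤ hi.2 := h4
  apply Prod.ext <;> apply Fin.ext
  · show max (lo.1 : ℕ) (min (hi.1 : ℕ) (x.1 : ℕ)) = x.1
    omega
  · show max (lo.2 : ℕ) (min (hi.2 : ℕ) (x.2 : ℕ)) = x.2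
    omega

theorem etu_clamp_step (hG : G.bc = BC.free) (lo hi x : G.V) (h1 : lo.1 ≤ hi.1) (h2 : lo.2 ≤ hi.2) (d : Bool)
    (hx : stp x d ≠ x) :
    etuClamp lo hi (stp x d) = etuClamp lo hi x ∨
      (etuClamp lo hi (stp x d) = stp (etuClamp lo hi x) d ∧ stp (etuClamp lo hi x) d ≠ etuClamp lo hi x) := by
  have h1' : (lo.1 : ℕ) ≤ hi.1 := h1
  have h2' : (lo.2 : ℕ) ≤ hi.2 := h2
  cases d
  · have hx' : (x.2 : ℕ) + 1 < G.M := (etu_stp_ne_false hG x).1 hx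
    have s := etu_stp_false hG x
    rw [if_pos hx'] at s
    have y1 : ((etuClamp lo hi x).2 : ℕ) = max (lo.2 : ℕ) (min (hi.2 : ℕ) (x.2 : ℕ)) := rfl
    have z1 : ((etuClamp lo hi (stp x false)).2 : ℕ) = max (lo.2 : ℕ) (min (hi.2 : ℕ) ((x.2 : ℕ) + 1)) := by
      show max (lo.2 : ℕ) (min (hi.2 : ℕ) ((stp x false).2 : ℕ)) = _
      rw [s.2]
    have z2 : (etuClamp lo hi (stp x false)).1 = (etuClamp lo hi x).1 := by
      apply Fin.ext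
      show max (lo.1 : ℕ) (min (hi.1 : ℕ) ((stp x false).1 : ℕ)) = max (lo.1 : ℕ) (min (hi.1 : ℕ) (x.1 : ℕ))
      rw [s.1]
    by_cases hc : max (lo.2 : ℕ) (min (hi.2 : ℕ) ((x.2 : ℕ) + 1)) = max (lo.2 : ℕ) (min (hi.2 : ℕ) (x.2 : ℕ))
    · left
      exact Prod.ext z2 (Fin.ext (by rw [z1, hc, y1]))
    · right
      have hy : ((etuClamp lo hi x).2 : ℕ) + 1 < G.M := by have := hi.2.2; omega
      have t := etu_stp_false hG (etuClamp lo hi x)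
      rw [if_pos hy] at t
      exact ⟨Prod.ext (z2.trans t.1.symm) (Fin.ext (by rw [z1, t.2, y1]; omega)), (etu_stp_ne_false hG _).2 hy⟩
  · have hx' : (x.1 : ℕ) + 1 < G.M := (etu_stp_ne_true hG x).1 hx
    have s := etu_stp_true hG x
    rw [if_pos hx'] at s
    have y1 : ((etuClamp lo hi x).1 : ℕ) = max (lo.1 : ℕ) (min (hi.1 : ℕ) (x.1 : ℕ)) := rfl
    have z1 : ((etuClamp lo hi (stp x true)).1 : ℕ) = max (lo.1 : ℕ) (min (hi.1 : ℕ) ((x.1 : ℕ) + 1)) := by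
      show max (lo.1 : ℕ) (min (hi.1 : ℕ) ((stp x true).1 : ℕ)) = _
      rw [s.1]
    have z2 : (etuClamp lo hi (stp x true)).2 = (etuClamp lo hi x).2 := by
      apply Fin.ext
      show max (lo.2 : ℕ) (min (hi.2 : ℕ) ((stp x true).2 : ℕ)) = max (lo.2 : ℕ) (min (hi.2 : ℕ) (x.2 : ℕ))
      rw [s.2]
    by_cases hc : max (lo.1 : ℕ) (min (hi.1 : ℕ) ((x.1 : ℕ) + 1)) = max (lo.1 : ℕ) (min (hi.1 : ℕ) (x.1 : ℕ))
    · left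
      exact Prod.ext (Fin.ext (by rw [z1, hc, y1])) z2
    · right
      have hy : ((etuClamp lo hi x).1 : ℕ) + 1 < G.M := by have := hi.1.2; omega
      have t := etu_stp_true hG (etuClamp lo hi x)
      rw [if_pos hy] at t
      exact ⟨Prod.ext (Fin.ext (by rw [z1, t.1, y1]; omega)) (z2.trans t.2.symm), (etu_stp_ne_true hG _).2 hy⟩

/-- the bounding rectangle of a non-empty set of sites -/
theorem etu_rect (S : Finset G.V) (hS : S.Nonempty) : ∃ lo hi : G.V,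
    (∃ a ∈ S, a.1 = lo.1) ∧ (∃ a ∈ S, a.1 = hi.1) ∧ (∃ a ∈ S, a.2 = lo.2) ∧ (∃ a ∈ S, a.2 = hi.2) ∧
      ∀ x ∈ S, lo.1 ≤ x.1 ∧ x.1 ≤ hi.1 ∧ lo.2 ≤ x.2 ∧ x.2 ≤ hi.2 := by
  obtain ⟨a1, ha1, m1⟩ := Finset.exists_min_image S (fun x : G.V => x.1) hS
  obtain ⟨b1, hb1, M1⟩ := Finset.exists_max_image S (fun x : G.V => x.1) hS
  obtain ⟨a2, ha2, m2⟩ := Finset.exists_min_image S (fun x : G.V => x.2) hS
  obtain ⟨b2, hb2, M2⟩ := Finset.exists_max_image S (fun x : G.V => x.2) hS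
  exact ⟨(a1.1, a2.2), (b1.1, b2.2), ⟨a1, ha1, rfl⟩, ⟨b1, hb1, rfl⟩, ⟨a2, ha2, rfl⟩, ⟨b2, hb2, rfl⟩,
    fun x hx => ⟨m1 x hx, M1 x hx, m2 x hx, M2 x hx⟩⟩

theorem etu_mem_hull (𝒱 : Vol) (D : Finset 𝒱.G.V) (v : 𝒱.G.V) :
    v ∈ 𝒱.hull D ↔ (∃ a ∈ D, a.1 ≤ v.1) ∧ (∃ a ∈ D, v.1 ≤ a.1) ∧ (∃ a ∈ D, a.2 ≤ v.2) ∧ (∃ a ∈ D, v.2 ≤ a.2) := by
  unfold Vol.hull
  rw [Finset.mem_filter]
  exact ⟨fun h => h.2, fun h => ⟨Finset.mem_univ _, h⟩⟩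

theorem etu_hull_mono (𝒱 : Vol) {D D' : Finset 𝒱.G.V} (h : D ⊆ D') : 𝒱.hull D ⊆ 𝒱.hull D' := by
  intro v hv
  rw [etu_mem_hull] at hv ⊢
  obtain ⟨⟨a, ha, h1⟩, ⟨b, hb, h2⟩, ⟨c, hc, h3⟩, ⟨d, hd, h4⟩⟩ := hv
  exact ⟨⟨a, h ha, h1⟩, ⟨b, h hb, h2⟩, ⟨c, h hc, h3⟩, ⟨d, h hd, h4⟩⟩

theorem etu_clamp_mem (𝒱 : Vol) (S : Finset 𝒱.G.V) (lo hi : 𝒱.G.V) (h1 : ∃ a ∈ S, a.1 = lo.1) (h2 : ∃ a ∈ S, a.1 = hi.1)
    (h3 : ∃ a ∈ S, a.2 = lo.2) (h4 : ∃ a ∈ S, a.2 = hi.2) (l1 : lo.1 ≤ hi.1) (l2 : lo.2 ≤ hi.2) (x : 𝒱.G.V) :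
    etuClamp lo hi x ∈ 𝒱.hull S := by
  have l1' : (lo.1 : ℕ) ≤ hi.1 := l1
  have l2' : (lo.2 : ℕ) ≤ hi.2 := l2
  rw [etu_mem_hull]
  obtain ⟨a, ha, e1⟩ := h1
  obtain ⟨b, hb, e2⟩ := h2
  obtain ⟨c, hc, e3⟩ := h3
  obtain ⟨d, hd, e4⟩ := h4
  refine ⟨⟨a, ha, ?_⟩, ⟨b, hb, ?_⟩, ⟨c, hc, ?_⟩, ⟨d, hd, ?_⟩⟩
  · rw [e1]
    show (lo.1 : ℕ) ≤ max (lo.1 : ℕ) (min (hi.1 : ℕ) (x.1 : ℕ))
    omega
  · rw [e2]
    show max (lo.1 : ℕ) (min (hi.1 : ℕ) (x.1 : ℕ)) ≤ (hi.1 : ℕ)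
    omega
  · rw [e3]
    show (lo.2 : ℕ) ≤ max (lo.2 : ℕ) (min (hi.2 : ℕ) (x.2 : ℕ))
    omega
  · rw [e4]
    show max (lo.2 : ℕ) (min (hi.2 : ℕ) (x.2 : ℕ)) ≤ (hi.2 : ℕ)
    omega

/-! ## 7. a rectangle with a gauge is far from the source -/

theorem etu_idist1_le (g : Grid G) (a b : Fin g.n) : g.idist1 a b ≤ ((a : ℤ) - b).natAbs := by
  unfold Grid.idist1
  split <;> omega

theorem etu_shift_down (𝒱 : Vol) (hm : 0 < 𝒱.m) (i : Fin 𝒱.G.M) :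
    ∃ i' : Fin 𝒱.G.M, (i' : ℕ) = (i : ℕ) - 2 * 𝒱.m ∧ 𝒱.g.idist1 (𝒱.g.blk1 i) (𝒱.g.blk1 i') ≤ 2 := by
  refine ⟨⟨(i : ℕ) - 2 * 𝒱.m, by have := i.2; omega⟩, rfl, (etu_idist1_le _ _ _).trans ?_⟩
  have e1 : ((𝒱.g.blk1 i : Fin 𝒱.g.n) : ℕ) = (i : ℕ) / 𝒱.m := rfl
  have e2 : ((𝒱.g.blk1 ⟨(i : ℕ) - 2 * 𝒱.m, by have := i.2; omega⟩ : Fin 𝒱.g.n) : ℕ) = ((i : ℕ) - 2 * 𝒱.m) / 𝒱.m := rfl
  have e3 : ((i : ℕ) - 2 * 𝒱.m) / 𝒱.m = (i : ℕ) / 𝒱.m - 2 := by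
    rw [mul_comm]; exact Nat.sub_mul_div _ _ _
  rw [e3] at e2
  omega

theorem etu_shift_up (𝒱 : Vol) (hm : 0 < 𝒱.m) (i : Fin 𝒱.G.M) :
    ∃ i' : Fin 𝒱.G.M, (i' : ℕ) = min ((i : ℕ) + 2 * 𝒱.m) (𝒱.G.M - 1) ∧ 𝒱.g.idist1 (𝒱.g.blk1 i) (𝒱.g.blk1 i') ≤ 2 := by
  refine ⟨⟨min ((i : ℕ) + 2 * 𝒱.m) (𝒱.G.M - 1), by have := i.2; omega⟩, rfl, (etu_idist1_le _ _ _).trans ?_⟩
  have e1 : ((𝒱.g.blk1 i : Fin 𝒱.g.n) : ℕ) = (i : ℕ) / 𝒱.m := rfl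
  have e2 : ((𝒱.g.blk1 ⟨min ((i : ℕ) + 2 * 𝒱.m) (𝒱.G.M - 1), by have := i.2; omega⟩ : Fin 𝒱.g.n) : ℕ)
      = (min ((i : ℕ) + 2 * 𝒱.m) (𝒱.G.M - 1)) / 𝒱.m := rfl
  have e3 : (i : ℕ) / 𝒱.m ≤ (min ((i : ℕ) + 2 * 𝒱.m) (𝒱.G.M - 1)) / 𝒱.m :=
    Nat.div_le_div_right (by have := i.2; omega)
  have e4 : (min ((i : ℕ) + 2 * 𝒱.m) (𝒱.G.M - 1)) / 𝒱.m ≤ ((i : ℕ) + 2 * 𝒱.m) / 𝒱.m :=
    Nat.div_le_div_right (by omega)
  have e5 : ((i : ℕ) + 2 * 𝒱.m) / 𝒱.m = (i : ℕ) / 𝒱.m + 2 := Nat.add_mul_div_right _ _ hm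
  omega

theorem etu_mem_Dm_fst (𝒱 : Vol) (X : Finset 𝒱.g.I) (b : 𝒱.G.V) (hb : b ∈ 𝒱.g.sites X) (i' : Fin 𝒱.G.M)
    (h : 𝒱.g.idist1 (𝒱.g.blk1 b.1) (𝒱.g.blk1 i') ≤ 2) : (i', b.2) ∈ 𝒱.g.Dm X := by
  rw [Reg.reg_mem_Dm, Reg.regd_mem_collar]
  refine ⟨𝒱.g.blk b, (Reg.reg_mem_sites _ _ _).1 hb, ?_⟩
  show max (𝒱.g.idist1 (𝒱.g.blk1 b.1) (𝒱.g.blk1 i')) (𝒱.g.idist1 (𝒱.g.blk1 b.2) (𝒱.g.blk1 b.2)) ≤ 2
  rw [Reg.regd_idist1_self]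
  omega

theorem etu_mem_Dm_snd (𝒱 : Vol) (X : Finset 𝒱.g.I) (b : 𝒱.G.V) (hb : b ∈ 𝒱.g.sites X) (i' : Fin 𝒱.G.M)
    (h : 𝒱.g.idist1 (𝒱.g.blk1 b.2) (𝒱.g.blk1 i') ≤ 2) : (b.1, i') ∈ 𝒱.g.Dm X := by
  rw [Reg.reg_mem_Dm, Reg.regd_mem_collar]
  refine ⟨𝒱.g.blk b, (Reg.reg_mem_sites _ _ _).1 hb, ?_⟩
  show max (𝒱.g.idist1 (𝒱.g.blk1 b.1) (𝒱.g.blk1 b.1)) (𝒱.g.idist1 (𝒱.g.blk1 b.2) (𝒱.g.blk1 i')) ≤ 2
  rw [Reg.regd_idist1_self]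
  omega

/-- no gauge around the source -/
theorem etu_no_gauge (𝒱 : Vol) (hG : 𝒱.G.bc = BC.free) (hM : 𝒱.G.M = 2 * (𝒱.G.M / 2)) (X : Finset 𝒱.g.I) (κ : 𝒱.G.V → ℤ)
    (hκ : IsGauge 𝒱 X κ)
    (h : ∀ p : 𝒱.G.V, ((p.1 : ℕ) + 1 = 𝒱.G.M / 2 ∨ (p.1 : ℕ) = 𝒱.G.M / 2) → ((p.2 : ℕ) + 1 = 𝒱.G.M / 2 ∨ (p.2 : ℕ) = 𝒱.G.M / 2) →
      p ∈ 𝒱.hull (𝒱.g.Dm X)) : False := by
  have hn : 0 < 𝒱.G.M / 2 := by have := 𝒱.G.hM; omega
  obtain ⟨n, hn'⟩ : ∃ n, n = 𝒱.G.M / 2 := ⟨_, rfl⟩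
  rw [← hn'] at h hn
  have l0 : n - 1 < 𝒱.G.M := by omega
  have l1 : n < 𝒱.G.M := by omega
  have s1 := etu_stp_true hG ((⟨n - 1, l0⟩, ⟨n - 1, l0⟩) : 𝒱.G.V)
  have s2 := etu_stp_false hG ((⟨n - 1, l0⟩, ⟨n - 1, l0⟩) : 𝒱.G.V)
  have s3 := etu_stp_false hG ((⟨n, l1⟩, ⟨n - 1, l0⟩) : 𝒱.G.V)
  have s4 := etu_stp_true hG ((⟨n - 1, l0⟩, ⟨n, l1⟩) : 𝒱.G.V)
  simp only at s1 s2 s3 s4
  rw [if_pos (by omega)] at s1 s2 s3 s4
  have t1 : stp ((⟨n - 1, l0⟩, ⟨n - 1, l0⟩) : 𝒱.G.V) true = (⟨n, l1⟩, ⟨n - 1, l0⟩) :=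
    Prod.ext (Fin.ext (by rw [s1.1]; show n - 1 + 1 = n; omega)) s1.2
  have t2 : stp ((⟨n - 1, l0⟩, ⟨n - 1, l0⟩) : 𝒱.G.V) false = (⟨n - 1, l0⟩, ⟨n, l1⟩) :=
    Prod.ext s2.1 (Fin.ext (by rw [s2.2]; show n - 1 + 1 = n; omega))
  have t3 : stp ((⟨n, l1⟩, ⟨n - 1, l0⟩) : 𝒱.G.V) false = (⟨n, l1⟩, ⟨n, l1⟩) :=
    Prod.ext s3.1 (Fin.ext (by rw [s3.2]; show n - 1 + 1 = n; omega))
  have t4 : stp ((⟨n - 1, l0⟩, ⟨n, l1⟩) : 𝒱.G.V) true = (⟨n, l1⟩, ⟨n, l1⟩) :=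
    Prod.ext (Fin.ext (by rw [s4.1]; show n - 1 + 1 = n; omega)) s4.2
  have m00 := h ((⟨n - 1, l0⟩, ⟨n - 1, l0⟩) : 𝒱.G.V) (Or.inl (by show n - 1 + 1 = n; omega)) (Or.inl (by show n - 1 + 1 = n; omega))
  have m10 := h ((⟨n, l1⟩, ⟨n - 1, l0⟩) : 𝒱.G.V) (Or.inr rfl) (Or.inl (by show n - 1 + 1 = n; omega))
  have m01 := h ((⟨n - 1, l0⟩, ⟨n, l1⟩) : 𝒱.G.V) (Or.inl (by show n - 1 + 1 = n; omega)) (Or.inr rfl)
  have m11 := h ((⟨n, l1⟩, ⟨n, l1⟩) : 𝒱.G.V) (Or.inr rfl) (Or.inr rfl)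
  have g1 := hκ (((⟨n - 1, l0⟩, ⟨n - 1, l0⟩) : 𝒱.G.V), true) (by
    simp only [t1]; intro h0; have := congrArg (fun y : 𝒱.G.V => (y.1 : ℕ)) h0; simp only at this; omega) m00 (by simp only [t1]; exact m10)
  have g2 := hκ (((⟨n - 1, l0⟩, ⟨n - 1, l0⟩) : 𝒱.G.V), false) (by
    simp only [t2]; intro h0; have := congrArg (fun y : 𝒱.G.V => (y.2 : ℕ)) h0; simp only at this; omega) m00 (by simp only [t2]; exact m01)
  have g3 := hκ (((⟨n, l1⟩, ⟨n - 1, l0⟩) : 𝒱.G.V), false) (by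
    simp only [t3]; intro h0; have := congrArg (fun y : 𝒱.G.V => (y.2 : ℕ)) h0; simp only at this; omega) m10 (by simp only [t3]; exact m11)
  have g4 := hκ (((⟨n - 1, l0⟩, ⟨n, l1⟩) : 𝒱.G.V), true) (by
    simp only [t4]; intro h0; have := congrArg (fun y : 𝒱.G.V => (y.1 : ℕ)) h0; simp only at this; omega) m01 (by simp only [t4]; exact m11)
  simp only [t1, t2, t3, t4, ← hn'] at g1 g2 g3 g4
  have u1 : tauE n (((⟨n - 1, l0⟩, ⟨n - 1, l0⟩) : 𝒱.G.V), true) = 0 := by simp [tauE]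
  have u2 : tauE n (((⟨n - 1, l0⟩, ⟨n - 1, l0⟩) : 𝒱.G.V), false) = 0 := by
    unfold tauE; rw [if_neg]; rintro ⟨_, _, h3⟩; simp only at h3; omega
  have u3 : tauE n (((⟨n, l1⟩, ⟨n - 1, l0⟩) : 𝒱.G.V), false) = 1 := by
    unfold tauE; rw [if_pos]; exact ⟨rfl, by show n - 1 + 1 = n; omega, le_refl _⟩
  have u4 : tauE n (((⟨n - 1, l0⟩, ⟨n, l1⟩) : 𝒱.G.V), true) = 0 := by simp [tauE]
  rw [u1] at g1
  rw [u2] at g2
  rw [u3] at g3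
  rw [u4] at g4
  omega

/-- the bounding rectangle of the sites of `X` is at distance `≥ 2 m` from the source, if `D_m (X)` carries a gauge -/
theorem etu_gauge_far (𝒱 : Vol) (hG : 𝒱.G.bc = BC.free) (hcen : 2 * 𝒱.m ∣ 𝒱.G.M) (hm : 0 < 𝒱.m) (X : Finset 𝒱.g.I)
    (κ : 𝒱.G.V → ℤ) (hκ : IsGauge 𝒱 X κ) (y : 𝒱.G.V) (hy : y ∈ 𝒱.hull (𝒱.g.sites X)) :
    2 * (𝒱.m : ℝ) ≤ cdist (𝒱.G.M / 2) (𝒱.G.ι y) := by
  by_contra hlt
  rw [not_le] at hlt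
  obtain ⟨k, hk, hM, hk0⟩ := etu_half 𝒱 hcen
  have hn : 0 < 𝒱.G.M / 2 := by have := 𝒱.G.hM; omega
  unfold cdist at hlt
  rw [max_lt_iff, abs_lt, abs_lt] at hlt
  obtain ⟨⟨a1, a2⟩, b1, b2⟩ := hlt
  simp only [Geom.ι, Int.cast_natCast] at a1 a2 b1 b2
  have a1' : -(2 * (𝒱.m : ℤ)) < ((y.1 : ℕ) : ℤ) - ((𝒱.G.M / 2 : ℕ) : ℤ) := by exact_mod_cast a1
  have a2' : ((y.1 : ℕ) : ℤ) - ((𝒱.G.M / 2 : ℕ) : ℤ) < 2 * (𝒱.m : ℤ) := by exact_mod_cast a2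
  have b1' : -(2 * (𝒱.m : ℤ)) < ((y.2 : ℕ) : ℤ) - ((𝒱.G.M / 2 : ℕ) : ℤ) := by exact_mod_cast b1
  have b2' : ((y.2 : ℕ) : ℤ) - ((𝒱.G.M / 2 : ℕ) : ℤ) < 2 * (𝒱.m : ℤ) := by exact_mod_cast b2
  rw [etu_mem_hull] at hy
  obtain ⟨⟨a, ha, la⟩, ⟨b, hb, lb⟩, ⟨c, hc, lc⟩, ⟨d, hd, ld⟩⟩ := hy
  have la' : (a.1 : ℕ) ≤ y.1 := la
  have lb' : (y.1 : ℕ) ≤ b.1 := lb
  have lc' : (c.2 : ℕ) ≤ y.2 := lc
  have ld' : (y.2 : ℕ) ≤ d.2 := ld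
  obtain ⟨a', va, da⟩ := etu_shift_down 𝒱 hm a.1
  obtain ⟨b', vb, db⟩ := etu_shift_up 𝒱 hm b.1
  obtain ⟨c', vc, dc⟩ := etu_shift_down 𝒱 hm c.2
  obtain ⟨d', vd, dd⟩ := etu_shift_up 𝒱 hm d.2
  refine etu_no_gauge 𝒱 hG hM X κ hκ fun p hp1 hp2 => ?_
  rw [etu_mem_hull]
  refine ⟨⟨_, etu_mem_Dm_fst 𝒱 X a ha a' da, ?_⟩, ⟨_, etu_mem_Dm_fst 𝒱 X b hb b' db, ?_⟩,
    ⟨_, etu_mem_Dm_snd 𝒱 X c hc c' dc, ?_⟩, ⟨_, etu_mem_Dm_snd 𝒱 X d hd d' dd, ?_⟩⟩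
  · show (a' : ℕ) ≤ p.1
    omega
  · show (p.1 : ℕ) ≤ b'
    omega
  · show (c' : ℕ) ≤ p.2
    omega
  · show (p.2 : ℕ) ≤ d'
    omega

theorem etu_sites_nonempty (𝒱 : Vol) (hm : 0 < 𝒱.m) (X : Finset 𝒱.g.I) (hX : X.Nonempty) : (𝒱.g.sites X).Nonempty := by
  obtain ⟨b, hb⟩ := hX
  have hok : 𝒱.g.Ok := B8.torusGrid_ok _ _ _ hm
  obtain ⟨i, hi⟩ := hok.surj b.1
  obtain ⟨j, hj⟩ := hok.surj b.2
  refine ⟨(i, j), (Reg.reg_mem_sites _ _ _).2 ?_⟩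
  have : 𝒱.g.blk (i, j) = b := Prod.ext hi hj
  rw [this]
  exact hb

/-- **the flattened branch**: it agrees with `v + 2π κ` on the sites of `X` and has gradient `≤ C / (1 + 2 m)` on ALL bonds -/
theorem etu_branch (C : ℝ) (hC : 0 ≤ C) (𝒱 : Vol) (hG : 𝒱.G.bc = BC.free) (hcen : 2 * 𝒱.m ∣ 𝒱.G.M) (hm : 0 < 𝒱.m)
    (v : 𝒱.G.V → ℝ)
    (hb : ∀ e : 𝒱.G.V × Bool, stp e.1 e.2 ≠ e.1 → |etaE (𝒱.G.M / 2) v e| ≤ C * (1 + cdist (𝒱.G.M / 2) (𝒱.G.ι e.1))⁻¹)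
    (X : Finset 𝒱.g.I) (hX : X.Nonempty) (κ : 𝒱.G.V → ℤ) (hκ : IsGauge 𝒱 X κ) :
    ∃ u : 𝒱.G.V → ℝ, (∀ x ∈ 𝒱.g.sites X, u x = v x + 2 * Real.pi * (κ x : ℝ)) ∧
      ∀ (x : 𝒱.G.V) (d : Bool), |u (stp x d) - u x| ≤ C * (1 + 2 * (𝒱.m : ℝ))⁻¹ := by
  obtain ⟨lo, hi, r1, r2, r3, r4, hr⟩ := etu_rect (𝒱.g.sites X) (etu_sites_nonempty 𝒱 hm X hX)
  obtain ⟨x0, hx0⟩ := etu_sites_nonempty 𝒱 hm X hX
  have l1 : lo.1 ≤ hi.1 := (hr x0 hx0).1.trans (hr x0 hx0).2.1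
  have l2 : lo.2 ≤ hi.2 := (hr x0 hx0).2.2.1.trans (hr x0 hx0).2.2.2
  have hK : 0 ≤ C * (1 + 2 * (𝒱.m : ℝ))⁻¹ := by positivity
  have hsub : 𝒱.hull (𝒱.g.sites X) ⊆ 𝒱.hull (𝒱.g.Dm X) :=
    etu_hull_mono 𝒱 (Reg.reg_sites_mono _ (Reg.reg_subset_collar _ X))
  refine ⟨fun x => v (etuClamp lo hi x) + 2 * Real.pi * (κ (etuClamp lo hi x) : ℝ), fun x hx => ?_, fun x d => ?_⟩
  · obtain ⟨h1, h2, h3, h4⟩ := hr x hx
    simp only [etu_clamp_self lo hi x h1 h2 h3 h4]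
  · by_cases hx : stp x d = x
    · simp only [hx, sub_self, abs_zero]
      exact hK
    · rcases etu_clamp_step hG lo hi x l1 l2 d hx with h | ⟨h, hne⟩
      · simp only [h, sub_self, abs_zero]
        exact hK
      · have my := etu_clamp_mem 𝒱 _ lo hi r1 r2 r3 r4 l1 l2 x
        have my' := etu_clamp_mem 𝒱 _ lo hi r1 r2 r3 r4 l1 l2 (stp x d)
        rw [h] at my'
        have hg := hκ (etuClamp lo hi x, d) hne (hsub my) (hsub my')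
        simp only at hg
        have hfar := etu_gauge_far 𝒱 hG hcen hm X κ hκ _ my
        have hbd := hb (etuClamp lo hi x, d) hne
        simp only at hbd
        have e1 : v (etuClamp lo hi (stp x d)) + 2 * Real.pi * (κ (etuClamp lo hi (stp x d)) : ℝ)
            - (v (etuClamp lo hi x) + 2 * Real.pi * (κ (etuClamp lo hi x) : ℝ)) = etaE (𝒱.G.M / 2) v (etuClamp lo hi x, d) := by
          rw [h]
          unfold etaE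
          rw [← hg]
          push_cast
          ring
        rw [e1]
        refine hbd.trans (mul_le_mul_of_nonneg_left ?_ hC)
        apply inv_anti₀ (by positivity)
        linarith

/-! ## 8. energies -/

theorem etu_nb_le (u : G.V → ℝ) (K : ℝ) (hK : 0 ≤ K) (h : ∀ (x : G.V) (d : Bool), |u (stp x d) - u x| ≤ K) (x : G.V) (e : Fin 4) :
    |u (Reg.regNb G x e) - u x| ≤ K := by
  have back : ∀ (e : Fin 4) (d : Bool), (∀ y : G.V, Reg.regNb G y (Reg.regOpp e) = stp y d) → |u (Reg.regNb G x e) - u x| ≤ K := by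
    intro e d hd
    by_cases hne : Reg.regNb G x e = x
    · rw [hne, sub_self, abs_zero]; exact hK
    · have h1 := Reg.reg_nb_rev G x e hne
      rw [hd] at h1
      have h2 := h (Reg.regNb G x e) d
      rw [h1, abs_sub_comm] at h2
      exact h2
  fin_cases e
  · exact h x true
  · exact back 1 true fun y => rfl
  · exact h x false
  · exact back 3 false fun y => rfl

theorem etu_bondE_nonneg (D : Finset G.V) (u : G.V → ℝ) : 0 ≤ bondE D u := by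
  unfold bondE
  refine mul_nonneg (by norm_num) (Finset.sum_nonneg fun v _ => Finset.sum_nonneg fun e _ => ?_)
  split_ifs
  · exact sq_nonneg _
  · exact le_refl _

theorem etu_bondE_le (u : G.V → ℝ) (K : ℝ) (hK : 0 ≤ K) (h : ∀ (x : G.V) (d : Bool), |u (stp x d) - u x| ≤ K) (D : Finset G.V) :
    bondE D u ≤ 2 * K ^ 2 * D.card := by
  unfold bondE
  have h1 : ∀ v ∈ D, ∑ e : Fin 4, (if G.π (G.ι v + dir e) ∈ D then dif (dir e) (G.lift u) (G.ι v) ^ 2 else 0) ≤ 4 * K ^ 2 := by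
    intro v _
    have h2 : ∀ e ∈ (Finset.univ : Finset (Fin 4)),
        (if G.π (G.ι v + dir e) ∈ D then dif (dir e) (G.lift u) (G.ι v) ^ 2 else 0) ≤ K ^ 2 := by
      intro e _
      split_ifs
      · rw [Reg.reg_dif_lift, ← sq_abs]
        exact pow_le_pow_left₀ (abs_nonneg _) (etu_nb_le u K hK h v e) 2
      · positivity
    refine (Finset.sum_le_card_nsmul _ _ _ h2).trans ?_
    simp
  have h3 := Finset.sum_le_card_nsmul _ _ _ h1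
  rw [nsmul_eq_mul] at h3
  nlinarith

theorem etu_openE_le (a : ℝ) (ha : 0 < a) (c : Grid G) (D : Finset G.V) (u : G.V → ℝ) :
    openE a c D (fun i => avg c u i) ≤ a⁻¹ * bondE D u := by
  unfold openE
  have hbdd : BddBelow (Set.range fun u' : G.V → ℝ => a⁻¹ * bondE D u' + ∑ i ∈ cellsIn c D, (cellAvg c u' i - avg c u i) ^ 2) := by
    refine ⟨0, ?_⟩
    rintro _ ⟨u', rfl⟩
    have := etu_bondE_nonneg D u'
    have h2 : 0 ≤ ∑ i ∈ cellsIn c D, (cellAvg c u' i - avg c u i) ^ 2 := Finset.sum_nonneg fun _ _ => sq_nonneg _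
    positivity
  refine (ciInf_le hbdd u).trans ?_
  simp [avg]

/-! ## 9. the exit -/

/-- **POST UNIT, exit** -/
theorem eta_main : EtaStmt := by
  obtain ⟨C, hC, H⟩ := etu_bound
  refine ⟨50 * C ^ 2, by positivity, fun 𝒱 hG hcen hs hm v hv => ?_⟩
  have hb := H 𝒱 hG hcen hs v hv
  have hok : 𝒱.g.Ok := B8.torusGrid_ok _ _ _ hm
  have hgm : 𝒱.g.m = 𝒱.m := rfl
  have hC2 : 0 ≤ C ^ 2 := sq_nonneg C
  have hm0 : (0 : ℝ) < 𝒱.m := by exact_mod_cast hm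
  have hcard : ∀ X : Finset 𝒱.g.I, ((𝒱.g.sites X).card : ℝ) * ((1 + (𝒱.m : ℝ)) ^ 2)⁻¹ ≤ ((4 : ℕ) : ℝ) * X.card := fun X =>
    etu_card_mul 𝒱.m X.card _ 4 (by have := etu_sites_card 𝒱.g hok X; rwa [hgm] at this)
  refine ⟨fun X => ?_, fun X hX => ?_, fun X κ hκ => ?_⟩
  · have h1 := etu_etaSq_le C 𝒱 hG hcen hs v hb X
    have h2 := etu_sum_sites (G := 𝒱.G) (𝒱.G.M / 2) 𝒱.m (𝒱.g.sites X)
    have h3 := hcard X
    have hlog : 0 ≤ Real.log (2 + (𝒱.m : ℝ)) := Real.log_nonneg (by linarith)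
    have hX0 : (0 : ℝ) ≤ X.card := Nat.cast_nonneg _
    push_cast at h3
    have h4 : 2 * C ^ 2 * ∑ x ∈ 𝒱.g.sites X, ((1 + cdist (𝒱.G.M / 2) (𝒱.G.ι x)) ^ 2)⁻¹
        ≤ 2 * C ^ 2 * (24 * Real.log (2 + (𝒱.m : ℝ)) + 4 * X.card) :=
      mul_le_mul_of_nonneg_left (by linarith) (by positivity)
    nlinarith [mul_nonneg hC2 hlog, mul_nonneg hC2 hX0]
  · have h1 := etu_etaSq_le C 𝒱 hG hcen hs v hb X
    have h2 := etu_sum_far (G := 𝒱.G) (𝒱.G.M / 2) 𝒱.m (𝒱.g.sites X) (etu_far_of_sep 𝒱 hcen hm X hX)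
    have h3 := hcard X
    have hX0 : (0 : ℝ) ≤ X.card := Nat.cast_nonneg _
    push_cast at h3
    have h4 : 2 * C ^ 2 * ∑ x ∈ 𝒱.g.sites X, ((1 + cdist (𝒱.G.M / 2) (𝒱.G.ι x)) ^ 2)⁻¹ ≤ 2 * C ^ 2 * (4 * X.card) :=
      mul_le_mul_of_nonneg_left (by linarith) (by positivity)
    nlinarith [mul_nonneg hC2 hX0]
  · have key : ∃ u : 𝒱.G.V → ℝ, (∀ x ∈ 𝒱.g.sites X, u x = v x + 2 * Real.pi * (κ x : ℝ)) ∧
        bondE (𝒱.g.Dm X) u ≤ 50 * C ^ 2 * X.card := by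
      rcases X.eq_empty_or_nonempty with rfl | hX
      · refine ⟨fun x => v x + 2 * Real.pi * (κ x : ℝ), fun _ _ => rfl, ?_⟩
        have : 𝒱.g.Dm ∅ = ∅ := by
          have := Reg.reg_Dm_card 𝒱.g hok ∅
          simpa using this
        rw [this]
        simp [bondE]
      · obtain ⟨u, hu1, hu2⟩ := etu_branch C hC 𝒱 hG hcen hm v hb X hX κ hκ
        refine ⟨u, hu1, ?_⟩
        have h1 := etu_bondE_le u _ (by positivity) hu2 (𝒱.g.Dm X)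
        have h2 : ((𝒱.g.Dm X).card : ℝ) ≤ 100 * (𝒱.m : ℝ) ^ 2 * X.card := by
          have := Reg.reg_Dm_card 𝒱.g hok X
          rw [hgm] at this
          exact_mod_cast this
        have hX0 : (0 : ℝ) ≤ X.card := Nat.cast_nonneg _
        have h3 : (C * (1 + 2 * (𝒱.m : ℝ))⁻¹) ^ 2 * (100 * (𝒱.m : ℝ) ^ 2) ≤ 25 * C ^ 2 := by
          rw [mul_pow, inv_pow]
          have h5 : ((1 + 2 * (𝒱.m : ℝ)) ^ 2)⁻¹ * (100 * (𝒱.m : ℝ) ^ 2) ≤ 25 := by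
            rw [inv_mul_le_iff₀ (by positivity)]
            nlinarith
          calc C ^ 2 * ((1 + 2 * (𝒱.m : ℝ)) ^ 2)⁻¹ * (100 * (𝒱.m : ℝ) ^ 2)
              = C ^ 2 * (((1 + 2 * (𝒱.m : ℝ)) ^ 2)⁻¹ * (100 * (𝒱.m : ℝ) ^ 2)) := by ring
            _ ≤ C ^ 2 * 25 := mul_le_mul_of_nonneg_left h5 hC2
            _ = 25 * C ^ 2 := by ring
        have hK2 : 0 ≤ (C * (1 + 2 * (𝒱.m : ℝ))⁻¹) ^ 2 := sq_nonneg _
        calc bondE (𝒱.g.Dm X) u ≤ 2 * (C * (1 + 2 * (𝒱.m : ℝ))⁻¹) ^ 2 * (𝒱.g.Dm X).card := h1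
          _ ≤ 2 * (C * (1 + 2 * (𝒱.m : ℝ))⁻¹) ^ 2 * (100 * (𝒱.m : ℝ) ^ 2 * X.card) :=
              mul_le_mul_of_nonneg_left h2 (by positivity)
          _ = 2 * ((C * (1 + 2 * (𝒱.m : ℝ))⁻¹) ^ 2 * (100 * (𝒱.m : ℝ) ^ 2)) * X.card := by ring
          _ ≤ 2 * (25 * C ^ 2) * X.card := by gcongr
          _ = 50 * C ^ 2 * X.card := by ring
    obtain ⟨u, hu1, hu2⟩ := key
    refine ⟨u, hu1, hu2, fun a ha => ?_⟩
    refine (etu_openE_le a ha 𝒱.c _ u).trans ?_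
    calc a⁻¹ * bondE (𝒱.g.Dm X) u ≤ a⁻¹ * (50 * C ^ 2 * X.card) :=
          mul_le_mul_of_nonneg_left hu2 (by positivity)
      _ = 50 * C ^ 2 / a * X.card := by ring

end

end Claimed.Agent.R285.Ent
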