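import Claimed.Agent.R285.Ent.Geo
import Claimed.Agent.R285.Ent.Vol
import Claimed.Agent.R285.Reg.Grid

/-!
# ROW 285, THE ENTRY ENGINE: exit statement of the post GEO which speaks about volumes: `geo_unit : GeoUStmt`            (BP-ENT-GEO, helper108)
Everything in this file is proved.
-/

set_option autoImplicit false

namespace Claimed.Agent.R285.Ent

open scoped BigOperators
open Claimed.Agent.R285 Claimed.Agent.R285.RG Claimed.Agent.R285.F4a Claimed.Agent.R285.F4b Claimed.Agent.R285.Geo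

/-- a rectangle of blocks is connected -/
theorem rect_conn {G : Geom} (g : Grid G) {r : ℕ} (hr : 1 ≤ r) (X : Finset g.I) (lo hi : ℕ) (hlo : lo ≤ hi) (hhi : hi < g.n)
    (hX : ∀ a : g.I, a ∈ X ↔ lo ≤ (a.1 : ℕ) ∧ (a.1 : ℕ) ≤ hi ∧ lo ≤ (a.2 : ℕ) ∧ (a.2 : ℕ) ≤ hi) : g.Conn r X := by
  have hz : ((⟨lo, by omega⟩, ⟨lo, by omega⟩) : g.I) ∈ X := (hX _).2 ⟨le_rfl, hlo, le_rfl, hlo⟩
  refine conn_of_root hz ?_
  have key : ∀ (n : ℕ) (a : g.I), a ∈ X → (a.1 : ℕ) + (a.2 : ℕ) = n →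
      Relation.ReflTransGen (fun u v => u ∈ X ∧ v ∈ X ∧ g.idist u v ≤ r) a ((⟨lo, by omega⟩, ⟨lo, by omega⟩) : g.I) := by
    intro n
    induction n using Nat.strong_induction_on with
    | _ n ih =>
      intro a ha hn
      obtain ⟨h1, h2, h3, h4⟩ := (hX a).1 ha
      have l1 := a.1.2
      have l2 := a.2.2
      by_cases c1 : lo < (a.1 : ℕ)
      · have ha' : ((⟨(a.1 : ℕ) - 1, by omega⟩, a.2) : g.I) ∈ X := (hX _).2 ⟨by simp only; omega, by simp only; omega, h3, h4⟩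
        refine Relation.ReflTransGen.head ⟨ha, ha', ?_⟩ (ih ((a.1 : ℕ) - 1 + (a.2 : ℕ)) (by omega) _ ha' rfl)
        refine le_trans ?_ hr
        show max (g.idist1 a.1 ⟨(a.1 : ℕ) - 1, by omega⟩) (g.idist1 a.2 a.2) ≤ 1
        rw [geo_idist1_self]
        refine max_le ((geo_idist1_le_abs g _ _).trans ?_) (Nat.zero_le _)
        simp only
        omega
      · by_cases c2 : lo < (a.2 : ℕ)
        · have ha' : ((a.1, ⟨(a.2 : ℕ) - 1, by omega⟩) : g.I) ∈ X := (hX _).2 ⟨h1, h2, by simp only; omega, by simp only; omega⟩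
          refine Relation.ReflTransGen.head ⟨ha, ha', ?_⟩ (ih ((a.1 : ℕ) + ((a.2 : ℕ) - 1)) (by omega) _ ha' rfl)
          refine le_trans ?_ hr
          show max (g.idist1 a.1 a.1) (g.idist1 a.2 ⟨(a.2 : ℕ) - 1, by omega⟩) ≤ 1
          rw [geo_idist1_self]
          refine max_le (Nat.zero_le _) ((geo_idist1_le_abs g _ _).trans ?_)
          simp only
          omega
        · have : a = ((⟨lo, by omega⟩, ⟨lo, by omega⟩) : g.I) := by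
            apply Prod.ext <;> apply Fin.ext <;> simp only <;> omega
          rw [this]
  exact fun a ha => key _ a ha rfl

/-- the arithmetic of a marked square -/
theorem vol_arith (𝒱 : Vol) (hcen : 2 * 𝒱.m ∣ 𝒱.G.M) (hgeo : GeoOK 𝒱.c (vR 𝒱)) (hbig : 8 * (𝒱.s * vR 𝒱 ^ 5) ≤ 𝒱.G.M) :
    ∃ t : ℕ, 𝒱.m = 𝒱.s * vR 𝒱 ∧ 0 < 𝒱.s ∧ 𝒱.G.M = 2 * 𝒱.m * t ∧ 𝒱.c.n = 2 * (vR 𝒱 * t) ∧ 𝒱.g.n = 2 * t ∧ 4 * vR 𝒱 ^ 4 ≤ t := by
  obtain ⟨t, ht⟩ := hcen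
  have hs : 0 < 𝒱.s := hgeo.whole.pos
  have hR : 0 < vR 𝒱 := hgeo.pos
  have hm : 𝒱.m = 𝒱.s * vR 𝒱 := (Nat.mul_div_cancel' 𝒱.hsm).symm
  have hm0 : 0 < 𝒱.m := by rw [hm]; positivity
  refine ⟨t, hm, hs, ht, ?_, ?_, ?_⟩
  · show 𝒱.G.M / 𝒱.s = _
    rw [ht, hm, show 2 * (𝒱.s * vR 𝒱) * t = 𝒱.s * (2 * (vR 𝒱 * t)) by ring]
    exact Nat.mul_div_cancel_left _ hs
  · show 𝒱.G.M / 𝒱.m = _
    rw [ht, show 2 * 𝒱.m * t = 𝒱.m * (2 * t) by ring]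
    exact Nat.mul_div_cancel_left _ hm0
  · rw [ht, hm] at hbig
    have : 2 * 𝒱.s * vR 𝒱 * (4 * vR 𝒱 ^ 4) ≤ 2 * 𝒱.s * vR 𝒱 * t := by
      calc 2 * 𝒱.s * vR 𝒱 * (4 * vR 𝒱 ^ 4) = 8 * (𝒱.s * vR 𝒱 ^ 5) := by ring
        _ ≤ 2 * (𝒱.s * vR 𝒱) * t := hbig
        _ = 2 * 𝒱.s * vR 𝒱 * t := by ring
    exact Nat.le_of_mul_le_mul_left this (by positivity)

/-- the block under a plane block index, chart centred at the source -/
theorem bemb_ctr (𝒱 : Vol) {t : ℕ} (hM : 𝒱.G.M = 2 * 𝒱.m * t) (hm0 : 0 < 𝒱.m) (B : ℤ × ℤ) (b1 b2 : ℕ) (h1 : B.1 + t = b1) (h2 : B.2 + t = b2)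
    (l1 : b1 < 2 * t) (l2 : b2 < 2 * t) : ((𝒱.bemb 𝒱.ctr B).1 : ℕ) = b1 ∧ ((𝒱.bemb 𝒱.ctr B).2 : ℕ) = b2 := by
  have hc : 𝒱.G.M / 2 = 𝒱.m * t := by
    rw [hM, show 2 * 𝒱.m * t = 2 * (𝒱.m * t) by ring]
    exact Nat.mul_div_cancel_left _ (by norm_num)
  have one : ∀ (β : ℤ) (b : ℕ), β + t = b → b < 2 * t →
      ((𝒱.g.blk1 (𝒱.G.fold ((𝒱.m : ℤ) * β + ((𝒱.G.M / 2 : ℕ) : ℤ))) : Fin 𝒱.g.n) : ℕ) = b := by
    intro β b hb lb
    have e : (𝒱.m : ℤ) * β + ((𝒱.G.M / 2 : ℕ) : ℤ) = ((𝒱.m * b : ℕ) : ℤ) := by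
      rw [hc]; push_cast; rw [← hb]; ring
    have lt : 𝒱.m * b < 𝒱.G.M := by
      rw [hM, show 2 * 𝒱.m * t = 𝒱.m * (2 * t) by ring]
      exact Nat.mul_lt_mul_of_pos_left lb hm0
    have f := Reg.regd_fold_in 𝒱.G ((𝒱.m * b : ℕ) : ℤ) (by positivity) (by exact_mod_cast lt)
    rw [e]
    show ((𝒱.G.fold ((𝒱.m * b : ℕ) : ℤ) : Fin 𝒱.G.M) : ℕ) / 𝒱.m = b
    rw [f, Int.toNat_natCast]
    exact Nat.mul_div_cancel_left _ hm0
  exact ⟨one B.1 b1 h1 l1, one B.2 b2 h2 l2⟩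

theorem mem_entCs (𝒱 : Vol) {t : ℕ} (hM : 𝒱.G.M = 2 * 𝒱.m * t) (hm0 : 0 < 𝒱.m) (hQ : 2 * vR 𝒱 ^ 4 + 1 ≤ t) (a : 𝒱.g.I) :
    a ∈ entCs 𝒱 ↔ t - (2 * vR 𝒱 ^ 4 + 1) ≤ (a.1 : ℕ) ∧ (a.1 : ℕ) ≤ t + 2 * vR 𝒱 ^ 4 ∧
      t - (2 * vR 𝒱 ^ 4 + 1) ≤ (a.2 : ℕ) ∧ (a.2 : ℕ) ≤ t + 2 * vR 𝒱 ^ 4 := by
  have eQ : (((𝒱.m / 𝒱.s : ℕ) : ℤ)) ^ 4 = ((vR 𝒱 ^ 4 : ℕ) : ℤ) := by unfold vR; push_cast; rfl
  unfold entCs entCst
  rw [eQ]
  generalize vR 𝒱 ^ 4 = Q at *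
  rw [Finset.mem_image]
  constructor
  · rintro ⟨B, hB, rfl⟩
    rw [Finset.mem_product, Finset.mem_Icc, Finset.mem_Icc] at hB
    obtain ⟨⟨p1, p2⟩, q1, q2⟩ := hB
    have := bemb_ctr 𝒱 hM hm0 B (B.1 + t).toNat (B.2 + t).toNat (by omega) (by omega) (by omega) (by omega)
    rw [this.1, this.2]
    omega
  · rintro ⟨p1, p2, q1, q2⟩
    refine ⟨((a.1 : ℤ) - t, (a.2 : ℤ) - t), ?_, ?_⟩
    · rw [Finset.mem_product, Finset.mem_Icc, Finset.mem_Icc]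
      simp only
      omega
    · have := bemb_ctr 𝒱 hM hm0 ((a.1 : ℤ) - t, (a.2 : ℤ) - t) (a.1 : ℕ) (a.2 : ℕ) (by simp) (by simp) (by omega) (by omega)
      exact Prod.ext (Fin.ext this.1) (Fin.ext this.2)

/-- **exit statement of the post GEO: the compulsory set of a marked square** -/
theorem geo_unit : GeoUStmt := by
  intro 𝒱 hfree hcen hgeo hnest hbig
  obtain ⟨t, hm, hs, hM, hcn, hgn, hQ⟩ := vol_arith 𝒱 hcen hgeo hbig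
  have h := hgeo.adm
  have hR := h.pos
  have h64 := h.d64
  have hm0 : 0 < 𝒱.m := by rw [hm]; positivity
  have hQ1 : 1 ≤ vR 𝒱 ^ 4 := Nat.one_le_pow _ _ hR
  have hc2 : 𝒱.c.n / 2 = vR 𝒱 * t := by rw [hcn]; exact Nat.mul_div_cancel_left _ (by norm_num)
  have hT0 : entT0 𝒱 = (false, true, t, t) := by
    unfold entT0
    rw [hc2, Nat.mul_div_cancel_left _ hR]
  have h5 : vR 𝒱 ^ 5 = vR 𝒱 * vR 𝒱 ^ 4 := by ring
  have ht0 : 0 < t := by omega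
  have hRt : vR 𝒱 ≤ vR 𝒱 * t := Nat.le_mul_of_pos_right _ ht0
  refine ⟨?_, ?_, ?_, ?_, ?_⟩
  · -- the central vertex tile
    have lt : vR 𝒱 * t < 𝒱.c.n := by rw [hcn]; omega
    have d := dm_of (R := vR 𝒱) (x := vR 𝒱 * t + vR 𝒱 / 4) (a := t) (u := vR 𝒱 / 4) rfl (by omega)
    have : tile 𝒱.c (vR 𝒱) ((⟨vR 𝒱 * t, lt⟩, ⟨vR 𝒱 * t, lt⟩) : 𝒱.c.I) = entT0 𝒱 := by
      rw [tile_V (i := ((⟨vR 𝒱 * t, lt⟩, ⟨vR 𝒱 * t, lt⟩) : 𝒱.c.I)) (by simp only; rw [d.2]; omega) (by simp only; rw [d.2]; omega), hT0]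
      simp only
      rw [d.1, red_free hfree]
    rw [← this]
    exact tile_mem_tiles _ _
  · intro i hi
    rw [mem_cellsOf, Finset.mem_singleton, hT0] at hi
    have hi2 : ((i.1 : ℕ) + vR 𝒱 / 4) % vR 𝒱 < vR 𝒱 / 2 ∧ ((i.2 : ℕ) + vR 𝒱 / 4) % vR 𝒱 < vR 𝒱 / 2 := by
      rcases tile_cases h i with ⟨q, -⟩ | ⟨-, e⟩ | ⟨-, e⟩ | ⟨-, e⟩
      · exact ⟨(near_iff h _).2 q.1, (near_iff h _).2 q.2⟩
      · rw [e] at hi; simp at hi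
      · rw [e] at hi; simp at hi
      · rw [e] at hi; simp at hi
    rw [tile_V hi2.1 hi2.2, red_free hfree, red_free hfree] at hi
    simp only [Prod.mk.injEq, true_and] at hi
    have e1 := Nat.div_add_mod ((i.1 : ℕ) + vR 𝒱 / 4) (vR 𝒱)
    have e2 := Nat.div_add_mod ((i.2 : ℕ) + vR 𝒱 / 4) (vR 𝒱)
    rw [hi.1] at e1
    rw [hi.2] at e2
    have hbig5 : vR 𝒱 ≤ vR 𝒱 ^ 5 := by rw [h5]; exact Nat.le_mul_of_pos_right _ (by omega)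
    unfold zone
    rw [Finset.mem_filter, hc2]
    refine ⟨Finset.mem_univ _, ?_, ?_⟩ <;> omega
  · intro i hi
    unfold zone at hi
    rw [Finset.mem_filter, hc2, h5] at hi
    obtain ⟨-, z1, z2⟩ := hi
    unfold under
    rw [Finset.mem_filter]
    refine ⟨Finset.mem_univ _, ?_⟩
    rw [mem_entCs 𝒱 hM hm0 (by omega)]
    show _ ≤ ((vNest 𝒱).up1 i.1 : ℕ) ∧ ((vNest 𝒱).up1 i.1 : ℕ) ≤ _ ∧ _ ≤ ((vNest 𝒱).up1 i.2 : ℕ) ∧ ((vNest 𝒱).up1 i.2 : ℕ) ≤ _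
    rw [hnest.2, hnest.2]
    have one : ∀ x : ℕ, ((x : ℤ) - ((vR 𝒱 * t : ℕ) : ℤ)).natAbs ≤ 2 * (vR 𝒱 * vR 𝒱 ^ 4) →
        t - (2 * vR 𝒱 ^ 4 + 1) ≤ x / vR 𝒱 ∧ x / vR 𝒱 ≤ t + 2 * vR 𝒱 ^ 4 := by
      intro x hx
      generalize vR 𝒱 ^ 4 = Q at *
      constructor
      · refine le_trans (by omega : t - (2 * Q + 1) ≤ t - 2 * Q) ?_
        rw [Nat.le_div_iff_mul_le hR, Nat.sub_mul]
        have e1 : t * vR 𝒱 = vR 𝒱 * t := by ring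
        have e2 : 2 * Q * vR 𝒱 = 2 * (vR 𝒱 * Q) := by ring
        omega
      · apply Nat.div_le_of_le_mul
        have e1 : vR 𝒱 * (t + 2 * Q) = vR 𝒱 * t + 2 * (vR 𝒱 * Q) := by ring
        omega
    exact ⟨(one _ z1).1, (one _ z1).2, (one _ z2).1, (one _ z2).2⟩
  · exact rect_conn 𝒱.g (by have := RR_ge; omega) (entCs 𝒱) (t - (2 * vR 𝒱 ^ 4 + 1)) (t + 2 * vR 𝒱 ^ 4) (by omega) (by omega)
      (mem_entCs 𝒱 hM hm0 (by omega))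
  · -- the events whose halo meets the zone
    have hR64 : 64 ≤ vR 𝒱 := Nat.le_of_dvd hR h64
    have hQ2 : 3 ≤ vR 𝒱 ^ 4 := by
      calc 3 ≤ 64 ^ 4 := by norm_num
        _ ≤ vR 𝒱 ^ 4 := Nat.pow_le_pow_left hR64 4
    rw [h5]
    generalize hQdef : vR 𝒱 ^ 4 = Q at *
    -- one coordinate
    have one : ∀ x σ : ℕ, σ ≤ vR 𝒱 / 4 → vR 𝒱 * t ≤ x + 2 * (vR 𝒱 * Q) + 2 * vR 𝒱 + vR 𝒱 / 4 →
        x ≤ vR 𝒱 * t + 2 * (vR 𝒱 * Q) + 2 * vR 𝒱 + vR 𝒱 / 4 →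
        t - (2 * Q + 3) ≤ (x + σ) / vR 𝒱 ∧ (x + σ) / vR 𝒱 ≤ t + 2 * Q + 3 := by
      intro x σ hσ h1 h2
      constructor
      · rw [Nat.le_div_iff_mul_le hR, Nat.sub_mul]
        have e1 : t * vR 𝒱 = vR 𝒱 * t := by ring
        have e2 : (2 * Q + 3) * vR 𝒱 = 2 * (vR 𝒱 * Q) + 3 * vR 𝒱 := by ring
        omega
      · apply Nat.div_le_of_le_mul
        have e1 : vR 𝒱 * (t + 2 * Q + 3) = vR 𝒱 * t + 2 * (vR 𝒱 * Q) + 3 * vR 𝒱 := by ring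
        omega
    have claim : ∀ k ∈ (events 𝒱.c (vR 𝒱)).filter fun k => ¬ Disjoint (halC 𝒱.c (vR 𝒱) {k}) (zone 𝒱.c (2 * (vR 𝒱 * Q))),
        ((k.1, k.2.1), (k.2.2.1, k.2.2.2)) ∈ (({(false, true), (true, true), (true, false)} : Finset (Bool × Bool)) ×ˢ
          (Finset.Icc (t - (2 * Q + 3)) (t + 2 * Q + 3) ×ˢ Finset.Icc (t - (2 * Q + 3)) (t + 2 * Q + 3))) := by
      intro k hk
      obtain ⟨hk, hm⟩ := Finset.mem_filter.1 hk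
      obtain ⟨j, hj, hjk⟩ := event_eq_tile hk
      obtain ⟨i, hi, hz⟩ := Finset.not_disjoint_iff.1 hm
      have hd := halC_near h hj hi
      have d1 := idist1_le_left j i
      have d2 := idist1_le_right j i
      rw [geo_idist1_free _ hfree] at d1 d2
      unfold zone at hz
      rw [Finset.mem_filter, hc2] at hz
      obtain ⟨-, z1, z2⟩ := hz
      have sh := key_shape h hk
      have o1 := fun σ hσ => one (j.1 : ℕ) σ hσ (by omega) (by omega)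
      have o2 := fun σ hσ => one (j.2 : ℕ) σ hσ (by omega) (by omega)
      have a0 := o1 0 (by omega)
      have b0 := o2 0 (by omega)
      have a4 := o1 (vR 𝒱 / 4) le_rfl
      have b4 := o2 (vR 𝒱 / 4) le_rfl
      have a16 := o1 (vR 𝒱 / 16) (by omega)
      have b16 := o2 (vR 𝒱 / 16) (by omega)
      rw [Nat.add_zero] at a0 b0
      rw [Finset.mem_product, Finset.mem_product, Finset.mem_Icc, Finset.mem_Icc]
      rcases tile_cases h j with ⟨-, e⟩ | ⟨-, e⟩ | ⟨-, e⟩ | ⟨-, e⟩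
      · rw [← hjk, e, red_free hfree, red_free hfree]
        exact ⟨by simp, a4, b4⟩
      · rw [← hjk, e, red_free hfree]
        exact ⟨by simp, a0, b16⟩
      · rw [← hjk, e, red_free hfree]
        exact ⟨by simp, a16, b0⟩
      · exfalso
        rw [← hjk, e] at sh
        simpa using sh rfl
    refine (Finset.card_le_card_of_injOn (fun k : EvId => ((k.1, k.2.1), (k.2.2.1, k.2.2.2))) claim ?_).trans ?_
    · intro k _ k' _ e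
      simp only [Prod.mk.injEq] at e
      exact Prod.ext e.1.1 (Prod.ext e.1.2 (Prod.ext e.2.1 e.2.2))
    · rw [Finset.card_product, Finset.card_product, Nat.card_Icc]
      have e3 : ({(false, true), (true, true), (true, false)} : Finset (Bool × Bool)).card = 3 := by decide
      rw [e3, show t + 2 * Q + 3 + 1 - (t - (2 * Q + 3)) = 4 * Q + 7 by omega]
      have : (4 * Q + 7) * (4 * Q + 7) ≤ (4 * Q + 8) ^ 2 := by nlinarith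
      omega

end Claimed.Agent.R285.Ent
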