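import Claimed.Agent.R285.Ent.Defs

/-!
# ROW 285, THE ENTRY ENGINE: INTERFACES AND EXIT STATEMENTS OF ALL POSTS            (owner helper56, ENTRY chief)
Nothing is sorried here: every exit theorem of a post is a `def …Stmt : Prop`.  A post proves `theorem … : …Stmt` in ITS OWN file; `Ent/Main.lean` (helper56) proves `F4b.initialization` from the `Stmt`s.
If a `Stmt` is false / too strong / inconvenient: tell helper56 at once, it is changed HERE.

## The tree
```
F4b.initialization  ⟸  Main (56):  IDENT + NORM + PROP (+ UNIT)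
  GEO   (108)  Ent/Geo.lean    metric facts of Ent/Defs: consumed by everybody (no Stmt: lemmas on demand, list in s6)
  LOC   (273)  Ent/Exp.lean    ExpStmt (expansion, multiplicativity, locality),  LinkStmt (|b_ℓ| ≤ C e^{-c len}),  IdentStmt (Hav = sc * ZA Kact)
  AVG   (176)  Ent/Avg.lean    CostStmt (calculus of `Bd`),  AvgStmt (Gaussian average of a `Bd`-bounded function)
  CPLX  (140)  Ent/Cplx.lean   NormStmt (three lines in the field, two constants in b, tree sum),  HolStmt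
  NORM  (229)  Ent/Phys.lean   PhysRStmt ⟸  BoxOK (generic reduction: guards, Markov, normalisers, P-boxes, translate)      [BoxOK is DEFINED by 229 + 109 + 262]
  MAJ          Ent/Maj.lean    MajStmt (trivial majorant of complex data)
  GOOD  (109)  Ent/Good.lean   BoxOK for xyWt, eventually in s  (soft inputs C3, POT-DECAY, F4a.pointwise_cutoff)
```
## Deviations from [F] s4.6-4.7 (all are simplifications; the algebra was re-derived)
1. `q = 1`, `m = R s`; two colours; proxies do not depend on marks; no proximity groups (see `Ent/Defs.lean`).   2. links: dyadic boxes around the first FACE.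
3. The pointwise bound of a factor is a FINITE SUM of exponentials of quadratic forms (`Cost`, `Bd`): one summand per assignment good/bad of the `P`-boxes.  A cost is `exp (κ + ½ ∑ coef_T E_T^τ (y))`.
   * form domination (ent:dominating-open-energy) is the ONE-LINE fact `∑ coef_T E_T ≤ (sup_i load i) E_D^0` (test the minimiser of `E_D`); `load` is additive under products;
   * trace bound (ent:entry-trace): `tr ≤ size = ∑ coef_T |T|` (`Entry.avg_trace_le_rank`); `Lwt θ` = what remains after averaging, multiplicative under products;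
   * a bad box has `coef ≈ 1 - c_*`, `κ ≤ - θ size - (threshold charge)`; a good box has `coef ≤ R^{-12}`; a link has `coef = C √|b_ℓ|` on the two-cell topology of each of its faces.
4. `W ≥ 1` is dropped, no Hölder.  Real translations are kept in the exit of NORM (`lam`): they give (ent:translated-copy), filled entries and the background of the unit sector.
5. complex fields (helper140): complex Cameron-Martin, `|EF (x + i C η)| ≤ e^{⟨η, C η⟩/2} ∫∫ |pfac|` at REAL observations: no rough strip, no three lines, no imaginary wall.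
   `Bd` with `H > 0` is only used qualitatively (any constant `C_R`, trivial majorant: post MAJ);  complex `b`: `Entry.two_constants`.
-/

set_option autoImplicit false

namespace Claimed.Agent.R285.Ent

open scoped BigOperators ENNReal NNReal
open MeasureTheory ProbabilityTheory
open Claimed.Agent.R285 Claimed.Agent.R285.RG Claimed.Agent.R285.F4a

noncomputable section

variable {G : Geom}

/-! ## 1. Geometry of a volume -/

/-- admissible isolation scale -/
structure GeoOK (c : Grid G) (R : ℕ) : Prop where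
  whole : Whole c
  r64 : 64 ∣ R
  pos : 0 < R
  dvd : R ∣ c.n
  big : 8 * R ≤ c.n

/-- the blocks are `R × R` cells -/
def NestOK {c g : Grid G} (N : Nest c g) (R : ℕ) : Prop := g.m = R * c.m ∧ ∀ i : Fin c.n, (N.up1 i : ℕ) = (i : ℕ) / R

/-- the cells under a set of blocks -/
def under {c g : Grid G} (N : Nest c g) (X : Finset g.I) : Finset c.I := Finset.univ.filter fun i => N.up i ∈ X

/-- the zone around the source of the marked square: cells at distance `≤ r` from the centre junction -/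
def zone (c : Grid G) (r : ℕ) : Finset c.I :=
  Finset.univ.filter fun i => ((i.1 : ℤ) - (c.n / 2 : ℕ)).natAbs ≤ r ∧ ((i.2 : ℤ) - (c.n / 2 : ℕ)).natAbs ≤ r

/-! ## 2. Costs -/

/-- one exponential of a quadratic form: `exp (κ + ½ ∑_{(T, coef) ∈ B} coef E_T^τ (y))` -/
structure Cost (c : Grid G) where
  κ : ℝ
  B : List (Top c × ℝ)

namespace Cost

variable {c : Grid G} (C : Cost c)

/-- the quadratic form -/
def q (a : ℝ) (τ : Face c → ℤ) (y : c.I → ℝ) : ℝ := (C.B.map fun p => p.2 * p.1.Eobs a τ y).sum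

/-- the value -/
def val (a : ℝ) (τ : Face c → ℤ) (y : c.I → ℝ) : ℝ := Real.exp (C.κ + C.q a τ y / 2)

open Classical in
/-- the coefficient carried by a cell -/
def load (i : c.I) : ℝ := (C.B.map fun p => if i ∈ p.1.cells then p.2 else 0).sum

/-- the bound of the trace -/
def size : ℝ := (C.B.map fun p => p.2 * (p.1.cells.card : ℝ)).sum

/-- what remains after averaging -/
def wt (θ : ℝ) : ℝ := Real.exp (C.κ + θ * C.size)

/-- the cost lives in `D` and no cell carries more than `h` -/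
structure In (D : Finset c.I) (h : ℝ) : Prop where
  ok : ∀ p ∈ C.B, p.1.Ok ∧ p.1.cells ⊆ D ∧ 0 ≤ p.2
  load : ∀ i, C.load i ≤ h

/-- product -/
def mul (C' : Cost c) : Cost c := ⟨C.κ + C'.κ, C.B ++ C'.B⟩

end Cost

variable {c g : Grid G}

/-- total weight of a list of costs -/
def Lwt (θ : ℝ) (L : List (Cost c)) : ℝ := (L.map fun C => C.wt θ).sum

/-- total value -/
def Lval (a : ℝ) (τ : Face c → ℤ) (L : List (Cost c)) (y : c.I → ℝ) : ℝ := (L.map fun C => C.val a τ y).sum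

/-- admissible imaginary parts of the observation on `D`: `|k| ≤ H`, `|∇ k| ≤ H / R`  (`H = 0`: real observations) -/
def imK (c : Grid G) (D : Finset c.I) (H : ℝ) (R : ℕ) : Set (c.I → ℝ) :=
  {k | (∀ i ∈ D, |k i| ≤ H) ∧ ∀ f : Face c, IsFace c f → f.1 ∈ D → fnb c f ∈ D → |k (fnb c f) - k f.1| ≤ H / R}

/-- pointwise domination on `ℝ^cells + i 𝒦` -/
def DomK (a : ℝ) (τ : Face c → ℤ) (𝒦 : Set (c.I → ℝ)) (F : (c.I → ℂ) → ℂ) (L : List (Cost c)) : Prop :=
  ∀ y : c.I → ℝ, ∀ k ∈ 𝒦, ‖F fun i => (y i : ℂ) + (k i : ℂ) * Complex.I‖ ≤ Lval a τ L y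

/-- **`F` is bounded in the region `D`, with load `≤ h`, by the weight `w` (after averaging with trace constant `θ`)** -/
def Bd (a : ℝ) (τ : Face c → ℤ) (R : ℕ) (H θ : ℝ) (D : Finset c.I) (h : ℝ) (F : (c.I → ℂ) → ℂ) (w : ℝ) : Prop :=
  ∃ L : List (Cost c), DomK a τ (imK c D H R) F L ∧ (∀ C ∈ L, C.In D h) ∧ Lwt θ L ≤ w

/-- the trace constant: loads `≤ h₁` are inflated to `h₂` (background of the unit sector), `h₁ < h₂ < h_*` -/
def thetaOf (h1 h2 : ℝ) : ℝ := h2 / (2 * h1 * (1 - h2))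

/-! ## 3. The physical input, in one volume -/

open Classical in
/-- **everything the engine uses about the sizes of the halo and tile factors.**  `Z` = zone of the source (`∅` in the centred sector), `H = 0`: real estimate, `gm` small; `H > 0`: crude estimate, `gm` any constant. -/
structure Phys (W : Wt c) (R : ℕ) (Z : Finset c.I) (a cb θ H gm big : ℝ) : Prop where
  halo : ∀ S, Valid c R S → Bd a W.τ R H θ (halC c R S) cb (W.halo R S)
    (gm ^ (S.filter fun k => Disjoint (halC c R {k}) Z).card * if Disjoint (halC c R S) Z then 1 else big)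
  tile : ∀ t ∈ tiles c R, Disjoint (cellsOf c R {t}) Z → Bd a W.τ R H θ (cellsOf c R {t}) cb (fun y => W.tfac R t y - 1) gm
  tileZ : ∀ t ∈ tiles c R, ¬ Disjoint (cellsOf c R {t}) Z → Bd a W.τ R H θ (cellsOf c R {t}) cb (W.tfac R t) big

open Classical in
/-- the POSITIVE pattern (no cancellation between the signed terms), real observations: what the majorant of complex data needs -/
structure PhysPos (W : Wt c) (R : ℕ) (Z : Finset c.I) (a cb θ CR big : ℝ) : Prop where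
  halo : ∀ S, Valid c R S → Bd a W.τ R 0 θ (halC c R S) cb (fun y => ∑ O ∈ S.powerset, ((‖W.haloTerm R S O y‖ : ℝ) : ℂ))
    (CR ^ (S.filter fun k => Disjoint (halC c R {k}) Z).card * if Disjoint (halC c R S) Z then 1 else big)
  tile : ∀ t ∈ tiles c R, Bd a W.τ R 0 θ (cellsOf c R {t}) cb (W.tfac R t) (if Disjoint (cellsOf c R {t}) Z then CR else big)

/-- the length of a link -/
def llen (c : Grid G) (R : ℕ) (l : Link c) : ℝ := 2 ^ l.2.2 * (R : ℝ) + c.idist l.1.1 l.2.1.1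

/-- (ent:link-bound) -/
def LinkOK (W : Wt c) (R : ℕ) (Cl cl : ℝ) : Prop := ∀ l : Link c, |W.lkc R l| ≤ Cl * Real.exp (-cl * llen c R l)

/-- a family of weights, holomorphic in the parameter -/
structure FamOK (W : ℂ → Wt c) (R : ℕ) (b0 r a cb θ H gm CR Cl cl : ℝ) : Prop where
  str : ∀ b ∈ Metric.ball (b0 : ℂ) r, (W b).Str
  tau : ∀ b, (W b).τ = 0
  Qc : ∀ b, (W b).Q = (W b0).Q
  Nc : ∀ b, (W b).N = (W b0).N
  hol : ∀ T y, DifferentiableOn ℂ (fun b => (W b).Zh T y) (Metric.ball (b0 : ℂ) r)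
  link : LinkOK (W b0) R Cl cl
  real : ∀ b : ℝ, |b - b0| < r → Phys (W b) R ∅ a cb θ 0 gm 1
  cplx : ∀ b ∈ Metric.ball (b0 : ℂ) r, Phys (W b) R ∅ a cb θ H CR 1

/-! ## 4. Exit statements -/

/-- the field `φ + lam + v/√a + i η` -/
def fld (a : ℝ) (φ lam v η : G.V → ℝ) : G.V → ℂ := fun x => ((φ x + lam x + v x / Real.sqrt a : ℝ) : ℂ) + (η x : ℂ) * Complex.I

/-- the energy of the background `∇ v + 2π τ` on the open topology of `D` -/
def etaSq (τ : Face c → ℤ) (v : G.V → ℝ) (D : Finset c.I) : ℝ := ∑ e : (Top.opn c D).graph.E, (Top.opn c D).eta τ v e ^ 2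

/-- integrability of the averaged function at the field `z` -/
def Itg (a : ℝ) (c : Grid G) (m : ℕ) (F : (c.I → ℂ) → ℂ) (z : G.V → ℂ) : Prop :=
  Integrable (fun p : (G.V → ℝ) × (c.I → ℝ) => F (obsv a c (z + toC p.1) p.2)) ((gauss G (Cless G m)).prod (noise c))

/-- **POST AVG, exit 1: the calculus of `Bd`.** -/
def CostStmt : Prop :=
  ∀ (G : Geom) (c : Grid G) (a : ℝ) (τ : Face c → ℤ) (R : ℕ) (H θ : ℝ), 0 ≤ θ →
    -- constants
    (∀ (D : Finset c.I) (h : ℝ) (z : ℂ), 0 ≤ h → Bd a τ R H θ D h (fun _ => z) ‖z‖) ∧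
    -- monotonicity
    (∀ (D D' : Finset c.I) (h h' w w' : ℝ) F, D ⊆ D' → h ≤ h' → w ≤ w' → Bd a τ R H θ D h F w → Bd a τ R H θ D' h' F w') ∧
    -- sums
    (∀ (D : Finset c.I) (h w w' : ℝ) F F', Bd a τ R H θ D h F w → Bd a τ R H θ D h F' w' → Bd a τ R H θ D h (fun y => F y + F' y) (w + w')) ∧
    -- products: loads add
    (∀ (D D' : Finset c.I) (h h' w w' : ℝ) F F', Bd a τ R H θ D h F w → Bd a τ R H θ D' h' F' w' →
      Bd a τ R H θ (D ∪ D') (h + h') (fun y => F y * F' y) (w * w')) ∧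
    -- products on disjoint regions: the load does not grow
    (∀ (D D' : Finset c.I) (h w w' : ℝ) F F', Disjoint D D' → Bd a τ R H θ D h F w → Bd a τ R H θ D' h F' w' →
      Bd a τ R H θ (D ∪ D') h (fun y => F y * F' y) (w * w'))

/-- **POST AVG, exit 2: Gaussian averaging** ((ent:dominating-open-energy), (ent:entry-completion), (ent:entry-trace), (ent:real-translation) and the deterministic cost of a background).
Centred sector: `τ = 0`, `v = 0`. -/
def AvgStmt : Prop :=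
  ∀ (a hs p1 h1 h2 : ℝ), 0 < a → 1 < p1 → p1 * hs < 1 → 0 < h1 → h1 < h2 → h2 < hs →
  ∃ Ct : ℝ, ∀ (G : Geom) (c g : Grid G) (N : Nest c g) (R : ℕ), Whole c → g.Ok → NestOK N R → 0 < R →
    ∀ (τ : Face c → ℤ) (X : Finset g.I) (F : (c.I → ℂ) → ℂ) (H w : ℝ), Continuous F →
      Bd a τ R H (thetaOf h1 h2) (under N X) h1 F w →
      ∀ φ lam v η : G.V → ℝ, (fun i => avg c (fun x => Real.sqrt a * η x) i) ∈ imK c (under N X) H R →
        Itg a c g.m F (fld a φ lam v η) ∧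
        ‖eav a c g.m F (fld a φ lam v η)‖ ≤ w * Real.exp (Vobs a hs p1 c g (Cless G g.m) X φ
          + Ct * openE a c (g.Dm X) (fun i => avg c (fun x => Real.sqrt a * lam x) i) + Ct * etaSq τ v (under N X))

/-- **POST LOC, exit 1: the finite expansion** (pointwise in the complex observation `y`). -/
def ExpStmt : Prop :=
  ∀ (G : Geom) (c g : Grid G) (N : Nest c g) (R : ℕ) (W : Wt c), GeoOK c R → NestOK N R → W.Str →
    -- (ent:finite-expansion)
    (∀ y, Complex.exp (W.En (Top.full c) y / 2) * W.Zh (Top.full c) y = (W.scal R : ℂ) * ∑ π ∈ (items c R).powerset, W.pfac R π y) ∧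
    (0 < W.scal R) ∧ (∀ y, W.pfac R ∅ y = 1) ∧
    -- multiplicativity
    (∀ π π', π ⊆ items c R → π' ⊆ items c R → g.Sep RR (cover N R π) (cover N R π') →
      ∀ y, W.pfac R (π ∪ π') y = W.pfac R π y * W.pfac R π' y) ∧
    -- locality, period, regularity
    (∀ π y y', (∀ i ∈ π.biUnion (icells c R), y i = y' i) → W.pfac R π y = W.pfac R π y') ∧
    (∀ π y, W.pfac R π (fun i => y i + 2 * Real.pi) = W.pfac R π y) ∧
    (∀ π, Differentiable ℂ (W.pfac R π)) ∧
    -- the labelled form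
    (∀ t0 ∈ tiles c R, (∀ y, ∑ π ∈ (items c R).powerset, W.pfacL R t0 π y = ∑ π ∈ (items c R).powerset, W.pfac R π y) ∧
      ∀ Cs : Finset g.I, N.cl (cellsOf c R {t0}) ⊆ Cs → ∀ π π', π ⊆ items c R → π' ⊆ items c R →
        g.Sep RR (Cs ∪ cover N R π) (cover N R π') → ∀ y, W.pfacL R t0 (π ∪ π') y = W.pfacL R t0 π y * W.pfac R π' y)

/-- **POST LOC, exit 2: the link coefficients** from `F4a.FaceLoc`, `F4a.guarded_face_error` and the exact cancellation of the junction terms `D_s σ_z²`. -/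
def LinkStmt : Prop :=
  ∀ a : ℝ, 0 < a → ∃ (Cl cl : ℝ) (k1 : ℕ), 0 < cl ∧ ∀ (G : Geom) (c : Grid G) (R : ℕ), GeoOK c R → 2 ^ k1 ≤ R →
    ∀ W : Wt c, (∀ T, W.Q T = T.Qmat a) → LinkOK W R Cl cl

/-- **POST LOC, exit 3: the subset identities** (ent:ordinary-subset), (ent:labelled-subset) from `ExpStmt`, `Ent/Alg.lean`, independence (`B4.low_range`, product noise) and the bridge `ZhatC = Zhat`, `En = Eobs` on real data.
`hI` : integrability of all averaged factors (exit of AVG + PHY). -/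
def IdentStmt : Prop :=
  ∀ (G : Geom) (c g : Grid G) (N : Nest c g) (R : ℕ) (a b0 b : ℝ), GeoOK c R → g.Ok → NestOK N R → 0 < a → 0 < b0 → 0 < b →
    ((∀ π ⊆ items c R, ∀ ψ : G.V → ℝ, Itg a c g.m ((xyWt c a b0 b 0).pfac R π) (toC ψ)) →
      TargetOrd b a c g ((xyWt c a b0 b 0).scal R / (Top.full c).Zobs b 0 0) ((xyWt c a b0 b 0).Kact a N R)) ∧
    (∀ (t0 : Tile) (Cs : Finset g.I) (K : Act g), t0 ∈ tiles c R → N.cl (cellsOf c R {t0}) ⊆ Cs → g.Conn RR Cs →
      (∀ X, g.Sep RR Cs X → K X = (xyWt c a b0 b (tauU c)).Kact a N R X) →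
      (∀ π ⊆ items c R, ∀ ψ : G.V → ℝ, Itg a c g.m ((xyWt c a b0 b (tauU c)).pfac R π) (toC ψ) ∧
        Itg a c g.m ((xyWt c a b0 b (tauU c)).pfacL R t0 π) (toC ψ)) →
      TargetLab b a c g ((xyWt c a b0 b (tauU c)).scal R / (Top.full c).Zobs b 0 0) 0 K ((xyWt c a b0 b (tauU c)).Jact a N R t0 Cs))

/-- **POST CPLX, exit 1: the norm of the centred activities** (L4.7 part 4 + completion + [E] P3.1).
Order: norms; `C_t`; `h₀`, `A_w`; constants of PHY and LINK; `C', c'`, `R` large; `C_R`; the fraction `ρ` of the parameter disc. -/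
def NormStmt : Prop :=
  ∀ (a hs p1 cb h1 h2 : ℝ), 0 < a → 1 < p1 → p1 * hs < 1 → 0 < cb → cb < h1 → h1 < h2 → h2 < hs →
  ∃ Ct : ℝ, 0 ≤ Ct ∧ ∀ (h0 : ℝ≥0) (A : ℝ), 1 ≤ A → ∀ (C cg Cl cl : ℝ), 0 < cg → 0 < cl →
  ∃ (C' c' : ℝ) (k1 : ℕ), 0 < c' ∧ ∀ kR ≥ k1, ∀ CR : ℝ, ∃ ρ : ℝ, 0 < ρ ∧ ρ ≤ 1 ∧
  ∀ (G : Geom) (c g : Grid G) (N : Nest c g), GeoOK c (2 ^ kR) → g.Ok → NestOK N (2 ^ kR) →
  ∀ (b0 r : ℝ) (W : ℂ → Wt c), 0 < r →
    FamOK W (2 ^ kR) b0 r a cb (thetaOf h1 h2) (5 * Real.sqrt a * h0) (C * Real.exp (-cg * 2 ^ kR)) CR Cl cl →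
  ∀ b ∈ Metric.ball (b0 : ℂ) (ρ * r), ∀ X : Finset g.I, X.Nonempty → ∀ (φ lam : G.V → ℝ) (f : G.V → ℂ), tnorm g X f < h0 →
    ∑ π ∈ (items c (2 ^ kR)).powerset.filter (fun π => cover N (2 ^ kR) π = X), ‖(W b).EF a g.m (2 ^ kR) π (toC φ + toC lam + f)‖
      ≤ C' * Real.exp (-c' * 2 ^ kR) * (A ^ X.card)⁻¹ * Real.exp (Vobs a hs p1 c g (Cless G g.m) X φ
          + Ct * openE a c (g.Dm X) (fun i => avg c (fun x => Real.sqrt a * lam x) i))

/-- **POST CPLX, exit 2: regularity** of the averaged factors, under the hypotheses of `NormStmt` (no smallness is used). -/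
def HolStmt : Prop :=
  ∀ (a hs p1 cb h1 h2 : ℝ), 0 < a → 1 < p1 → p1 * hs < 1 → 0 < cb → cb < h1 → h1 < h2 → h2 < hs →
  ∀ (h0 : ℝ≥0) (Cl cl : ℝ), 0 < cl → ∃ k1 : ℕ, ∀ kR ≥ k1,
  ∀ (G : Geom) (c g : Grid G) (N : Nest c g), GeoOK c (2 ^ kR) → g.Ok → NestOK N (2 ^ kR) →
  ∀ (b0 r gm CR : ℝ) (W : ℂ → Wt c), 0 < r → FamOK W (2 ^ kR) b0 r a cb (thetaOf h1 h2) (5 * Real.sqrt a * h0) gm CR Cl cl →
  ∀ π ⊆ items c (2 ^ kR),
    (∀ b ∈ Metric.ball (b0 : ℂ) r, Hol h0 g (cover N (2 ^ kR) π) ((W b).EF a g.m (2 ^ kR) π)) ∧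
    (∀ z ∈ strip h0 g (cover N (2 ^ kR) π), DifferentiableOn ℂ (fun b => (W b).EF a g.m (2 ^ kR) π z) (Metric.ball (b0 : ℂ) r)) ∧
    (∀ b ∈ Metric.ball (b0 : ℂ) r, ∀ z : G.V → ℂ, tnorm g (cover N (2 ^ kR) π) (fun v => (z v).im) ≤ h0 → Itg a c g.m ((W b).pfac (2 ^ kR) π) z)

/-- **POSTS NORM + GOOD, exit: the physical input for the cutoff XY height law** ([F] L4.7 parts 1, 2), real parameters, real observations.
Order: `c_*`; the load `cb > 1 - c_*`, the trace constant `θ`; `C, c_g`; `R`; `C_R, c_R`; `s`; the volume.  `U_big` is internal (after `R`, before `s`).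
Unit sector: zone of radius `2 R⁵`, total factor `C_R s^{C_R}`. -/
def PhysRStmt : Prop :=
  ∀ (b0 a : ℝ), 0 < b0 → 0 < a → aLim b0 = a → ∃ cstar : ℝ, 0 < cstar ∧ cstar < 1 ∧
  ∀ (cb θ : ℝ), 1 - cstar < cb → 0 ≤ θ → ∃ (C cg : ℝ) (k1 : ℕ), 0 < cg ∧ ∀ kR ≥ k1, ∃ (CR cR : ℝ) (k0 : ℕ), 1 ≤ CR ∧ 0 < cR ∧ ∀ ks ≥ k0,
  ∀ (G : Geom) (c : Grid G), GeoOK c (2 ^ kR) → c.m = 2 ^ ks → (2 ^ kR) ^ 5 ≤ c.n →
    (∀ b : ℝ, |b - b0| < cR / ((2 : ℝ) ^ ks) ^ 2 →
      Phys (xyWt c a b0 b 0) (2 ^ kR) ∅ a cb θ 0 (C * Real.exp (-cg * 2 ^ kR)) 1 ∧ PhysPos (xyWt c a b0 b 0) (2 ^ kR) ∅ a cb θ CR 1) ∧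
    (G.bc = BC.free → 2 * 2 ^ kR ∣ c.n → 8 * (2 ^ kR) ^ 5 ≤ c.n →
      Phys (xyWt c a b0 b0 (tauU c)) (2 ^ kR) (zone c (2 * (2 ^ kR) ^ 5)) a cb θ 0 (C * Real.exp (-cg * 2 ^ kR)) (CR * ((2 : ℝ) ^ ks) ^ CR) ∧
      PhysPos (xyWt c a b0 b0 (tauU c)) (2 ^ kR) (zone c (2 * (2 ^ kR) ^ 5)) a cb θ CR (CR * ((2 : ℝ) ^ ks) ^ CR))

/-- **POST MAJ, exit: the trivial majorant.**  `|\hat Z_T (b; y + i k)| ≤ e^{C_M |T|} \hat Z_T (|b|; y)` (`E2.besC_norm_le`, `|e^{-(x - i k)²/2}| = e^{-x²/2 + k²/2}`, `|χ (x + i η)| ≤ e^{η²/2} χ (x)`);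
`1 / |prox|`, `1 / |tdiv|` do not grow (`Re E (y + i k) = E (y) - E^0 (k)`, `E_O^0 ≥ E_C^0 ≥ 0`).  So the positive pattern at `|b|` dominates the halo factor at `(b, y + i k)`.  `nZ` bounds the number of events at the zone. -/
def MajStmt : Prop :=
  ∀ (a b0 H : ℝ) (R nZ : ℕ), 0 < a → 0 < b0 → 0 ≤ H → 0 < R → ∃ CM : ℝ, 1 ≤ CM ∧
  ∀ (G : Geom) (c : Grid G) (τ : Face c → ℤ) (Z : Finset c.I) (cb θ CR big : ℝ) (b : ℂ), GeoOK c R → 0 ≤ θ → 1 ≤ CR → 1 ≤ big →
    ((events c R).filter fun k => ¬ Disjoint (halC c R {k}) Z).card ≤ nZ →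
    ‖b - b0‖ < min b0 1 / (c.m : ℝ) ^ 2 → PhysPos (xyWt c a b0 ‖b‖ τ) R Z a cb θ CR big → Phys (xyWt c a b0 b τ) R Z a cb θ H (CM * CR) (CM * big)

end

end Claimed.Agent.R285.Ent
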