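import Claimed.Agent.R285.Ent.Iso
import Claimed.Agent.R285.Ent.If
import Claimed.Agent.R285.Geo.Grid

/-!
# ROW 285, THE ENTRY ENGINE: METRIC FACTS OF `Ent/Defs.lean`, GEOMETRY v2            (BP-ENT-GEO, helper108)
Everything in this file is proved.  Hypothesis everywhere: `Adm c R` (`0 < R`, `64 ∣ R`, `R ∣ c.n`, `2 R ≤ c.n`; `GeoOK.adm`), both boundary conventions.

* s1 one coordinate: `idist1_cases` (two cells at distance `≤ r < R` in the chart shifted by `σ`), `nx_cases` (one step of a face), `shift_cases`.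
* s2 **`tile_cases`** (the four kinds of tiles in coordinates), `swT`, `tile_swap` (exchange of the coordinates).
* s3 windows `Win`, boxes `Box c R k ρ` of the events; `keyOf`, `evKey_eq`, `face_box1`, `face_box`.
* s4 `core_box`, `nbh_box`, `key_shape`, `evKey_mem`, **`event_eq_tile`** (an event is the tile of a cell of its core), **`core_sep`** (events of one colour have distance `≥ 3R/16`),
  `nbh_disjoint`, `patch_disjoint`, `tpatch_disjoint`; `core ⊆ inner ⊆ patch ⊆ tpatch`, `patch_subset_nbh`, ...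
* s5 `topU_restr_congr`, `topU_restr_of_core`, `seen_in_patch`, **`halo_patch`** (in every halo topology the patch of a mark shows `topO` / `topC`),
  **`path_patch`** (the same on the path without marks), `valid_patch_disjoint`.
* s6 `patch_subset_tiles`, `tpatch_subset_tiles` (now by definition), `patch_subset_halC`, `tpatch_subset_halC`.
* s7 blocks: `AdmN N R` (`admN_of : GeoOK → g.Ok → NestOK → AdmN`), `up1_dist`, `up_dist`, `up_dist_le`, `up_dist_lt`.
* s8 `tile_diam` (`< R`), `box_diam`, `mem_halC`, `halC_near` (the halo of one mark lies within `< 3 R` of every cell of its core).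
* s9 covers of marks and tiles: `cov_mark_near` (3 blocks), `cov_mark_conn`, `cov_mark_card` (≤ 49), `cov_tile_near`, `cov_tile_conn`, `cov_tile_card` (≤ 9).
* s10 `marks_at` (≤ 784 marks at a block), `tiles_at` (≤ 16).
* s11 `Mbox_dead`, **`lkc_dead`**, `lfac_dead`: triples which are not `Live` (a non-face, or second face outside the box) have coefficient `0`.
* s12 live links: `lcells_near`, `lcells_reach`, **`cov_link_conn`**, **`cov_link_card`** (≤ 32·2^j + 48), **`links_at`**.
* s13 `mem_links`, `sum_linksAll`, **`cov_conn`** (the cover of every item is `RR`-connected).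
-/

set_option autoImplicit false

namespace Claimed.Agent.R285.Ent

open scoped BigOperators
open Claimed.Agent.R285 Claimed.Agent.R285.RG Claimed.Agent.R285.F4a Claimed.Agent.R285.Geo

variable {G : Geom} {c : Grid G} {R : ℕ}

/-- admissible isolation scales -/
structure Adm (c : Grid G) (R : ℕ) : Prop where
  pos : 0 < R
  d64 : 64 ∣ R
  dvd : R ∣ c.n
  big : 2 * R ≤ c.n

theorem GeoOK.adm (h : GeoOK c R) : Adm c R := ⟨h.pos, h.r64, h.dvd, by have := h.big; omega⟩

/-- quotient and remainder of two close numbers -/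
theorem dm_cases {R X X' r : ℕ} (hR : 0 < R) (hr : r < R) (h1 : X ≤ X' + r) (h2 : X' ≤ X + r) :
    (X / R = X' / R ∧ X % R ≤ X' % R + r ∧ X' % R ≤ X % R + r) ∨ (X / R + 1 = X' / R ∧ R + X' % R ≤ X % R + r) ∨
      (X / R = X' / R + 1 ∧ R + X % R ≤ X' % R + r) := by
  have e1 := Nat.div_add_mod X R
  have e2 := Nat.div_add_mod X' R
  have l1 := Nat.mod_lt X hR
  have l2 := Nat.mod_lt X' hR
  generalize X / R = A at *
  generalize X' / R = A' at *
  generalize X % R = U at *
  generalize X' % R = U' at *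
  rcases lt_trichotomy A A' with h | h | h
  · obtain ⟨t, rfl⟩ : ∃ t, A' = A + 1 + t := ⟨A' - A - 1, by omega⟩
    have e3 : R * (A + 1 + t) = R * A + R + R * t := by ring
    rcases Nat.eq_zero_or_pos t with rfl | ht
    · right; left
      constructor
      · rfl
      · omega
    · have : R ≤ R * t := Nat.le_mul_of_pos_right _ ht
      omega
  · left
    rw [h] at e1
    refine ⟨h, ?_, ?_⟩ <;> omega
  · obtain ⟨t, rfl⟩ : ∃ t, A = A' + 1 + t := ⟨A - A' - 1, by omega⟩
    have e3 : R * (A' + 1 + t) = R * A' + R + R * t := by ring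
    rcases Nat.eq_zero_or_pos t with rfl | ht
    · right; right
      constructor
      · rfl
      · omega
    · have : R ≤ R * t := Nat.le_mul_of_pos_right _ ht
      omega

/-! ## 1. One coordinate -/

theorem red_per (h : G.bc = BC.per) (k : ℕ) : red c R k = k % (c.n / R) := by
  unfold red; rw [h]

theorem red_free (h : G.bc = BC.free) (k : ℕ) : red c R k = k := by
  unfold red; rw [h]

/-- change of chart -/
theorem shift_cases {R : ℕ} (hR : 0 < R) (x σ : ℕ) (hσ : σ ≤ R) :
    (x % R + σ < R ∧ (x + σ) / R = x / R ∧ (x + σ) % R = x % R + σ) ∨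
      (R ≤ x % R + σ ∧ (x + σ) / R = x / R + 1 ∧ (x + σ) % R + R = x % R + σ) := by
  have e1 := Nat.div_add_mod x R
  have l1 := Nat.mod_lt x hR
  by_cases h : x % R + σ < R
  · left
    have := (Nat.div_mod_unique (a := x + σ) (c := x % R + σ) (d := x / R) hR).2 ⟨by omega, h⟩
    exact ⟨h, this.1, this.2⟩
  · right
    have := (Nat.div_mod_unique (a := x + σ) (c := x % R + σ - R) (d := x / R + 1) hR).2
      ⟨by rw [Nat.mul_add]; omega, by omega⟩
    exact ⟨by omega, this.1, by omega⟩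

theorem red_div (h : Adm c R) (x : Fin c.n) : red c R ((x : ℕ) / R) = (x : ℕ) / R := by
  rcases geo_bc_cases G with hb | hb
  · rw [red_per hb]
    exact Nat.mod_eq_of_lt (Nat.div_lt_div_of_lt_of_dvd h.dvd x.2)
  · rw [red_free hb]

theorem red_succ_inj {a b : ℕ} (hab : red c R (a + 1) = red c R (b + 1)) : red c R a = red c R b := by
  rcases geo_bc_cases G with hb | hb
  · rw [red_per hb, red_per hb] at *
    exact Nat.ModEq.add_right_cancel' 1 hab
  · rw [red_free hb, red_free hb] at *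
    omega

theorem red_succ_congr {a b : ℕ} (hab : red c R a = red c R b) : red c R (a + 1) = red c R (b + 1) := by
  rcases geo_bc_cases G with hb | hb
  · rw [red_per hb, red_per hb] at *
    exact Nat.ModEq.add_right 1 hab
  · rw [red_free hb, red_free hb] at *
    omega

/-- one step of a face, in the chart shifted by `σ` -/
theorem nx_cases (h : Adm c R) (x : Fin c.n) (σ : ℕ) (hf : G.bc = BC.per ∨ (x : ℕ) + 1 < c.n) :
    (((x : ℕ) + σ) % R + 1 < R ∧ ((nx x : ℕ) + σ) % R = ((x : ℕ) + σ) % R + 1 ∧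
        red c R (((nx x : ℕ) + σ) / R) = red c R (((x : ℕ) + σ) / R)) ∨
      (((x : ℕ) + σ) % R + 1 = R ∧ ((nx x : ℕ) + σ) % R = 0 ∧
        red c R (((nx x : ℕ) + σ) / R) = red c R (((x : ℕ) + σ) / R + 1)) := by
  have hx := x.2
  have key : ((nx x : ℕ) + σ) % R = ((x : ℕ) + σ + 1) % R ∧
      red c R (((nx x : ℕ) + σ) / R) = red c R (((x : ℕ) + σ + 1) / R) := by
    by_cases h1 : (x : ℕ) + 1 < c.n
    · have : (nx x : ℕ) = x + 1 := Nat.mod_eq_of_lt h1
      rw [this, show (x : ℕ) + 1 + σ = x + σ + 1 by ring]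
      exact ⟨rfl, rfl⟩
    · have hb : G.bc = BC.per := by
        rcases hf with hf | hf
        · exact hf
        · exact absurd hf h1
      have h2 : (x : ℕ) + 1 = c.n := by omega
      have : (nx x : ℕ) = 0 := by
        show ((x : ℕ) + 1) % c.n = 0
        rw [h2]; exact Nat.mod_self _
      obtain ⟨K, hK⟩ := h.dvd
      have hKd : c.n / R = K := by rw [hK]; exact Nat.mul_div_cancel_left _ h.pos
      rw [this, show (x : ℕ) + σ + 1 = 0 + σ + R * K by omega, red_per hb, red_per hb, hKd]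
      refine ⟨(Nat.add_mul_mod_self_left _ _ _).symm, ?_⟩
      rw [Nat.add_mul_div_left _ _ h.pos, Nat.add_mod_right]
  rw [key.1, key.2]
  have h64 : 1 ≤ R := h.pos
  rcases shift_cases h.pos ((x : ℕ) + σ) 1 h64 with q | q
  · left; exact ⟨q.1, q.2.2, by rw [q.2.1]⟩
  · right
    have := Nat.mod_lt ((x : ℕ) + σ) h.pos
    exact ⟨by omega, by omega, by rw [q.2.1]⟩

/-- **the metric lemma in one coordinate**: two cells at distance `≤ r < R`, in the chart shifted by `σ` -/
theorem idist1_cases (h : Adm c R) (x x' : Fin c.n) (σ : ℕ) {r : ℕ} (hr : r < R) (hd : c.idist1 x x' ≤ r) :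
    (red c R (((x : ℕ) + σ) / R) = red c R (((x' : ℕ) + σ) / R) ∧ ((x : ℕ) + σ) % R ≤ ((x' : ℕ) + σ) % R + r ∧
        ((x' : ℕ) + σ) % R ≤ ((x : ℕ) + σ) % R + r) ∨
      (red c R (((x : ℕ) + σ) / R + 1) = red c R (((x' : ℕ) + σ) / R) ∧ R + ((x' : ℕ) + σ) % R ≤ ((x : ℕ) + σ) % R + r) ∨
      (red c R (((x : ℕ) + σ) / R) = red c R (((x' : ℕ) + σ) / R + 1) ∧ R + ((x : ℕ) + σ) % R ≤ ((x' : ℕ) + σ) % R + r) := by
  have hx := x.2
  have hx' := x'.2
  rcases geo_bc_cases G with hb | hb
  · rw [geo_idist1_per c hb] at hd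
    obtain ⟨K, hK⟩ := h.dvd
    have hKd : c.n / R = K := by rw [hK]; exact Nat.mul_div_cancel_left _ h.pos
    simp only [red_per hb, hKd]
    by_cases h1 : ((x : ℤ) - x').natAbs ≤ r
    · rcases dm_cases (X := (x : ℕ) + σ) (X' := (x' : ℕ) + σ) h.pos hr (by omega) (by omega) with q | q | q
      · left; exact ⟨by rw [q.1], q.2⟩
      · right; left; exact ⟨by rw [q.1], q.2⟩
      · right; right; exact ⟨by rw [q.1], q.2⟩
    · have h2 : c.n - ((x : ℤ) - x').natAbs ≤ r := by omega
      rcases le_total (x : ℕ) x' with hxx | hxx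
      · -- x + n close to x'
        have d1 : ((x : ℕ) + σ + R * K) / R = ((x : ℕ) + σ) / R + K := Nat.add_mul_div_left _ _ h.pos
        have d2 : ((x : ℕ) + σ + R * K) % R = ((x : ℕ) + σ) % R := Nat.add_mul_mod_self_left _ _ _
        rcases dm_cases (X := (x : ℕ) + σ + R * K) (X' := (x' : ℕ) + σ) h.pos hr (by omega) (by omega) with q | q | q
        · left; rw [d1, d2] at q; exact ⟨by rw [← q.1, Nat.add_mod_right], q.2⟩
        · right; left; rw [d1, d2] at q
          exact ⟨by rw [← q.1, show ((x : ℕ) + σ) / R + K + 1 = ((x : ℕ) + σ) / R + 1 + K by ring, Nat.add_mod_right], q.2⟩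
        · right; right; rw [d1, d2] at q; exact ⟨by rw [← q.1, Nat.add_mod_right], q.2⟩
      · have d1 : ((x' : ℕ) + σ + R * K) / R = ((x' : ℕ) + σ) / R + K := Nat.add_mul_div_left _ _ h.pos
        have d2 : ((x' : ℕ) + σ + R * K) % R = ((x' : ℕ) + σ) % R := Nat.add_mul_mod_self_left _ _ _
        rcases dm_cases (X := (x : ℕ) + σ) (X' := (x' : ℕ) + σ + R * K) h.pos hr (by omega) (by omega) with q | q | q
        · left; rw [d1, d2] at q; exact ⟨by rw [q.1, Nat.add_mod_right], q.2⟩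
        · right; left; rw [d1, d2] at q; exact ⟨by rw [q.1, Nat.add_mod_right], q.2⟩
        · right; right; rw [d1, d2] at q
          exact ⟨by rw [q.1, show ((x' : ℕ) + σ) / R + K + 1 = ((x' : ℕ) + σ) / R + 1 + K by ring, Nat.add_mod_right], q.2⟩
  · rw [geo_idist1_free c hb] at hd
    simp only [red_free hb]
    exact dm_cases h.pos hr (by omega) (by omega)

/-! ## 2. Tiles in coordinates -/

theorem dm_of {R x a u : ℕ} (e : x = R * a + u) (hu : u < R) : x / R = a ∧ x % R = u :=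
  (Nat.div_mod_unique (Nat.zero_lt_of_lt hu)).2 ⟨by omega, hu⟩

/-- the band of a coordinate around the lines of the `R`-grid -/
theorem near_iff (h : Adm c R) (x : ℕ) : (x + R / 4) % R < R / 2 ↔ (x % R < R / 4 ∨ 3 * (R / 4) ≤ x % R) := by
  have h64 := h.d64
  have hp := h.pos
  have l1 := Nat.mod_lt x hp
  rcases shift_cases hp x (R / 4) (by omega) with q | q <;> omega

/-- the narrow band -/
theorem line_iff (h : Adm c R) (x : ℕ) : (x + R / 16) % R < R / 8 ↔ (x % R < R / 16 ∨ 15 * (R / 16) ≤ x % R) := by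
  have h64 := h.d64
  have hp := h.pos
  have l1 := Nat.mod_lt x hp
  rcases shift_cases hp x (R / 16) (by omega) with q | q <;> omega

theorem tile_V {i : c.I} (h1 : ((i.1 : ℕ) + R / 4) % R < R / 2) (h2 : ((i.2 : ℕ) + R / 4) % R < R / 2) :
    tile c R i = (false, true, red c R (((i.1 : ℕ) + R / 4) / R), red c R (((i.2 : ℕ) + R / 4) / R)) := if_pos ⟨h1, h2⟩

/-- **the four kinds of tiles** -/
theorem tile_cases (h : Adm c R) (i : c.I) :
    ((((i.1 : ℕ) % R < R / 4 ∨ 3 * (R / 4) ≤ (i.1 : ℕ) % R) ∧ ((i.2 : ℕ) % R < R / 4 ∨ 3 * (R / 4) ≤ (i.2 : ℕ) % R)) ∧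
        tile c R i = (false, true, red c R (((i.1 : ℕ) + R / 4) / R), red c R (((i.2 : ℕ) + R / 4) / R))) ∨
      (((R / 4 ≤ (i.1 : ℕ) % R ∧ (i.1 : ℕ) % R < 3 * (R / 4)) ∧ ((i.2 : ℕ) % R < R / 16 ∨ 15 * (R / 16) ≤ (i.2 : ℕ) % R)) ∧
        tile c R i = (true, true, (i.1 : ℕ) / R, red c R (((i.2 : ℕ) + R / 16) / R))) ∨
      ((((i.1 : ℕ) % R < R / 16 ∨ 15 * (R / 16) ≤ (i.1 : ℕ) % R) ∧ (R / 4 ≤ (i.2 : ℕ) % R ∧ (i.2 : ℕ) % R < 3 * (R / 4))) ∧
        tile c R i = (true, false, red c R (((i.1 : ℕ) + R / 16) / R), (i.2 : ℕ) / R)) ∨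
      ((((R / 4 ≤ (i.1 : ℕ) % R ∧ (i.1 : ℕ) % R < 3 * (R / 4)) ∧ (R / 16 ≤ (i.2 : ℕ) % R ∧ (i.2 : ℕ) % R < 15 * (R / 16))) ∨
          ((R / 16 ≤ (i.1 : ℕ) % R ∧ (i.1 : ℕ) % R < 15 * (R / 16)) ∧ (R / 4 ≤ (i.2 : ℕ) % R ∧ (i.2 : ℕ) % R < 3 * (R / 4)))) ∧
        tile c R i = (false, false, (i.1 : ℕ) / R, (i.2 : ℕ) / R)) := by
  have h64 := h.d64
  have n1 := near_iff h (i.1 : ℕ)
  have n2 := near_iff h (i.2 : ℕ)
  have l1 := line_iff h (i.1 : ℕ)
  have l2 := line_iff h (i.2 : ℕ)
  unfold tile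
  by_cases q1 : ((i.1 : ℕ) + R / 4) % R < R / 2 ∧ ((i.2 : ℕ) + R / 4) % R < R / 2
  · left
    rw [if_pos q1]
    exact ⟨⟨n1.1 q1.1, n2.1 q1.2⟩, rfl⟩
  · rw [if_neg q1]
    by_cases q2 : (R / 4 ≤ (i.1 : ℕ) % R ∧ (i.1 : ℕ) % R < 3 * (R / 4)) ∧ ((i.2 : ℕ) + R / 16) % R < R / 8
    · right; left
      rw [if_pos q2]
      exact ⟨⟨q2.1, l2.1 q2.2⟩, rfl⟩
    · rw [if_neg q2]
      by_cases q3 : ((i.1 : ℕ) + R / 16) % R < R / 8 ∧ (R / 4 ≤ (i.2 : ℕ) % R ∧ (i.2 : ℕ) % R < 3 * (R / 4))
      · right; right; left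
        rw [if_pos q3]
        exact ⟨⟨l1.1 q3.1, q3.2⟩, rfl⟩
      · right; right; right
        rw [if_neg q3]
        refine ⟨?_, rfl⟩
        have a1 : ¬ (((i.1 : ℕ) % R < R / 4 ∨ 3 * (R / 4) ≤ (i.1 : ℕ) % R) ∧ ((i.2 : ℕ) % R < R / 4 ∨ 3 * (R / 4) ≤ (i.2 : ℕ) % R)) :=
          fun z => q1 ⟨n1.2 z.1, n2.2 z.2⟩
        have a2 : ¬ ((R / 4 ≤ (i.1 : ℕ) % R ∧ (i.1 : ℕ) % R < 3 * (R / 4)) ∧ ((i.2 : ℕ) % R < R / 16 ∨ 15 * (R / 16) ≤ (i.2 : ℕ) % R)) :=
          fun z => q2 ⟨z.1, l2.2 z.2⟩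
        have a3 : ¬ (((i.1 : ℕ) % R < R / 16 ∨ 15 * (R / 16) ≤ (i.1 : ℕ) % R) ∧ (R / 4 ≤ (i.2 : ℕ) % R ∧ (i.2 : ℕ) % R < 3 * (R / 4))) :=
          fun z => q3 ⟨l1.2 z.1, z.2⟩
        omega

/-- exchange of the two coordinates, on tiles and events -/
def swT (t : Tile) : Tile := (t.1, (if t.1 then !t.2.1 else t.2.1), t.2.2.2, t.2.2.1)

theorem swT_swT (t : Tile) : swT (swT t) = t := by
  obtain ⟨a, b, p, q⟩ := t
  cases a <;> cases b <;> rfl

theorem tile_swap (h : Adm c R) (x y : Fin c.n) : tile c R (y, x) = swT (tile c R (x, y)) := by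
  have h64 := h.d64
  rcases tile_cases h (x, y) with ⟨c1, e1⟩ | ⟨c1, e1⟩ | ⟨c1, e1⟩ | ⟨c1, e1⟩ <;>
  rcases tile_cases h (y, x) with ⟨c2, e2⟩ | ⟨c2, e2⟩ | ⟨c2, e2⟩ | ⟨c2, e2⟩ <;>
  simp only at c1 c2 <;>
  first
    | (exfalso; omega)
    | (rw [e1, e2]; rfl)

/-! ## 3. Windows and boxes -/

/-- a window of one coordinate: in the chart shifted by `σ` the cell lies in the period `a`, at the places `[lo, hi)` -/
def Win (c : Grid G) (R σ a lo hi : ℕ) (x : Fin c.n) : Prop :=
  red c R (((x : ℕ) + σ) / R) = a ∧ lo ≤ ((x : ℕ) + σ) % R ∧ ((x : ℕ) + σ) % R < hi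

theorem Win.mono {σ a lo hi lo' hi' : ℕ} {x : Fin c.n} (hw : Win c R σ a lo hi x) (h1 : lo' ≤ lo) (h2 : hi ≤ hi') :
    Win c R σ a lo' hi' x := ⟨hw.1, h1.trans hw.2.1, hw.2.2.trans_le h2⟩

/-- neighbourhoods of windows -/
theorem Win.nbh (h : Adm c R) {σ a lo hi ρ : ℕ} {x x' : Fin c.n} (hw : Win c R σ a lo hi x) (hd : c.idist1 x x' ≤ ρ)
    (h1 : ρ ≤ lo) (h2 : hi + ρ ≤ R) : Win c R σ a (lo - ρ) (hi + ρ) x' := by
  obtain ⟨w1, w2, w3⟩ := hw
  have l' := Nat.mod_lt ((x' : ℕ) + σ) h.pos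
  rcases idist1_cases h x x' σ (r := ρ) (by omega) hd with q | q | q
  · exact ⟨by rw [← q.1, w1], by omega, by omega⟩
  · omega
  · omega

/-- close cells in two windows lie in the same period -/
theorem Win.sep (h : Adm c R) {σ a lo hi a' lo' hi' r : ℕ} {x x' : Fin c.n} (hw : Win c R σ a lo hi x)
    (hw' : Win c R σ a' lo' hi' x') (hd : c.idist1 x x' ≤ r) (h1 : hi + r ≤ R + lo') (h2 : hi' + r ≤ R + lo) (hr : r < R) :
    a = a' := by
  obtain ⟨w1, w2, w3⟩ := hw
  obtain ⟨w1', w2', w3'⟩ := hw'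
  rcases idist1_cases h x x' σ hr hd with q | q | q
  · rw [← w1, ← w1', q.1]
  · omega
  · omega

/-- cells in windows at different places are far from each other -/
theorem Win.far (h : Adm c R) {σ a lo hi a' lo' hi' r : ℕ} {x x' : Fin c.n} (hw : Win c R σ a lo hi x)
    (hw' : Win c R σ a' lo' hi' x') (h1 : hi + r ≤ lo' + 1) (h2 : hi' + r ≤ R + lo + 1) (hr : r < R) (hr0 : 0 < r) : r ≤ c.idist1 x x' := by
  obtain ⟨w1, w2, w3⟩ := hw
  obtain ⟨w1', w2', w3'⟩ := hw'
  by_contra hd
  rcases idist1_cases h x x' σ (r := r - 1) (by omega) (by omega) with q | q | q <;> omega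

/-- change of chart for a window -/
theorem Win.shift (h : Adm c R) {a lo hi σ : ℕ} {x : Fin c.n} (hw : Win c R 0 a lo hi x) (hσ : hi + σ ≤ R) :
    Win c R σ a (lo + σ) (hi + σ) x := by
  obtain ⟨w1, w2, w3⟩ := hw
  rw [Nat.add_zero] at w1 w2 w3
  rcases shift_cases h.pos (x : ℕ) σ (by omega) with q | q
  · exact ⟨by rw [q.2.1, w1], by omega, by omega⟩
  · omega

/-- a window in the chart `R / 2`, seen in the chart `R / 4` -/
theorem Win.quarter (h : Adm c R) {a lo hi : ℕ} {x : Fin c.n} (hw : Win c R (R / 2) a lo hi x) (hlo : R / 4 ≤ lo) :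
    Win c R (R / 4) a (lo - R / 4) (hi - R / 4) x := by
  obtain ⟨w1, w2, w3⟩ := hw
  have h64 := h.d64
  have hp := h.pos
  have e : (x : ℕ) + R / 2 = (x : ℕ) + R / 4 + R / 4 := by omega
  rw [e] at w1 w2 w3
  rcases shift_cases hp ((x : ℕ) + R / 4) (R / 4) (by omega) with q | q
  · exact ⟨by rw [← q.2.1, w1], by omega, by omega⟩
  · have := Nat.mod_lt ((x : ℕ) + R / 4) hp
    omega

/-- in the band of a line the two charts give the same line -/
theorem near_div (h : Adm c R) (x : ℕ) (hx : (x + R / 4) % R < R / 2) : (x + R / 4) / R = (x + R / 2) / R := by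
  have h64 := h.d64
  have hp := h.pos
  have e : x + R / 2 = x + R / 4 + R / 4 := by omega
  rw [e]
  rcases shift_cases hp (x + R / 4) (R / 4) (by omega) with q | q
  · exact q.2.1.symm
  · omega


theorem line_div (h : Adm c R) (x : ℕ) (hx : (x + R / 16) % R < R / 8) : (x + R / 16) / R = (x + R / 2) / R := by
  have h64 := h.d64
  have hp := h.pos
  have e : x + R / 2 = x + R / 16 + 7 * (R / 16) := by omega
  rw [e]
  rcases shift_cases hp (x + R / 16) (7 * (R / 16)) (by omega) with q | q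
  · exact q.2.1.symm
  · omega

/-- the three zones of a coordinate, as windows -/
theorem near_win (h : Adm c R) (x : Fin c.n) (hx : (x : ℕ) % R < R / 4 ∨ 3 * (R / 4) ≤ (x : ℕ) % R) :
    Win c R (R / 2) (red c R (((x : ℕ) + R / 4) / R)) (R / 4) (3 * (R / 4)) x := by
  have h64 := h.d64
  have hp := h.pos
  have l1 := Nat.mod_lt (x : ℕ) hp
  refine ⟨by rw [near_div h _ ((near_iff h _).2 hx)], ?_, ?_⟩ <;>
  rcases shift_cases hp (x : ℕ) (R / 2) (by omega) with q | q <;> omega

theorem line_win (h : Adm c R) (x : Fin c.n) (hx : (x : ℕ) % R < R / 16 ∨ 15 * (R / 16) ≤ (x : ℕ) % R) :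
    Win c R (R / 2) (red c R (((x : ℕ) + R / 16) / R)) (7 * (R / 16)) (9 * (R / 16)) x := by
  have h64 := h.d64
  have hp := h.pos
  have l1 := Nat.mod_lt (x : ℕ) hp
  refine ⟨by rw [line_div h _ ((line_iff h _).2 hx)], ?_, ?_⟩ <;>
  rcases shift_cases hp (x : ℕ) (R / 2) (by omega) with q | q <;> omega

theorem mid_win (h : Adm c R) (x : Fin c.n) {lo hi : ℕ} (hx : lo ≤ (x : ℕ) % R ∧ (x : ℕ) % R < hi) :
    Win c R 0 ((x : ℕ) / R) lo hi x :=
  ⟨by rw [Nat.add_zero]; exact red_div h x, by rw [Nat.add_zero]; exact hx.1, by rw [Nat.add_zero]; exact hx.2⟩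

/-- one step of a face, in windows -/
theorem Win.step_up (h : Adm c R) {σ a lo hi : ℕ} {x : Fin c.n} (hf : G.bc = BC.per ∨ (x : ℕ) + 1 < c.n)
    (hw : Win c R σ a lo hi x) (hhi : hi < R) : Win c R σ a (lo + 1) (hi + 1) (nx x) := by
  obtain ⟨w1, w2, w3⟩ := hw
  rcases nx_cases h x σ hf with q | q
  · exact ⟨by rw [q.2.2, w1], by omega, by omega⟩
  · omega

theorem Win.step_down (h : Adm c R) {σ a lo hi : ℕ} {x : Fin c.n} (hf : G.bc = BC.per ∨ (x : ℕ) + 1 < c.n)
    (hw : Win c R σ a lo hi (nx x)) (hlo : 0 < lo) : Win c R σ a (lo - 1) (hi - 1) x := by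
  obtain ⟨w1, w2, w3⟩ := hw
  rcases nx_cases h x σ hf with q | q
  · exact ⟨by rw [← q.2.2, w1], by omega, by omega⟩
  · omega

/-- the box of an event, enlarged by `ρ` -/
def Box (c : Grid G) (R : ℕ) (k : EvId) (ρ : ℕ) (i : c.I) : Prop :=
  if k.1 then
    if k.2.1 then
      Win c R 0 k.2.2.1 (R / 4 - ρ) (3 * (R / 4) + ρ) i.1 ∧ Win c R (R / 2) k.2.2.2 (7 * (R / 16) - 1 - ρ) (9 * (R / 16) + 1 + ρ) i.2
    else
      Win c R (R / 2) k.2.2.1 (7 * (R / 16) - 1 - ρ) (9 * (R / 16) + 1 + ρ) i.1 ∧ Win c R 0 k.2.2.2 (R / 4 - ρ) (3 * (R / 4) + ρ) i.2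
  else
    Win c R (R / 2) k.2.2.1 (R / 4 - 1 - ρ) (3 * (R / 4) + 1 + ρ) i.1 ∧ Win c R (R / 2) k.2.2.2 (R / 4 - 1 - ρ) (3 * (R / 4) + 1 + ρ) i.2

theorem Box_swap (k : EvId) (ρ : ℕ) (x y : Fin c.n) : Box c R (swT k) ρ (y, x) ↔ Box c R k ρ (x, y) := by
  obtain ⟨a, b, p, q⟩ := k
  cases a <;> cases b <;> simp [Box, swT, and_comm]

/-- the event of a pair of adjacent tiles -/
def keyOf (t t' : Tile) : EvId :=
  if t.1 = false ∧ t.2.1 = true then t else if t'.1 = false ∧ t'.2.1 = true then t' else if t.1 = true then t else t'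

theorem evKey_eq (f : Face c) : evKey c R f = keyOf (tile c R f.1) (tile c R (fnb c f)) := rfl

theorem keyOf_swap (t t' : Tile) : keyOf (swT t) (swT t') = swT (keyOf t t') := by
  obtain ⟨a, b, p, q⟩ := t
  obtain ⟨a', b', p', q'⟩ := t'
  cases a <;> cases b <;> cases a' <;> cases b' <;> rfl

/-- a seam face which steps in the first coordinate -/
theorem face_box1 (h : Adm c R) (x y : Fin c.n) (hf : G.bc = BC.per ∨ (x : ℕ) + 1 < c.n)
    (hne : tile c R (nx x, y) ≠ tile c R (x, y)) :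
    Box c R (keyOf (tile c R (x, y)) (tile c R (nx x, y))) 0 (x, y) ∧ Box c R (keyOf (tile c R (x, y)) (tile c R (nx x, y))) 0 (nx x, y) ∧
      ((keyOf (tile c R (x, y)) (tile c R (nx x, y))).1 = false → (keyOf (tile c R (x, y)) (tile c R (nx x, y))).2.1 = true) := by
  have h64 := h.d64
  have hp := h.pos
  have lx := Nat.mod_lt (x : ℕ) hp
  have s0 := nx_cases h x 0 hf
  simp only [Nat.add_zero, red_div h] at s0
  rcases tile_cases h (x, y) with ⟨c1, e1⟩ | ⟨c1, e1⟩ | ⟨c1, e1⟩ | ⟨c1, e1⟩ <;>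
  rcases tile_cases h (nx x, y) with ⟨c2, e2⟩ | ⟨c2, e2⟩ | ⟨c2, e2⟩ | ⟨c2, e2⟩ <;>
  simp only at c1 c2
  · -- V, V
    exfalso
    apply hne
    rw [e1, e2]
    have := (near_iff h (x : ℕ)).2 c1.1
    rcases nx_cases h x (R / 4) hf with q | q
    · simp only; rw [q.2.2]
    · omega
  · -- V, Eh
    rw [e1, e2]
    have wx := near_win h x c1.1
    have wy := near_win h y c1.2
    have wn := wx.step_up h hf (by omega)
    refine ⟨?_, ?_, fun _ => rfl⟩
    · simpa [keyOf, Box] using ⟨wx.mono (by omega) (by omega), wy.mono (by omega) (by omega)⟩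
    · simpa [keyOf, Box] using ⟨wn.mono (by omega) (by omega), wy.mono (by omega) (by omega)⟩
  · exfalso; omega
  · -- V, F
    rw [e1, e2]
    have wx := near_win h x c1.1
    have wy := near_win h y c1.2
    have wn := wx.step_up h hf (by omega)
    refine ⟨?_, ?_, fun _ => rfl⟩
    · simpa [keyOf, Box] using ⟨wx.mono (by omega) (by omega), wy.mono (by omega) (by omega)⟩
    · simpa [keyOf, Box] using ⟨wn.mono (by omega) (by omega), wy.mono (by omega) (by omega)⟩
  · -- Eh, V
    rw [e1, e2]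
    have wn := near_win h (nx x) c2.1
    have wy := near_win h y c2.2
    have wx := wn.step_down h hf (by omega)
    refine ⟨?_, ?_, fun _ => rfl⟩
    · simpa [keyOf, Box] using ⟨wx.mono (by omega) (by omega), wy.mono (by omega) (by omega)⟩
    · simpa [keyOf, Box] using ⟨wn.mono (by omega) (by omega), wy.mono (by omega) (by omega)⟩
  · -- Eh, Eh
    exfalso
    apply hne
    rw [e1, e2]
    rcases s0 with q | q
    · simp only; rw [q.2.2]
    · omega
  · exfalso; omega
  · exfalso; omega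
  · exfalso; omega
  · exfalso; omega
  · -- Ev, Ev
    exfalso
    apply hne
    rw [e1, e2]
    have := (line_iff h (x : ℕ)).2 c1.1
    rcases nx_cases h x (R / 16) hf with q | q
    · simp only; rw [q.2.2]
    · omega
  · -- Ev, F
    rw [e1, e2]
    have wx := line_win h x c1.1
    have wy := mid_win h y c1.2
    have wn := wx.step_up h hf (by omega)
    refine ⟨?_, ?_, fun e => by simp [keyOf] at e⟩
    · simpa [keyOf, Box] using ⟨wx.mono (by omega) (by omega), wy⟩
    · simpa [keyOf, Box] using ⟨wn.mono (by omega) (by omega), wy⟩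
  · -- F, V
    rw [e1, e2]
    have wn := near_win h (nx x) c2.1
    have wy := near_win h y c2.2
    have wx := wn.step_down h hf (by omega)
    refine ⟨?_, ?_, fun _ => rfl⟩
    · simpa [keyOf, Box] using ⟨wx.mono (by omega) (by omega), wy.mono (by omega) (by omega)⟩
    · simpa [keyOf, Box] using ⟨wn.mono (by omega) (by omega), wy.mono (by omega) (by omega)⟩
  · exfalso; omega
  · -- F, Ev
    rw [e1, e2]
    have wn := line_win h (nx x) c2.1
    have wy := mid_win h y c2.2
    have wx := wn.step_down h hf (by omega)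
    refine ⟨?_, ?_, fun e => by simp [keyOf] at e⟩
    · simpa [keyOf, Box] using ⟨wx.mono (by omega) (by omega), wy⟩
    · simpa [keyOf, Box] using ⟨wn.mono (by omega) (by omega), wy⟩
  · -- F, F
    exfalso
    apply hne
    rw [e1, e2]
    rcases s0 with q | q
    · simp only; rw [q.2.2]
    · omega

/-- both cells of a seam face lie in the box of its event; shape of the keys -/
theorem face_box (h : Adm c R) {f : Face c} (hf : f ∈ seam c R) :
    Box c R (evKey c R f) 0 f.1 ∧ Box c R (evKey c R f) 0 (fnb c f) ∧ ((evKey c R f).1 = false → (evKey c R f).2.1 = true) := by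
  obtain ⟨hF, hne⟩ := mem_seam.1 hf
  obtain ⟨⟨p, q⟩, d⟩ := f
  rw [evKey_eq]
  cases d
  · have hF' : G.bc = BC.per ∨ (q : ℕ) + 1 < c.n := by simpa [IsFace] using hF
    have e1 : fnb c ((p, q), false) = (p, nx q) := rfl
    rw [e1] at hne ⊢
    have hne' : tile c R (nx q, p) ≠ tile c R (q, p) := by
      intro e
      apply hne
      rw [tile_swap h (nx q) p, tile_swap h q p, e]
    obtain ⟨b1, b2, b3⟩ := face_box1 h q p hF' hne'
    show Box c R (keyOf (tile c R (p, q)) (tile c R (p, nx q))) 0 (p, q) ∧ Box c R (keyOf (tile c R (p, q)) (tile c R (p, nx q))) 0 (p, nx q) ∧ _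
    rw [tile_swap h q p, tile_swap h (nx q) p, keyOf_swap]
    refine ⟨(Box_swap _ _ _ _).2 b1, (Box_swap _ _ _ _).2 b2, ?_⟩
    intro e
    have e' : (keyOf (tile c R (q, p)) (tile c R (nx q, p))).1 = false := e
    have := b3 e'
    simp only [swT, e', this]
    rfl
  · have hF' : G.bc = BC.per ∨ (p : ℕ) + 1 < c.n := by simpa [IsFace] using hF
    exact face_box1 h p q hF' hne

/-! ## 4. Cores, neighbourhoods, separation of the events of one colour -/

theorem mem_nbh {r : ℕ} {A : Finset c.I} {i : c.I} : i ∈ nbh c r A ↔ ∃ a ∈ A, c.idist a i ≤ r := by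
  classical
  simp [nbh]

theorem subset_nbh (r : ℕ) (A : Finset c.I) : A ⊆ nbh c r A := fun i hi =>
  mem_nbh.2 ⟨i, hi, by rw [geo_idist_self]; exact Nat.zero_le _⟩

theorem nbh_mono {r r' : ℕ} (hr : r ≤ r') {A A' : Finset c.I} (hA : A ⊆ A') : nbh c r A ⊆ nbh c r' A' := fun i hi => by
  obtain ⟨a, ha, hd⟩ := mem_nbh.1 hi
  exact mem_nbh.2 ⟨a, hA ha, hd.trans hr⟩

theorem nbh_nbh (r r' : ℕ) (A : Finset c.I) : nbh c r' (nbh c r A) ⊆ nbh c (r + r') A := fun i hi => by
  obtain ⟨a, ha, hd⟩ := mem_nbh.1 hi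
  obtain ⟨b, hb, hd'⟩ := mem_nbh.1 ha
  exact mem_nbh.2 ⟨b, hb, (geo_idist_triangle c b a i).trans (by omega)⟩

theorem mem_core {k : EvId} {i : c.I} : i ∈ core c R k ↔ ∃ f ∈ seam c R, evKey c R f = k ∧ (i = f.1 ∨ i = fnb c f) := by
  unfold core cutF
  simp only [Finset.mem_union, Finset.mem_image, Finset.mem_filter]
  constructor
  · rintro (⟨f, ⟨h1, h2⟩, rfl⟩ | ⟨f, ⟨h1, h2⟩, rfl⟩)
    · exact ⟨f, h1, h2, Or.inl rfl⟩
    · exact ⟨f, h1, h2, Or.inr rfl⟩
  · rintro ⟨f, h1, h2, rfl | rfl⟩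
    · exact Or.inl ⟨f, ⟨h1, h2⟩, rfl⟩
    · exact Or.inr ⟨f, ⟨h1, h2⟩, rfl⟩

theorem core_subset_ctl (k : EvId) : core c R k ⊆ ctl c R k := fun i hi => by
  unfold ctl
  rw [mem_cellsOf]
  exact Finset.mem_image_of_mem _ hi

theorem patch_subset_nbh (k : EvId) : patch c R k ⊆ nbh c (R / 32) (core c R k) := Finset.inter_subset_left
theorem inner_subset_nbh (k : EvId) : inner c R k ⊆ nbh c (R / 64) (core c R k) := Finset.inter_subset_left
theorem tpatch_subset_nbh (k : EvId) : tpatch c R k ⊆ nbh c (R / 16) (core c R k) := Finset.inter_subset_left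
theorem core_subset_patch (k : EvId) : core c R k ⊆ patch c R k := Finset.subset_inter (subset_nbh _ _) (core_subset_ctl k)
theorem core_subset_inner (k : EvId) : core c R k ⊆ inner c R k := Finset.subset_inter (subset_nbh _ _) (core_subset_ctl k)
theorem inner_subset_patch (k : EvId) : inner c R k ⊆ patch c R k :=
  Finset.inter_subset_inter_right (nbh_mono (Nat.div_le_div_left (by norm_num) (by norm_num)) (Finset.Subset.refl _))
theorem patch_subset_tpatch (k : EvId) : patch c R k ⊆ tpatch c R k :=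
  Finset.inter_subset_inter_right (nbh_mono (Nat.div_le_div_left (by norm_num) (by norm_num)) (Finset.Subset.refl _))

theorem core_box (h : Adm c R) {k : EvId} {i : c.I} (hi : i ∈ core c R k) : Box c R k 0 i := by
  obtain ⟨f, hf, rfl, rfl | rfl⟩ := mem_core.1 hi
  · exact (face_box h hf).1
  · exact (face_box h hf).2.1

/-- shape of the keys of events: rings are `(false, true, a, b)` -/
theorem key_shape (h : Adm c R) {k : EvId} (hk : k ∈ events c R) : k.1 = false → k.2.1 = true := by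
  obtain ⟨f, hf, rfl⟩ := Finset.mem_image.1 hk
  exact (face_box h hf).2.2

/-- an event is the tile of one of the cells of each of its faces -/
theorem evKey_mem (f : Face c) : evKey c R f = tile c R f.1 ∨ evKey c R f = tile c R (fnb c f) := by
  unfold evKey
  split_ifs
  · exact Or.inl rfl
  · exact Or.inr rfl
  · exact Or.inl rfl
  · exact Or.inr rfl

theorem core_ne {k : EvId} (hk : k ∈ events c R) : (core c R k).Nonempty := by
  obtain ⟨f, hf, rfl⟩ := Finset.mem_image.1 hk
  exact ⟨f.1, (mem_core_of_key hf).1⟩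

theorem mem_events_of_core {k : EvId} {i : c.I} (hi : i ∈ core c R k) : k ∈ events c R := by
  obtain ⟨f, hf, rfl, -⟩ := mem_core.1 hi
  exact Finset.mem_image_of_mem _ hf

/-- **an event is the tile of a cell of its core** -/
theorem event_eq_tile {k : EvId} (hk : k ∈ events c R) : ∃ j ∈ core c R k, tile c R j = k := by
  obtain ⟨f, hf, rfl⟩ := Finset.mem_image.1 hk
  rcases evKey_mem (R := R) f with e | e
  · exact ⟨f.1, (mem_core_of_key hf).1, e.symm⟩
  · exact ⟨fnb c f, (mem_core_of_key hf).2, e.symm⟩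

theorem idist1_le_left (a b : c.I) : c.idist1 a.1 b.1 ≤ c.idist a b := le_max_left _ _
theorem idist1_le_right (a b : c.I) : c.idist1 a.2 b.2 ≤ c.idist a b := le_max_right _ _

/-- neighbourhoods of cores lie in the enlarged boxes -/
theorem nbh_box (h : Adm c R) {k : EvId} {ρ : ℕ} (hρ : ρ ≤ R / 8) {i : c.I} (hi : i ∈ nbh c ρ (core c R k)) : Box c R k ρ i := by
  obtain ⟨a, ha, hd⟩ := mem_nbh.1 hi
  have hb := core_box h ha
  have h64 := h.d64
  have hp := h.pos
  have d1 := (idist1_le_left a i).trans hd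
  have d2 := (idist1_le_right a i).trans hd
  unfold Box at hb ⊢
  simp only [Nat.sub_zero, Nat.add_zero] at hb
  split_ifs at hb ⊢
  · exact ⟨hb.1.nbh h d1 (by omega) (by omega), hb.2.nbh h d2 (by omega) (by omega)⟩
  · exact ⟨hb.1.nbh h d1 (by omega) (by omega), hb.2.nbh h d2 (by omega) (by omega)⟩
  · exact ⟨hb.1.nbh h d1 (by omega) (by omega), hb.2.nbh h d2 (by omega) (by omega)⟩

/-- **events of one colour have distance `≥ 3 R / 16`** -/
theorem core_sep (h : Adm c R) {k k' : EvId} (hc : k.1 = k'.1) {i i' : c.I} (hi : i ∈ core c R k) (hi' : i' ∈ core c R k')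
    (hd : c.idist i i' + 1 ≤ 3 * (R / 16)) : k = k' := by
  have hb := core_box h hi
  have hb' := core_box h hi'
  have s := key_shape h (mem_events_of_core hi)
  have s' := key_shape h (mem_events_of_core hi')
  have h64 := h.d64
  have hp := h.pos
  have d1 := idist1_le_left i i'
  have d2 := idist1_le_right i i'
  obtain ⟨b, d, p, q⟩ := k
  obtain ⟨b', d', p', q'⟩ := k'
  simp only at hc s s'
  subst hc
  unfold Box at hb hb'
  simp only [Nat.sub_zero, Nat.add_zero] at hb hb'
  cases b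
  · simp only [Bool.false_eq_true, if_false] at hb hb'
    have e1 := hb.1.sep h hb'.1 (r := 3 * (R / 16)) (by omega) (by omega) (by omega) (by omega)
    have e2 := hb.2.sep h hb'.2 (r := 3 * (R / 16)) (by omega) (by omega) (by omega) (by omega)
    rw [s rfl, s' rfl, e1, e2]
  · simp only [if_true] at hb hb'
    cases d <;> cases d'
    · simp only [Bool.false_eq_true, if_false] at hb hb'
      have e1 := hb.1.sep h hb'.1 (r := 3 * (R / 16)) (by omega) (by omega) (by omega) (by omega)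
      have e2 := hb.2.sep h hb'.2 (r := 3 * (R / 16)) (by omega) (by omega) (by omega) (by omega)
      rw [e1, e2]
    · exfalso
      simp only [Bool.false_eq_true, if_false, if_true] at hb hb'
      have w1 := hb'.1.shift h (σ := R / 4) (by omega)
      have w2 := hb.1.quarter h (by omega)
      have := w2.far h w1 (r := 3 * (R / 16)) (by omega) (by omega) (by omega) (by omega)
      omega
    · exfalso
      simp only [Bool.false_eq_true, if_false, if_true] at hb hb'
      have w1 := hb.1.shift h (σ := R / 4) (by omega)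
      have w2 := hb'.1.quarter h (by omega)
      have := w2.far h w1 (r := 3 * (R / 16)) (by omega) (by omega) (by omega) (by omega)
      rw [geo_idist1_comm] at this
      omega
    · simp only [if_true] at hb hb'
      have e1 := hb.1.sep h hb'.1 (r := 3 * (R / 16)) (by omega) (by omega) (by omega) (by omega)
      have e2 := hb.2.sep h hb'.2 (r := 3 * (R / 16)) (by omega) (by omega) (by omega) (by omega)
      rw [e1, e2]

/-- neighbourhoods of different events of one colour are disjoint -/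
theorem nbh_disjoint (h : Adm c R) {k k' : EvId} (hc : k.1 = k'.1) (hne : k ≠ k') {r r' : ℕ} (hr : r + r' + 1 ≤ 3 * (R / 16)) :
    Disjoint (nbh c r (core c R k)) (nbh c r' (core c R k')) := by
  rw [Finset.disjoint_left]
  intro i hi hi'
  obtain ⟨a, ha, hd⟩ := mem_nbh.1 hi
  obtain ⟨a', ha', hd'⟩ := mem_nbh.1 hi'
  have t := geo_idist_triangle c a i a'
  rw [geo_idist_comm c i a'] at t
  exact hne (core_sep h hc ha ha' (by omega))

theorem patch_disjoint (h : Adm c R) {k k' : EvId} (hc : k.1 = k'.1) (hne : k ≠ k') : Disjoint (patch c R k) (patch c R k') :=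
  (nbh_disjoint h hc hne (by have := h.d64; have := h.pos; omega)).mono (patch_subset_nbh k) (patch_subset_nbh k')

theorem tpatch_disjoint (h : Adm c R) {k k' : EvId} (hc : k.1 = k'.1) (hne : k ≠ k') : Disjoint (tpatch c R k) (tpatch c R k') :=
  (nbh_disjoint h hc hne (by have := h.d64; have := h.pos; omega)).mono (tpatch_subset_nbh k) (tpatch_subset_nbh k')

/-! ## 5. The topologies seen in a patch: every proxy which occurs is the proxy of the path without marks -/

/-- a restricted cut topology depends only on the events with a face inside -/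
theorem topU_restr_congr {U U' : Finset EvId} {O : Finset c.I}
    (hU : ∀ f ∈ seam c R, f.1 ∈ O → fnb c f ∈ O → (evKey c R f ∈ U ↔ evKey c R f ∈ U')) :
    (topU c R U).restr O = (topU c R U').restr O := by
  classical
  unfold Top.restr
  refine top_ext rfl ?_
  ext f
  simp only [Finset.mem_filter, mem_topU_faces]
  constructor
  · rintro ⟨⟨h1, h2⟩, h3, h4⟩
    refine ⟨⟨h1, ?_⟩, h3, h4⟩
    by_cases e : tile c R (fnb c f) = tile c R f.1
    · exact Or.inl e
    · exact Or.inr ((hU f (mem_seam.2 ⟨h1, e⟩) h3 h4).1 (h2.resolve_left e))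
  · rintro ⟨⟨h1, h2⟩, h3, h4⟩
    refine ⟨⟨h1, ?_⟩, h3, h4⟩
    by_cases e : tile c R (fnb c f) = tile c R f.1
    · exact Or.inl e
    · exact Or.inr ((hU f (mem_seam.2 ⟨h1, e⟩) h3 h4).2 (h2.resolve_left e))

/-- in a set `O` only the events whose core meets `O` are seen -/
theorem topU_restr_of_core {U U' : Finset EvId} {O : Finset c.I}
    (hU : ∀ k' ∈ events c R, ¬ Disjoint (core c R k') O → (k' ∈ U ↔ k' ∈ U')) :
    (topU c R U).restr O = (topU c R U').restr O :=
  topU_restr_congr fun f hf h1 _ => hU _ (Finset.mem_image_of_mem _ hf)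
    (Finset.not_disjoint_iff.2 ⟨f.1, (mem_core_of_key hf).1, h1⟩)

/-- the events seen in the patch of `k`: `k` itself and events of the other colour whose patch meets the patch of `k` -/
theorem seen_in_patch (h : Adm c R) {k k' : EvId} (hm : ¬ Disjoint (core c R k') (patch c R k)) :
    k' = k ∨ (k'.1 ≠ k.1 ∧ ¬ Disjoint (patch c R k') (patch c R k)) := by
  have hm' : ¬ Disjoint (patch c R k') (patch c R k) := fun hd => hm (hd.mono_left (core_subset_patch k'))
  by_cases e : k' = k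
  · exact Or.inl e
  · refine Or.inr ⟨fun hc => hm' (patch_disjoint h hc e), hm'⟩

/-- criterion for the open proxy topology -/
theorem topU_restr_patch (h : Adm c R) {k : EvId} {U U' : Finset EvId} (hk : k ∈ U ↔ k ∈ U')
    (hU : ∀ k' ∈ events c R, k'.1 ≠ k.1 → ¬ Disjoint (patch c R k') (patch c R k) → (k' ∈ U ↔ k' ∈ U')) :
    (topU c R U).restr (patch c R k) = (topU c R U').restr (patch c R k) :=
  topU_restr_of_core fun k' hk' hm => by
    rcases seen_in_patch h hm with rfl | ⟨h1, h2⟩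
    · exact hk
    · exact hU k' hk' h1 h2

theorem mem_skp {S : Finset EvId} {v : EvId} :
    v ∈ skp c R S ↔ v ∈ events c R ∧ v.1 = true ∧ ∃ e ∈ S, e.1 = false ∧ ¬ Disjoint (patch c R e) (patch c R v) := by
  classical
  simp [skp, evV, and_assoc]

theorem mem_evV {v : EvId} : v ∈ evV c R ↔ v ∈ events c R ∧ v.1 = true := by simp [evV]

/-- **in the halo topologies the patch of a mark shows the proxy topologies**: `U` is the set of uncut events, `skp S ⊆ U ⊆ skp S ∪ S` -/
theorem halo_patch (h : Adm c R) {S U : Finset EvId} (hS : Valid c R S) (h1 : skp c R S ⊆ U) (h2 : U ⊆ skp c R S ∪ S)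
    {k : EvId} (hk : k ∈ S) :
    (topU c R (insert k U)).restr (patch c R k) = topO c R k ∧ (topU c R (U.erase k)).restr (patch c R k) = topC c R k := by
  classical
  have hkE : k ∈ events c R := hS.1 hk
  have key : ∀ k' ∈ events c R, k'.1 ≠ k.1 → ¬ Disjoint (patch c R k') (patch c R k) → (k' ∈ U ↔ k' ∈ pre c R k) := by
    intro k' hk' hc hm
    unfold pre
    cases hb : k.1
    · -- `k` is an `E`-event, `k'` one of its end vertices: skipped
      have hb' : k'.1 = true := by
        cases e : k'.1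
        · exact absurd (e.trans hb.symm) hc
        · rfl
      simp only [Bool.false_eq_true, if_false]
      exact ⟨fun _ => hk', fun _ => h1 (mem_skp.2 ⟨hk', hb', k, hk, hb, fun d => hm d.symm⟩)⟩
    · -- `k` is a `V`-event which is not skipped: its four `E`-events carry no mark
      have hb' : k'.1 = false := by
        cases e : k'.1
        · rfl
        · exact absurd (e.trans hb.symm) hc
      simp only [if_true]
      constructor
      · intro hU
        exfalso
        rcases Finset.mem_union.1 (h2 hU) with q | q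
        · rw [(mem_skp.1 q).2.1] at hb'; exact Bool.noConfusion hb'
        · exact Finset.disjoint_left.1 hS.2 hk (mem_skp.2 ⟨hkE, hb, k', q, hb', hm⟩)
      · intro q
        rw [(mem_evV.1 q).2] at hb'; exact Bool.noConfusion hb'
  have hpre : k ∈ pre c R k := by
    unfold pre
    split_ifs with hb
    · exact mem_evV.2 ⟨hkE, hb⟩
    · exact hkE
  constructor
  · unfold topO
    refine topU_restr_patch h ⟨fun _ => hpre, fun _ => Finset.mem_insert_self _ _⟩ fun k' hk' hc hm => ?_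
    have hne : k' ≠ k := fun e => hc (by rw [e])
    rw [Finset.mem_insert]
    exact ⟨fun q => (key k' hk' hc hm).1 (q.resolve_left hne), fun q => Or.inr ((key k' hk' hc hm).2 q)⟩
  · unfold topC
    refine topU_restr_patch h ⟨fun q => absurd q (Finset.notMem_erase _ _), fun q => absurd (Finset.mem_sdiff.1 q).2 (by simp)⟩
      fun k' hk' hc hm => ?_
    have hne : k' ≠ k := fun e => hc (by rw [e])
    rw [Finset.mem_erase, Finset.mem_sdiff, Finset.mem_singleton]
    exact ⟨fun q => ⟨(key k' hk' hc hm).1 q.2, hne⟩, fun q => ⟨hne, (key k' hk' hc hm).2 q.1⟩⟩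

/-- the same on the path without marks: `U` contains `k`, all `V`-events, and no `E`-event if `k` is a `V`-event -/
theorem path_patch (h : Adm c R) {U : Finset EvId} {k : EvId} (hk : k ∈ events c R) (h1 : evV c R ⊆ U)
    (h2 : k.1 = true → U ⊆ evV c R) :
    (topU c R (insert k U)).restr (patch c R k) = topO c R k ∧ (topU c R (U.erase k)).restr (patch c R k) = topC c R k := by
  classical
  have key : ∀ k' ∈ events c R, k'.1 ≠ k.1 → (k' ∈ U ↔ k' ∈ pre c R k) := by
    intro k' hk' hc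
    unfold pre
    cases hb : k.1
    · have hb' : k'.1 = true := by
        cases e : k'.1
        · exact absurd (e.trans hb.symm) hc
        · rfl
      simp only [Bool.false_eq_true, if_false]
      exact ⟨fun _ => hk', fun _ => h1 (mem_evV.2 ⟨hk', hb'⟩)⟩
    · simp only [if_true]
      exact ⟨fun q => h2 hb q, fun q => h1 q⟩
  have hpre : k ∈ pre c R k := by
    unfold pre
    split_ifs with hb
    · exact mem_evV.2 ⟨hk, hb⟩
    · exact hk
  constructor
  · unfold topO
    refine topU_restr_patch h ⟨fun _ => hpre, fun _ => Finset.mem_insert_self _ _⟩ fun k' hk' hc _ => ?_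
    have hne : k' ≠ k := fun e => hc (by rw [e])
    rw [Finset.mem_insert]
    exact ⟨fun q => (key k' hk' hc).1 (q.resolve_left hne), fun q => Or.inr ((key k' hk' hc).2 q)⟩
  · unfold topC
    refine topU_restr_patch h ⟨fun q => absurd q (Finset.notMem_erase _ _), fun q => absurd (Finset.mem_sdiff.1 q).2 (by simp)⟩
      fun k' hk' hc _ => ?_
    have hne : k' ≠ k := fun e => hc (by rw [e])
    rw [Finset.mem_erase, Finset.mem_sdiff, Finset.mem_singleton]
    exact ⟨fun q => ⟨(key k' hk' hc).1 q.2, hne⟩, fun q => ⟨hne, (key k' hk' hc).2 q.1⟩⟩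

/-- the patches of the marks of a valid set are pairwise disjoint -/
theorem valid_patch_disjoint (h : Adm c R) {S : Finset EvId} (hS : Valid c R S) {k k' : EvId} (hk : k ∈ S) (hk' : k' ∈ S)
    (hne : k ≠ k') : Disjoint (patch c R k) (patch c R k') := by
  by_cases hc : k.1 = k'.1
  · exact patch_disjoint h hc hne
  · by_contra hm
    cases hb : k.1
    · have hb' : k'.1 = true := by
        cases e : k'.1
        · exact absurd (hb.trans e.symm) hc
        · rfl
      exact Finset.disjoint_left.1 hS.2 hk' (mem_skp.2 ⟨hS.1 hk', hb', k, hk, hb, hm⟩)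
    · have hb' : k'.1 = false := by
        cases e : k'.1
        · rfl
        · exact absurd (hb.trans e.symm) hc
      exact Finset.disjoint_left.1 hS.2 hk (mem_skp.2 ⟨hS.1 hk, hb, k', hk', hb', fun d => hm d.symm⟩)

/-! ## 6. The patches lie in the tiles of the core (by definition, in the geometry v2) -/

theorem patch_subset_tiles (_h : Adm c R) (k : EvId) : patch c R k ⊆ cellsOf c R ((core c R k).image (tile c R)) := Finset.inter_subset_right

theorem tpatch_subset_tiles (_h : Adm c R) (k : EvId) : tpatch c R k ⊆ cellsOf c R ((core c R k).image (tile c R)) := Finset.inter_subset_right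

/-- the test patches of the marks and of the skipped events lie in the halo -/
theorem tpatch_subset_halC (h : Adm c R) {S : Finset EvId} {k : EvId} (hk : k ∈ S ∪ skp c R S) : tpatch c R k ⊆ halC c R S := by
  intro i hi
  have := tpatch_subset_tiles h k hi
  rw [mem_cellsOf, Finset.mem_image] at this
  obtain ⟨j, hj, e⟩ := this
  unfold halC
  rw [mem_cellsOf, ← e]
  exact tile_mem_halT hk hj

theorem patch_subset_halC (h : Adm c R) {S : Finset EvId} {k : EvId} (hk : k ∈ S ∪ skp c R S) : patch c R k ⊆ halC c R S :=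
  (patch_subset_tpatch k).trans (tpatch_subset_halC h hk)

/-! ## 7. Blocks of `R × R` cells -/

section blocks

variable {g : Grid G}

/-- the blocks are the squares of the `R`-grid -/
structure AdmN (N : Nest c g) (R : ℕ) : Prop where
  adm : Adm c R
  up : ∀ i : Fin c.n, (N.up1 i : ℕ) = (i : ℕ) / R
  n : g.n = c.n / R

theorem admN_of {N : Nest c g} (h : GeoOK c R) (hg : g.Ok) (hN : NestOK N R) : AdmN N R := by
  refine ⟨h.adm, hN.2, le_antisymm ?_ ?_⟩
  · -- every block contains a cell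
    by_contra hlt
    have hlt' : c.n / R < g.n := by omega
    obtain ⟨v, hv⟩ := hg.surj ⟨c.n / R, hlt'⟩
    have e := N.comm v
    rw [hv] at e
    have e2 := congrArg Fin.val e
    rw [hN.2] at e2
    have : ((c.blk1 v : Fin c.n) : ℕ) / R < c.n / R := Nat.div_lt_div_of_lt_of_dvd h.dvd (c.blk1 v).2
    simp only at e2
    omega
  · have hn : 0 < c.n := by have := h.big; have := h.pos; omega
    have l := (N.up1 ⟨c.n - 1, by omega⟩).2
    rw [hN.2] at l
    obtain ⟨K, hK⟩ := h.dvd
    have hKp : 0 < K := by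
      rcases Nat.eq_zero_or_pos K with rfl | hKp
      · omega
      · exact hKp
    have e1 : c.n / R = K := by rw [hK]; exact Nat.mul_div_cancel_left _ h.pos
    have e2 : (c.n - 1) / R = K - 1 := by
      have hp := h.pos
      have e3 : R * K = R * (K - 1) + R := by
        obtain ⟨K', rfl⟩ : ∃ K', K = K' + 1 := ⟨K - 1, by omega⟩
        rw [Nat.add_sub_cancel]; ring
      exact (dm_of (x := c.n - 1) (a := K - 1) (u := R - 1) (by omega) (by omega)).1
    simp only at l
    omega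

/-- coarse distance from fine distance, and conversely -/
theorem up1_dist {N : Nest c g} (h : AdmN N R) (x x' : Fin c.n) :
    R * g.idist1 (N.up1 x) (N.up1 x') ≤ c.idist1 x x' + (R - 1) ∧ c.idist1 x x' ≤ R * g.idist1 (N.up1 x) (N.up1 x') + (R - 1) := by
  have hp := h.adm.pos
  obtain ⟨K, hK⟩ := h.adm.dvd
  have hKd : c.n / R = K := by rw [hK]; exact Nat.mul_div_cancel_left _ hp
  have hgn : g.n = K := by rw [h.n, hKd]
  subst hgn
  have e1 := Nat.div_add_mod (x : ℕ) R
  have e2 := Nat.div_add_mod (x' : ℕ) R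
  have l1 := Nat.mod_lt (x : ℕ) hp
  have l2 := Nat.mod_lt (x' : ℕ) hp
  have u1 := h.up x
  have u2 := h.up x'
  have b1 := (N.up1 x).2
  have b2 := (N.up1 x').2
  have hx := x.2
  have hx' := x'.2
  rw [← u1] at e1
  rw [← u2] at e2
  generalize (x : ℕ) % R = u at *
  generalize (x' : ℕ) % R = u' at *
  have main : ∀ (K A A' X X' u u' : ℕ), A ≤ A' → A' < K → R * A + u = X → R * A' + u' = X' → u < R → u' < R →
      (R * (A' - A) ≤ (X' - X) + (X - X') + (R - 1) ∧ (X' - X) + (X - X') ≤ R * (A' - A) + (R - 1)) ∧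
      (R * (K - (A' - A)) ≤ R * K - ((X' - X) + (X - X')) + (R - 1) ∧ R * K - ((X' - X) + (X - X')) ≤ R * (K - (A' - A)) + (R - 1)) := by
    intro K A A' X X' u u' hA hA' e e' hu hu'
    obtain ⟨t, rfl⟩ : ∃ t, A' = A + t := ⟨A' - A, by omega⟩
    obtain ⟨s, rfl⟩ : ∃ s, K = t + s := ⟨K - t, by omega⟩
    have q1 : R * (A + t) = R * A + R * t := by ring
    have q2 : R * (t + s) = R * t + R * s := by ring
    have q3 : A + t - A = t := by omega
    have q4 : t + s - t = s := by omega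
    have q5 : R * (A + t) + R ≤ R * (t + s) := by
      have := Nat.mul_le_mul_left R (Nat.succ_le_of_lt hA')
      rw [Nat.succ_eq_add_one, Nat.mul_add, Nat.mul_one] at this
      exact this
    rw [q3, q4]
    refine ⟨⟨?_, ?_⟩, ?_, ?_⟩ <;> omega
  rcases le_total (N.up1 x : ℕ) (N.up1 x' : ℕ) with hA | hA
  · have m := main g.n _ _ _ _ _ _ hA (by omega) e1 e2 l1 l2
    have a1 : ((N.up1 x : ℤ) - (N.up1 x' : ℕ)).natAbs = (N.up1 x' : ℕ) - (N.up1 x : ℕ) := by omega
    have a2 : ((x : ℤ) - (x' : ℕ)).natAbs = ((x' : ℕ) - (x : ℕ)) + ((x : ℕ) - (x' : ℕ)) := by omega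
    rcases geo_bc_cases G with hb | hb
    · rw [geo_idist1_per _ hb, geo_idist1_per _ hb, a1, a2]
      rcases le_total ((N.up1 x' : ℕ) - (N.up1 x : ℕ)) (g.n - ((N.up1 x' : ℕ) - (N.up1 x : ℕ))) with q | q
      · rw [min_eq_left q]
        have := Nat.mul_le_mul_left R q
        omega
      · rw [min_eq_right q]
        have := Nat.mul_le_mul_left R q
        omega
    · rw [geo_idist1_free _ hb, geo_idist1_free _ hb, a1, a2]
      exact m.1
  · have m := main g.n _ _ _ _ _ _ hA (by omega) e2 e1 l2 l1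
    have a1 : ((N.up1 x : ℤ) - (N.up1 x' : ℕ)).natAbs = (N.up1 x : ℕ) - (N.up1 x' : ℕ) := by omega
    have a2 : ((x : ℤ) - (x' : ℕ)).natAbs = ((x : ℕ) - (x' : ℕ)) + ((x' : ℕ) - (x : ℕ)) := by omega
    rcases geo_bc_cases G with hb | hb
    · rw [geo_idist1_per _ hb, geo_idist1_per _ hb, a1, a2]
      rcases le_total ((N.up1 x : ℕ) - (N.up1 x' : ℕ)) (g.n - ((N.up1 x : ℕ) - (N.up1 x' : ℕ))) with q | q
      · rw [min_eq_left q]
        have := Nat.mul_le_mul_left R q
        omega
      · rw [min_eq_right q]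
        have := Nat.mul_le_mul_left R q
        omega
    · rw [geo_idist1_free _ hb, geo_idist1_free _ hb, a1, a2]
      exact m.1

theorem up_dist {N : Nest c g} (h : AdmN N R) (a b : c.I) :
    R * g.idist (N.up a) (N.up b) ≤ c.idist a b + (R - 1) ∧ c.idist a b ≤ R * g.idist (N.up a) (N.up b) + (R - 1) := by
  have h1 := up1_dist h a.1 b.1
  have h2 := up1_dist h a.2 b.2
  simp only [Grid.idist, Nest.up]
  constructor
  · rcases le_total (g.idist1 (N.up1 a.1) (N.up1 b.1)) (g.idist1 (N.up1 a.2) (N.up1 b.2)) with q | q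
    · rw [max_eq_right q]; have := le_max_right (c.idist1 a.1 b.1) (c.idist1 a.2 b.2); omega
    · rw [max_eq_left q]; have := le_max_left (c.idist1 a.1 b.1) (c.idist1 a.2 b.2); omega
  · have m1 := Nat.mul_le_mul_left R (le_max_left (g.idist1 (N.up1 a.1) (N.up1 b.1)) (g.idist1 (N.up1 a.2) (N.up1 b.2)))
    have m2 := Nat.mul_le_mul_left R (le_max_right (g.idist1 (N.up1 a.1) (N.up1 b.1)) (g.idist1 (N.up1 a.2) (N.up1 b.2)))
    exact max_le (by omega) (by omega)

/-- cells at distance `≤ t R` lie in blocks at distance `≤ t` ... `+ 1` -/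
theorem up_dist_le {N : Nest c g} (h : AdmN N R) {a b : c.I} {t : ℕ} (hd : c.idist a b ≤ t * R) : g.idist (N.up a) (N.up b) ≤ t + 1 := by
  have h1 := (up_dist h a b).1
  have hp := h.adm.pos
  by_contra hc
  have h2 : t + 2 ≤ g.idist (N.up a) (N.up b) := by omega
  have h3 := Nat.mul_le_mul_left R h2
  have h4 : R * (t + 2) = t * R + R + R := by ring
  omega

end blocks

/-! ## 8. Diameters: tiles, cores, halos -/

/-- cells in the same period of a chart -/
theorem idist1_le_of_red (h : Adm c R) (x x' : Fin c.n) {σ : ℕ} (hσ : σ ≤ R)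
    (e : red c R (((x : ℕ) + σ) / R) = red c R (((x' : ℕ) + σ) / R)) :
    c.idist1 x x' ≤ (((x : ℕ) + σ) % R - ((x' : ℕ) + σ) % R) + (((x' : ℕ) + σ) % R - ((x : ℕ) + σ) % R) := by
  have hp := h.pos
  have hx := x.2
  have hx' := x'.2
  have e1 := Nat.div_add_mod ((x : ℕ) + σ) R
  have e2 := Nat.div_add_mod ((x' : ℕ) + σ) R
  have l1 := Nat.mod_lt ((x : ℕ) + σ) hp
  have l2 := Nat.mod_lt ((x' : ℕ) + σ) hp
  generalize ((x : ℕ) + σ) / R = A at *
  generalize ((x' : ℕ) + σ) / R = A' at *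
  generalize ((x : ℕ) + σ) % R = U at *
  generalize ((x' : ℕ) + σ) % R = U' at *
  have same : A = A' → c.idist1 x x' ≤ (U - U') + (U' - U) := by
    rintro rfl
    refine (geo_idist1_le_abs c x x').trans ?_
    omega
  rcases geo_bc_cases G with hb | hb
  · obtain ⟨K, hK⟩ := h.dvd
    have hKd : c.n / R = K := by rw [hK]; exact Nat.mul_div_cancel_left _ hp
    rw [red_per hb, red_per hb, hKd] at e
    have bA : ∀ B V : ℕ, R * B + V < R * K + R → B ≤ K := by
      intro B V hB
      by_contra hc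
      have := Nat.mul_le_mul_left R (show K + 1 ≤ B by omega)
      rw [Nat.mul_add, Nat.mul_one] at this
      omega
    have a1 := bA A U (by omega)
    have a2 := bA A' U' (by omega)
    by_cases hAA : A = A'
    · exact same hAA
    · have hKp : 0 < K := by
        rcases Nat.eq_zero_or_pos K with rfl | hKp
        · omega
        · exact hKp
      have cs : (A = 0 ∧ A' = K) ∨ (A = K ∧ A' = 0) := by
        rcases Nat.lt_or_ge A K with q | q
        · rw [Nat.mod_eq_of_lt q] at e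
          rcases Nat.lt_or_ge A' K with q' | q'
          · rw [Nat.mod_eq_of_lt q'] at e; exact absurd e hAA
          · have : A' = K := by omega
            subst this
            rw [Nat.mod_self] at e
            exact Or.inl ⟨e, rfl⟩
        · have : A = K := by omega
          subst this
          rw [Nat.mod_self] at e
          have q' : A' < A := by omega
          rw [Nat.mod_eq_of_lt q'] at e
          exact Or.inr ⟨rfl, e.symm⟩
      rw [geo_idist1_per c hb]
      rcases cs with ⟨rfl, rfl⟩ | ⟨rfl, rfl⟩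
      · rw [Nat.mul_zero] at e1; omega
      · rw [Nat.mul_zero] at e2; omega
  · rw [red_free hb, red_free hb] at e
    exact same e

theorem Win.close (h : Adm c R) {σ a lo hi : ℕ} {x x' : Fin c.n} (hσ : σ ≤ R) (hw : Win c R σ a lo hi x)
    (hw' : Win c R σ a lo hi x') : c.idist1 x x' + 1 + lo ≤ hi := by
  have := idist1_le_of_red h x x' hσ (by rw [hw.1, hw'.1])
  have a1 := hw.2
  have a2 := hw'.2
  omega

/-- a tile has diameter `< R` -/
theorem tile_diam (h : Adm c R) {i i' : c.I} (e : tile c R i = tile c R i') : c.idist i i' + 1 ≤ R := by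
  have h64 := h.d64
  have hp := h.pos
  have l1 := Nat.mod_lt (i.1 : ℕ) hp
  have l2 := Nat.mod_lt (i.2 : ℕ) hp
  have l3 := Nat.mod_lt (i'.1 : ℕ) hp
  have l4 := Nat.mod_lt (i'.2 : ℕ) hp
  have z : ∀ x x' : Fin c.n, (x : ℕ) / R = (x' : ℕ) / R → c.idist1 x x' ≤ ((x : ℕ) % R - (x' : ℕ) % R) + ((x' : ℕ) % R - (x : ℕ) % R) := by
    intro x x' e
    have := idist1_le_of_red h x x' (σ := 0) (by omega) (by simp only [Nat.add_zero]; rw [e])
    simpa only [Nat.add_zero] using this
  have key : c.idist1 i.1 i'.1 + 1 ≤ R ∧ c.idist1 i.2 i'.2 + 1 ≤ R := by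
    rcases tile_cases h i with ⟨c1, e1⟩ | ⟨c1, e1⟩ | ⟨c1, e1⟩ | ⟨c1, e1⟩ <;>
    rcases tile_cases h i' with ⟨c2, e2⟩ | ⟨c2, e2⟩ | ⟨c2, e2⟩ | ⟨c2, e2⟩ <;>
    rw [e1, e2] at e <;> simp only [Prod.mk.injEq, true_and, Bool.false_eq_true, Bool.true_eq_false, false_and, and_false] at e
    · have a1 := (near_win h i.1 c1.1).close h (by omega) (by rw [e.1]; exact near_win h i'.1 c2.1)
      have a2 := (near_win h i.2 c1.2).close h (by omega) (by rw [e.2]; exact near_win h i'.2 c2.2)
      omega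
    · have a1 := z _ _ e.1
      have a2 := (line_win h i.2 c1.2).close h (by omega) (by rw [e.2]; exact line_win h i'.2 c2.2)
      omega
    · have a1 := (line_win h i.1 c1.1).close h (by omega) (by rw [e.1]; exact line_win h i'.1 c2.1)
      have a2 := z _ _ e.2
      omega
    · have a1 := z _ _ e.1
      have a2 := z _ _ e.2
      omega
  unfold Grid.idist
  rcases le_total (c.idist1 i.1 i'.1) (c.idist1 i.2 i'.2) with q | q
  · rw [max_eq_right q]; exact key.2
  · rw [max_eq_left q]; exact key.1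

/-- two cells in the enlarged box of an event -/
theorem box_diam (h : Adm c R) {k : EvId} {ρ : ℕ} (hρ : ρ ≤ R / 8) {i i' : c.I} (hb : Box c R k ρ i) (hb' : Box c R k ρ i') :
    c.idist i i' + 1 ≤ R / 2 + 2 + 2 * ρ := by
  have h64 := h.d64
  have hp := h.pos
  have key : c.idist1 i.1 i'.1 + 1 ≤ R / 2 + 2 + 2 * ρ ∧ c.idist1 i.2 i'.2 + 1 ≤ R / 2 + 2 + 2 * ρ := by
    unfold Box at hb hb'
    split_ifs at hb hb'
    · have a1 := hb.1.close h (by omega) hb'.1
      have a2 := hb.2.close h (by omega) hb'.2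
      omega
    · have a1 := hb.1.close h (by omega) hb'.1
      have a2 := hb.2.close h (by omega) hb'.2
      omega
    · have a1 := hb.1.close h (by omega) hb'.1
      have a2 := hb.2.close h (by omega) hb'.2
      omega
  unfold Grid.idist
  rcases le_total (c.idist1 i.1 i'.1) (c.idist1 i.2 i'.2) with q | q
  · rw [max_eq_right q]; exact key.2
  · rw [max_eq_left q]; exact key.1

theorem mem_halC {S : Finset EvId} {i : c.I} :
    i ∈ halC c R S ↔ ∃ k ∈ S ∪ skp c R S, ∃ j ∈ core c R k, tile c R j = tile c R i := by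
  unfold halC halT
  rw [mem_cellsOf, Finset.mem_image]
  constructor
  · rintro ⟨j, hj, e⟩
    obtain ⟨k, hk, hjk⟩ := Finset.mem_biUnion.1 hj
    exact ⟨k, hk, j, hjk, e⟩
  · rintro ⟨k, hk, j, hj, e⟩
    exact ⟨j, Finset.mem_biUnion.2 ⟨k, hk, hj⟩, e⟩

/-- **the halo of one mark lies within `< 3 R` of every cell of its core** -/
theorem halC_near (h : Adm c R) {k : EvId} {j0 i : c.I} (hj0 : j0 ∈ core c R k) (hi : i ∈ halC c R {k}) :
    c.idist j0 i + 1 ≤ 2 * R + R / 4 := by
  have h64 := h.d64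
  have hp := h.pos
  obtain ⟨k', hk', j, hj, e⟩ := mem_halC.1 hi
  have d1 := tile_diam h e
  have t1 := geo_idist_triangle c j0 j i
  rcases Finset.mem_union.1 hk' with q | q
  · rw [Finset.mem_singleton] at q
    subst q
    have d2 := box_diam h (ρ := 0) (by omega) (core_box h hj0) (core_box h hj)
    omega
  · obtain ⟨-, -, e', he', -, hm⟩ := mem_skp.1 q
    rw [Finset.mem_singleton] at he'
    subst he'
    obtain ⟨z, hz, hz'⟩ := Finset.not_disjoint_iff.1 hm
    have b1 := nbh_box h (ρ := R / 32) (by omega) (patch_subset_nbh _ hz)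
    have b2 := nbh_box h (ρ := R / 32) (by omega) (patch_subset_nbh _ hz')
    have b3 := nbh_box h (ρ := R / 32) (by omega) (patch_subset_nbh _ (core_subset_patch _ hj0))
    have b4 := nbh_box h (ρ := R / 32) (by omega) (patch_subset_nbh _ (core_subset_patch _ hj))
    have d2 := box_diam h (by omega) b3 b1
    have d3 := box_diam h (by omega) b2 b4
    have t2 := geo_idist_triangle c j0 z j
    omega

/-! ## 9. Covers of marks and tiles -/

section covers

variable {g : Grid G} {N : Nest c g}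

theorem conn_of_diam {r : ℕ} {X : Finset g.I} (hne : X.Nonempty) (hd : ∀ a ∈ X, ∀ b ∈ X, g.idist a b ≤ r) : g.Conn r X :=
  ⟨hne, fun a ha b hb => Relation.ReflTransGen.single ⟨ha, hb, hd a ha b hb⟩⟩

theorem conn_of_centre {r D : ℕ} {X : Finset g.I} (hne : X.Nonempty) (z : g.I) (hz : ∀ a ∈ X, g.idist z a ≤ D) (hD : 2 * D ≤ r) :
    g.Conn r X :=
  conn_of_diam hne fun a ha b hb => by
    have := geo_idist_triangle g a z b
    have h1 := hz a ha
    have h2 := hz b hb
    rw [geo_idist_comm g a z] at this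
    omega

theorem card_le_of_centre {D : ℕ} {X : Finset g.I} (z : g.I) (hz : ∀ a ∈ X, g.idist z a ≤ D) : X.card ≤ (2 * D + 1) ^ 2 :=
  (Finset.card_le_card fun a ha => Finset.mem_filter.2 ⟨Finset.mem_univ _, hz a ha⟩).trans (geo_ball_card g z D)

theorem RR_ge : 28 ≤ RR := by unfold RR r0; omega

theorem mem_cl {A : Finset c.I} {b : g.I} : b ∈ N.cl A ↔ ∃ i ∈ A, N.up i = b := by
  unfold Nest.cl; exact Finset.mem_image

/-- blocks of cells at distance `< t R` -/
theorem up_dist_lt (h : AdmN N R) {a b : c.I} {t : ℕ} (hd : c.idist a b + 1 ≤ t * R) : g.idist (N.up a) (N.up b) ≤ t := by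
  have h1 := (up_dist h a b).1
  have hp := h.adm.pos
  by_contra hc
  have h3 := Nat.mul_le_mul_left R (show t + 1 ≤ g.idist (N.up a) (N.up b) by omega)
  have h4 : R * (t + 1) = t * R + R := by ring
  omega

/-- the cover of a mark lies within `3` blocks of the block of every cell of its core -/
theorem cov_mark_near (h : AdmN N R) {k : EvId} {j0 : c.I} (hj0 : j0 ∈ core c R k) {b : g.I} (hb : b ∈ cov N R (Sum.inl k)) :
    g.idist (N.up j0) b ≤ 3 := by
  obtain ⟨i, hi, rfl⟩ := mem_cl.1 hb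
  have := halC_near h.adm hj0 hi
  have h64 := h.adm.d64
  exact up_dist_lt h (by omega)

theorem core_subset_halC {S : Finset EvId} {k : EvId} (hk : k ∈ S) : core c R k ⊆ halC c R S := fun i hi =>
  mem_halC.2 ⟨k, Finset.mem_union_left _ hk, i, hi, rfl⟩

theorem cov_mark_ne {k : EvId} (hk : k ∈ events c R) : (cov N R (Sum.inl k)).Nonempty := by
  obtain ⟨j, hj⟩ := core_ne hk
  exact ⟨N.up j, mem_cl.2 ⟨j, core_subset_halC (Finset.mem_singleton_self k) hj, rfl⟩⟩

theorem cov_mark_conn (h : AdmN N R) {k : EvId} (hk : k ∈ events c R) : g.Conn RR (cov N R (Sum.inl k)) := by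
  obtain ⟨j, hj⟩ := core_ne hk
  exact conn_of_centre (cov_mark_ne hk) (N.up j) (fun a ha => cov_mark_near h hj ha) (by have := RR_ge; omega)

theorem cov_mark_card (h : AdmN N R) (k : EvId) : (cov N R (Sum.inl k)).card ≤ 49 := by
  by_cases hk : k ∈ events c R
  · obtain ⟨j, hj⟩ := core_ne hk
    exact card_le_of_centre (N.up j) (fun a ha => cov_mark_near h hj ha)
  · -- no event: no core, no skipped event has a common cell with the empty patch
    have e : cov N R (Sum.inl k) = ∅ := by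
      rw [Finset.eq_empty_iff_forall_notMem]
      intro b hb
      obtain ⟨i, hi, -⟩ := mem_cl.1 hb
      obtain ⟨k', hk', j, hj, -⟩ := mem_halC.1 hi
      rcases Finset.mem_union.1 hk' with q | q
      · rw [Finset.mem_singleton] at q
        subst q
        exact hk (mem_events_of_core hj)
      · obtain ⟨-, -, e', he', -, hm⟩ := mem_skp.1 q
        rw [Finset.mem_singleton] at he'
        subst he'
        obtain ⟨z, hz, -⟩ := Finset.not_disjoint_iff.1 hm
        obtain ⟨a, ha, -⟩ := mem_nbh.1 (patch_subset_nbh _ hz)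
        exact hk (mem_events_of_core ha)
    rw [e]; simp

/-- the cover of a tile -/
theorem cov_tile_near (h : AdmN N R) {t : Tile} {i0 : c.I} (hi0 : tile c R i0 = t) {b : g.I} (hb : b ∈ cov N R (Sum.inr (Sum.inl t))) :
    g.idist (N.up i0) b ≤ 1 := by
  obtain ⟨i, hi, rfl⟩ := mem_cl.1 hb
  have hi' : tile c R i = t := by simpa [icells, mem_cellsOf] using hi
  have := tile_diam h.adm (hi0.trans hi'.symm)
  exact up_dist_lt h (by omega)

theorem cov_tile_ne {t : Tile} (ht : t ∈ tiles c R) : (cov N R (Sum.inr (Sum.inl t))).Nonempty := by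
  obtain ⟨i, -, rfl⟩ := Finset.mem_image.1 ht
  exact ⟨N.up i, mem_cl.2 ⟨i, by simp [icells, mem_cellsOf], rfl⟩⟩

theorem cov_tile_conn (h : AdmN N R) {t : Tile} (ht : t ∈ tiles c R) : g.Conn RR (cov N R (Sum.inr (Sum.inl t))) := by
  obtain ⟨i, -, hi⟩ := Finset.mem_image.1 ht
  exact conn_of_centre (cov_tile_ne ht) (N.up i) (fun a ha => cov_tile_near h hi ha) (by have := RR_ge; omega)

theorem cov_tile_card (h : AdmN N R) (t : Tile) : (cov N R (Sum.inr (Sum.inl t))).card ≤ 9 := by
  rcases (cov N R (Sum.inr (Sum.inl t))).eq_empty_or_nonempty with e | ⟨b, hb⟩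
  · rw [e]; simp
  · obtain ⟨i, hi, -⟩ := mem_cl.1 hb
    have hi' : tile c R i = t := by simpa [icells, mem_cellsOf] using hi
    exact card_le_of_centre (N.up i) (fun a ha => cov_tile_near h hi' ha)

end covers

/-! ## 10. Counting marks and tiles at a block -/

section counting

variable {g : Grid G} {N : Nest c g}

/-- the tiles (and events) at a block -/
def tileAt (c : Grid G) (R : ℕ) {g : Grid G} (p : g.I × (Bool × Bool × Bool × Bool)) : Tile :=
  (p.2.1, p.2.2.1, red c R ((p.1.1 : ℕ) + if p.2.2.2.1 then 1 else 0), red c R ((p.1.2 : ℕ) + if p.2.2.2.2 then 1 else 0))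

theorem shift_bit {R : ℕ} (hR : 0 < R) (x σ : ℕ) (hσ : σ ≤ R) : ∃ e : Bool, (x + σ) / R = x / R + if e then 1 else 0 := by
  rcases shift_cases hR x σ hσ with q | q
  · exact ⟨false, by simpa using q.2.1⟩
  · exact ⟨true, by simpa using q.2.1⟩

theorem tile_eq_tileAt (h : AdmN N R) (i : c.I) : ∃ s : Bool × Bool × Bool × Bool, tile c R i = tileAt c R (N.up i, s) := by
  have h64 := h.adm.d64
  have hp := h.adm.pos
  obtain ⟨a1, ha1⟩ := shift_bit hp (i.1 : ℕ) (R / 4) (by omega)
  obtain ⟨a2, ha2⟩ := shift_bit hp (i.2 : ℕ) (R / 4) (by omega)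
  obtain ⟨b1, hb1⟩ := shift_bit hp (i.1 : ℕ) (R / 16) (by omega)
  obtain ⟨b2, hb2⟩ := shift_bit hp (i.2 : ℕ) (R / 16) (by omega)
  have r1 := red_div h.adm i.1
  have r2 := red_div h.adm i.2
  rcases tile_cases h.adm i with ⟨-, e⟩ | ⟨-, e⟩ | ⟨-, e⟩ | ⟨-, e⟩
  · refine ⟨(false, true, a1, a2), ?_⟩
    simp only [tileAt, Nest.up, h.up]
    rw [e, ha1, ha2]
  · refine ⟨(true, true, false, b2), ?_⟩
    simp only [tileAt, Nest.up, h.up]
    rw [e, hb2]
    simp [r1]
  · refine ⟨(true, false, b1, false), ?_⟩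
    simp only [tileAt, Nest.up, h.up]
    rw [e, hb1]
    simp [r2]
  · refine ⟨(false, false, false, false), ?_⟩
    simp only [tileAt, Nest.up, h.up]
    rw [e]
    simp [r1, r2]

open Classical in
/-- **at most `784` marks have a cover which contains a given block** -/
theorem marks_at (h : AdmN N R) (b : g.I) : ((events c R).filter fun k => b ∈ cov N R (Sum.inl k)).card ≤ 784 := by
  have sub : ((events c R).filter fun k => b ∈ cov N R (Sum.inl k)) ⊆
      ((Finset.univ.filter fun a : g.I => g.idist b a ≤ 3) ×ˢ (Finset.univ : Finset (Bool × Bool × Bool × Bool))).image (tileAt c R) := by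
    intro k hk
    obtain ⟨hk, hb⟩ := Finset.mem_filter.1 hk
    obtain ⟨j, hj, hjk⟩ := event_eq_tile hk
    obtain ⟨s, hs⟩ := tile_eq_tileAt h j
    refine Finset.mem_image.2 ⟨(N.up j, s), ?_, by rw [← hs, hjk]⟩
    rw [Finset.mem_product]
    refine ⟨Finset.mem_filter.2 ⟨Finset.mem_univ _, ?_⟩, Finset.mem_univ _⟩
    rw [geo_idist_comm]
    exact cov_mark_near h hj hb
  refine (Finset.card_le_card sub).trans (Finset.card_image_le.trans ?_)
  rw [Finset.card_product]
  have := geo_ball_card g b 3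
  have e : (Finset.univ : Finset (Bool × Bool × Bool × Bool)).card = 16 := by decide
  rw [e]
  omega

open Classical in
/-- **at most `16` tiles have a cover which contains a given block** -/
theorem tiles_at (h : AdmN N R) (b : g.I) : ((tiles c R).filter fun t => b ∈ cov N R (Sum.inr (Sum.inl t))).card ≤ 16 := by
  have sub : ((tiles c R).filter fun t => b ∈ cov N R (Sum.inr (Sum.inl t))) ⊆
      (({b} : Finset g.I) ×ˢ (Finset.univ : Finset (Bool × Bool × Bool × Bool))).image (tileAt c R) := by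
    intro t ht
    obtain ⟨-, hb⟩ := Finset.mem_filter.1 ht
    obtain ⟨i, hi, rfl⟩ := mem_cl.1 hb
    have hi' : tile c R i = t := by simpa [icells, mem_cellsOf] using hi
    obtain ⟨s, hs⟩ := tile_eq_tileAt h i
    refine Finset.mem_image.2 ⟨(N.up i, s), ?_, by rw [← hs, hi']⟩
    rw [Finset.mem_product]
    exact ⟨Finset.mem_singleton_self _, Finset.mem_univ _⟩
  refine (Finset.card_le_card sub).trans (Finset.card_image_le.trans ?_)
  rw [Finset.card_product]
  have e : (Finset.univ : Finset (Bool × Bool × Bool × Bool)).card = 16 := by decide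
  rw [e]
  simp

end counting

/-! ## 11. Links: dead links, live links -/

theorem restr_faces_sub {T : Top c} {O : Finset c.I} {f : Face c} (hf : f ∈ (T.restr O).faces) :
    f ∈ T.faces ∧ f.1 ∈ O ∧ fnb c f ∈ O := by
  classical
  unfold Top.restr at hf
  exact Finset.mem_filter.1 hf

theorem patch_subset_of_perf {O : Finset c.I} {k : EvId} (hk : k ∈ Wt.perf (c := c) R O) : patch c R k ⊆ O := by
  classical
  unfold Wt.perf at hk
  have := (Finset.mem_filter.1 hk).2
  split_ifs at this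
  · exact (patch_subset_nbh k).trans ((nbh_mono (Nat.div_le_self _ _) (Finset.Subset.refl _)).trans this)
  · exact this

theorem Mbox_dead {W : Wt c} (hW : W.Str) (O : Finset c.I) (f f' : Face c)
    (h : ¬ IsFace c f ∨ ¬ IsFace c f' ∨ ¬ fcl c f' ⊆ O) : W.Mbox R O f f' = 0 := by
  have key : ∀ (U : Finset EvId) (O' : Finset c.I), O' ⊆ O → W.Q ((topU c R U).restr O') f f' = 0 := by
    intro U O' hO
    apply hW.Q_supp
    rcases h with h | h | h
    · left; intro q; exact h (mem_topU_faces.1 (restr_faces_sub q).1).1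
    · right; intro q; exact h (mem_topU_faces.1 (restr_faces_sub q).1).1
    · right; intro q
      apply h
      intro i hi
      unfold fcl at hi
      rcases Finset.mem_insert.1 hi with rfl | hi
      · exact hO (restr_faces_sub q).2.1
      · rw [Finset.mem_singleton] at hi
        rw [hi]
        exact hO (restr_faces_sub q).2.2
  unfold Wt.Mbox
  rw [← topU_events R, key _ O (Finset.Subset.refl _), key _ O (Finset.Subset.refl _)]
  rw [Finset.sum_eq_zero]
  · simp
  · intro k hk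
    unfold topO topC
    rw [key _ _ (patch_subset_of_perf hk), key _ _ (patch_subset_of_perf hk), sub_zero]

theorem lbox_mono (f : Face c) {j j' : ℕ} (hj : j ≤ j') : lbox c R f j ⊆ lbox c R f j' :=
  nbh_mono (Nat.mul_le_mul_right _ (Nat.pow_le_pow_right (by norm_num) hj)) (Finset.Subset.refl _)

/-- **dead links have coefficient zero** -/
theorem lkc_dead {W : Wt c} (hW : W.Str) {l : Link c} (hl : ¬ Live c R l) : W.lkc R l = 0 := by
  have h1 : ∀ j ≤ l.2.2, ¬ IsFace c l.1 ∨ ¬ IsFace c l.2.1 ∨ ¬ fcl c l.2.1 ⊆ lbox c R l.1 j := by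
    intro j hj
    by_contra hc
    push Not at hc
    exact hl ⟨hc.1, hc.2.1, hc.2.2.trans (lbox_mono _ hj)⟩
  unfold Wt.lkc
  rw [Mbox_dead hW _ _ _ (h1 _ le_rfl), Mbox_dead hW _ _ _ (h1 _ (Nat.sub_le _ _))]
  simp

theorem lfac_dead {W : Wt c} (hW : W.Str) {l : Link c} (hl : ¬ Live c R l) (y : c.I → ℂ) : W.lfac R l y = 0 := by
  unfold Wt.lfac
  rw [lkc_dead hW hl]
  simp

/-! ## 12. Live links: size, connectedness -/

theorem idist1_nx (x : Fin c.n) (hf : G.bc = BC.per ∨ (x : ℕ) + 1 < c.n) : c.idist1 x (nx x) ≤ 1 := by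
  have hx := x.2
  by_cases h1 : (x : ℕ) + 1 < c.n
  · have e : (nx x : ℕ) = x + 1 := Nat.mod_eq_of_lt h1
    refine (geo_idist1_le_abs c x (nx x)).trans ?_
    omega
  · have hb : G.bc = BC.per := hf.resolve_right h1
    have e : (nx x : ℕ) = 0 := by
      show ((x : ℕ) + 1) % c.n = 0
      rw [show (x : ℕ) + 1 = c.n by omega]; exact Nat.mod_self _
    rw [geo_idist1_per c hb]
    omega

theorem idist_face {f : Face c} (hf : IsFace c f) : c.idist f.1 (fnb c f) ≤ 1 := by
  obtain ⟨⟨x, y⟩, d⟩ := f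
  cases d
  · have hF' : G.bc = BC.per ∨ (y : ℕ) + 1 < c.n := by simpa [IsFace] using hf
    show max (c.idist1 x x) (c.idist1 y (nx y)) ≤ 1
    rw [geo_idist1_self]
    exact max_le (Nat.zero_le _) (idist1_nx y hF')
  · have hF' : G.bc = BC.per ∨ (x : ℕ) + 1 < c.n := by simpa [IsFace] using hf
    show max (c.idist1 x (nx x)) (c.idist1 y y) ≤ 1
    rw [geo_idist1_self]
    exact max_le (idist1_nx x hF') (Nat.zero_le _)

theorem mem_fcl {f : Face c} {p : c.I} : p ∈ fcl c f ↔ p = f.1 ∨ p = fnb c f := by simp [fcl]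

theorem idist_fcl {f : Face c} (hf : IsFace c f) {p p0 : c.I} (hp : p ∈ fcl c f) (hp0 : p0 ∈ fcl c f) : c.idist p p0 ≤ 1 := by
  have := idist_face hf
  rcases mem_fcl.1 hp with rfl | rfl <;> rcases mem_fcl.1 hp0 with rfl | rfl
  · rw [geo_idist_self]; omega
  · exact this
  · rw [geo_idist_comm]; exact this
  · rw [geo_idist_self]; omega

/-- the index distance of one coordinate is geodesic -/
theorem exists_closer1 {a b : Fin c.n} (hab : a ≠ b) : ∃ a' : Fin c.n, c.idist1 a a' ≤ 1 ∧ c.idist1 a' b + 1 ≤ c.idist1 a b := by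
  have ha := a.2
  have hb := b.2
  have hne : (a : ℕ) ≠ b := fun e => hab (Fin.ext e)
  rcases geo_bc_cases G with hbc | hbc
  · simp only [geo_idist1_per c hbc]
    by_cases up : ((a : ℕ) < b ∧ 2 * ((b : ℕ) - a) ≤ c.n) ∨ ((b : ℕ) < a ∧ c.n < 2 * ((a : ℕ) - b))
    · by_cases h1 : (a : ℕ) + 1 < c.n
      · refine ⟨⟨a + 1, h1⟩, ?_, ?_⟩ <;> simp only <;> omega
      · refine ⟨⟨0, by omega⟩, ?_, ?_⟩ <;> simp only <;> omega
    · by_cases h1 : 0 < (a : ℕ)
      · refine ⟨⟨a - 1, by omega⟩, ?_, ?_⟩ <;> simp only <;> omega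
      · refine ⟨⟨c.n - 1, by omega⟩, ?_, ?_⟩ <;> simp only <;> omega
  · simp only [geo_idist1_free c hbc]
    by_cases up : (a : ℕ) < b
    · refine ⟨⟨a + 1, by omega⟩, ?_, ?_⟩ <;> simp only <;> omega
    · refine ⟨⟨a - 1, by omega⟩, ?_, ?_⟩ <;> simp only <;> omega

/-- a segment is connected to its centre -/
theorem line_reach {A : Finset c.I} (e : Fin c.n → c.I) (he : ∀ x x', c.idist (e x) (e x') ≤ c.idist1 x x') (x0 : Fin c.n) (ρ : ℕ)
    (hA : ∀ x, c.idist1 x x0 ≤ ρ → e x ∈ A) :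
    ∀ (d : ℕ) (x : Fin c.n), c.idist1 x x0 = d → d ≤ ρ →
      Relation.ReflTransGen (fun u v => u ∈ A ∧ v ∈ A ∧ c.idist u v ≤ 1) (e x) (e x0) := by
  intro d
  induction d using Nat.strong_induction_on with
  | _ d ih =>
    intro x hx hd
    by_cases hxx : x = x0
    · rw [hxx]
    · obtain ⟨x', h1, h2⟩ := exists_closer1 hxx
      refine Relation.ReflTransGen.head ⟨hA x (by omega), hA x' (by omega), (he x x').trans h1⟩
        (ih (c.idist1 x' x0) (by omega) x' rfl (by omega))

theorem idist_row (y x x' : Fin c.n) : c.idist (x, y) (x', y) ≤ c.idist1 x x' := by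
  show max (c.idist1 x x') (c.idist1 y y) ≤ _
  rw [geo_idist1_self]; exact max_le le_rfl (Nat.zero_le _)

theorem idist_col (x y y' : Fin c.n) : c.idist (x, y) (x, y') ≤ c.idist1 y y' := by
  show max (c.idist1 x x) (c.idist1 y y') ≤ _
  rw [geo_idist1_self]; exact max_le (Nat.zero_le _) le_rfl

theorem mem_lcells {l : Link c} {i : c.I} : i ∈ lcells c R l ↔ ∃ p ∈ fcl c l.1, ∃ p' ∈ fcl c l.2.1,
    (i.2 = p.2 ∧ c.idist1 i.1 p.1 ≤ 2 ^ l.2.2 * R) ∨ (i.1 = p.1 ∧ c.idist1 i.2 p.2 ≤ 2 ^ l.2.2 * R) ∨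
    (i.2 = p'.2 ∧ c.idist1 i.1 p.1 ≤ c.idist1 p'.1 p.1) ∨ (i.1 = p'.1 ∧ c.idist1 i.2 p.2 ≤ c.idist1 p'.2 p.2) := by
  classical
  simp [lcells]

theorem fcl_ne (f : Face c) : f.1 ∈ fcl c f := mem_fcl.2 (Or.inl rfl)

/-- the cells of the two faces of a link belong to the link -/
theorem fcl2_subset_lcells (l : Link c) : fcl c l.1 ∪ fcl c l.2.1 ⊆ lcells c R l := by
  intro i hi
  rcases Finset.mem_union.1 hi with hi | hi
  · exact mem_lcells.2 ⟨i, hi, l.2.1.1, fcl_ne _, Or.inl ⟨rfl, by rw [geo_idist1_self]; exact Nat.zero_le _⟩⟩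
  · exact mem_lcells.2 ⟨l.1.1, fcl_ne _, i, hi, Or.inr (Or.inr (Or.inl ⟨rfl, le_rfl⟩))⟩

/-- the second face of a live link is close to both cells of the first face -/
theorem live_dist {l : Link c} (hl : Live c R l) {p p' : c.I} (hp : p ∈ fcl c l.1) (hp' : p' ∈ fcl c l.2.1) :
    c.idist p p' ≤ 2 ^ l.2.2 * R + 1 := by
  obtain ⟨p0, hp0, hd⟩ := mem_nbh.1 (hl.2.2 hp')
  have := geo_idist_triangle c p p0 p'
  have := idist_fcl hl.1 hp hp0
  omega

/-- **all cells of a live link lie within `2^j R + 2` of its first cell** -/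
theorem lcells_near {l : Link c} (hl : Live c R l) {i : c.I} (hi : i ∈ lcells c R l) : c.idist l.1.1 i ≤ 2 ^ l.2.2 * R + 2 := by
  obtain ⟨p, hp, p', hp', hc⟩ := mem_lcells.1 hi
  have d0 := idist_fcl hl.1 (fcl_ne l.1) hp
  have d1 := live_dist hl hp hp'
  have a1 := idist1_le_left p p'
  have a2 := idist1_le_right p p'
  have t := geo_idist_triangle c l.1.1 p i
  have : c.idist p i ≤ 2 ^ l.2.2 * R + 1 := by
    unfold Grid.idist
    rw [geo_idist1_comm c p.1 i.1, geo_idist1_comm c p.2 i.2]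
    rw [geo_idist1_comm c p.1 p'.1] at a1
    rw [geo_idist1_comm c p.2 p'.2] at a2
    rcases hc with ⟨e, q⟩ | ⟨e, q⟩ | ⟨e, q⟩ | ⟨e, q⟩
    · rw [e, geo_idist1_self]; exact max_le (by omega) (by omega)
    · rw [e, geo_idist1_self]; exact max_le (by omega) (by omega)
    · rw [e]; exact max_le (by omega) (by omega)
    · rw [e]; exact max_le (by omega) (by omega)
  omega

/-- **the cells of a live link are connected** (steps of length `1`) -/
theorem lcells_reach {l : Link c} (hl : Live c R l) {i : c.I} (hi : i ∈ lcells c R l) :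
    Relation.ReflTransGen (fun u v => u ∈ lcells c R l ∧ v ∈ lcells c R l ∧ c.idist u v ≤ 1) i l.1.1 := by
  have hsub := fcl2_subset_lcells (R := R) l
  -- the cells of the first face
  have r0 : ∀ p ∈ fcl c l.1, Relation.ReflTransGen (fun u v => u ∈ lcells c R l ∧ v ∈ lcells c R l ∧ c.idist u v ≤ 1) p l.1.1 :=
    fun p hp => Relation.ReflTransGen.single
      ⟨hsub (Finset.mem_union_left _ hp), hsub (Finset.mem_union_left _ (fcl_ne _)), idist_fcl hl.1 hp (fcl_ne _)⟩
  -- the crosses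
  have r1 : ∀ p ∈ fcl c l.1, ∀ x, c.idist1 x p.1 ≤ 2 ^ l.2.2 * R →
      Relation.ReflTransGen (fun u v => u ∈ lcells c R l ∧ v ∈ lcells c R l ∧ c.idist u v ≤ 1) (x, p.2) l.1.1 :=
    fun p hp x hx => (line_reach (fun x => (x, p.2)) (idist_row p.2) p.1 (2 ^ l.2.2 * R)
      (fun x hx => mem_lcells.2 ⟨p, hp, l.2.1.1, fcl_ne _, Or.inl ⟨rfl, hx⟩⟩) _ x rfl hx).trans (r0 p hp)
  have r2 : ∀ p ∈ fcl c l.1, ∀ y, c.idist1 y p.2 ≤ 2 ^ l.2.2 * R →
      Relation.ReflTransGen (fun u v => u ∈ lcells c R l ∧ v ∈ lcells c R l ∧ c.idist u v ≤ 1) (p.1, y) l.1.1 :=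
    fun p hp y hy => (line_reach (fun y => (p.1, y)) (idist_col p.1) p.2 (2 ^ l.2.2 * R)
      (fun y hy => mem_lcells.2 ⟨p, hp, l.2.1.1, fcl_ne _, Or.inr (Or.inl ⟨rfl, hy⟩)⟩) _ y rfl hy).trans (r0 p hp)
  obtain ⟨p, hp, p', hp', hc⟩ := mem_lcells.1 hi
  obtain ⟨p0, hp0, hd⟩ := mem_nbh.1 (hl.2.2 hp')
  have d0 := idist_fcl hl.1 hp hp0
  rcases hc with ⟨e, q⟩ | ⟨e, q⟩ | ⟨e, q⟩ | ⟨e, q⟩
  · have := r1 p hp i.1 q
    rwa [← e] at this
  · have := r2 p hp i.2 q
    rwa [← e] at this
  · -- the row of `p'`: to its centre, one step to the column of `p0`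
    have s1 := line_reach (A := lcells c R l) (fun x => (x, p'.2)) (idist_row p'.2) p.1 (c.idist1 p'.1 p.1)
      (fun x hx => mem_lcells.2 ⟨p, hp, p', hp', Or.inr (Or.inr (Or.inl ⟨rfl, hx⟩))⟩) _ i.1 rfl q
    have hy : c.idist1 p'.2 p0.2 ≤ 2 ^ l.2.2 * R := by
      rw [geo_idist1_comm]; exact (idist1_le_right p0 p').trans hd
    have s3 := r2 p0 hp0 p'.2 hy
    have m1 : (p.1, p'.2) ∈ lcells c R l :=
      mem_lcells.2 ⟨p, hp, p', hp', Or.inr (Or.inr (Or.inl ⟨rfl, by rw [geo_idist1_self]; exact Nat.zero_le _⟩))⟩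
    have m2 : (p0.1, p'.2) ∈ lcells c R l := mem_lcells.2 ⟨p0, hp0, p', hp', Or.inr (Or.inl ⟨rfl, hy⟩)⟩
    have s2 : c.idist (p.1, p'.2) (p0.1, p'.2) ≤ 1 := (idist_row _ _ _).trans ((idist1_le_left p p0).trans d0)
    have : i = (i.1, p'.2) := by rw [← e]
    rw [this]
    exact s1.trans (Relation.ReflTransGen.head ⟨m1, m2, s2⟩ s3)
  · have s1 := line_reach (A := lcells c R l) (fun y => (p'.1, y)) (idist_col p'.1) p.2 (c.idist1 p'.2 p.2)
      (fun y hy => mem_lcells.2 ⟨p, hp, p', hp', Or.inr (Or.inr (Or.inr ⟨rfl, hy⟩))⟩) _ i.2 rfl q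
    have hx : c.idist1 p'.1 p0.1 ≤ 2 ^ l.2.2 * R := by
      rw [geo_idist1_comm]; exact (idist1_le_left p0 p').trans hd
    have s3 := r1 p0 hp0 p'.1 hx
    have m1 : (p'.1, p.2) ∈ lcells c R l :=
      mem_lcells.2 ⟨p, hp, p', hp', Or.inr (Or.inr (Or.inr ⟨rfl, by rw [geo_idist1_self]; exact Nat.zero_le _⟩))⟩
    have m2 : (p'.1, p0.2) ∈ lcells c R l := mem_lcells.2 ⟨p0, hp0, p', hp', Or.inl ⟨rfl, hx⟩⟩
    have s2 : c.idist (p'.1, p.2) (p'.1, p0.2) ≤ 1 := (idist_col _ _ _).trans ((idist1_le_right p p0).trans d0)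
    have : i = (p'.1, i.2) := by rw [← e]
    rw [this]
    exact s1.trans (Relation.ReflTransGen.head ⟨m1, m2, s2⟩ s3)

section linkcovers

variable {g : Grid G} {N : Nest c g}

/-- connected sets of cells have connected covers -/
theorem reach_up (h : AdmN N R) {A : Finset c.I} {a b : c.I} {r : ℕ} (hr : 1 ≤ r)
    (hp : Relation.ReflTransGen (fun u v => u ∈ A ∧ v ∈ A ∧ c.idist u v ≤ 1) a b) :
    Relation.ReflTransGen (fun u v => u ∈ N.cl A ∧ v ∈ N.cl A ∧ g.idist u v ≤ r) (N.up a) (N.up b) := by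
  have h64 := h.adm.d64
  have hpos := h.adm.pos
  induction hp with
  | refl => exact Relation.ReflTransGen.refl
  | tail _ hs ih =>
    refine ih.tail ⟨mem_cl.2 ⟨_, hs.1, rfl⟩, mem_cl.2 ⟨_, hs.2.1, rfl⟩, (up_dist_lt h (t := 1) ?_).trans hr⟩
    have := hs.2.2
    omega

theorem reach_symm {r : ℕ} {X : Finset g.I} {a b : g.I}
    (hp : Relation.ReflTransGen (fun u v => u ∈ X ∧ v ∈ X ∧ g.idist u v ≤ r) a b) :
    Relation.ReflTransGen (fun u v => u ∈ X ∧ v ∈ X ∧ g.idist u v ≤ r) b a := by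
  induction hp with
  | refl => exact Relation.ReflTransGen.refl
  | tail _ hs ih => exact Relation.ReflTransGen.head ⟨hs.2.1, hs.1, by rw [geo_idist_comm]; exact hs.2.2⟩ ih

theorem conn_of_root {r : ℕ} {X : Finset g.I} {z : g.I} (hz : z ∈ X)
    (hr : ∀ a ∈ X, Relation.ReflTransGen (fun u v => u ∈ X ∧ v ∈ X ∧ g.idist u v ≤ r) a z) : g.Conn r X :=
  ⟨⟨z, hz⟩, fun a ha b hb => (hr a ha).trans (reach_symm (hr b hb))⟩

/-- **the cover of a live link is connected** -/
theorem cov_link_conn (h : AdmN N R) {l : Link c} (hl : Live c R l) : g.Conn RR (cov N R (Sum.inr (Sum.inr l))) := by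
  have h0 : l.1.1 ∈ lcells c R l := fcl2_subset_lcells l (Finset.mem_union_left _ (fcl_ne _))
  refine conn_of_root (z := N.up l.1.1) (mem_cl.2 ⟨_, h0, rfl⟩) fun a ha => ?_
  obtain ⟨i, hi, rfl⟩ := mem_cl.1 ha
  exact reach_up h (by have := RR_ge; omega) (lcells_reach hl hi)

/-- blocks met by a segment -/
theorem up1_seg (h : AdmN N R) {x x0 : Fin c.n} {t : ℕ} (hd : c.idist1 x x0 ≤ t * R) : g.idist1 (N.up1 x0) (N.up1 x) ≤ t := by
  have h1 := (up1_dist h x0 x).1
  rw [geo_idist1_comm c x0 x] at h1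
  have hp := h.adm.pos
  by_contra hc
  have h3 := Nat.mul_le_mul_left R (show t + 1 ≤ g.idist1 (N.up1 x0) (N.up1 x) by omega)
  have h4 : R * (t + 1) = t * R + R := by ring
  omega

open Classical in
/-- **the cover of a live link has at most `32 · 2^j + 48` blocks** -/
theorem cov_link_card (h : AdmN N R) {l : Link c} (hl : Live c R l) :
    (cov N R (Sum.inr (Sum.inr l))).card ≤ 32 * 2 ^ l.2.2 + 48 := by
  have hpos := h.adm.pos
  set t := 2 ^ l.2.2 + 1 with ht
  have hρ : 2 ^ l.2.2 * R + 1 ≤ t * R := by rw [ht, Nat.add_mul]; omega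
  -- the four segments of a pair `(p, p')`
  let seg : c.I × c.I → Finset g.I := fun q =>
    (((Finset.univ.filter fun B : Fin g.n => g.idist1 (N.up1 q.1.1) B ≤ t).image fun B => (B, N.up1 q.1.2)) ∪
      ((Finset.univ.filter fun B : Fin g.n => g.idist1 (N.up1 q.1.2) B ≤ t).image fun B => (N.up1 q.1.1, B))) ∪
    (((Finset.univ.filter fun B : Fin g.n => g.idist1 (N.up1 q.1.1) B ≤ t).image fun B => (B, N.up1 q.2.2)) ∪
      ((Finset.univ.filter fun B : Fin g.n => g.idist1 (N.up1 q.1.2) B ≤ t).image fun B => (N.up1 q.2.1, B)))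
  have hseg : ∀ q, (seg q).card ≤ 4 * (2 * t + 1) := by
    intro q
    have b1 := geo_ball1_card g (N.up1 q.1.1) t
    have b2 := geo_ball1_card g (N.up1 q.1.2) t
    have c1 := (Finset.card_image_le (s := Finset.univ.filter fun B : Fin g.n => g.idist1 (N.up1 q.1.1) B ≤ t)
      (f := fun B => ((B, N.up1 q.1.2) : g.I)))
    have c2 := (Finset.card_image_le (s := Finset.univ.filter fun B : Fin g.n => g.idist1 (N.up1 q.1.2) B ≤ t)
      (f := fun B => ((N.up1 q.1.1, B) : g.I)))
    have c3 := (Finset.card_image_le (s := Finset.univ.filter fun B : Fin g.n => g.idist1 (N.up1 q.1.1) B ≤ t)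
      (f := fun B => ((B, N.up1 q.2.2) : g.I)))
    have c4 := (Finset.card_image_le (s := Finset.univ.filter fun B : Fin g.n => g.idist1 (N.up1 q.1.2) B ≤ t)
      (f := fun B => ((N.up1 q.2.1, B) : g.I)))
    refine (Finset.card_union_le _ _).trans ?_
    have u1 := Finset.card_union_le
      ((Finset.univ.filter fun B : Fin g.n => g.idist1 (N.up1 q.1.1) B ≤ t).image fun B => ((B, N.up1 q.1.2) : g.I))
      ((Finset.univ.filter fun B : Fin g.n => g.idist1 (N.up1 q.1.2) B ≤ t).image fun B => ((N.up1 q.1.1, B) : g.I))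
    have u2 := Finset.card_union_le
      ((Finset.univ.filter fun B : Fin g.n => g.idist1 (N.up1 q.1.1) B ≤ t).image fun B => ((B, N.up1 q.2.2) : g.I))
      ((Finset.univ.filter fun B : Fin g.n => g.idist1 (N.up1 q.1.2) B ≤ t).image fun B => ((N.up1 q.2.1, B) : g.I))
    omega
  have sub : cov N R (Sum.inr (Sum.inr l)) ⊆ (fcl c l.1 ×ˢ fcl c l.2.1).biUnion seg := by
    intro b hb
    obtain ⟨i, hi, rfl⟩ := mem_cl.1 hb
    obtain ⟨p, hp, p', hp', hc⟩ := mem_lcells.1 hi
    have d1 := live_dist hl hp hp'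
    have a1 := idist1_le_left p p'
    have a2 := idist1_le_right p p'
    rw [geo_idist1_comm c p.1 p'.1] at a1
    rw [geo_idist1_comm c p.2 p'.2] at a2
    refine Finset.mem_biUnion.2 ⟨(p, p'), Finset.mem_product.2 ⟨hp, hp'⟩, ?_⟩
    simp only [seg, Finset.mem_union, Finset.mem_image, Finset.mem_filter, Finset.mem_univ, true_and]
    rcases hc with ⟨e, q⟩ | ⟨e, q⟩ | ⟨e, q⟩ | ⟨e, q⟩
    · exact Or.inl (Or.inl ⟨N.up1 i.1, up1_seg h (by omega), by rw [← e]; rfl⟩)
    · exact Or.inl (Or.inr ⟨N.up1 i.2, up1_seg h (by omega), by rw [← e]; rfl⟩)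
    · exact Or.inr (Or.inl ⟨N.up1 i.1, up1_seg h (by omega), by rw [← e]; rfl⟩)
    · exact Or.inr (Or.inr ⟨N.up1 i.2, up1_seg h (by omega), by rw [← e]; rfl⟩)
  have hc2 : ∀ f : Face c, (fcl c f).card ≤ 2 := fun f => Finset.card_le_two
  calc (cov N R (Sum.inr (Sum.inr l))).card ≤ ((fcl c l.1 ×ˢ fcl c l.2.1).biUnion seg).card := Finset.card_le_card sub
    _ ≤ ∑ q ∈ fcl c l.1 ×ˢ fcl c l.2.1, (seg q).card := Finset.card_biUnion_le
    _ ≤ ∑ _q ∈ fcl c l.1 ×ˢ fcl c l.2.1, 4 * (2 * t + 1) := Finset.sum_le_sum fun q _ => hseg q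
    _ = (fcl c l.1 ×ˢ fcl c l.2.1).card * (4 * (2 * t + 1)) := by rw [Finset.sum_const, smul_eq_mul]
    _ ≤ 4 * (4 * (2 * t + 1)) := by
        refine Nat.mul_le_mul_right _ ?_
        rw [Finset.card_product]
        exact Nat.mul_le_mul (hc2 _) (hc2 _)
    _ = 32 * 2 ^ l.2.2 + 48 := by rw [ht]; ring

open Classical in
/-- **counting live links of scale `j` at a block** -/
theorem links_at (h : AdmN N R) (b : g.I) (j : ℕ) :
    (Finset.univ.filter fun q : Face c × Face c => Live c R (q.1, q.2, j) ∧ b ∈ cov N R (Sum.inr (Sum.inr (q.1, q.2, j)))).card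
      ≤ 4 * (2 * (2 ^ j * R + R + 1) + 1) ^ 2 * (2 * (2 * (2 ^ j * R) + R + 2) + 1) ^ 2 := by
  rcases (Finset.univ.filter fun q : Face c × Face c => Live c R (q.1, q.2, j) ∧
      b ∈ cov N R (Sum.inr (Sum.inr (q.1, q.2, j)))).eq_empty_or_nonempty with e | ⟨q0, hq0⟩
  · rw [e]; simp
  obtain ⟨i0, -, hi0⟩ := mem_cl.1 (Finset.mem_filter.1 hq0).2.2
  have sub : (Finset.univ.filter fun q : Face c × Face c => Live c R (q.1, q.2, j) ∧
      b ∈ cov N R (Sum.inr (Sum.inr (q.1, q.2, j)))) ⊆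
      ((Finset.univ.filter fun a : c.I => c.idist i0 a ≤ 2 ^ j * R + R + 1) ×ˢ (Finset.univ : Finset Bool)) ×ˢ
        ((Finset.univ.filter fun a : c.I => c.idist i0 a ≤ 2 * (2 ^ j * R) + R + 2) ×ˢ (Finset.univ : Finset Bool)) := by
    intro q hq
    obtain ⟨hl, hb⟩ := (Finset.mem_filter.1 hq).2
    obtain ⟨i, hi, hib⟩ := mem_cl.1 hb
    have d1 : c.idist q.1.1 i ≤ 2 ^ j * R + 2 := lcells_near hl hi
    have d2 : c.idist i0 i ≤ R - 1 := by
      have := (up_dist h i0 i).2
      rw [hi0, hib, geo_idist_self] at this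
      omega
    have d3 : c.idist q.1.1 q.2.1 ≤ 2 ^ j * R + 1 := live_dist hl (fcl_ne _) (fcl_ne _)
    have t1 := geo_idist_triangle c i0 i q.1.1
    rw [geo_idist_comm c i q.1.1] at t1
    have t2 := geo_idist_triangle c i0 q.1.1 q.2.1
    have hpos := h.adm.pos
    simp only [Finset.mem_product, Finset.mem_filter, Finset.mem_univ, true_and, and_true]
    constructor <;> omega
  refine (Finset.card_le_card sub).trans ?_
  rw [Finset.card_product, Finset.card_product, Finset.card_product]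
  have b1 := geo_ball_card c i0 (2 ^ j * R + R + 1)
  have b2 := geo_ball_card c i0 (2 * (2 ^ j * R) + R + 2)
  have e2 : (Finset.univ : Finset Bool).card = 2 := by decide
  rw [e2]
  calc _ ≤ ((2 * (2 ^ j * R + R + 1) + 1) ^ 2 * 2) * ((2 * (2 * (2 ^ j * R) + R + 2) + 1) ^ 2 * 2) :=
        Nat.mul_le_mul (Nat.mul_le_mul_right _ b1) (Nat.mul_le_mul_right _ b2)
    _ = _ := by ring

end linkcovers

/-! ## 13. All items -/

theorem mem_links {l : Link c} : l ∈ links c R ↔ l.2.2 ≤ c.n ∧ Live c R l := by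
  classical
  unfold links linksAll
  simp [Finset.mem_filter, Finset.mem_product]

theorem links_subset : links c R ⊆ linksAll c := by
  classical
  exact Finset.filter_subset _ _

/-- sums over all triples reduce to the links -/
theorem sum_linksAll {W : Wt c} (hW : W.Str) {M : Type} [AddCommMonoid M] (F : Link c → M) (hF : ∀ l, W.lkc R l = 0 → F l = 0) :
    ∑ l ∈ linksAll c, F l = ∑ l ∈ links c R, F l := by
  classical
  unfold links
  rw [Finset.sum_filter]
  refine Finset.sum_congr rfl fun l _ => ?_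
  by_cases hl : Live c R l
  · rw [if_pos hl]
  · rw [if_neg hl]; exact hF l (lkc_dead hW hl)

/-- **the cover of every item is connected** -/
theorem cov_conn {g : Grid G} {N : Nest c g} (h : AdmN N R) {I : Item c} (hI : I ∈ items c R) : g.Conn RR (cov N R I) := by
  unfold items at hI
  rcases Finset.mem_union.1 hI with q | q
  · obtain ⟨k, hk, rfl⟩ := Finset.mem_image.1 q
    exact cov_mark_conn h hk
  · rcases Finset.mem_union.1 q with q | q
    · obtain ⟨t, ht, rfl⟩ := Finset.mem_image.1 q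
      exact cov_tile_conn h ht
    · obtain ⟨l, hl, rfl⟩ := Finset.mem_image.1 q
      exact cov_link_conn h (mem_links.1 hl).2



end Claimed.Agent.R285.Ent
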