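import Claimed.Agent.R285.F4a.Defs
import Claimed.Agent.R285.Alg.Comps

/-!
# ROW 285, entry engine, layer ALG: the three purely algebraic identities            (owner helper56; leaves L-ENT-ALG-1..3: ALL PROVED by helper108)
Paper-free.  Only `Base/RG.lean` (`Grid`, `Conn`, `comps`, `Sep`, `ZA`) and `F4a.ZA1`.
* `ent_incl_excl` : the "finite binary expansion" of [F] s4.6 / [B] s9.2 for ONE colour of events.  Trivial: exchange the sums, `∑_{O ⊆ S ⊆ E} (-1)^{|S ∖ O|} = [O = E]`
  (`Finset.sum_powerset_neg_one_pow_card`-type lemma on the interval `[O, E]`: substitute `S = O ∪ A`, `A ⊆ E ∖ O`).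
* `ent_regroup` : a function of patterns which is multiplicative over separated covers is a subset functional (ent:ordinary-subset).
  PLAN: `∑_π F π = ∑_V ∑_{π : cover π = V} F π` (`Finset.sum_fiberwise`).  Fix `V`, `𝒞 = comps R V`.  Facts on `comps` (prove them first, ~120 l.): the members of `𝒞` are `R`-connected, pairwise `Sep R`, their union is `V`;
  an `R`-connected subset of `V` lies in exactly one member.  So `π ↦ (π_X)_{X ∈ 𝒞}`, `π_X = {I ∈ π : cov I ⊆ X}`, is a bijection from `{π ⊆ It : cover π = V}` onto `∏_X {π ⊆ It : cover π = X}`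
  (`Finset.prod_sum` / `Finset.sum_bij'` with `Finset.pi`), and `F π = ∏_X F π_X` by induction on `𝒞` from `hmul`, `h1`.
* `ent_regroup_label` : the same with one compulsory cover (ent:labelled-subset).
-/

set_option autoImplicit false

namespace Claimed.Agent.R285.Ent

open scoped BigOperators
open Claimed.Agent.R285 Claimed.Agent.R285.RG Claimed.Agent.R285.F4a

noncomputable section

variable {G : Geom}

/-- **L-ENT-ALG-1.**  One colour of the binary expansion: `E` = the events, `β` = the proxies, `Φ O` = the weight in which exactly the events of `O` are not cut. -/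
theorem ent_incl_excl {ι 𝔸 : Type} [DecidableEq ι] [CommRing 𝔸] (E : Finset ι) (β : ι → 𝔸) (Φ : Finset ι → 𝔸) :
    Φ E = ∑ S ∈ E.powerset, ∑ O ∈ S.powerset, (-1) ^ (S \ O).card * (∏ k ∈ E \ O, β k) * Φ O := by
  induction E using Finset.induction_on generalizing Φ with
  | empty => simp
  | insert a E ha ih =>
    rw [Finset.sum_powerset_insert ha, ← Finset.sum_add_distrib, ih (fun O => Φ (insert a O))]
    refine Finset.sum_congr rfl fun S hS => ?_
    rw [Finset.mem_powerset] at hS
    have haS : a ∉ S := fun h => ha (hS h)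
    rw [Finset.sum_powerset_insert haS, ← Finset.sum_add_distrib, ← Finset.sum_add_distrib]
    refine Finset.sum_congr rfl fun O hO => ?_
    rw [Finset.mem_powerset] at hO
    have haO : a ∉ O := fun h => haS (hO h)
    have e1 : insert a E \ O = insert a (E \ O) := Finset.insert_sdiff_of_notMem _ haO
    have e2 : insert a S \ O = insert a (S \ O) := Finset.insert_sdiff_of_notMem _ haO
    have e3 : insert a E \ insert a O = E \ O := by
      ext x
      simp only [Finset.mem_sdiff, Finset.mem_insert, not_or]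
      constructor
      · rintro ⟨h1 | h1, h2, h3⟩
        · exact absurd h1 h2
        · exact ⟨h1, h3⟩
      · rintro ⟨h1, h2⟩
        exact ⟨Or.inr h1, fun h => ha (h ▸ h1), h2⟩
    have e4 : insert a S \ insert a O = S \ O := by
      ext x
      simp only [Finset.mem_sdiff, Finset.mem_insert, not_or]
      constructor
      · rintro ⟨h1 | h1, h2, h3⟩
        · exact absurd h1 h2
        · exact ⟨h1, h3⟩
      · rintro ⟨h1, h2⟩
        exact ⟨Or.inr h1, fun h => haS (h ▸ h1), h2⟩
    have h5 : a ∉ E \ O := fun h => ha (Finset.mem_sdiff.1 h).1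
    have h6 : a ∉ S \ O := fun h => haS (Finset.mem_sdiff.1 h).1
    rw [e1, e2, e3, e4, Finset.prod_insert h5, Finset.card_insert_of_notMem h6]
    ring

open Classical in
/-- the activity of a multiplicative function of patterns -/
def actOf {ι 𝔸 : Type} [DecidableEq ι] [CommRing 𝔸] (g : Grid G) (R : ℕ) (It : Finset ι) (cov : ι → Finset g.I) (F : Finset ι → 𝔸) :
    Finset g.I → 𝔸 := fun X => if g.Conn R X then ∑ π ∈ It.powerset.filter (fun π => π.biUnion cov = X), F π else 0

open Classical in
/-- the labelled activity -/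
def actOfL {ι 𝔸 : Type} [DecidableEq ι] [CommRing 𝔸] (g : Grid G) (R : ℕ) (It : Finset ι) (cov : ι → Finset g.I) (Cs : Finset g.I)
    (FL : Finset ι → 𝔸) : Finset g.I → 𝔸 :=
  fun X => if g.Conn R X then ∑ π ∈ It.powerset.filter (fun π => Cs ∪ π.biUnion cov = X), FL π else 0

open Classical Claimed.Agent.R285.Alg in
/-- splitting of a pattern along two separated block sets; `C0 ⊆ V1` is a compulsory part of the cover (`∅` in the ordinary sector) -/
theorem ent_split {ι : Type} [DecidableEq ι] {g : Grid G} {R : ℕ} {It : Finset ι} {cov : ι → Finset g.I}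
    (hconn : ∀ I ∈ It, g.Conn R (cov I))
    {C0 V1 V2 : Finset g.I} (h : g.Sep R V1 V2) (hC : C0 ⊆ V1) {M : Type} [AddCommMonoid M] (f : Finset ι → M) :
    ∑ π ∈ It.powerset.filter (fun π => C0 ∪ π.biUnion cov = V1 ∪ V2), f π =
      ∑ π₁ ∈ It.powerset.filter (fun π => C0 ∪ π.biUnion cov = V1),
        ∑ π₂ ∈ It.powerset.filter (fun π => π.biUnion cov = V2), f (π₁ ∪ π₂) := by
  have hd : Disjoint V1 V2 := sep_disjoint h
  have hnot : ∀ I ∈ It, cov I ⊆ V1 → cov I ⊆ V2 → False := fun I hI h1 h2 => by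
    obtain ⟨b, hb⟩ := (hconn I hI).1
    exact Finset.disjoint_left.1 hd (h1 hb) (h2 hb)
  have hsub' : ∀ π : Finset ι, C0 ∪ π.biUnion cov = V1 ∪ V2 → ∀ I ∈ π, cov I ⊆ V1 ∪ V2 := fun π hπ I hI => by
    rw [← hπ]; exact (Finset.subset_biUnion_of_mem cov hI).trans Finset.subset_union_right
  have hre : ∀ π : Finset ι, π ⊆ It → C0 ∪ π.biUnion cov = V1 ∪ V2 →
      (π.filter fun I => cov I ⊆ V1) ∪ (π.filter fun I => cov I ⊆ V2) = π := fun π hπI hπ => by
    ext I
    simp only [Finset.mem_union, Finset.mem_filter]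
    constructor
    · rintro (h1 | h1) <;> exact h1.1
    · intro hI
      rcases conn_sub_of_sep (hconn I (hπI hI)) (hsub' π hπ I hI) h with h1 | h2
      · exact Or.inl ⟨hI, h1⟩
      · exact Or.inr ⟨hI, h2⟩
  rw [← Finset.sum_product']
  refine Finset.sum_nbij' (fun π => (π.filter fun I => cov I ⊆ V1, π.filter fun I => cov I ⊆ V2))
    (fun q => q.1 ∪ q.2) ?_ ?_ ?_ ?_ ?_
  · intro π hπ
    simp only [Finset.mem_filter, Finset.mem_powerset] at hπ
    obtain ⟨hπI, hπ⟩ := hπ
    have hsub := hsub' π hπ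
    simp only [Finset.mem_product, Finset.mem_filter, Finset.mem_powerset]
    refine ⟨⟨(Finset.filter_subset _ _).trans hπI, ?_⟩, ⟨(Finset.filter_subset _ _).trans hπI, ?_⟩⟩
    · apply Finset.Subset.antisymm
      · intro b hb
        rcases Finset.mem_union.1 hb with hb | hb
        · exact hC hb
        · obtain ⟨I, hI, hbI⟩ := Finset.mem_biUnion.1 hb
          exact (Finset.mem_filter.1 hI).2 hbI
      · intro b hb
        have : b ∈ C0 ∪ π.biUnion cov := by rw [hπ]; exact Finset.mem_union_left _ hb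
        rcases Finset.mem_union.1 this with hb0 | this
        · exact Finset.mem_union_left _ hb0
        obtain ⟨I, hI, hbI⟩ := Finset.mem_biUnion.1 this
        refine Finset.mem_union_right _ (Finset.mem_biUnion.2 ⟨I, Finset.mem_filter.2 ⟨hI, ?_⟩, hbI⟩)
        rcases conn_sub_of_sep (hconn I (hπI hI)) (hsub I hI) h with h1 | h2
        · exact h1
        · exact absurd (h2 hbI) (Finset.disjoint_left.1 hd hb)
    · apply Finset.Subset.antisymm
      · intro b hb
        obtain ⟨I, hI, hbI⟩ := Finset.mem_biUnion.1 hb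
        exact (Finset.mem_filter.1 hI).2 hbI
      · intro b hb
        have : b ∈ C0 ∪ π.biUnion cov := by rw [hπ]; exact Finset.mem_union_right _ hb
        rcases Finset.mem_union.1 this with hb0 | this
        · exact absurd hb (Finset.disjoint_left.1 hd (hC hb0))
        obtain ⟨I, hI, hbI⟩ := Finset.mem_biUnion.1 this
        refine Finset.mem_biUnion.2 ⟨I, Finset.mem_filter.2 ⟨hI, ?_⟩, hbI⟩
        rcases conn_sub_of_sep (hconn I (hπI hI)) (hsub I hI) h with h1 | h2
        · exact absurd hb (Finset.disjoint_left.1 hd (h1 hbI))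
        · exact h2
  · intro q hq
    simp only [Finset.mem_product, Finset.mem_filter, Finset.mem_powerset] at hq ⊢
    refine ⟨Finset.union_subset hq.1.1 hq.2.1, ?_⟩
    rw [Finset.union_biUnion, ← Finset.union_assoc, hq.1.2, hq.2.2]
  · intro π hπ
    simp only [Finset.mem_filter, Finset.mem_powerset] at hπ
    exact hre π hπ.1 hπ.2
  · intro q hq
    simp only [Finset.mem_product, Finset.mem_filter, Finset.mem_powerset] at hq
    have s1 : ∀ I ∈ q.1, cov I ⊆ V1 := fun I hI => by
      rw [← hq.1.2]; exact (Finset.subset_biUnion_of_mem cov hI).trans Finset.subset_union_right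
    have s2 : ∀ I ∈ q.2, cov I ⊆ V2 := fun I hI => by
      rw [← hq.2.2]; exact Finset.subset_biUnion_of_mem cov hI
    ext1
    · ext I
      simp only [Finset.mem_filter, Finset.mem_union]
      constructor
      · rintro ⟨h1 | h1, h2⟩
        · exact h1
        · exact (hnot I (hq.2.1 h1) h2 (s2 I h1)).elim
      · intro hI
        exact ⟨Or.inl hI, s1 I hI⟩
    · ext I
      simp only [Finset.mem_filter, Finset.mem_union]
      constructor
      · rintro ⟨h1 | h1, h2⟩
        · exact (hnot I (hq.1.1 h1) (s1 I h1) h2).elim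
        · exact h1
      · intro hI
        exact ⟨Or.inr hI, s2 I hI⟩
  · intro π hπ
    simp only [Finset.mem_filter, Finset.mem_powerset] at hπ
    rw [hre π hπ.1 hπ.2]

open Classical in
/-- the sum of the pattern weights with a given occupied cover -/
def entW {ι 𝔸 : Type} [DecidableEq ι] [CommRing 𝔸] (g : Grid G) (It : Finset ι) (cov : ι → Finset g.I) (C0 : Finset g.I)
    (F : Finset ι → 𝔸) (V : Finset g.I) : 𝔸 := ∑ π ∈ It.powerset.filter (fun π => C0 ∪ π.biUnion cov = V), F π

open Classical in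
theorem entW_total {ι 𝔸 : Type} [DecidableEq ι] [CommRing 𝔸] (g : Grid G) (It : Finset ι) (cov : ι → Finset g.I) (C0 : Finset g.I)
    (F : Finset ι → 𝔸) : ∑ V : Finset g.I, entW g It cov C0 F V = ∑ π ∈ It.powerset, F π := by
  unfold entW
  exact Finset.sum_fiberwise _ _ _

open Classical in
theorem entW_eq_zero {ι 𝔸 : Type} [DecidableEq ι] [CommRing 𝔸] (g : Grid G) (It : Finset ι) (cov : ι → Finset g.I) {C0 : Finset g.I}
    (F : Finset ι → 𝔸) {V : Finset g.I} (h : ¬ C0 ⊆ V) : entW g It cov C0 F V = 0 := by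
  unfold entW
  refine Finset.sum_eq_zero fun π hπ => ?_
  simp only [Finset.mem_filter] at hπ
  exact absurd (hπ.2 ▸ Finset.subset_union_left) h

open Classical in
theorem entW_empty {ι 𝔸 : Type} [DecidableEq ι] [CommRing 𝔸] {g : Grid G} {R : ℕ} {It : Finset ι} {cov : ι → Finset g.I}
    (hconn : ∀ I ∈ It, g.Conn R (cov I)) (F : Finset ι → 𝔸) : entW g It cov ∅ F ∅ = F ∅ := by
  unfold entW
  have : It.powerset.filter (fun π => (∅ : Finset g.I) ∪ π.biUnion cov = ∅) = {∅} := by
    ext π
    simp only [Finset.mem_filter, Finset.mem_powerset, Finset.mem_singleton, Finset.empty_union]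
    constructor
    · rintro ⟨h1, h2⟩
      by_contra hπ
      obtain ⟨I, hI⟩ := Finset.nonempty_iff_ne_empty.2 hπ
      obtain ⟨b, hb⟩ := (hconn I (h1 hI)).1
      have : b ∈ π.biUnion cov := Finset.mem_biUnion.2 ⟨I, hI, hb⟩
      rw [h2] at this
      exact absurd this (Finset.notMem_empty b)
    · rintro rfl
      exact ⟨Finset.empty_subset _, rfl⟩
  rw [this, Finset.sum_singleton]

open Classical in
theorem entW_mul {ι 𝔸 : Type} [DecidableEq ι] [CommRing 𝔸] {g : Grid G} {R : ℕ} {It : Finset ι} {cov : ι → Finset g.I}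
    (hconn : ∀ I ∈ It, g.Conn R (cov I)) {C0 : Finset g.I} {F FL : Finset ι → 𝔸}
    (hmulL : ∀ π π', π ⊆ It → π' ⊆ It → g.Sep R (C0 ∪ π.biUnion cov) (π'.biUnion cov) → FL (π ∪ π') = FL π * F π')
    (V1 V2 : Finset g.I) (h : g.Sep R V1 V2) (hC : C0 ⊆ V1) :
    entW g It cov C0 FL (V1 ∪ V2) = entW g It cov C0 FL V1 * entW g It cov ∅ F V2 := by
  unfold entW
  simp only [Finset.empty_union]
  rw [ent_split hconn h hC, Finset.sum_mul_sum]
  refine Finset.sum_congr rfl fun π₁ h1 => Finset.sum_congr rfl fun π₂ h2 => ?_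
  simp only [Finset.mem_filter, Finset.mem_powerset] at h1 h2
  exact hmulL π₁ π₂ h1.1 h2.1 (by rw [h1.2, h2.2]; exact h)

open Classical in
theorem actOf_eq {ι 𝔸 : Type} [DecidableEq ι] [CommRing 𝔸] (g : Grid G) (R : ℕ) (It : Finset ι) (cov : ι → Finset g.I)
    (F : Finset ι → 𝔸) {X : Finset g.I} (hX : g.Conn R X) : actOf g R It cov F X = entW g It cov ∅ F X := by
  unfold actOf entW
  rw [if_pos hX]
  simp only [Finset.empty_union]

open Classical in
theorem actOfL_eq {ι 𝔸 : Type} [DecidableEq ι] [CommRing 𝔸] (g : Grid G) (R : ℕ) (It : Finset ι) (cov : ι → Finset g.I)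
    (Cs : Finset g.I) (F : Finset ι → 𝔸) {X : Finset g.I} (hX : g.Conn R X) :
    actOfL g R It cov Cs F X = entW g It cov Cs F X := by
  unfold actOfL entW
  rw [if_pos hX]

/-- **L-ENT-ALG-2.**  Regrouping into the subset functional. -/
theorem ent_regroup {ι 𝔸 : Type} [DecidableEq ι] [CommRing 𝔸] (g : Grid G) (R : ℕ) (It : Finset ι) (cov : ι → Finset g.I)
    (hconn : ∀ I ∈ It, g.Conn R (cov I)) (F : Finset ι → 𝔸) (h1 : F ∅ = 1)
    (hmul : ∀ π π', π ⊆ It → π' ⊆ It → g.Sep R (π.biUnion cov) (π'.biUnion cov) → F (π ∪ π') = F π * F π') :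
    ∑ π ∈ It.powerset, F π = ZA g R (actOf g R It cov F) := by
  rw [Alg.ZA_of_mult (actOf g R It cov F) (entW g It cov ∅ F) (by rw [entW_empty hconn, h1])
    (fun V1 V2 h => entW_mul hconn (C0 := ∅) (by simpa only [Finset.empty_union] using hmul) V1 V2 h (Finset.empty_subset _))
    (fun Y hY => actOf_eq g R It cov F hY), entW_total]

open Claimed.Agent.R285.Alg in
/-- **L-ENT-ALG-3.**  Regrouping with one compulsory component.  `K` is ANY function which is the ordinary activity on the supports which can coexist with `Cs`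
(the values on the other supports do not enter `[x] 𝒵 (K + x J)`). -/
theorem ent_regroup_label {ι 𝔸 : Type} [DecidableEq ι] [CommRing 𝔸] (g : Grid G) (R : ℕ) (It : Finset ι) (cov : ι → Finset g.I)
    (hconn : ∀ I ∈ It, g.Conn R (cov I)) (Cs : Finset g.I) (hCs : g.Conn R Cs) (F FL : Finset ι → 𝔸) (h1 : F ∅ = 1)
    (hmul : ∀ π π', π ⊆ It → π' ⊆ It → g.Sep R (π.biUnion cov) (π'.biUnion cov) → F (π ∪ π') = F π * F π')
    (hmulL : ∀ π π', π ⊆ It → π' ⊆ It → g.Sep R (Cs ∪ π.biUnion cov) (π'.biUnion cov) → FL (π ∪ π') = FL π * F π')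
    (K : Finset g.I → 𝔸) (hK : ∀ X, g.Sep R Cs X → K X = actOf g R It cov F X) :
    ∑ π ∈ It.powerset, FL π = ZA1 g R K (actOfL g R It cov Cs FL) := by
  classical
  rw [← entW_total g It cov Cs FL]
  unfold ZA1
  refine Finset.sum_congr rfl fun V _ => ?_
  by_cases hV : Cs ⊆ V
  swap
  · rw [entW_eq_zero g It cov FL hV]
    refine (Finset.sum_eq_zero fun X hX => ?_).symm
    rw [actOfL_eq g R It cov Cs FL (comps_conn hX),
      entW_eq_zero g It cov FL (fun h => hV (h.trans (comps_subset hX))), zero_mul]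
  obtain ⟨a, ha⟩ := hCs.1
  obtain ⟨X₀, hX₀, haX₀⟩ := comps_cover (R := R) (hV ha)
  have hsep := comps_sep_sdiff hX₀
  have hVe : X₀ ∪ (V \ X₀) = V := Finset.union_sdiff_of_subset (comps_subset hX₀)
  have hCX : Cs ⊆ X₀ := by
    rcases conn_sub_of_sep hCs (by rw [hVe]; exact hV) hsep with h1 | h2
    · exact h1
    · exact absurd haX₀ (Finset.mem_sdiff.1 (h2 ha)).2
  rw [Finset.sum_eq_single_of_mem X₀ hX₀ (fun X hX hne' => by
    have hdis := comps_disjoint hX hX₀ hne'
    rw [actOfL_eq g R It cov Cs FL (comps_conn hX),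
      entW_eq_zero g It cov FL (fun h => Finset.disjoint_left.1 hdis (h ha) haX₀), zero_mul])]
  have hcomps : (g.comps R V).erase X₀ = g.comps R (V \ X₀) := by
    conv_lhs => rw [← hVe, comps_union hsep, comps_self (comps_conn hX₀)]
    have hd := comps_union_disjoint hsep
    rw [comps_self (comps_conn hX₀)] at hd
    rw [Finset.erase_union_distrib, Finset.erase_singleton, Finset.empty_union,
      Finset.erase_eq_of_notMem (Finset.disjoint_singleton_left.1 hd)]
  rw [hcomps, actOfL_eq g R It cov Cs FL (comps_conn hX₀)]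
  have h2 : ∏ X' ∈ g.comps R (V \ X₀), K X' = entW g It cov ∅ F (V \ X₀) := by
    rw [mult_eq_prod (entW g It cov ∅ F) (by rw [entW_empty hconn, h1])
      (fun V1 V2 h => entW_mul hconn (C0 := ∅) (by simpa only [Finset.empty_union] using hmul) V1 V2 h
        (Finset.empty_subset _)) (V \ X₀)]
    refine Finset.prod_congr rfl fun Y hY => ?_
    rw [hK Y (sep_mono hsep hCX (comps_subset hY)), actOf_eq g R It cov F (comps_conn hY)]
  rw [h2]
  conv_lhs => rw [← hVe]
  exact entW_mul hconn hmulL X₀ (V \ X₀) hsep hCX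

end

end Claimed.Agent.R285.Ent
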