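import Claimed.Agent.R285.Ent.If
import Claimed.Agent.R285.Ent.Alg
import Claimed.Agent.R285.Scal.Indep
import Claimed.Agent.R285.Scal.Dist
import Claimed.Agent.R285.Ker.Main
import Claimed.Agent.R285.Hol.Gs
import Claimed.Agent.R285.F4a.EnA
import Claimed.Agent.R285.F4a.EnB

/-!
# ROW 285, THE ENTRY ENGINE, post LOC, exit 3: the subset identities            (owner helper273)
Geometry-free: nothing of s1 of `Ent/Defs.lean` is unfolded.
* `id_noise_mul`, `id_eav_mul` : independence (product noise, finite range of `C_{<m}`).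
* `id_eav_sum` : linearity of the average under `Itg`.
* `ExpOK W N R` : the conclusions of `ExpStmt` for one weight (+ locality and continuity of the labelled factors).
* `identW`, `identWL` : (ent:ordinary-subset), (ent:labelled-subset) for a GENERAL weight `W : Wt c`.
* `ident_of` : `IdentStmt` from `ExpOK` of the XY weights and the bridge to real data.
-/

set_option autoImplicit false

namespace Claimed.Agent.R285.Ent

open scoped BigOperators ENNReal NNReal
open MeasureTheory ProbabilityTheory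
open Claimed.Agent.R285 Claimed.Agent.R285.RG Claimed.Agent.R285.F4a

noncomputable section

variable {G : Geom}

/-! ## 1. Independence -/

open Classical in
/-- extension by zero of a function on a set of cells -/
def idExt {ι : Type} (A : Finset ι) (η : A → ℝ) : ι → ℝ := fun i => if h : i ∈ A then η ⟨i, h⟩ else 0

theorem idExt_measurable {ι : Type} (A : Finset ι) : Measurable (idExt A) := by
  classical
  refine measurable_pi_iff.2 fun i => ?_
  unfold idExt
  by_cases h : i ∈ A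
  · simp only [dif_pos h]
    exact measurable_pi_apply _
  · simp only [dif_neg h]
    exact measurable_const

theorem idExt_restrict {ι : Type} (A : Finset ι) (e : ι → ℝ) (i : ι) (hi : i ∈ A) : idExt A (fun j : A => e j) i = e i := by
  unfold idExt
  rw [dif_pos hi]

instance noise_isProbabilityMeasure (c : Grid G) : IsProbabilityMeasure (noise c) := by
  unfold noise
  infer_instance

/-- functions of the noise on disjoint sets of cells are uncorrelated (no integrability is needed) -/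
theorem id_noise_mul (c : Grid G) {A B : Finset c.I} (hAB : Disjoint A B) (f₁ f₂ : (c.I → ℝ) → ℂ) (hm₁ : Measurable f₁) (hm₂ : Measurable f₂)
    (hl₁ : ∀ e e' : c.I → ℝ, (∀ i ∈ A, e i = e' i) → f₁ e = f₁ e')
    (hl₂ : ∀ e e' : c.I → ℝ, (∀ i ∈ B, e i = e' i) → f₂ e = f₂ e') :
    ∫ e, f₁ e * f₂ e ∂(noise c) = (∫ e, f₁ e ∂(noise c)) * ∫ e, f₂ e ∂(noise c) := by
  have hI : iIndepFun (fun (i : c.I) (e : c.I → ℝ) => e i) (noise c) := by
    unfold noise
    exact iIndepFun_pi (X := fun _ (x : ℝ) => x) (fun _ => aemeasurable_id)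
  have hind := hI.indepFun_finset A B hAB (fun i => measurable_pi_apply i)
  have e₁ : ∀ e : c.I → ℝ, f₁ e = (fun η => f₁ (idExt A η)) (fun i : A => e i) := fun e =>
    hl₁ _ _ fun i hi => (idExt_restrict A e i hi).symm
  have e₂ : ∀ e : c.I → ℝ, f₂ e = (fun η => f₂ (idExt B η)) (fun i : B => e i) := fun e =>
    hl₂ _ _ fun i hi => (idExt_restrict B e i hi).symm
  have key := hind.integral_fun_comp_mul_comp (f := fun η => f₁ (idExt A η)) (g := fun η => f₂ (idExt B η))
    (measurable_pi_iff.2 fun i => measurable_pi_apply _).aemeasurable (measurable_pi_iff.2 fun i => measurable_pi_apply _).aemeasurable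
    (hm₁.comp (idExt_measurable A)).aestronglyMeasurable (hm₂.comp (idExt_measurable B)).aestronglyMeasurable
  simp only [← e₁, ← e₂] at key
  exact key

theorem id_obsv_cont (a : ℝ) (c : Grid G) (z : G.V → ℂ) :
    Continuous fun p : (G.V → ℝ) × (c.I → ℝ) => obsv a c (z + toC p.1) p.2 := by
  unfold obsv avgC toC
  simp only [Pi.add_apply]
  fun_prop

theorem id_obsv_cont_right (a : ℝ) (c : Grid G) (z : G.V → ℂ) : Continuous fun e : c.I → ℝ => obsv a c z e := by
  unfold obsv
  fun_prop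

theorem id_obsv_congr (a : ℝ) (c : Grid G) {z z' : G.V → ℂ} {e e' : c.I → ℝ} {i : c.I} (hz : ∀ v ∈ c.sites {i}, z v = z' v)
    (he : e i = e' i) : obsv a c z e i = obsv a c z' e' i := by
  unfold obsv avgC
  have h : ∑ v ∈ c.sites {i}, (Real.sqrt a : ℂ) * z v = ∑ v ∈ c.sites {i}, (Real.sqrt a : ℂ) * z' v :=
    Finset.sum_congr rfl fun v hv => by rw [hz v hv]
  rw [he, h]

theorem id_nav_mul (a : ℝ) (c : Grid G) {A B : Finset c.I} (hAB : Disjoint A B) {F F' : (c.I → ℂ) → ℂ} (hF : Continuous F)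
    (hF' : Continuous F') (hl : ∀ y y', (∀ i ∈ A, y i = y' i) → F y = F y') (hl' : ∀ y y', (∀ i ∈ B, y i = y' i) → F' y = F' y')
    (z : G.V → ℂ) : nav a c (fun y => F y * F' y) z = nav a c F z * nav a c F' z := by
  unfold nav
  exact id_noise_mul c hAB (fun e => F (obsv a c z e)) (fun e => F' (obsv a c z e)) (hF.comp (id_obsv_cont_right a c z)).measurable
    (hF'.comp (id_obsv_cont_right a c z)).measurable
    (fun e e' h => hl _ _ fun i hi => id_obsv_congr a c (fun _ _ => rfl) (h i hi))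
    (fun e e' h => hl' _ _ fun i hi => id_obsv_congr a c (fun _ _ => rfl) (h i hi))

theorem id_nav_meas (a : ℝ) (c : Grid G) {F : (c.I → ℂ) → ℂ} (hF : Continuous F) (z : G.V → ℂ) :
    Measurable fun ζ : G.V → ℝ => nav a c F (z + toC ζ) := by
  have h : StronglyMeasurable (fun p : (G.V → ℝ) × (c.I → ℝ) => F (obsv a c (z + toC p.1) p.2)) :=
    (hF.comp (id_obsv_cont a c z)).stronglyMeasurable
  exact (h.integral_prod_right' (ν := noise c)).measurable

theorem id_nav_congr (a : ℝ) (c : Grid G) {A : Finset c.I} {F : (c.I → ℂ) → ℂ} (hl : ∀ y y', (∀ i ∈ A, y i = y' i) → F y = F y')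
    {z z' : G.V → ℂ} (h : ∀ v ∈ c.sites A, z v = z' v) : nav a c F z = nav a c F z' := by
  unfold nav
  refine integral_congr_ae (Filter.Eventually.of_forall fun e => hl _ _ fun i hi => id_obsv_congr a c (fun v hv => h v ?_) rfl)
  simp only [Grid.sites, Finset.mem_filter, Finset.mem_univ, true_and, Finset.mem_singleton] at hv ⊢
  rw [hv]
  exact hi

theorem id_blk_up {c g : Grid G} (N : Nest c g) (v : G.V) : g.blk v = N.up (c.blk v) := by
  unfold Grid.blk Nest.up
  rw [N.comm, N.comm]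

/-- the covariance `C_{<m}` vanishes between sites under `RR`-separated blocks -/
theorem id_cless_zero {c g : Grid G} (N : Nest c g) (hg : g.Ok) {A B : Finset c.I} (hsep : g.Sep RR (N.cl A) (N.cl B)) :
    ∀ v ∈ (↑(c.sites A) : Set G.V), ∀ w ∈ (↑(c.sites B) : Set G.V), Cless G g.m v w = 0 := by
  intro v hv w hw
  simp only [Grid.sites, Finset.coe_filter, Finset.mem_univ, true_and, Set.mem_ofPred_eq] at hv hw
  refine Ker.low_range G Fam.entry Ker.entry_adm g.m hg.pos v w ?_
  have h1 := hsep (g.blk v) (by rw [id_blk_up N]; exact Finset.mem_image_of_mem _ hv) (g.blk w)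
    (by rw [id_blk_up N]; exact Finset.mem_image_of_mem _ hw)
  have h2 := Scal.dist_of_idist g hg v w
  have h3 : (RR + 1) * g.m ≤ g.idist (g.blk v) (g.blk w) * g.m := Nat.mul_le_mul_right _ h1
  have h4 : RR = 156 := rfl
  have h5 : pp = 32 := rfl
  rw [h4] at h3
  rw [h5]
  have := hg.pos
  nlinarith

theorem id_sep_disjoint {c g : Grid G} (N : Nest c g) {d : ℕ} {A B : Finset c.I} (hsep : g.Sep d (N.cl A) (N.cl B)) : Disjoint A B := by
  rw [Finset.disjoint_left]
  intro i hA hB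
  have h := hsep _ (Finset.mem_image_of_mem N.up hA) _ (Finset.mem_image_of_mem N.up hB)
  have h0 : g.idist (N.up i) (N.up i) = 0 := by
    unfold Grid.idist Grid.idist1
    cases G.bc <;> simp
  omega

/-- **independence**: averages of factors which live over `RR`-separated blocks factorise (no integrability is needed) -/
theorem id_eav_mul {c g : Grid G} (N : Nest c g) (hg : g.Ok) (a : ℝ) {A B : Finset c.I} (hsep : g.Sep RR (N.cl A) (N.cl B))
    {F F' : (c.I → ℂ) → ℂ} (hF : Continuous F) (hF' : Continuous F')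
    (hl : ∀ y y', (∀ i ∈ A, y i = y' i) → F y = F y') (hl' : ∀ y y', (∀ i ∈ B, y i = y' i) → F' y = F' y') (z : G.V → ℂ) :
    eav a c g.m (fun y => F y * F' y) z = eav a c g.m F z * eav a c g.m F' z := by
  unfold eav conv
  simp only [id_nav_mul a c (id_sep_disjoint N hsep) hF hF' hl hl']
  refine Scal.gauss_indep_mul (Cless G g.m) (Ker.low_psd G Fam.entry Ker.entry_adm g.m hg.pos) _ _ (id_cless_zero N hg hsep)
    (fun ζ => nav a c F (z + toC ζ)) (fun ζ => nav a c F' (z + toC ζ)) (id_nav_meas a c hF z) (id_nav_meas a c hF' z) ?_ ?_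
  · intro ζ ζ' h
    refine id_nav_congr a c hl fun v hv => ?_
    simp only [Pi.add_apply, toC, h v (Finset.mem_coe.2 hv)]
  · intro ζ ζ' h
    refine id_nav_congr a c hl' fun v hv => ?_
    simp only [Pi.add_apply, toC, h v (Finset.mem_coe.2 hv)]

/-! ## 2. Linearity -/

theorem id_eav_eq {a : ℝ} {c : Grid G} {m : ℕ} {F : (c.I → ℂ) → ℂ} {z : G.V → ℂ} (h : Itg a c m F z) :
    eav a c m F z = ∫ p : (G.V → ℝ) × (c.I → ℝ), F (obsv a c (z + toC p.1) p.2) ∂((gauss G (Cless G m)).prod (noise c)) := by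
  unfold eav conv nav
  exact (integral_prod _ h).symm

theorem id_itg_sum {ι : Type} (s : Finset ι) (k : ℂ) {a : ℝ} {c : Grid G} {m : ℕ} (F : ι → (c.I → ℂ) → ℂ) (z : G.V → ℂ)
    (h : ∀ i ∈ s, Itg a c m (F i) z) : Itg a c m (fun y => k * ∑ i ∈ s, F i y) z := by
  unfold Itg at h ⊢
  exact (integrable_finsetSum s h).const_mul k

theorem id_eav_sum {ι : Type} (s : Finset ι) (k : ℂ) {a : ℝ} {c : Grid G} {m : ℕ} (F : ι → (c.I → ℂ) → ℂ) (z : G.V → ℂ)
    (h : ∀ i ∈ s, Itg a c m (F i) z) : eav a c m (fun y => k * ∑ i ∈ s, F i y) z = k * ∑ i ∈ s, eav a c m (F i) z := by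
  rw [id_eav_eq (id_itg_sum s k F z h), integral_const_mul, integral_finsetSum s h]
  congr 1
  exact Finset.sum_congr rfl fun i hi => (id_eav_eq (h i hi)).symm

theorem id_eav_one (a : ℝ) (c : Grid G) (m : ℕ) (z : G.V → ℂ) : eav a c m (fun _ => 1) z = 1 := by
  unfold eav conv nav
  simp

/-! ## 3. The subset identities for a general weight -/

variable {c g : Grid G}

/-- the conclusions of `ExpStmt` for one weight, and the connectedness of the covers (post GEO) -/
structure ExpOK (W : Wt c) (N : Nest c g) (R : ℕ) : Prop where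
  exp : ∀ y, Complex.exp (W.En (Top.full c) y / 2) * W.Zh (Top.full c) y = (W.scal R : ℂ) * ∑ π ∈ (items c R).powerset, W.pfac R π y
  one : ∀ y, W.pfac R ∅ y = 1
  mul : ∀ π π', π ⊆ items c R → π' ⊆ items c R → g.Sep RR (cover N R π) (cover N R π') →
    ∀ y, W.pfac R (π ∪ π') y = W.pfac R π y * W.pfac R π' y
  loc : ∀ π y y', (∀ i ∈ π.biUnion (icells c R), y i = y' i) → W.pfac R π y = W.pfac R π y'
  cont : ∀ π, Continuous (W.pfac R π)
  conn : ∀ I ∈ items c R, g.Conn RR (cov N R I)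

/-- the labelled form -/
structure ExpLOK (W : Wt c) (N : Nest c g) (R : ℕ) (t0 : Tile) (Cs : Finset g.I) : Prop where
  sum : ∀ y, ∑ π ∈ (items c R).powerset, W.pfacL R t0 π y = ∑ π ∈ (items c R).powerset, W.pfac R π y
  mul : ∀ π π', π ⊆ items c R → π' ⊆ items c R → g.Sep RR (Cs ∪ cover N R π) (cover N R π') →
    ∀ y, W.pfacL R t0 (π ∪ π') y = W.pfacL R t0 π y * W.pfac R π' y
  loc : ∀ π y y', (∀ i ∈ cellsOf c R {t0} ∪ π.biUnion (icells c R), y i = y' i) → W.pfacL R t0 π y = W.pfacL R t0 π y'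
  cont : ∀ π, Continuous (W.pfacL R t0 π)
  sub : N.cl (cellsOf c R {t0}) ⊆ Cs

theorem id_cover_eq_cl (N : Nest c g) (R : ℕ) (π : Finset (Item c)) : cover N R π = N.cl (π.biUnion (icells c R)) := by
  unfold cover cov Nest.cl
  rw [Finset.biUnion_image]

theorem id_EF_mul {W : Wt c} {N : Nest c g} {R : ℕ} (hg : g.Ok) (a : ℝ) (hE : ExpOK W N R) (z : G.V → ℂ) (π π' : Finset (Item c))
    (hπ : π ⊆ items c R) (hπ' : π' ⊆ items c R) (hsep : g.Sep RR (cover N R π) (cover N R π')) :
    W.EF a g.m R (π ∪ π') z = W.EF a g.m R π z * W.EF a g.m R π' z := by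
  unfold Wt.EF
  rw [show W.pfac R (π ∪ π') = fun y => W.pfac R π y * W.pfac R π' y from funext (hE.mul π π' hπ hπ' hsep)]
  rw [id_cover_eq_cl, id_cover_eq_cl] at hsep
  exact id_eav_mul N hg a hsep (hE.cont π) (hE.cont π') (hE.loc π) (hE.loc π') z

theorem id_EF_empty {W : Wt c} {N : Nest c g} {R : ℕ} (a : ℝ) (hE : ExpOK W N R) (z : G.V → ℂ) : W.EF a g.m R ∅ z = 1 := by
  unfold Wt.EF
  rw [show W.pfac R ∅ = fun _ => 1 from funext hE.one]
  exact id_eav_one a c g.m z

theorem id_Kact_apply (W : Wt c) (a : ℝ) (N : Nest c g) (R : ℕ) (X : Finset g.I) (z : G.V → ℂ) :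
    W.Kact a N R X z = actOf g RR (items c R) (cov N R) (fun π => W.EF a g.m R π z) X := by
  unfold Wt.Kact actOf cover
  by_cases h : g.Conn RR X
  · simp only [if_pos h, Finset.sum_apply]
  · simp only [if_neg h, Pi.zero_apply]

theorem id_Jact_apply (W : Wt c) (a : ℝ) (N : Nest c g) (R : ℕ) (t0 : Tile) (Cs X : Finset g.I) (z : G.V → ℂ) :
    W.Jact a N R t0 Cs X z = actOfL g RR (items c R) (cov N R) Cs (fun π => eav a c g.m (W.pfacL R t0 π) z) X := by
  unfold Wt.Jact actOfL cover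
  by_cases h : g.Conn RR X
  · simp only [if_pos h, Finset.sum_apply]
  · simp only [if_neg h, Pi.zero_apply]

/-- **(ent:ordinary-subset) for a general weight**, at an arbitrary complex field -/
theorem identW {W : Wt c} {N : Nest c g} {R : ℕ} (hg : g.Ok) (a : ℝ) (hE : ExpOK W N R) (z : G.V → ℂ)
    (hI : ∀ π ⊆ items c R, Itg a c g.m (W.pfac R π) z) :
    eav a c g.m (fun y => Complex.exp (W.En (Top.full c) y / 2) * W.Zh (Top.full c) y) z
      = (W.scal R : ℂ) * ZA g RR (W.Kact a N R) z := by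
  rw [show (fun y => Complex.exp (W.En (Top.full c) y / 2) * W.Zh (Top.full c) y)
      = fun y => (W.scal R : ℂ) * ∑ π ∈ (items c R).powerset, W.pfac R π y from funext hE.exp,
    id_eav_sum _ _ _ _ (fun π hπ => hI π (Finset.mem_powerset.1 hπ))]
  congr 1
  have key := ent_regroup g RR (items c R) (cov N R) hE.conn (fun π => W.EF a g.m R π z) (id_EF_empty a hE z)
    (fun π π' hπ hπ' hsep => id_EF_mul hg a hE z π π' hπ hπ' hsep)
  have h2 : ZA g RR (W.Kact a N R) z = ZA g RR (fun X => W.Kact a N R X z) := by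
    simp only [ZA, Finset.sum_apply, Finset.prod_apply]
  rw [h2, show (fun X => W.Kact a N R X z) = actOf g RR (items c R) (cov N R) (fun π => W.EF a g.m R π z) from
    funext fun X => id_Kact_apply W a N R X z]
  exact key

/-- **(ent:labelled-subset) for a general weight**, at an arbitrary complex field -/
theorem identWL {W : Wt c} {N : Nest c g} {R : ℕ} {t0 : Tile} {Cs : Finset g.I} (hg : g.Ok) (a : ℝ) (hE : ExpOK W N R)
    (hL : ExpLOK W N R t0 Cs) (hCs : g.Conn RR Cs) (K : Act g) (hK : ∀ X, g.Sep RR Cs X → K X = W.Kact a N R X) (z : G.V → ℂ)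
    (hI : ∀ π ⊆ items c R, Itg a c g.m (W.pfacL R t0 π) z) :
    eav a c g.m (fun y => Complex.exp (W.En (Top.full c) y / 2) * W.Zh (Top.full c) y) z
      = (W.scal R : ℂ) * ZA1 g RR K (W.Jact a N R t0 Cs) z := by
  rw [show (fun y => Complex.exp (W.En (Top.full c) y / 2) * W.Zh (Top.full c) y)
      = fun y => (W.scal R : ℂ) * ∑ π ∈ (items c R).powerset, W.pfacL R t0 π y from funext fun y => by rw [hE.exp, hL.sum],
    id_eav_sum _ _ _ _ (fun π hπ => hI π (Finset.mem_powerset.1 hπ))]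
  congr 1
  have key := ent_regroup_label g RR (items c R) (cov N R) hE.conn Cs hCs (fun π => W.EF a g.m R π z)
    (fun π => eav a c g.m (W.pfacL R t0 π) z) (id_EF_empty a hE z)
    (fun π π' hπ hπ' hsep => id_EF_mul hg a hE z π π' hπ hπ' hsep) ?_ (fun X => K X z)
    (fun X hX => by rw [hK X hX, id_Kact_apply])
  · have h2 : ZA1 g RR K (W.Jact a N R t0 Cs) z = ZA1 g RR (fun X => K X z) (fun X => W.Jact a N R t0 Cs X z) := by
      simp only [ZA1, Finset.sum_apply, Pi.mul_apply, Finset.prod_apply]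
    rw [h2, show (fun X => W.Jact a N R t0 Cs X z)
      = actOfL g RR (items c R) (cov N R) Cs (fun π => eav a c g.m (W.pfacL R t0 π) z) from
        funext fun X => id_Jact_apply W a N R t0 Cs X z]
    exact key
  · intro π π' hπ hπ' hsep
    show eav a c g.m (W.pfacL R t0 (π ∪ π')) z = eav a c g.m (W.pfacL R t0 π) z * eav a c g.m (W.pfac R π') z
    rw [show W.pfacL R t0 (π ∪ π') = fun y => W.pfacL R t0 π y * W.pfac R π' y from funext (hL.mul π π' hπ hπ' hsep)]
    refine id_eav_mul N hg a (A := cellsOf c R {t0} ∪ π.biUnion (icells c R)) (B := π'.biUnion (icells c R)) ?_ (hL.cont π)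
      (hE.cont π') (hL.loc π) (hE.loc π') z
    rw [← id_cover_eq_cl]
    refine Alg.sep_mono hsep ?_ (Finset.Subset.refl _)
    unfold Nest.cl
    rw [Finset.image_union]
    exact Finset.union_subset_union hL.sub (id_cover_eq_cl N R π).symm.subset

/-! ## 4. The bridge to real data -/

theorem id_obsv_real (a : ℝ) (c : Grid G) (ψ ζ : G.V → ℝ) (e : c.I → ℝ) :
    obsv a c (toC ψ + toC ζ) e = fun i => ((avg c (fun x => (0 : G.V → ℝ) x + Real.sqrt a * (ψ x + ζ x)) i + e i : ℝ) : ℂ) := by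
  funext i
  unfold obsv avgC avg cellAvg toC
  simp only [Pi.add_apply, Pi.zero_apply, zero_add]
  push_cast
  rfl

theorem id_full_ok (c : Grid G) : (Top.full c).Ok := by
  intro f hf
  simp only [Top.full, Finset.mem_filter, Finset.mem_univ, true_and] at hf ⊢
  exact ⟨hf, trivial⟩

/-- `En = Eobs` on real data, for every weight with `Q = Qmat a` -/
theorem id_En_real {c : Grid G} (hc : Whole c) {a : ℝ} (ha : 0 < a) (W : Wt c) (hQ : ∀ T, W.Q T = T.Qmat a) (T : Top c) (hT : T.Ok)
    (y : c.I → ℝ) : W.En T (fun i => (y i : ℂ)) = (T.Eobs a W.τ y : ℂ) := by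
  have hq := Qf_quadratic T a ha (wf c W.τ y)
  rw [← Qf_physical hc T hT a W.τ y, hq.1]
  have hz := hq.2
  have h1 : ∑ f ∈ T.faces, ∑ f' ∈ T.faces, T.Qmat a f f' * wf c W.τ y f * wf c W.τ y f'
      = ∑ f, ∑ f', T.Qmat a f f' * wf c W.τ y f * wf c W.τ y f' := by
    have h2 : ∀ f, ∑ f' ∈ T.faces, T.Qmat a f f' * wf c W.τ y f * wf c W.τ y f'
        = ∑ f', T.Qmat a f f' * wf c W.τ y f * wf c W.τ y f' := fun f =>
      Finset.sum_subset (Finset.subset_univ _) (fun f' _ hf' => by rw [hz f f' (Or.inr hf')]; ring)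
    simp only [h2]
    exact Finset.sum_subset (Finset.subset_univ _) (fun f _ hf => Finset.sum_eq_zero fun f' _ => by rw [hz f f' (Or.inl hf)]; ring)
  rw [h1]
  unfold Wt.En Wt.w wfC wf
  rw [hQ]
  push_cast
  rfl

/-- the averaged interaction as a complex average -/
theorem id_Hav_eq (b a : ℝ) (c : Grid G) (m : ℕ) (W : Wt c)
    (hEn : ∀ y : c.I → ℝ, W.En (Top.full c) (fun i => (y i : ℂ)) = ((Top.full c).Eobs a W.τ y : ℂ))
    (hZh : ∀ y : c.I → ℝ, W.Zh (Top.full c) (fun i => (y i : ℂ)) = ((Top.full c).Zhat b W.τ y : ℂ)) (ψ : G.V → ℝ) :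
    (Hav b a c m W.τ 0 ψ : ℂ)
      = eav a c m (fun y => Complex.exp (W.En (Top.full c) y / 2) * W.Zh (Top.full c) y) (toC ψ) / ((Top.full c).Zobs b 0 0 : ℂ) := by
  unfold Hav eav conv nav
  rw [← integral_complex_ofReal, ← integral_div]
  refine integral_congr_ae (Filter.Eventually.of_forall fun ζ => ?_)
  show ((∫ e, _ ∂(noise c) : ℝ) : ℂ) = (∫ e, _ ∂(noise c)) / _
  rw [← integral_complex_ofReal, ← integral_div]
  refine integral_congr_ae (Filter.Eventually.of_forall fun e => ?_)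
  beta_reduce
  rw [id_obsv_real, hEn, hZh]
  push_cast
  rfl

/-! ## 5. `IdentStmt` -/

/-- what `IdentStmt` needs from the other posts: EXP (`ExpStmt` + locality / continuity of the labelled factors, `Ent/Exp.lean`), GEO (connected covers, inside `ExpOK`),
PROP (positivity of the normaliser and the bridge `ZhatC = Zhat` on real data) -/
def IdentIn : Prop :=
  ∀ (G : Geom) (c g : Grid G) (N : Nest c g) (R : ℕ) (a b0 b : ℝ) (τ : Face c → ℤ), GeoOK c R → g.Ok → NestOK N R → 0 < a → 0 < b0 → 0 < b →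
    ExpOK (xyWt c a b0 b τ) N R ∧ 0 < (xyWt c a b0 b τ).scal R ∧
    (∀ t0 ∈ tiles c R, ∀ Cs : Finset g.I, N.cl (cellsOf c R {t0}) ⊆ Cs → ExpLOK (xyWt c a b0 b τ) N R t0 Cs) ∧
    0 < (Top.full c).Zobs b 0 0 ∧
    ∀ y : c.I → ℝ, ZhatC (Top.full c) b τ (fun i => (y i : ℂ)) = ((Top.full c).Zhat b τ y : ℂ)

/-- **POST LOC, exit 3** -/
theorem ident_of (h : IdentIn) : IdentStmt := by
  intro G c g N R a b0 b hgeo hg hN ha hb0 hb
  constructor
  · intro hI
    obtain ⟨hE, hs, -, hZ, hB⟩ := h G c g N R a b0 b 0 hgeo hg hN ha hb0 hb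
    refine ⟨div_pos hs hZ, fun ψ => ?_⟩
    have h1 := id_Hav_eq b a c g.m (xyWt c a b0 b 0) (id_En_real hgeo.whole ha _ (fun _ => rfl) _ (id_full_ok c)) hB ψ
    rw [show (Hav b a c g.m 0 0 ψ : ℂ) = _ from h1, identW hg a hE (toC ψ) (fun π hπ => hI π hπ ψ)]
    push_cast
    ring
  · intro t0 Cs K ht0 hsub hCs hK hI ψ
    obtain ⟨hE, -, hL, -, hB⟩ := h G c g N R a b0 b (tauU c) hgeo hg hN ha hb0 hb
    have h1 := id_Hav_eq b a c g.m (xyWt c a b0 b (tauU c)) (id_En_real hgeo.whole ha _ (fun _ => rfl) _ (id_full_ok c)) hB ψ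
    rw [show (Hav b a c g.m (tauU c) 0 ψ : ℂ) = _ from h1,
      identWL hg a hE (hL t0 ht0 Cs hsub) hCs K hK (toC ψ) (fun π hπ => (hI π hπ ψ).2)]
    push_cast
    ring

/-! ## 6. The general-`W` core in the shape asked for by C5 (helper262) -/

theorem expOK_of (hExp : ExpStmt) {N : Nest c g} {R : ℕ} {W : Wt c} (hgeo : GeoOK c R) (hN : NestOK N R) (hW : W.Str)
    (hconn : ∀ I ∈ items c R, g.Conn RR (cov N R I)) : ExpOK W N R := by
  obtain ⟨h1, -, h3, h4, h5, -, h7, -⟩ := hExp G c g N R W hgeo hN hW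
  exact ⟨h1, h3, h4, h5, fun π => (h7 π).continuous, hconn⟩

/-- **IdentW** -/
theorem identW_of (hExp : ExpStmt) {N : Nest c g} {R : ℕ} {W : Wt c} (hgeo : GeoOK c R) (hg : g.Ok) (hN : NestOK N R) (a : ℝ) (hW : W.Str)
    (hconn : ∀ I ∈ items c R, g.Conn RR (cov N R I)) (hI : ∀ π ⊆ items c R, ∀ ψ : G.V → ℝ, Itg a c g.m (W.pfac R π) (toC ψ)) (ψ : G.V → ℝ) :
    eav a c g.m (fun y => Complex.exp (W.En (Top.full c) y / 2) * W.Zh (Top.full c) y) (toC ψ)
      = (W.scal R : ℂ) * ZA g RR (W.Kact a N R) (toC ψ) :=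
  identW hg a (expOK_of hExp hgeo hN hW hconn) (toC ψ) fun π hπ => hI π hπ ψ

end

end Claimed.Agent.R285.Ent
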