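import Claimed.Agent.R285.Ent.Defs
import Claimed.Agent.R285.E2.Cplx
import Claimed.Agent.R285.F4a.Unfold
import Claimed.Agent.R285.F4a.Chi
import Claimed.Agent.R285.Hol.An
import Claimed.Agent.R285.Entry.Avg

/-!
# ROW 285, THE ENTRY ENGINE, POST PROP (#16189), part 1: THE LAW LEVEL            (architect helper66)
PAPER-FREE.  `pr_str : (xyWt c a b0 b τ).Str`, reality, parity, entire dependence on `b`.  No estimate.  All helper names: prefix `pr`.

## Plan
* s1 GLOBAL FORM.  A height on the retained sites is extended by zero (`prExt`); all weights are functions of a height `k : G.V → ℤ` on ALL sites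
  (products over `Finset.univ.filter T.IsEdge`, cell averages `prAv c k i`): no dependent types in the algebra.
  `prGs T y k` = the Gaussian factor, `prZg T om y = ∑' h : T.graph.V → ℤ, om (prExt T h) * prGs T y (prExt T h)` = THE GENERIC HEIGHT SUM.
* s2 the Gaussian factor: congruence, factorisation over `Splits`, shift, sign, conjugation, majorant `prGm`, entire in `y`.
* s3 the generic sum (hypotheses on `om` only; consumers: XY below, `C5` strengthened law): `pr_Zg_*`.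
  `prMaj T ω` := for every `K` the series `∑_h ω (prExt T h) * prGm T K (prExt T h)` converges.
  `pr_hol_tsum`: a locally dominated series of entire functions of finitely many variables is entire (`Hol.hol_integral`, counting measure).
* s4 the Bessel factor `prOm T b τ k`; THE ONE ANALYTIC INPUT `pr_OmR_maj` (`F4a.law_ok`, `F4a.law_proper`, `E2.Gr.summable`; transfer to heights as in `F4a.unf_summable`).
* s5 `ZobsC`, `ZhatC`;  s6 real data, `N`;  s7 `Qmat`;  s8 `pr_str`, `pr_isReal`, `pr_isEven`.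
-/

set_option autoImplicit false

namespace Claimed.Agent.R285.Ent

open scoped BigOperators ComplexConjugate
open MeasureTheory
open Claimed.Agent.R285 Claimed.Agent.R285.RG Claimed.Agent.R285.F4a

noncomputable section

variable {G : Geom} {c : Grid G}

/-! ## 1. The global form -/

/-- the connection on a primary bond (`= Top.econn`, without the topology) -/
def prEc {α : Type} [Zero α] (c : Grid G) (w : Face c → α) (e : G.V × Bool) : α :=
  if c.blk (stp e.1 e.2) = c.blk e.1 then 0 else w (c.blk e.1, e.2)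

open Classical in
/-- extension by zero of a height on the retained sites -/
def prExt (T : Top c) (h : T.graph.V → ℤ) (v : G.V) : ℤ := if hv : c.blk v ∈ T.cells then h ⟨v, hv⟩ else 0

/-- the cell averages of the physical height `2π k` -/
def prAv (c : Grid G) (k : G.V → ℤ) (i : c.I) : ℝ := avg c (fun v => 2 * Real.pi * (k v : ℝ)) i

/-- the Gaussian factor -/
def prGs (T : Top c) (y : c.I → ℂ) (k : G.V → ℤ) : ℂ := Complex.exp (-(∑ i ∈ T.cells, ((prAv c k i : ℂ) - y i) ^ 2) / 2)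

/-- **the generic height sum** -/
def prZg (T : Top c) (om : (G.V → ℤ) → ℂ) (y : c.I → ℂ) : ℂ := ∑' h : T.graph.V → ℤ, om (prExt T h) * prGs T y (prExt T h)

/-- `om` only sees the heights on the retained sites -/
def prLoc (T : Top c) {β : Type} (om : (G.V → ℤ) → β) : Prop := ∀ k k' : G.V → ℤ, (∀ v, c.blk v ∈ T.cells → k v = k' v) → om k = om k'

theorem pr_ext_coe (T : Top c) (h : T.graph.V → ℤ) (v : T.graph.V) : prExt T h v.1 = h v := by
  unfold prExt
  rw [dif_pos v.2]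
  rfl

theorem pr_ext_of_mem (T : Top c) (h : T.graph.V → ℤ) {v : G.V} (hv : c.blk v ∈ T.cells) : prExt T h v = h ⟨v, hv⟩ := by
  unfold prExt
  rw [dif_pos hv]

theorem pr_ext_of_not_mem (T : Top c) (h : T.graph.V → ℤ) {v : G.V} (hv : c.blk v ∉ T.cells) : prExt T h v = 0 := by
  unfold prExt
  rw [dif_neg hv]

theorem pr_ext_neg (T : Top c) (h : T.graph.V → ℤ) : prExt T (-h) = -prExt T h := by
  funext v
  by_cases hv : c.blk v ∈ T.cells
  · rw [Pi.neg_apply, pr_ext_of_mem T _ hv, pr_ext_of_mem T _ hv]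
    rfl
  · rw [Pi.neg_apply, pr_ext_of_not_mem T _ hv, pr_ext_of_not_mem T _ hv, neg_zero]

/-! ## 2. The Gaussian factor -/

/-- LEAF PR-G1 -/
theorem pr_Av_congr (k k' : G.V → ℤ) (i : c.I) (h : ∀ v, c.blk v = i → k v = k' v) : prAv c k i = prAv c k' i := by
  show (∑ v ∈ c.sites {i}, 2 * Real.pi * (k v : ℝ)) / ((c.sites {i}).card : ℝ) = (∑ v ∈ c.sites {i}, 2 * Real.pi * (k' v : ℝ)) / ((c.sites {i}).card : ℝ)
  congr 1
  refine Finset.sum_congr rfl fun v hv => ?_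
  have hv' : c.blk v = i := by
    have := (Finset.mem_filter.1 hv).2
    exact Finset.mem_singleton.1 this
  rw [h v hv']

/-- LEAF PR-G1 (`F4a.unf_avg_add`) -/
theorem pr_Av_shift (hc : Whole c) (k : G.V → ℤ) (i : c.I) : prAv c (fun v => k v + 1) i = prAv c k i + 2 * Real.pi := by
  have h := unf_avg_add hc (fun v => 2 * Real.pi * (k v : ℝ)) (2 * Real.pi) i
  unfold prAv
  rw [← h]
  congr 1
  funext v
  push_cast
  ring

/-- LEAF PR-G1 -/
theorem pr_Av_neg (k : G.V → ℤ) (i : c.I) : prAv c (-k) i = -prAv c k i := by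
  show (∑ v ∈ c.sites {i}, 2 * Real.pi * (((-k) v : ℤ) : ℝ)) / ((c.sites {i}).card : ℝ) = -((∑ v ∈ c.sites {i}, 2 * Real.pi * (k v : ℝ)) / ((c.sites {i}).card : ℝ))
  rw [← neg_div, ← Finset.sum_neg_distrib]
  congr 1
  refine Finset.sum_congr rfl fun v _ => ?_
  rw [Pi.neg_apply]
  push_cast
  ring

/-- LEAF PR-G1 -/
theorem pr_Gs_congr (T : Top c) (y y' : c.I → ℂ) (k k' : G.V → ℤ) (hk : ∀ v, c.blk v ∈ T.cells → k v = k' v)
    (hy : ∀ i ∈ T.cells, y i = y' i) : prGs T y k = prGs T y' k' := by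
  unfold prGs
  congr 3
  refine Finset.sum_congr rfl fun i hi => ?_
  rw [hy i hi, pr_Av_congr k k' i fun v hv => hk v (by rw [hv]; exact hi)]

/-- LEAF PR-G1: `T.cells` is the disjoint union of `T.cells ∩ O₁`, `T.cells ∩ O₂` -/
theorem pr_Gs_mul (T : Top c) (O₁ O₂ : Finset c.I) (hs : Splits T O₁ O₂) (y : c.I → ℂ) (k : G.V → ℤ) :
    prGs T y k = prGs (T.restr O₁) y k * prGs (T.restr O₂) y k := by
  classical
  obtain ⟨hd, hsub, -⟩ := hs
  have hu : T.cells = (T.cells ∩ O₁) ∪ (T.cells ∩ O₂) := by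
    rw [← Finset.inter_union_distrib_left]
    exact (Finset.inter_eq_left.2 hsub).symm
  have hdis : Disjoint (T.cells ∩ O₁) (T.cells ∩ O₂) :=
    hd.mono Finset.inter_subset_right Finset.inter_subset_right
  have hsum : ∑ i ∈ T.cells, ((prAv c k i : ℂ) - y i) ^ 2 =
      ∑ i ∈ T.cells ∩ O₁, ((prAv c k i : ℂ) - y i) ^ 2 + ∑ i ∈ T.cells ∩ O₂, ((prAv c k i : ℂ) - y i) ^ 2 := by
    conv_lhs => rw [hu]
    exact Finset.sum_union hdis
  show Complex.exp (-(∑ i ∈ T.cells, ((prAv c k i : ℂ) - y i) ^ 2) / 2) =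
    Complex.exp (-(∑ i ∈ T.cells ∩ O₁, ((prAv c k i : ℂ) - y i) ^ 2) / 2) * Complex.exp (-(∑ i ∈ T.cells ∩ O₂, ((prAv c k i : ℂ) - y i) ^ 2) / 2)
  rw [← Complex.exp_add, hsum]
  congr 1
  ring

/-- LEAF PR-G1 -/
theorem pr_Gs_shift (hc : Whole c) (T : Top c) (y : c.I → ℂ) (k : G.V → ℤ) :
    prGs T (fun i => y i + 2 * Real.pi) (fun v => k v + 1) = prGs T y k := by
  unfold prGs
  congr 3
  refine Finset.sum_congr rfl fun i _ => ?_
  rw [pr_Av_shift hc]
  push_cast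
  ring

/-- LEAF PR-G1 -/
theorem pr_Gs_neg (T : Top c) (y : c.I → ℂ) (k : G.V → ℤ) : prGs T (-y) (-k) = prGs T y k := by
  unfold prGs
  congr 3
  refine Finset.sum_congr rfl fun i _ => ?_
  rw [pr_Av_neg, Pi.neg_apply]
  push_cast
  ring

/-- LEAF PR-G1 (`Complex.exp_conj`) -/
theorem pr_Gs_conj (T : Top c) (y : c.I → ℂ) (k : G.V → ℤ) : conj (prGs T y k) = prGs T (fun i => conj (y i)) k := by
  unfold prGs
  rw [← Complex.exp_conj]
  congr 1
  simp only [map_div₀, map_neg, map_sum, map_pow, map_sub, Complex.conj_ofReal]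
  congr 1
  exact Complex.conj_ofNat 2

/-- LEAF PR-G1 -/
theorem pr_Gs_diff (T : Top c) (k : G.V → ℤ) : Differentiable ℂ fun y => prGs T y k := by
  unfold prGs
  fun_prop

/-- the real majorant of the Gaussian factor: `exp (K ∑ |x_i| - ½ ∑ x_i²)` -/
def prGm (T : Top c) (K : ℝ) (k : G.V → ℤ) : ℝ :=
  Real.exp (K * ∑ i ∈ T.cells, |prAv c k i| - (∑ i ∈ T.cells, prAv c k i ^ 2) / 2)

/-- LEAF PR-G2: `Re (-(x - y)²/2) = -x²/2 + x Re y - (Re y)²/2 + (Im y)²/2 ≤ -x²/2 + K |x| + K²/2` -/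
theorem pr_Gs_norm_le (T : Top c) (K : ℝ) (y : c.I → ℂ) (hy : ∀ i ∈ T.cells, ‖y i‖ ≤ K) (k : G.V → ℤ) :
    ‖prGs T y k‖ ≤ Real.exp (T.cells.card * K ^ 2 / 2) * prGm T K k := by
  unfold prGs prGm
  rw [Complex.norm_exp, ← Real.exp_add, Real.exp_le_exp]
  have hre : (-(∑ i ∈ T.cells, ((prAv c k i : ℂ) - y i) ^ 2) / 2).re =
      ∑ i ∈ T.cells, (-((prAv c k i - (y i).re) ^ 2 - (y i).im ^ 2) / 2) := by
    have h2 : (-(∑ i ∈ T.cells, ((prAv c k i : ℂ) - y i) ^ 2) / 2) = ((1 / 2 : ℝ) : ℂ) * (-(∑ i ∈ T.cells, ((prAv c k i : ℂ) - y i) ^ 2)) := by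
      push_cast; ring
    rw [h2, Complex.re_ofReal_mul, Complex.neg_re, Complex.re_sum]
    rw [← Finset.sum_neg_distrib, Finset.mul_sum]
    refine Finset.sum_congr rfl fun i _ => ?_
    have : (((prAv c k i : ℂ) - y i) ^ 2).re = (prAv c k i - (y i).re) ^ 2 - (y i).im ^ 2 := by
      rw [sq, Complex.mul_re]
      simp only [Complex.sub_re, Complex.sub_im, Complex.ofReal_re, Complex.ofReal_im]
      ring
    rw [this]
    ring
  rw [hre]
  have hterm : ∀ i ∈ T.cells, -((prAv c k i - (y i).re) ^ 2 - (y i).im ^ 2) / 2 ≤ K ^ 2 / 2 + (K * |prAv c k i| - prAv c k i ^ 2 / 2) := by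
    intro i hi
    have h1 := hy i hi
    have hK : 0 ≤ K := (norm_nonneg _).trans h1
    have h2 : (y i).re ^ 2 + (y i).im ^ 2 ≤ K ^ 2 := by
      have : ‖y i‖ ^ 2 = (y i).re ^ 2 + (y i).im ^ 2 := by
        rw [Complex.sq_norm, Complex.normSq_apply]; ring
      rw [← this]
      exact pow_le_pow_left₀ (norm_nonneg _) h1 2
    have h3 : prAv c k i * (y i).re ≤ K * |prAv c k i| := by
      calc prAv c k i * (y i).re ≤ |prAv c k i * (y i).re| := le_abs_self _
        _ = |prAv c k i| * |(y i).re| := abs_mul _ _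
        _ ≤ |prAv c k i| * K := mul_le_mul_of_nonneg_left ((Complex.abs_re_le_norm _).trans h1) (abs_nonneg _)
        _ = K * |prAv c k i| := mul_comm _ _
    nlinarith [sq_nonneg (y i).re]
  refine (Finset.sum_le_sum hterm).trans (le_of_eq ?_)
  rw [Finset.sum_add_distrib, Finset.sum_const, nsmul_eq_mul, Finset.sum_sub_distrib, ← Finset.mul_sum, ← Finset.sum_div]
  ring

/-! ## 3. The generic height sum -/

/-- `ω` is an admissible majorant of the bond weights on `T` -/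
def prMaj (T : Top c) (ω : (G.V → ℤ) → ℝ) : Prop :=
  ∀ K : ℝ, Summable fun h : T.graph.V → ℤ => ω (prExt T h) * prGm T K (prExt T h)

theorem prMaj.const_mul {T : Top c} {ω : (G.V → ℤ) → ℝ} (h : prMaj T ω) (C : ℝ) : prMaj T fun k => C * ω k := by
  intro K
  simpa [mul_assoc] using (h K).mul_left C

/-- LEAF PR-Z1: a locally dominated series of entire functions is entire (`Hol.hol_integral`, counting measure on `ι` with the σ-algebra `⊤`;
`integrable_count_iff`, `integral_countable'`). -/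
theorem pr_hol_tsum {ι E : Type} [Countable ι] [NormedAddCommGroup E] [NormedSpace ℂ E] [FiniteDimensional ℂ E] (F : ι → E → ℂ)
    (hF : ∀ i, Differentiable ℂ (F i))
    (hb : ∀ z : E, ∃ ε > 0, ∃ u : ι → ℝ, Summable u ∧ ∀ z' ∈ Metric.ball z ε, ∀ i, ‖F i z'‖ ≤ u i) :
    Differentiable ℂ fun z => ∑' i, F i z := by
  letI : MeasurableSpace ι := ⊤
  haveI : MeasurableSingletonClass ι := ⟨fun _ => trivial⟩
  have hsum : ∀ z : E, Summable fun i => ‖F i z‖ := by
    intro z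
    obtain ⟨ε, hε, u, hu, hle⟩ := hb z
    exact Summable.of_nonneg_of_le (fun i => norm_nonneg _) (fun i => hle z (Metric.mem_ball_self hε) i) hu
  have hint : ∀ z : E, Integrable (fun i => F i z) (Measure.count : Measure ι) := fun z => integrable_count_iff.2 (hsum z)
  have heq : (fun z => ∑' i, F i z) = fun z => ∫ i, F i z ∂(Measure.count : Measure ι) := by
    funext z
    rw [integral_countable (hint z)]
    refine tsum_congr fun i => ?_
    simp [measureReal_def]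
  rw [heq, ← differentiableOn_univ]
  refine Hol.hol_integral (Measure.count : Measure ι) Set.univ isOpen_univ (fun z i => F i z) (fun i => (hF i).differentiableOn)
    (fun z _ => (hint z).aestronglyMeasurable) (fun z _ => ?_)
  obtain ⟨ε, hε, u, hu, hle⟩ := hb z
  refine ⟨ε, hε, u, integrable_count_iff.2 ?_, hle⟩
  have : (fun i => ‖u i‖) = u := by
    funext i
    rw [Real.norm_eq_abs, abs_of_nonneg ((norm_nonneg _).trans (hle z (Metric.mem_ball_self hε) i))]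
  rw [this]
  exact hu

/-- LEAF PR-Z2: uniform domination on bounded sets of observations -/
theorem pr_Zg_dom (T : Top c) (om : (G.V → ℤ) → ℂ) (ω : (G.V → ℤ) → ℝ) (hle : ∀ k, ‖om k‖ ≤ ω k) (K : ℝ) (y : c.I → ℂ)
    (hy : ∀ i ∈ T.cells, ‖y i‖ ≤ K) (k : G.V → ℤ) :
    ‖om k * prGs T y k‖ ≤ Real.exp (T.cells.card * K ^ 2 / 2) * (ω k * prGm T K k) := by
  rw [norm_mul]
  calc ‖om k‖ * ‖prGs T y k‖ ≤ ω k * (Real.exp (T.cells.card * K ^ 2 / 2) * prGm T K k) :=
        mul_le_mul (hle k) (pr_Gs_norm_le T K y hy k) (norm_nonneg _) ((norm_nonneg _).trans (hle k))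
    _ = _ := by ring

/-- LEAF PR-Z2 -/
theorem pr_Zg_summable (T : Top c) (om : (G.V → ℤ) → ℂ) (ω : (G.V → ℤ) → ℝ) (hle : ∀ k, ‖om k‖ ≤ ω k) (hm : prMaj T ω) (y : c.I → ℂ) :
    Summable fun h : T.graph.V → ℤ => ‖om (prExt T h) * prGs T y (prExt T h)‖ := by
  have hy : ∀ i ∈ T.cells, ‖y i‖ ≤ ∑ j ∈ T.cells, ‖y j‖ := fun i hi =>
    Finset.single_le_sum (f := fun j => ‖y j‖) (fun j _ => norm_nonneg _) hi
  exact Summable.of_nonneg_of_le (fun h => norm_nonneg _) (fun h => pr_Zg_dom T om ω hle _ y hy (prExt T h))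
    ((hm (∑ j ∈ T.cells, ‖y j‖)).mul_left _)

/-- LEAF PR-Z2: from `pr_hol_tsum`, `pr_Zg_dom`, `pr_Gs_diff` (on the ball of radius `1` around `y₀`: `K = ‖y₀‖ + 1`, `norm_le_pi_norm`) -/
theorem pr_Zg_hol (T : Top c) (om : (G.V → ℤ) → ℂ) (ω : (G.V → ℤ) → ℝ) (hle : ∀ k, ‖om k‖ ≤ ω k) (hm : prMaj T ω) :
    Differentiable ℂ (prZg T om) := by
  have : Finite T.graph.V := Finite.of_fintype _
  refine pr_hol_tsum (fun (h : T.graph.V → ℤ) (y : c.I → ℂ) => om (prExt T h) * prGs T y (prExt T h))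
    (fun h => (pr_Gs_diff T (prExt T h)).const_mul _) fun y₀ => ?_
  refine ⟨1, one_pos, fun h => Real.exp (T.cells.card * (‖y₀‖ + 1) ^ 2 / 2) * (ω (prExt T h) * prGm T (‖y₀‖ + 1) (prExt T h)),
    (hm (‖y₀‖ + 1)).mul_left _, fun y' hy' h => ?_⟩
  refine pr_Zg_dom T om ω hle _ y' (fun i _ => ?_) (prExt T h)
  have h1 : ‖y' i‖ ≤ ‖y'‖ := norm_le_pi_norm y' i
  have h2 : ‖y'‖ ≤ ‖y₀‖ + 1 := by
    have h3 : ‖y' - y₀‖ < 1 := by simpa [dist_eq_norm] using hy'
    have h4 : ‖y'‖ ≤ ‖y₀‖ + ‖y' - y₀‖ := by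
      have := norm_add_le y₀ (y' - y₀)
      simpa using this
    linarith
  exact h1.trans h2

/-- LEAF PR-Z2: entire dependence on a parameter -/
theorem pr_Zg_hol_par (T : Top c) (om : ℂ → (G.V → ℤ) → ℂ) (hd : ∀ k, Differentiable ℂ fun b => om b k)
    (hle : ∀ K : ℝ, ∃ ω : (G.V → ℤ) → ℝ, prMaj T ω ∧ ∀ b : ℂ, ‖b‖ ≤ K → ∀ k, ‖om b k‖ ≤ ω k) (y : c.I → ℂ) :
    Differentiable ℂ fun b => prZg T (om b) y := by
  have : Finite T.graph.V := Finite.of_fintype _
  have hy : ∀ i ∈ T.cells, ‖y i‖ ≤ ∑ j ∈ T.cells, ‖y j‖ := fun i hi =>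
    Finset.single_le_sum (f := fun j => ‖y j‖) (fun j _ => norm_nonneg _) hi
  refine pr_hol_tsum (fun (h : T.graph.V → ℤ) (b : ℂ) => om b (prExt T h) * prGs T y (prExt T h))
    (fun h => (hd (prExt T h)).mul_const _) fun b₀ => ?_
  obtain ⟨ω, hm, hω⟩ := hle (‖b₀‖ + 1)
  refine ⟨1, one_pos, fun h => Real.exp (T.cells.card * (∑ j ∈ T.cells, ‖y j‖) ^ 2 / 2)
      * (ω (prExt T h) * prGm T (∑ j ∈ T.cells, ‖y j‖) (prExt T h)),
    (hm _).mul_left _, fun b' hb' h => ?_⟩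
  have h2 : ‖b'‖ ≤ ‖b₀‖ + 1 := by
    have h3 : ‖b' - b₀‖ < 1 := by simpa [dist_eq_norm] using hb'
    have h4 : ‖b'‖ ≤ ‖b₀‖ + ‖b' - b₀‖ := by
      have := norm_add_le b₀ (b' - b₀)
      simpa using this
    linarith
  rw [norm_mul]
  calc ‖om b' (prExt T h)‖ * ‖prGs T y (prExt T h)‖
      ≤ ω (prExt T h) * (Real.exp (T.cells.card * (∑ j ∈ T.cells, ‖y j‖) ^ 2 / 2) * prGm T (∑ j ∈ T.cells, ‖y j‖) (prExt T h)) :=
        mul_le_mul (hω b' h2 _) (pr_Gs_norm_le T _ y hy _) (norm_nonneg _) ((norm_nonneg _).trans (hω b' h2 _))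
    _ = _ := by ring

open Classical in
/-- helper of PR-Z3: the bijection `h ↦ (h|₁, h|₂)` -/
def prSplitEquiv (T : Top c) (O₁ O₂ : Finset c.I) (hs : Splits T O₁ O₂) :
    (T.graph.V → ℤ) ≃ ((T.restr O₁).graph.V → ℤ) × ((T.restr O₂).graph.V → ℤ) where
  toFun h := (fun v => h ⟨v.1, (Finset.mem_inter.1 v.2).1⟩, fun v => h ⟨v.1, (Finset.mem_inter.1 v.2).1⟩)
  invFun p := fun v => if hv : c.blk v.1 ∈ O₁ then p.1 ⟨v.1, Finset.mem_inter.2 ⟨v.2, hv⟩⟩
    else p.2 ⟨v.1, Finset.mem_inter.2 ⟨v.2, (Finset.mem_union.1 (hs.2.1 v.2)).resolve_left hv⟩⟩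
  left_inv h := by
    funext v
    by_cases hv : c.blk v.1 ∈ O₁
    · simp only [dif_pos hv]
      rfl
    · simp only [dif_neg hv]
      rfl
  right_inv p := by
    refine Prod.ext (funext fun v => ?_) (funext fun v => ?_)
    · have hv : c.blk v.1 ∈ O₁ := (Finset.mem_inter.1 v.2).2
      simp only [dif_pos hv]
      rfl
    · have hv : c.blk v.1 ∉ O₁ := fun h1 => Finset.disjoint_left.1 hs.1 h1 (Finset.mem_inter.1 v.2).2
      simp only [dif_neg hv]
      rfl

theorem pr_split_ext₁ (T : Top c) (O₁ O₂ : Finset c.I) (hs : Splits T O₁ O₂)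
    (p : ((T.restr O₁).graph.V → ℤ) × ((T.restr O₂).graph.V → ℤ)) (v : G.V) (hv : c.blk v ∈ (T.restr O₁).cells) :
    prExt T ((prSplitEquiv T O₁ O₂ hs).symm p) v = prExt (T.restr O₁) p.1 v := by
  have h1 : c.blk v ∈ T.cells := (Finset.mem_inter.1 hv).1
  have h2 : c.blk v ∈ O₁ := (Finset.mem_inter.1 hv).2
  rw [pr_ext_of_mem T _ h1, pr_ext_of_mem (T.restr O₁) _ hv]
  show (if hv : c.blk v ∈ O₁ then p.1 ⟨v, _⟩ else p.2 ⟨v, _⟩) = _
  rw [dif_pos h2]

theorem pr_split_ext₂ (T : Top c) (O₁ O₂ : Finset c.I) (hs : Splits T O₁ O₂)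
    (p : ((T.restr O₁).graph.V → ℤ) × ((T.restr O₂).graph.V → ℤ)) (v : G.V) (hv : c.blk v ∈ (T.restr O₂).cells) :
    prExt T ((prSplitEquiv T O₁ O₂ hs).symm p) v = prExt (T.restr O₂) p.2 v := by
  have h1 : c.blk v ∈ T.cells := (Finset.mem_inter.1 hv).1
  have h2 : c.blk v ∉ O₁ := fun h => Finset.disjoint_left.1 hs.1 h (Finset.mem_inter.1 hv).2
  rw [pr_ext_of_mem T _ h1, pr_ext_of_mem (T.restr O₂) _ hv]
  show (if hv : c.blk v ∈ O₁ then p.1 ⟨v, _⟩ else p.2 ⟨v, _⟩) = _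
  rw [dif_neg h2]

/-- LEAF PR-Z3: **factorisation.**  The bijection `h ↦ (h|₁, h|₂)` of `T.graph.V → ℤ` onto the product (define it by hand: `toFun h = (fun v => h ⟨v.1, _⟩, fun v => h ⟨v.1, _⟩)`,
`invFun p = fun v => if c.blk v.1 ∈ O₁ then p.1 ⟨v.1, _⟩ else p.2 ⟨v.1, _⟩`), `Equiv.tsum_eq`, `tsum_mul_tsum_of_summable_norm`, `pr_Gs_mul`, `pr_Gs_congr`. -/
theorem pr_Zg_mul (T : Top c) (O₁ O₂ : Finset c.I) (hs : Splits T O₁ O₂) (om om₁ om₂ : (G.V → ℤ) → ℂ)
    (hom : ∀ k, om k = om₁ k * om₂ k) (hl₁ : prLoc (T.restr O₁) om₁) (hl₂ : prLoc (T.restr O₂) om₂) (y : c.I → ℂ)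
    (s₁ : Summable fun h : (T.restr O₁).graph.V → ℤ => ‖om₁ (prExt _ h) * prGs (T.restr O₁) y (prExt _ h)‖)
    (s₂ : Summable fun h : (T.restr O₂).graph.V → ℤ => ‖om₂ (prExt _ h) * prGs (T.restr O₂) y (prExt _ h)‖) :
    prZg T om y = prZg (T.restr O₁) om₁ y * prZg (T.restr O₂) om₂ y := by
  unfold prZg
  rw [tsum_mul_tsum_of_summable_norm s₁ s₂, ← (prSplitEquiv T O₁ O₂ hs).symm.tsum_eq]
  refine tsum_congr fun p => ?_
  rw [hom, pr_Gs_mul T O₁ O₂ hs, hl₁ _ _ (pr_split_ext₁ T O₁ O₂ hs p), hl₂ _ _ (pr_split_ext₂ T O₁ O₂ hs p),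
    pr_Gs_congr (T.restr O₁) y y _ _ (pr_split_ext₁ T O₁ O₂ hs p) (fun _ _ => rfl),
    pr_Gs_congr (T.restr O₂) y y _ _ (pr_split_ext₂ T O₁ O₂ hs p) (fun _ _ => rfl)]
  ring

/-- LEAF PR-Z4: `h ↦ h + 1` (`Equiv.addRight`); `prExt T (h + 1)` and `prExt T h + 1` agree on the retained sites -/
theorem pr_Zg_per (hc : Whole c) (T : Top c) (om : (G.V → ℤ) → ℂ) (hl : prLoc T om) (hsh : ∀ k, om (fun v => k v + 1) = om k) (y : c.I → ℂ) :
    prZg T om (fun i => y i + 2 * Real.pi) = prZg T om y := by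
  unfold prZg
  rw [← (Equiv.addRight (1 : T.graph.V → ℤ)).tsum_eq]
  refine tsum_congr fun h => ?_
  have e : ∀ v, c.blk v ∈ T.cells → prExt T ((Equiv.addRight (1 : T.graph.V → ℤ)) h) v = prExt T h v + 1 := by
    intro v hv
    rw [pr_ext_of_mem T _ hv, pr_ext_of_mem T _ hv]
    rfl
  rw [hl _ _ e, hsh, pr_Gs_congr T _ (fun i => y i + 2 * Real.pi) _ _ e (fun _ _ => rfl), pr_Gs_shift hc]

/-- LEAF PR-Z4: `h ↦ -h` (`Equiv.neg`) -/
theorem pr_Zg_neg (T : Top c) (om : (G.V → ℤ) → ℂ) (hn : ∀ k, om (-k) = om k) (y : c.I → ℂ) : prZg T om (-y) = prZg T om y := by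
  unfold prZg
  rw [← (Equiv.neg (T.graph.V → ℤ)).tsum_eq]
  refine tsum_congr fun h => ?_
  rw [Equiv.neg_apply, pr_ext_neg, hn, pr_Gs_neg]

/-- LEAF PR-Z4 (`Complex.conj_tsum`) -/
theorem pr_Zg_conj (T : Top c) (om : (G.V → ℤ) → ℂ) (y : c.I → ℂ) :
    conj (prZg T om y) = prZg T (fun k => conj (om k)) (fun i => conj (y i)) := by
  unfold prZg
  rw [Complex.conj_tsum]
  refine tsum_congr fun h => ?_
  rw [map_mul, pr_Gs_conj]

/-- LEAF PR-Z4 -/
theorem pr_Zg_loc (T : Top c) (om : (G.V → ℤ) → ℂ) (y y' : c.I → ℂ) (h : ∀ i ∈ T.cells, y i = y' i) : prZg T om y = prZg T om y' := by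
  unfold prZg
  refine tsum_congr fun k => ?_
  rw [pr_Gs_congr T y y' _ _ (fun _ _ => rfl) h]

/-- LEAF PR-Z4: no site: one height -/
theorem pr_Zg_one (T : Top c) (h0 : T.cells = ∅) (om : (G.V → ℤ) → ℂ) (y : c.I → ℂ) : prZg T om y = om 0 := by
  have hE : IsEmpty T.graph.V := ⟨fun v => by
    have h1 : c.blk v.1 ∈ T.cells := v.2
    have h2 : c.blk v.1 ∈ (∅ : Finset c.I) := h0 ▸ h1
    exact absurd h2 (Finset.notMem_empty _)⟩
  unfold prZg
  rw [tsum_eq_single (0 : T.graph.V → ℤ) (fun h hh => absurd (Subsingleton.elim h 0) hh)]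
  have e : prExt T (0 : T.graph.V → ℤ) = 0 := by
    funext v
    rw [pr_ext_of_not_mem T _ (by rw [h0]; exact Finset.notMem_empty _)]
    rfl
  rw [e]
  unfold prGs
  rw [h0]
  simp

/-! ## 4. The Bessel factor -/

open Classical in
/-- the Bessel factor at complex temperature -/
def prOm (T : Top c) (b : ℂ) (τ : Face c → ℤ) (k : G.V → ℤ) : ℂ :=
  ∏ e ∈ Finset.univ.filter T.IsEdge, besC b (k (stp e.1 e.2) - k e.1 + prEc c τ e)

open Classical in
/-- the Bessel factor at real temperature -/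
def prOmR (T : Top c) (t : ℝ) (τ : Face c → ℤ) (k : G.V → ℤ) : ℝ :=
  ∏ e ∈ Finset.univ.filter T.IsEdge, bes t (k (stp e.1 e.2) - k e.1 + prEc c τ e)

theorem pr_besC_eq (b : ℂ) (k : ℤ) : besC b k = E2.besC b k := (E2.besC_eq_power b k).symm

theorem pr_besC_neg (b : ℂ) (k : ℤ) : besC b (-k) = besC b k := by
  unfold besC
  rw [Int.natAbs_neg]

/-- LEAF PR-X1 (`Complex.conj_tsum`, `Complex.exp_conj`) -/
theorem pr_besC_conj (b : ℂ) (k : ℤ) : conj (besC b k) = besC (conj b) k := by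
  unfold besC
  rw [map_mul, ← Complex.exp_conj, map_neg, Complex.conj_tsum]
  congr 1
  refine tsum_congr fun m => ?_
  simp only [map_div₀, map_pow, map_mul, Complex.conj_natCast, map_ofNat]

open Classical in
/-- LEAF PR-X2: **the edges split** (`F4a.enb_blk_stp`: a bond which leaves its cell crosses the face `(c.blk e.1, e.2)`) -/
theorem pr_edge_split (hc : Whole c) (T : Top c) (O₁ O₂ : Finset c.I) (hs : Splits T O₁ O₂) :
    Finset.univ.filter T.IsEdge = Finset.univ.filter (T.restr O₁).IsEdge ∪ Finset.univ.filter (T.restr O₂).IsEdge := by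
  have hsub : ∀ (O : Finset c.I) (e : G.V × Bool), (T.restr O).IsEdge e → T.IsEdge e := by
    rintro O e ⟨h1, h2, h3, h4⟩
    refine ⟨h1, (Finset.mem_inter.1 h2).1, (Finset.mem_inter.1 h3).1, ?_⟩
    rcases h4 with h4 | h4
    · exact Or.inl h4
    · exact Or.inr (Finset.mem_filter.1 h4).1
  ext e
  simp only [Finset.mem_filter, Finset.mem_univ, true_and, Finset.mem_union]
  constructor
  · rintro ⟨h1, h2, h3, h4⟩
    by_cases hb : c.blk (stp e.1 e.2) = c.blk e.1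
    · rcases Finset.mem_union.1 (hs.2.1 h2) with h | h
      · exact Or.inl ⟨h1, Finset.mem_inter.2 ⟨h2, h⟩, Finset.mem_inter.2 ⟨h3, hb ▸ h⟩, Or.inl hb⟩
      · exact Or.inr ⟨h1, Finset.mem_inter.2 ⟨h2, h⟩, Finset.mem_inter.2 ⟨h3, hb ▸ h⟩, Or.inl hb⟩
    · have hf := h4.resolve_left hb
      have hn := enb_blk_stp hc e.1 e.2 hb
      rcases hs.2.2 _ hf with h | h
      · exact Or.inl ⟨h1, Finset.mem_inter.2 ⟨h2, h.1⟩, Finset.mem_inter.2 ⟨h3, hn ▸ h.2⟩,
          Or.inr (Finset.mem_filter.2 ⟨hf, h⟩)⟩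
      · exact Or.inr ⟨h1, Finset.mem_inter.2 ⟨h2, h.1⟩, Finset.mem_inter.2 ⟨h3, hn ▸ h.2⟩,
          Or.inr (Finset.mem_filter.2 ⟨hf, h⟩)⟩
  · rintro (h | h)
    · exact hsub _ _ h
    · exact hsub _ _ h

open Classical in
/-- LEAF PR-X2 -/
theorem pr_edge_disj (T : Top c) (O₁ O₂ : Finset c.I) (hd : Disjoint O₁ O₂) :
    Disjoint (Finset.univ.filter (T.restr O₁).IsEdge) (Finset.univ.filter (T.restr O₂).IsEdge) := by
  rw [Finset.disjoint_left]
  intro e h1 h2
  have a1 := (Finset.mem_inter.1 (Finset.mem_filter.1 h1).2.2.1).2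
  have a2 := (Finset.mem_inter.1 (Finset.mem_filter.1 h2).2.2.1).2
  exact Finset.disjoint_left.1 hd a1 a2

/-- LEAF PR-X1 -/
theorem pr_Om_loc (T : Top c) (b : ℂ) (τ : Face c → ℤ) : prLoc T (prOm T b τ) := by
  classical
  intro k k' h
  unfold prOm
  refine Finset.prod_congr rfl fun e he => ?_
  have he' : T.IsEdge e := (Finset.mem_filter.1 he).2
  rw [h _ he'.2.1, h _ he'.2.2.1]

theorem pr_Om_mul (hc : Whole c) (T : Top c) (O₁ O₂ : Finset c.I) (hs : Splits T O₁ O₂) (b : ℂ) (τ : Face c → ℤ) (k : G.V → ℤ) :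
    prOm T b τ k = prOm (T.restr O₁) b τ k * prOm (T.restr O₂) b τ k := by
  classical
  unfold prOm
  rw [pr_edge_split hc T O₁ O₂ hs, Finset.prod_union (pr_edge_disj T O₁ O₂ hs.1)]

/-- LEAF PR-X1 -/
theorem pr_Om_shift (T : Top c) (b : ℂ) (τ : Face c → ℤ) (k : G.V → ℤ) : prOm T b τ (fun v => k v + 1) = prOm T b τ k := by
  classical
  unfold prOm
  refine Finset.prod_congr rfl fun e _ => ?_
  congr 1
  ring

/-- LEAF PR-X1 -/
theorem pr_Om_neg (T : Top c) (b : ℂ) (k : G.V → ℤ) : prOm T b 0 (-k) = prOm T b 0 k := by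
  classical
  unfold prOm
  refine Finset.prod_congr rfl fun e _ => ?_
  have h0 : prEc c (0 : Face c → ℤ) e = 0 := by
    unfold prEc
    split_ifs <;> rfl
  rw [h0, ← pr_besC_neg]
  congr 1
  simp only [Pi.neg_apply]
  ring

/-- LEAF PR-X1 -/
theorem pr_Om_conj (T : Top c) (b : ℂ) (τ : Face c → ℤ) (k : G.V → ℤ) : conj (prOm T b τ k) = prOm T (conj b) τ k := by
  classical
  unfold prOm
  rw [map_prod]
  exact Finset.prod_congr rfl fun e _ => pr_besC_conj b _

/-- LEAF PR-X1 (`E2.besC_differentiable`) -/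
theorem pr_Om_diff (T : Top c) (τ : Face c → ℤ) (k : G.V → ℤ) : Differentiable ℂ fun b => prOm T b τ k := by
  classical
  unfold prOm
  refine Differentiable.fun_finsetProd fun e _ => ?_
  simp only [pr_besC_eq]
  exact E2.besC_differentiable _

/-- LEAF PR-X1 (`E2.besC_ofReal`) -/
theorem pr_Om_real (T : Top c) (t : ℝ) (τ : Face c → ℤ) (k : G.V → ℤ) : prOm T t τ k = (prOmR T t τ k : ℂ) := by
  classical
  unfold prOm prOmR
  rw [Complex.ofReal_prod]
  exact Finset.prod_congr rfl fun e _ => by rw [pr_besC_eq, E2.besC_ofReal]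

open Classical in
/-- LEAF PR-X1 (`E2.besC_norm_le` with `bp = K + 1`) -/
theorem pr_Om_norm_le (T : Top c) (K : ℝ) (b : ℂ) (hb : ‖b‖ ≤ K) (τ : Face c → ℤ) (k : G.V → ℤ) :
    ‖prOm T b τ k‖ ≤ Real.exp (2 * (K + 1) * (Finset.univ.filter T.IsEdge).card) * prOmR T (K + 1) τ k := by
  have hK : 0 ≤ K := (norm_nonneg b).trans hb
  unfold prOm prOmR
  rw [norm_prod]
  have h1 : ∀ e ∈ Finset.univ.filter T.IsEdge, ‖besC b (k (stp e.1 e.2) - k e.1 + prEc c τ e)‖
      ≤ Real.exp (2 * (K + 1)) * bes (K + 1) (k (stp e.1 e.2) - k e.1 + prEc c τ e) := by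
    intro e _
    rw [pr_besC_eq]
    refine (E2.besC_norm_le b (K + 1) (by linarith) _).trans ?_
    refine mul_le_mul_of_nonneg_right (Real.exp_le_exp.2 ?_) (bes_nonneg _ (by linarith) _)
    have h2 : -b.re ≤ ‖b‖ := (neg_le_abs _).trans (Complex.abs_re_le_norm b)
    linarith
  refine (Finset.prod_le_prod (fun e _ => norm_nonneg _) h1).trans (le_of_eq ?_)
  rw [Finset.prod_mul_distrib, Finset.prod_const, ← Real.exp_nat_mul]
  congr 2
  ring

theorem pr_OmR_ext (T : Top c) (t : ℝ) (τ : Face c → ℤ) (h : T.graph.V → ℤ) :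
    prOmR T t τ (prExt T h) = T.graph.wt t (T.econn τ) h := by
  classical
  unfold prOmR HGraph.wt
  rw [Finset.prod_subtype (F := T.graph.fE) (Finset.univ.filter T.IsEdge) (p := T.IsEdge) (by simp)]
  refine Finset.prod_congr rfl fun e _ => ?_
  rw [pr_ext_of_mem T h e.2.2.1, pr_ext_of_mem T h e.2.2.2.1]
  rfl

theorem pr_Av_ext (T : Top c) (h : T.graph.V → ℤ) (o : T.law.O) : prAv c (prExt T h) o.1 = unfB T h o := by
  unfold prAv unfB
  rw [← unf_row T o]
  refine Finset.sum_congr rfl fun v _ => ?_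
  rw [pr_ext_coe]

theorem pr_sum_cells (T : Top c) (f : c.I → ℝ) : ∑ i ∈ T.cells, f i = ∑ o : T.law.O, f o.1 :=
  Finset.sum_subtype (F := T.law.fO) T.cells (p := fun i => i ∈ T.cells) (by simp) f

/-- the majorant is one of finitely many shifted Gaussian factors -/
theorem pr_Gm_eq (T : Top c) (K : ℝ) (k : G.V → ℤ) :
    prGm T K k = Real.exp (T.cells.card * K ^ 2 / 2) *
      Real.exp (-(∑ i ∈ T.cells, (prAv c k i - if 0 ≤ prAv c k i then K else -K) ^ 2) / 2) := by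
  unfold prGm
  rw [← Real.exp_add]
  congr 1
  have h1 : ∀ i ∈ T.cells, (prAv c k i - if 0 ≤ prAv c k i then K else -K) ^ 2 = prAv c k i ^ 2 - 2 * (K * |prAv c k i|) + K ^ 2 := by
    intro i _
    by_cases h : 0 ≤ prAv c k i
    · rw [if_pos h, abs_of_nonneg h]; ring
    · rw [if_neg h, abs_of_neg (not_le.1 h)]; ring
  rw [Finset.sum_congr rfl h1, Finset.sum_add_distrib, Finset.sum_sub_distrib, Finset.sum_const, ← Finset.mul_sum, ← Finset.mul_sum,
    nsmul_eq_mul]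
  ring

/-- LEAF PR-X3: **the one analytic input.**  `S = T.law.sys 1`, `z = T.law.coord h`: `z.1 e = ∇_e h`, `z.2 o = F4a.unfB T h o = prAv c (prExt T h) o.1` (`F4a.unf_row`),
`prOmR T t τ (prExt T h) * prGm T K (prExt T h) ≤ exp (|K| * Rsd.n1 S z) * E2.Wu S t (z + (T.econn τ, 0))`; the right side is summable over `S.L`
(`E2.Gr.summable (F4a.law_ok hc T 1 one_pos)`, `Gr` with `A = 1`, `c = |K|`), transfer to `h` as in `F4a.unf_summable`
(`Rsd.coordL_bijective T.law (F4a.law_proper hc T) 1`, `AddSubgroup.topEquiv`). -/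
theorem pr_OmR_maj (hc : Whole c) (T : Top c) (t : ℝ) (ht : 0 < t) (τ : Face c → ℤ) : prMaj T (prOmR T t τ) := by
  classical
  intro K
  have hs : Summable fun h : T.graph.V → ℤ => ∑ σ : c.I → Bool, Real.exp (T.cells.card * K ^ 2 / 2) *
      (T.graph.wt t (T.econn τ) h * Real.exp (-(∑ o, (unfB T h o - (fun i => if σ i then K else -K) o.1) ^ 2) / 2)) :=
    summable_sum fun σ _ => (unf_summable hc T t ht τ fun i => if σ i then K else -K).mul_left _
  refine Summable.of_nonneg_of_le (fun h => ?_) (fun h => ?_) hs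
  · rw [pr_OmR_ext]
    exact mul_nonneg (unf_wt_nonneg _ t ht _ _) (Real.exp_pos _).le
  · rw [pr_OmR_ext, pr_Gm_eq, pr_sum_cells]
    have h0 : ∀ σ : c.I → Bool, 0 ≤ Real.exp (T.cells.card * K ^ 2 / 2) *
        (T.graph.wt t (T.econn τ) h * Real.exp (-(∑ o, (unfB T h o - (fun i => if σ i then K else -K) o.1) ^ 2) / 2)) := fun σ =>
      mul_nonneg (Real.exp_pos _).le (mul_nonneg (unf_wt_nonneg _ t ht _ _) (Real.exp_pos _).le)
    refine le_trans (le_of_eq ?_) (Finset.single_le_sum (fun σ _ => h0 σ)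
      (Finset.mem_univ fun i => decide (0 ≤ prAv c (prExt T h) i)))
    rw [mul_left_comm]
    congr 5
    refine Finset.sum_congr rfl fun o _ => ?_
    rw [pr_Av_ext]
    simp only [decide_eq_true_eq]
    rw [pr_Av_ext]

/-! ## 5. `ZobsC`, `ZhatC` -/

/-- the cell averages of an extended height, as sums over the retained sites -/
theorem pr_Av_ext_sum (T : Top c) (h : T.graph.V → ℤ) {i : c.I} (hi : i ∈ T.cells) :
    (∑ v : T.graph.V, if c.blk v.1 = i then (2 * Real.pi * (h v : ℝ) : ℂ) else 0) / ((c.sites {i}).card : ℂ)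
      = (prAv c (prExt T h) i : ℂ) := by
  classical
  have h1 : (∑ v : T.graph.V, if c.blk v.1 = i then (2 * Real.pi * (h v : ℝ) : ℂ) else 0)
      = ∑ v ∈ Finset.univ.filter (fun v : G.V => c.blk v ∈ T.cells),
        if c.blk v = i then (2 * Real.pi * (prExt T h v : ℝ) : ℂ) else 0 := by
    rw [Finset.sum_subtype (Finset.univ.filter (fun v : G.V => c.blk v ∈ T.cells))
      (p := fun v => c.blk v ∈ T.cells) (by simp)]
    refine Finset.sum_congr rfl fun v _ => ?_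
    rw [pr_ext_coe T h v]
  rw [h1]
  show _ = (((∑ v ∈ c.sites {i}, 2 * Real.pi * (prExt T h v : ℝ)) / ((c.sites {i}).card : ℝ) : ℝ) : ℂ)
  push_cast
  congr 1
  unfold Grid.sites
  rw [Finset.sum_filter, Finset.sum_filter]
  refine Finset.sum_congr rfl fun v _ => ?_
  by_cases hv : c.blk v = i
  · rw [if_pos (by rw [hv]; exact hi), if_pos hv, if_pos (by simp [hv])]
  · have hv' : c.blk v ∉ ({i} : Finset c.I) := by simpa using hv
    rw [if_neg hv', if_neg hv]
    split_ifs <;> rfl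

/-- LEAF PR-A1: `Finset.prod_subtype`, `Finset.sum_subtype`; `push_cast` -/
theorem pr_ZobsC_eq (T : Top c) (b : ℂ) (τ : Face c → ℤ) (y : c.I → ℂ) : ZobsC T b τ y = prZg T (prOm T b τ) y := by
  classical
  unfold ZobsC prZg
  refine tsum_congr fun h => ?_
  congr 1
  · unfold prOm
    rw [Finset.prod_subtype (Finset.univ.filter T.IsEdge) (p := T.IsEdge) (by simp)]
    refine Finset.prod_congr rfl fun e _ => ?_
    have h1 : prExt T h (stp e.1.1 e.1.2) = h (T.graph.tgt e) := pr_ext_coe T h (T.graph.tgt e)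
    have h2 : prExt T h e.1.1 = h (T.graph.src e) := pr_ext_coe T h (T.graph.src e)
    rw [h1, h2]
    rfl
  · unfold prGs
    congr 3
    refine Finset.sum_congr rfl fun i hi => ?_
    rw [pr_Av_ext_sum T h hi]

open Classical in
theorem pr_Om_maj (hc : Whole c) (T : Top c) (τ : Face c → ℤ) (K : ℝ) :
    ∃ ω : (G.V → ℤ) → ℝ, prMaj T ω ∧ ∀ b : ℂ, ‖b‖ ≤ K → ∀ k, ‖prOm T b τ k‖ ≤ ω k := by
  by_cases hK : 0 ≤ K
  · exact ⟨_, (pr_OmR_maj hc T (K + 1) (by linarith) τ).const_mul _, fun b hb k => pr_Om_norm_le T K b hb τ k⟩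
  · exact ⟨_, pr_OmR_maj hc T 1 one_pos τ, fun b hb => absurd ((norm_nonneg b).trans hb) hK⟩

theorem pr_ZobsC_summable (hc : Whole c) (T : Top c) (b : ℂ) (τ : Face c → ℤ) (y : c.I → ℂ) :
    Summable fun h : T.graph.V → ℤ => ‖prOm T b τ (prExt T h) * prGs T y (prExt T h)‖ := by
  obtain ⟨ω, hm, hle⟩ := pr_Om_maj hc T τ ‖b‖
  exact pr_Zg_summable T _ ω (hle b le_rfl) hm y

theorem pr_ZobsC_mul (hc : Whole c) (T : Top c) (O₁ O₂ : Finset c.I) (hs : Splits T O₁ O₂) (b : ℂ) (τ : Face c → ℤ) (y : c.I → ℂ) :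
    ZobsC T b τ y = ZobsC (T.restr O₁) b τ y * ZobsC (T.restr O₂) b τ y := by
  rw [pr_ZobsC_eq, pr_ZobsC_eq, pr_ZobsC_eq]
  exact pr_Zg_mul T O₁ O₂ hs _ _ _ (pr_Om_mul hc T O₁ O₂ hs b τ) (pr_Om_loc _ b τ) (pr_Om_loc _ b τ) y
    (pr_ZobsC_summable hc _ b τ y) (pr_ZobsC_summable hc _ b τ y)

theorem pr_ZobsC_hol (hc : Whole c) (T : Top c) (b : ℂ) (τ : Face c → ℤ) : Differentiable ℂ (ZobsC T b τ) := by
  obtain ⟨ω, hm, hle⟩ := pr_Om_maj hc T τ ‖b‖
  have h : ZobsC T b τ = prZg T (prOm T b τ) := funext (pr_ZobsC_eq T b τ)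
  rw [h]
  exact pr_Zg_hol T _ ω (hle b le_rfl) hm

theorem pr_ZobsC_hol_b (hc : Whole c) (T : Top c) (τ : Face c → ℤ) (y : c.I → ℂ) : Differentiable ℂ fun b => ZobsC T b τ y := by
  simp only [pr_ZobsC_eq]
  exact pr_Zg_hol_par T (fun b => prOm T b τ) (pr_Om_diff T τ) (pr_Om_maj hc T τ) y

/-- the faces split -/
theorem pr_faces_split (T : Top c) (O₁ O₂ : Finset c.I) (hs : Splits T O₁ O₂) :
    T.faces = (T.restr O₁).faces ∪ (T.restr O₂).faces ∧ Disjoint (T.restr O₁).faces (T.restr O₂).faces := by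
  classical
  constructor
  · ext f
    simp only [Top.restr, Finset.mem_union, Finset.mem_filter]
    constructor
    · intro hf
      rcases hs.2.2 f hf with h | h
      · exact Or.inl ⟨hf, h⟩
      · exact Or.inr ⟨hf, h⟩
    · rintro (h | h) <;> exact h.1
  · rw [Finset.disjoint_left]
    intro f h1 h2
    simp only [Top.restr, Finset.mem_filter] at h1 h2
    exact Finset.disjoint_left.1 hs.1 h1.2.1 h2.2.1

/-- LEAF PR-C1: the faces split -/
theorem pr_ZhatC_mul (hc : Whole c) (T : Top c) (O₁ O₂ : Finset c.I) (hs : Splits T O₁ O₂) (b : ℂ) (τ : Face c → ℤ) (y : c.I → ℂ) :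
    ZhatC T b τ y = ZhatC (T.restr O₁) b τ y * ZhatC (T.restr O₂) b τ y := by
  classical
  obtain ⟨h1, h2⟩ := pr_faces_split T O₁ O₂ hs
  unfold ZhatC
  rw [pr_ZobsC_mul hc T O₁ O₂ hs]
  conv_lhs => rw [h1]
  rw [Finset.prod_union h2]
  ring

/-- LEAF PR-C1 -/
theorem pr_ZhatC_one (T : Top c) (h0 : T.cells = ∅) (h1 : T.faces = ∅) (b : ℂ) (τ : Face c → ℤ) (y : c.I → ℂ) : ZhatC T b τ y = 1 := by
  classical
  unfold ZhatC
  rw [h1, Finset.prod_empty, mul_one, pr_ZobsC_eq, pr_Zg_one T h0]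
  unfold prOm
  have h2 : Finset.univ.filter T.IsEdge = ∅ := by
    rw [Finset.filter_eq_empty_iff]
    intro e _ he
    have := he.2.1
    rw [h0] at this
    exact absurd this (Finset.notMem_empty _)
  rw [h2, Finset.prod_empty]

/-- LEAF PR-C1 -/
theorem pr_ZhatC_loc (T : Top c) (b : ℂ) (τ : Face c → ℤ) (y y' : c.I → ℂ) (h : ∀ i ∈ T.cells, y i = y' i)
    (h' : ∀ f ∈ T.faces, y f.1 = y' f.1 ∧ y (fnb c f) = y' (fnb c f)) : ZhatC T b τ y = ZhatC T b τ y' := by
  unfold ZhatC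
  rw [pr_ZobsC_eq, pr_ZobsC_eq, pr_Zg_loc T _ y y' h]
  congr 1
  refine Finset.prod_congr rfl fun f hf => ?_
  unfold wfC
  rw [(h' f hf).1, (h' f hf).2]

/-- LEAF PR-C1 -/
theorem pr_ZhatC_per (hc : Whole c) (T : Top c) (b : ℂ) (τ : Face c → ℤ) (y : c.I → ℂ) :
    ZhatC T b τ (fun i => y i + 2 * Real.pi) = ZhatC T b τ y := by
  unfold ZhatC
  rw [pr_ZobsC_eq, pr_ZobsC_eq, pr_Zg_per hc T _ (pr_Om_loc T b τ) (pr_Om_shift T b τ) y]
  congr 1
  refine Finset.prod_congr rfl fun f _ => ?_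
  unfold wfC
  congr 1
  ring

/-- a finite product of entire functions is entire -/
theorem pr_differentiable_prod {E ι : Type} [NormedAddCommGroup E] [NormedSpace ℂ E] (s : Finset ι) (F : ι → E → ℂ)
    (h : ∀ i ∈ s, Differentiable ℂ (F i)) : Differentiable ℂ fun z => ∏ i ∈ s, F i z := by
  classical
  induction s using Finset.induction_on with
  | empty => simp
  | insert a s ha ih =>
    simp only [Finset.prod_insert ha]
    exact (h a (Finset.mem_insert_self a s)).mul (ih fun i hi => h i (Finset.mem_insert_of_mem hi))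

/-- LEAF PR-C1 (`F4a.chiL_differentiable`) -/
theorem pr_ZhatC_hol (hc : Whole c) (T : Top c) (b : ℂ) (τ : Face c → ℤ) : Differentiable ℂ (ZhatC T b τ) := by
  have hw : ∀ f, Differentiable ℂ fun y : c.I → ℂ => wfC c τ y f := by
    intro f
    unfold wfC
    fun_prop
  unfold ZhatC
  have hp : Differentiable ℂ fun y : c.I → ℂ => ∏ f ∈ T.faces, chiC c.m (wfC c τ y f) :=
    pr_differentiable_prod T.faces _ fun f _ =>
      Differentiable.comp (g := chiC (c.m : ℝ)) (f := fun y : c.I → ℂ => wfC c τ y f)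
        (F4a.chiL_differentiable c.m) (hw f)
  exact (pr_ZobsC_hol hc T b τ).mul hp

theorem pr_ZhatC_hol_b (hc : Whole c) (T : Top c) (τ : Face c → ℤ) (y : c.I → ℂ) : Differentiable ℂ fun b => ZhatC T b τ y := by
  unfold ZhatC
  exact (pr_ZobsC_hol_b hc T τ y).mul (differentiable_const _)

/-- LEAF PR-C2: `t ↦ -t` in the numerator (`intervalIntegral.integral_comp_neg`) -/
theorem pr_chiC_neg (s : ℝ) (z : ℂ) : chiC s (-z) = chiC s z := by
  unfold chiC chiS
  congr 1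
  have h := intervalIntegral.integral_comp_neg (a := -s) (b := s) (fun t : ℝ => Complex.exp (-(z - t) ^ 2 / 2))
  rw [neg_neg] at h
  rw [← h]
  refine intervalIntegral.integral_congr fun t _ => ?_
  show Complex.exp (-(-z - (t : ℂ)) ^ 2 / 2) = Complex.exp (-(z - ((-t : ℝ) : ℂ)) ^ 2 / 2)
  congr 1
  push_cast
  ring

/-- LEAF PR-C2 (`integral_conj` on both `Ioc`, or `intervalIntegral` version) -/
theorem pr_chiC_conj (s : ℝ) (z : ℂ) : conj (chiC s z) = chiC s (conj z) := by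
  unfold chiC chiS
  rw [map_div₀, Complex.conj_ofReal]
  congr 1
  simp only [intervalIntegral, map_sub, ← integral_conj]
  congr 1 <;>
  · refine integral_congr_ae (Filter.Eventually.of_forall fun t => ?_)
    show conj (Complex.exp (-(z - (t : ℂ)) ^ 2 / 2)) = Complex.exp (-(conj z - (t : ℂ)) ^ 2 / 2)
    rw [← Complex.exp_conj]
    congr 1
    simp only [map_div₀, map_neg, map_pow, map_sub, Complex.conj_ofReal, map_ofNat]

/-- LEAF PR-C2 -/
theorem pr_ZhatC_neg (T : Top c) (b : ℂ) (y : c.I → ℂ) : ZhatC T b 0 (-y) = ZhatC T b 0 y := by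
  unfold ZhatC
  rw [pr_ZobsC_eq, pr_ZobsC_eq, pr_Zg_neg T _ (pr_Om_neg T b) y]
  congr 1
  refine Finset.prod_congr rfl fun f _ => ?_
  rw [← pr_chiC_neg c.m (wfC c 0 y f)]
  congr 1
  unfold wfC
  simp only [Pi.neg_apply, Pi.zero_apply, Int.cast_zero, mul_zero, add_zero]
  ring

/-- LEAF PR-C2 -/
theorem pr_ZhatC_conj (T : Top c) (b : ℂ) (τ : Face c → ℤ) (y : c.I → ℂ) :
    conj (ZhatC T b τ y) = ZhatC T (conj b) τ (fun i => conj (y i)) := by
  unfold ZhatC
  rw [map_mul, map_prod, pr_ZobsC_eq, pr_ZobsC_eq, pr_Zg_conj]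
  have h1 : (fun k => conj (prOm T b τ k)) = prOm T (conj b) τ := funext fun k => pr_Om_conj T b τ k
  rw [h1]
  congr 1
  refine Finset.prod_congr rfl fun f _ => ?_
  rw [pr_chiC_conj]
  congr 1
  unfold wfC
  simp only [map_add, map_sub, map_mul, Complex.conj_ofReal, map_ofNat, map_intCast]

/-! ## 6. Real data -/

/-- LEAF PR-D1: **the bridge** (`F4a.unf_Zobs`, `pr_Om_real`, `Complex.ofReal_tsum`, `F4a.unf_row`) -/
theorem pr_ZobsC_real (T : Top c) (b : ℝ) (τ : Face c → ℤ) (y : c.I → ℝ) : ZobsC T b τ (fun i => (y i : ℂ)) = (T.Zobs b τ y : ℂ) := by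
  classical
  rw [unf_Zobs, Complex.ofReal_tsum]
  unfold ZobsC
  refine tsum_congr fun h => ?_
  rw [Complex.ofReal_mul]
  congr 1
  · unfold HGraph.wt
    rw [Complex.ofReal_prod]
    refine Finset.prod_congr rfl fun e _ => ?_
    rw [pr_besC_eq, E2.besC_ofReal]
  · rw [Complex.ofReal_exp]
    congr 1
    have h1 : ∑ o, (unfB T h o - y o.1) ^ 2 = ∑ i ∈ T.cells, ((∑ v : T.graph.V, if c.blk v.1 = i then (2 * Real.pi * (h v : ℝ)) else 0)
        / ((c.sites {i}).card : ℝ) - y i) ^ 2 := by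
      have h2 := Finset.sum_subtype (F := T.law.fO) T.cells (p := fun i => i ∈ T.cells) (by simp)
        (fun i => ((∑ v : T.graph.V, if c.blk v.1 = i then (2 * Real.pi * (h v : ℝ)) else 0) / ((c.sites {i}).card : ℝ) - y i) ^ 2)
      refine Eq.trans ?_ h2.symm
      refine Finset.sum_congr rfl fun o _ => ?_
      congr 2
      unfold unfB
      rw [Finset.sum_div]
      refine Finset.sum_congr rfl fun v _ => ?_
      show (if c.blk v.1 = o.1 then ((c.sites {o.1}).card : ℝ)⁻¹ else 0) * _ = _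
      split_ifs
      · rw [div_eq_mul_inv, mul_comm]
      · simp
    rw [h1]
    push_cast
    congr 2
    refine Finset.sum_congr rfl fun i _ => ?_
    congr 3
    refine Finset.sum_congr rfl fun v _ => ?_
    split_ifs
    · push_cast
      rfl
    · simp

/-- LEAF PR-D1: **the bridge** (`F4a.chiL_real`) -/
theorem pr_ZhatC_real (T : Top c) (b : ℝ) (τ : Face c → ℤ) (y : c.I → ℝ) : ZhatC T b τ (fun i => (y i : ℂ)) = (T.Zhat b τ y : ℂ) := by
  unfold ZhatC Top.Zhat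
  rw [pr_ZobsC_real, Complex.ofReal_mul, Complex.ofReal_prod]
  congr 1
  refine Finset.prod_congr rfl fun f _ => ?_
  rw [← chiL_real]
  congr 1
  unfold wfC wf
  push_cast
  rfl

theorem pr_N_mul (hc : Whole c) (T : Top c) (O₁ O₂ : Finset c.I) (hs : Splits T O₁ O₂) (b : ℝ) :
    T.Zobs b 0 0 = (T.restr O₁).Zobs b 0 0 * (T.restr O₂).Zobs b 0 0 := by
  have h := pr_ZobsC_mul hc T O₁ O₂ hs b 0 (fun i => (((0 : c.I → ℝ) i : ℝ) : ℂ))
  rw [pr_ZobsC_real, pr_ZobsC_real, pr_ZobsC_real] at h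
  exact_mod_cast h

/-! ## 7. The matrices -/

/-- `quad` only sees the field on the retained sites -/
theorem pr_quad_congr (T : Top c) (a : ℝ) (w : Face c → ℝ) (y : c.I → ℝ) (u u' : G.V → ℝ) (h : ∀ v, c.blk v ∈ T.cells → u v = u' v) :
    T.quad a w y u = T.quad a w y u' := by
  unfold Top.quad
  congr 1
  · congr 1
    refine Finset.sum_congr rfl fun e _ => ?_
    rw [h _ e.2.2.1, h _ e.2.2.2.1]
  · refine Finset.sum_congr rfl fun i hi => ?_
    have : avg c u i = avg c u' i := by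
      show (∑ v ∈ c.sites {i}, u v) / _ = (∑ v ∈ c.sites {i}, u' v) / _
      congr 1
      refine Finset.sum_congr rfl fun v hv => h v ?_
      have hv' : c.blk v ∈ ({i} : Finset c.I) := (Finset.mem_filter.1 hv).2
      rw [Finset.mem_singleton.1 hv']
      exact hi
    rw [this]

/-- `quad` is additive over a splitting -/
theorem pr_quad_add (hc : Whole c) (a : ℝ) (T : Top c) (O₁ O₂ : Finset c.I) (hs : Splits T O₁ O₂) (w : Face c → ℝ) (y : c.I → ℝ) (u : G.V → ℝ) :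
    T.quad a w y u = (T.restr O₁).quad a w y u + (T.restr O₂).quad a w y u := by
  classical
  simp only [Avg.quad_eq_filter]
  rw [pr_edge_split hc T O₁ O₂ hs, Finset.sum_union (pr_edge_disj T O₁ O₂ hs.1)]
  have hcells : T.cells = (T.restr O₁).cells ∪ (T.restr O₂).cells := by
    show T.cells = (T.cells ∩ O₁) ∪ (T.cells ∩ O₂)
    rw [← Finset.inter_union_distrib_left]
    exact (Finset.inter_eq_left.2 hs.2.1).symm
  have hdisj : Disjoint (T.restr O₁).cells (T.restr O₂).cells := by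
    show Disjoint (T.cells ∩ O₁) (T.cells ∩ O₂)
    exact Finset.disjoint_of_subset_left Finset.inter_subset_right (Finset.disjoint_of_subset_right Finset.inter_subset_right hs.1)
  conv_lhs => rw [hcells]
  rw [Finset.sum_union hdisj]
  ring

/-- LEAF PR-E1: `Avg.quad_eq_filter`, `pr_edge_split`, `pr_edge_disj`; the cells split; glue two trial fields (`F4a.En_attained`, `Avg.En_le_quad`, `le_ciInf`) -/
theorem pr_Qf_add (hc : Whole c) (a : ℝ) (ha : 0 < a) (T : Top c) (O₁ O₂ : Finset c.I) (hs : Splits T O₁ O₂) (w : Face c → ℝ) :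
    T.Qf a w = (T.restr O₁).Qf a w + (T.restr O₂).Qf a w := by
  classical
  unfold Top.Qf
  refine le_antisymm ?_ ?_
  · obtain ⟨u₁, h₁⟩ := En_attained (T.restr O₁) a ha w 0
    obtain ⟨u₂, h₂⟩ := En_attained (T.restr O₂) a ha w 0
    refine (Avg.En_le_quad T a ha w 0 (fun v => if c.blk v ∈ O₁ then u₁ v else u₂ v)).trans (le_of_eq ?_)
    rw [pr_quad_add hc a T O₁ O₂ hs, h₁, h₂]
    congr 1
    · refine pr_quad_congr _ a w 0 _ _ fun v hv => ?_
      have hv' : c.blk v ∈ O₁ := (Finset.mem_inter.1 hv).2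
      simp only [if_pos hv']
    · refine pr_quad_congr _ a w 0 _ _ fun v hv => ?_
      have hv' : c.blk v ∈ O₂ := (Finset.mem_inter.1 hv).2
      have hv'' : c.blk v ∉ O₁ := fun h => Finset.disjoint_left.1 hs.1 h hv'
      simp only [if_neg hv'']
  · obtain ⟨u, hu⟩ := En_attained T a ha w 0
    rw [hu, pr_quad_add hc a T O₁ O₂ hs]
    exact add_le_add (Avg.En_le_quad _ a ha w 0 u) (Avg.En_le_quad _ a ha w 0 u)

theorem pr_Q_add (hc : Whole c) (a : ℝ) (ha : 0 < a) (T : Top c) (O₁ O₂ : Finset c.I) (hs : Splits T O₁ O₂) (f f' : Face c) :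
    T.Qmat a f f' = (T.restr O₁).Qmat a f f' + (T.restr O₂).Qmat a f f' := by
  unfold Top.Qmat
  rw [pr_Qf_add hc a ha T O₁ O₂ hs, pr_Qf_add hc a ha T O₁ O₂ hs, pr_Qf_add hc a ha T O₁ O₂ hs]
  ring

/-- LEAF PR-E2: `Qf` does not see the faces off `T.faces` (`Top.econn`), `Qf a 0 = 0` -/
theorem pr_Q_supp (a : ℝ) (ha : 0 < a) (T : Top c) (f f' : Face c) (h : f ∉ T.faces ∨ f' ∉ T.faces) : T.Qmat a f f' = 0 := by
  exact (Qf_quadratic T a ha 0).2 f f' h

theorem pr_Q_symm (a : ℝ) (T : Top c) (f f' : Face c) : T.Qmat a f f' = T.Qmat a f' f := by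
  unfold Top.Qmat
  rw [add_comm (Pi.single f' (1 : ℝ) : Face c → ℝ) _]
  ring

/-! ## 8. Exit -/

/-- reality of the weights -/
def Wt.IsReal (W : Wt c) : Prop := ∀ T y, W.Zh T (fun i => conj (y i)) = conj (W.Zh T y)

/-- parity of the weights -/
def Wt.IsEven (W : Wt c) : Prop := W.τ = 0 ∧ ∀ T y, W.Zh T (-y) = W.Zh T y

/-- **the structural hypotheses hold for the XY weights** -/
theorem pr_str (hc : Whole c) (a b0 : ℝ) (ha : 0 < a) (hb0 : 0 < b0) (b : ℂ) (τ : Face c → ℤ) : (xyWt c a b0 b τ).Str where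
  Zh_mul := fun T O₁ O₂ hs y => pr_ZhatC_mul hc T O₁ O₂ hs b τ y
  Zh_one := fun T h0 h1 y => pr_ZhatC_one T h0 h1 b τ y
  Zh_loc := fun T y y' h h' => pr_ZhatC_loc T b τ y y' h h'
  Zh_per := fun T y => pr_ZhatC_per hc T b τ y
  Zh_hol := fun T => pr_ZhatC_hol hc T b τ
  N_mul := fun T O₁ O₂ hs => pr_N_mul hc T O₁ O₂ hs b0
  N_pos := fun T => Zobs_pos hc T b0 hb0 0 0
  Q_add := fun T O₁ O₂ hs f f' => pr_Q_add hc a ha T O₁ O₂ hs f f'
  Q_supp := fun T f f' h => pr_Q_supp a ha T f f' h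
  Q_symm := fun T f f' => pr_Q_symm a T f f'

theorem pr_isReal (a b0 : ℝ) (b : ℂ) (hb : b.im = 0) (τ : Face c → ℤ) : (xyWt c a b0 b τ).IsReal := by
  intro T y
  show ZhatC T b τ (fun i => conj (y i)) = conj (ZhatC T b τ y)
  rw [pr_ZhatC_conj, Complex.conj_eq_iff_im.2 hb]

theorem pr_isEven (a b0 : ℝ) (b : ℂ) : (xyWt c a b0 b 0).IsEven := ⟨rfl, fun T y => pr_ZhatC_neg T b y⟩

/-- Stores the on-demand equation lemmas of the definitions above in THIS module (rule 6 hygiene). -/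
theorem pr_law_forced : True := by
  have := @prEc.eq_1
  have := @prExt.eq_1
  have := @prAv.eq_1
  have := @prGs.eq_1
  have := @prZg.eq_1
  have := @prLoc.eq_1
  have := @prGm.eq_1
  have := @prMaj.eq_1
  have := @prOm.eq_1
  have := @prOmR.eq_1
  have := @Wt.IsReal.eq_1
  have := @Wt.IsEven.eq_1
  trivial

end

end Claimed.Agent.R285.Ent
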