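import Claimed.Agent.R285.Ent.Link
import Claimed.Agent.R285.Ent.Geo
import Claimed.Agent.R285.Ent.PropLaw

/-!
# ROW 285, THE ENTRY ENGINE: the geometric input of `LinkStmt`            (BP-ENT-GEO, helper108)
`link_geo : LinkGeoStmt`.  Everything in this file is proved.
* s1 cells at prescribed places (`lg_cell_at`), tiles of cells with a middle coordinate (`lg_tile_mid`), exchange of the coordinates on cores (`lg_core_swap`).
* s2 **`lg_cover`**: the tile of a cell at distance `≤ R/8` from the core of an event `k` is the tile of a cell of the core, or (second colour) a vertex tile.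
* s3 the five clauses.
-/

set_option autoImplicit false

namespace Claimed.Agent.R285.Ent

open scoped BigOperators
open Claimed.Agent.R285 Claimed.Agent.R285.RG Claimed.Agent.R285.F4a Claimed.Agent.R285.Geo

variable {G : Geom} {c : Grid G} {R : ℕ}

/-! ## 1. Cells at prescribed places -/

/-- a cell at a prescribed place of the same period (chart shifted by `R/2`), in the same half of the period -/
theorem lg_cell_at (h : Adm c R) (x : Fin c.n) {u : ℕ} (hu : u < R) (hh : ((x : ℕ) + R / 2) % R < R / 2 ↔ u < R / 2) :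
    ∃ x' : Fin c.n, (x' : ℕ) + R / 2 = R * (((x : ℕ) + R / 2) / R) + u := by
  obtain ⟨K, hK⟩ := h.dvd
  have h64 := h.d64
  have hp := h.pos
  have e := Nat.div_add_mod ((x : ℕ) + R / 2) R
  have l := Nat.mod_lt ((x : ℕ) + R / 2) hp
  have hx := x.2
  generalize ((x : ℕ) + R / 2) / R = A at *
  generalize ((x : ℕ) + R / 2) % R = v at *
  by_cases q : v < R / 2
  · have hu' := hh.1 q
    have hA1 : 1 ≤ A := by
      rcases Nat.eq_zero_or_pos A with rfl | hA
      · rw [Nat.mul_zero] at e; omega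
      · exact hA
    have hAK : A ≤ K := by
      by_contra hc
      have : R * (K + 1) ≤ R * A := Nat.mul_le_mul_left _ (by omega)
      rw [Nat.mul_add, Nat.mul_one] at this
      omega
    have h1 : R * 1 ≤ R * A := Nat.mul_le_mul_left _ hA1
    have h2 : R * A ≤ R * K := Nat.mul_le_mul_left _ hAK
    rw [Nat.mul_one] at h1
    exact ⟨⟨R * A + u - R / 2, by omega⟩, by show R * A + u - R / 2 + R / 2 = _; omega⟩
  · have hu' : ¬ u < R / 2 := fun z => q (hh.2 z)
    have hAK : A + 1 ≤ K := by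
      by_contra hc
      have : R * K ≤ R * A := Nat.mul_le_mul_left _ (by omega)
      omega
    have h2 : R * (A + 1) ≤ R * K := Nat.mul_le_mul_left _ hAK
    rw [Nat.mul_add, Nat.mul_one] at h2
    exact ⟨⟨R * A + u - R / 2, by omega⟩, by show R * A + u - R / 2 + R / 2 = _; omega⟩

/-- tiles of the cells whose first coordinate lies in the middle of a period -/
theorem lg_tile_mid (h : Adm c R) {x : Fin c.n} (hx : R / 4 ≤ (x : ℕ) % R ∧ (x : ℕ) % R < 3 * (R / 4)) (y : Fin c.n) :
    tile c R (x, y) = if ((y : ℕ) + R / 16) % R < R / 8 then (true, true, (x : ℕ) / R, red c R (((y : ℕ) + R / 16) / R))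
      else (false, false, (x : ℕ) / R, (y : ℕ) / R) := by
  have h64 := h.d64
  have n1 := near_iff h (x : ℕ)
  have l1 := line_iff h (x : ℕ)
  unfold tile
  rw [if_neg (fun q => by have := n1.1 q.1; omega)]
  by_cases q : ((y : ℕ) + R / 16) % R < R / 8
  · rw [if_pos ⟨hx, q⟩, if_pos q]
  · rw [if_neg (fun z => q z.2), if_neg (fun z => by have := l1.1 z.1; omega), if_neg q]

theorem lg_nx {x x' : Fin c.n} (e : (x : ℕ) + 1 = x') : nx x = x' := by
  apply Fin.ext
  show ((x : ℕ) + 1) % c.n = x'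
  rw [e]
  exact Nat.mod_eq_of_lt x'.2

/-- the two cells of a face between different tiles lie in the core of its event -/
theorem lg_core_h {x x' y : Fin c.n} (e : (x : ℕ) + 1 = x') (hne : tile c R (x', y) ≠ tile c R (x, y)) :
    (x, y) ∈ core c R (keyOf (tile c R (x, y)) (tile c R (x', y))) ∧ (x', y) ∈ core c R (keyOf (tile c R (x, y)) (tile c R (x', y))) := by
  have hF : IsFace c ((x, y), true) := Or.inr (by show (x : ℕ) + 1 < c.n; rw [e]; exact x'.2)
  have hn : fnb c ((x, y), true) = (x', y) := by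
    show (nx x, y) = (x', y)
    rw [lg_nx e]
  have := mem_core_of_key (R := R) (f := ((x, y), true)) (mem_seam.2 ⟨hF, by rw [hn]; exact hne⟩)
  rw [evKey_eq, hn] at this
  exact this

theorem lg_core_v {x y y' : Fin c.n} (e : (y : ℕ) + 1 = y') (hne : tile c R (x, y') ≠ tile c R (x, y)) :
    (x, y) ∈ core c R (keyOf (tile c R (x, y)) (tile c R (x, y'))) ∧ (x, y') ∈ core c R (keyOf (tile c R (x, y)) (tile c R (x, y'))) := by
  have hF : IsFace c ((x, y), false) := Or.inr (by show (y : ℕ) + 1 < c.n; rw [e]; exact y'.2)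
  have hn : fnb c ((x, y), false) = (x, y') := by
    show (x, nx y) = (x, y')
    rw [lg_nx e]
  have := mem_core_of_key (R := R) (f := ((x, y), false)) (mem_seam.2 ⟨hF, by rw [hn]; exact hne⟩)
  rw [evKey_eq, hn] at this
  exact this

/-- exchange of the coordinates on cores -/
theorem lg_core_swap1 (h : Adm c R) {k : EvId} {x y : Fin c.n} (hi : (x, y) ∈ core c R k) : (y, x) ∈ core c R (swT k) := by
  obtain ⟨f, hf, hk, hxy⟩ := mem_core.1 hi
  obtain ⟨hF, hne⟩ := mem_seam.1 hf
  obtain ⟨⟨p, q⟩, d⟩ := f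
  rw [evKey_eq] at hk
  have inj : ∀ t t' : Tile, swT t = swT t' → t = t' := fun t t' e => by rw [← swT_swT t, e, swT_swT]
  cases d
  · have e1 : fnb c ((p, q), false) = (p, nx q) := rfl
    have e2 : fnb c ((q, p), true) = (nx q, p) := rfl
    rw [e1] at hne hk hxy
    have hF' : IsFace c ((q, p), true) := by simpa [IsFace] using hF
    have hs : ((q, p), true) ∈ seam c R := mem_seam.2 ⟨hF', by
      rw [e2]
      show tile c R (nx q, p) ≠ tile c R (q, p)
      rw [tile_swap h p (nx q), tile_swap h p q]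
      exact fun e => hne (inj _ _ e)⟩
    refine mem_core.2 ⟨((q, p), true), hs, ?_, ?_⟩
    · rw [evKey_eq, e2]
      show keyOf (tile c R (q, p)) (tile c R (nx q, p)) = swT k
      rw [tile_swap h p (nx q), tile_swap h p q, keyOf_swap]
      exact congrArg swT hk
    · rw [e2]
      rcases hxy with e | e
      · left
        have := Prod.ext_iff.1 e
        exact Prod.ext this.2 this.1
      · right
        have := Prod.ext_iff.1 e
        exact Prod.ext this.2 this.1
  · have e1 : fnb c ((p, q), true) = (nx p, q) := rfl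
    have e2 : fnb c ((q, p), false) = (q, nx p) := rfl
    rw [e1] at hne hk hxy
    have hF' : IsFace c ((q, p), false) := by simpa [IsFace] using hF
    have hs : ((q, p), false) ∈ seam c R := mem_seam.2 ⟨hF', by
      rw [e2]
      show tile c R (q, nx p) ≠ tile c R (q, p)
      rw [tile_swap h (nx p) q, tile_swap h p q]
      exact fun e => hne (inj _ _ e)⟩
    refine mem_core.2 ⟨((q, p), false), hs, ?_, ?_⟩
    · rw [evKey_eq, e2]
      show keyOf (tile c R (q, p)) (tile c R (q, nx p)) = swT k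
      rw [tile_swap h (nx p) q, tile_swap h p q, keyOf_swap]
      exact congrArg swT hk
    · rw [e2]
      rcases hxy with e | e
      · left
        have := Prod.ext_iff.1 e
        exact Prod.ext this.2 this.1
      · right
        have := Prod.ext_iff.1 e
        exact Prod.ext this.2 this.1

theorem lg_core_swap (h : Adm c R) (k : EvId) (x y : Fin c.n) : (y, x) ∈ core c R (swT k) ↔ (x, y) ∈ core c R k :=
  ⟨fun q => by have := lg_core_swap1 h q; rwa [swT_swT] at this, lg_core_swap1 h⟩

/-- the vertex tile in windows -/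
theorem lg_tile_V (h : Adm c R) {a b : ℕ} {x y : Fin c.n} (wx : Win c R (R / 2) a (R / 4) (3 * (R / 4)) x)
    (wy : Win c R (R / 2) b (R / 4) (3 * (R / 4)) y) : tile c R (x, y) = (false, true, a, b) := by
  have h64 := h.d64
  have hp := h.pos
  obtain ⟨w1, w2, w3⟩ := wx
  obtain ⟨v1, v2, v3⟩ := wy
  have lx := Nat.mod_lt (x : ℕ) hp
  have ly := Nat.mod_lt (y : ℕ) hp
  have nx' : ((x : ℕ) + R / 4) % R < R / 2 := (near_iff h _).2 (by
    rcases shift_cases hp (x : ℕ) (R / 2) (by omega) with q | q <;> omega)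
  have ny' : ((y : ℕ) + R / 4) % R < R / 2 := (near_iff h _).2 (by
    rcases shift_cases hp (y : ℕ) (R / 2) (by omega) with q | q <;> omega)
  rw [tile_V (i := (x, y)) nx' ny']
  show (false, true, red c R (((x : ℕ) + R / 4) / R), red c R (((y : ℕ) + R / 4) / R)) = _
  rw [near_div h _ nx', near_div h _ ny', w1, v1]

/-- the horizontal edge tile in windows -/
theorem lg_tile_Eh (h : Adm c R) {a b : ℕ} {x y : Fin c.n} (wx : Win c R 0 a (R / 4) (3 * (R / 4)) x)
    (wy : Win c R (R / 2) b (7 * (R / 16)) (9 * (R / 16)) y) : tile c R (x, y) = (true, true, a, b) := by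
  have h64 := h.d64
  have hp := h.pos
  obtain ⟨w1, w2, w3⟩ := wx
  obtain ⟨v1, v2, v3⟩ := wy
  rw [Nat.add_zero] at w1 w2 w3
  have ly := Nat.mod_lt (y : ℕ) hp
  have ny' : ((y : ℕ) + R / 16) % R < R / 8 := (line_iff h _).2 (by
    rcases shift_cases hp (y : ℕ) (R / 2) (by omega) with q | q <;> omega)
  rw [lg_tile_mid h ⟨w2, w3⟩, if_pos ny', line_div h _ ny', v1, ← red_div h x, w1]

theorem lg_mid_notV (h : Adm c R) {x : Fin c.n} (hx : R / 4 ≤ (x : ℕ) % R ∧ (x : ℕ) % R < 3 * (R / 4)) (y : Fin c.n) :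
    ¬ ((tile c R (x, y)).1 = false ∧ (tile c R (x, y)).2.1 = true) := by
  rw [lg_tile_mid h hx]
  split_ifs <;> simp

theorem lg_key_V {t t' : Tile} (ht : ¬ (t.1 = false ∧ t.2.1 = true)) (ht' : t'.1 = false ∧ t'.2.1 = true) :
    keyOf t t' = t' ∧ keyOf t' t = t' := by
  unfold keyOf
  rw [if_neg ht, if_pos ht', if_pos ht']
  exact ⟨rfl, rfl⟩

/-! ## 2. The tiles near a core -/

/-- a coordinate near the band of a vertex tile is pushed into the band without changing the tiles of the middle columns -/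
theorem lg_clamp (h : Adm c R) {b ρ : ℕ} (hρ : ρ ≤ R / 8) {y : Fin c.n}
    (wy : Win c R (R / 2) b (R / 4 - 1 - ρ) (3 * (R / 4) + 1 + ρ) y) :
    ∃ y' : Fin c.n, Win c R (R / 2) b (R / 4) (3 * (R / 4)) y' ∧
      ∀ x : Fin c.n, (R / 4 ≤ (x : ℕ) % R ∧ (x : ℕ) % R < 3 * (R / 4)) → tile c R (x, y') = tile c R (x, y) := by
  have h64 := h.d64
  have hp := h.pos
  obtain ⟨w1, w2, w3⟩ := wy
  have ly := Nat.mod_lt (y : ℕ) hp
  have sy := shift_cases hp (y : ℕ) (R / 2) (by omega)
  have l1 := line_iff h (y : ℕ)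
  by_cases q1 : ((y : ℕ) + R / 2) % R < R / 4
  · obtain ⟨y', e⟩ := lg_cell_at h y (u := R / 4) (by omega) (by omega)
    have d := dm_of e (by omega)
    have sy' := shift_cases hp (y' : ℕ) (R / 2) (by omega)
    have ly' := Nat.mod_lt (y' : ℕ) hp
    have l2 := line_iff h (y' : ℕ)
    refine ⟨y', ⟨by rw [d.1]; exact w1, by omega, by omega⟩, fun x hx => ?_⟩
    rw [lg_tile_mid h hx, lg_tile_mid h hx, if_neg (fun z => by have := l2.1 z; omega), if_neg (fun z => by have := l1.1 z; omega)]
    have : (y' : ℕ) / R = (y : ℕ) / R := by omega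
    rw [this]
  · by_cases q2 : ((y : ℕ) + R / 2) % R < 3 * (R / 4)
    · exact ⟨y, ⟨w1, by omega, q2⟩, fun _ _ => rfl⟩
    · obtain ⟨y', e⟩ := lg_cell_at h y (u := 3 * (R / 4) - 1) (by omega) (by omega)
      have d := dm_of e (by omega)
      have sy' := shift_cases hp (y' : ℕ) (R / 2) (by omega)
      have ly' := Nat.mod_lt (y' : ℕ) hp
      have l2 := line_iff h (y' : ℕ)
      refine ⟨y', ⟨by rw [d.1]; exact w1, by omega, by omega⟩, fun x hx => ?_⟩
      rw [lg_tile_mid h hx, lg_tile_mid h hx, if_neg (fun z => by have := l2.1 z; omega), if_neg (fun z => by have := l1.1 z; omega)]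
      have : (y' : ℕ) / R = (y : ℕ) / R := by omega
      rw [this]

/-- ring events, cells beside the vertex tile -/
theorem lg_V1 (h : Adm c R) {a b ρ : ℕ} (hρ : ρ ≤ R / 8) {x y : Fin c.n}
    (wx : Win c R (R / 2) a (R / 4 - 1 - ρ) (3 * (R / 4) + 1 + ρ) x) (wy : Win c R (R / 2) b (R / 4 - 1 - ρ) (3 * (R / 4) + 1 + ρ) y)
    (hx : R / 4 ≤ (x : ℕ) % R ∧ (x : ℕ) % R < 3 * (R / 4)) :
    ∃ j ∈ core c R (false, true, a, b), tile c R j = tile c R (x, y) := by
  have h64 := h.d64
  have hp := h.pos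
  obtain ⟨y', wy', hy'⟩ := lg_clamp h hρ wy
  obtain ⟨w1, w2, w3⟩ := wx
  have sx := shift_cases hp (x : ℕ) (R / 2) (by omega)
  by_cases q : ((x : ℕ) + R / 2) % R < R / 2
  · obtain ⟨xo, eo⟩ := lg_cell_at h x (u := R / 4 - 1) (by omega) (by omega)
    obtain ⟨xi, ei⟩ := lg_cell_at h x (u := R / 4) (by omega) (by omega)
    have d1 := dm_of eo (by omega)
    have d2 := dm_of ei (by omega)
    have so := shift_cases hp (xo : ℕ) (R / 2) (by omega)
    have lo := Nat.mod_lt (xo : ℕ) hp
    have hxo : R / 4 ≤ (xo : ℕ) % R ∧ (xo : ℕ) % R < 3 * (R / 4) := by omega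
    have hq : (xo : ℕ) / R = (x : ℕ) / R := by omega
    have tV : tile c R (xi, y') = (false, true, a, b) := lg_tile_V h ⟨by rw [d2.1]; exact w1, by omega, by omega⟩ wy'
    have tO : tile c R (xo, y') = tile c R (x, y) := by rw [← hy' x hx, lg_tile_mid h hxo, lg_tile_mid h hx, hq]
    have nV := lg_mid_notV h hxo y'
    have hne : tile c R (xi, y') ≠ tile c R (xo, y') := fun e => nV (by rw [← e, tV]; exact ⟨rfl, rfl⟩)
    have hc := (lg_core_h (R := R) (x := xo) (x' := xi) (y := y') (by omega) hne).1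
    rw [(lg_key_V nV (by rw [tV]; exact ⟨rfl, rfl⟩)).1, tV] at hc
    exact ⟨_, hc, tO⟩
  · obtain ⟨xo, eo⟩ := lg_cell_at h x (u := 3 * (R / 4)) (by omega) (by omega)
    obtain ⟨xi, ei⟩ := lg_cell_at h x (u := 3 * (R / 4) - 1) (by omega) (by omega)
    have d1 := dm_of eo (by omega)
    have d2 := dm_of ei (by omega)
    have so := shift_cases hp (xo : ℕ) (R / 2) (by omega)
    have lo := Nat.mod_lt (xo : ℕ) hp
    have hxo : R / 4 ≤ (xo : ℕ) % R ∧ (xo : ℕ) % R < 3 * (R / 4) := by omega
    have hq : (xo : ℕ) / R = (x : ℕ) / R := by omega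
    have tV : tile c R (xi, y') = (false, true, a, b) := lg_tile_V h ⟨by rw [d2.1]; exact w1, by omega, by omega⟩ wy'
    have tO : tile c R (xo, y') = tile c R (x, y) := by rw [← hy' x hx, lg_tile_mid h hxo, lg_tile_mid h hx, hq]
    have nV := lg_mid_notV h hxo y'
    have hne : tile c R (xo, y') ≠ tile c R (xi, y') := fun e => nV (by rw [e, tV]; exact ⟨rfl, rfl⟩)
    have hc := (lg_core_h (R := R) (x := xi) (x' := xo) (y := y') (by omega) hne).2
    rw [(lg_key_V nV (by rw [tV]; exact ⟨rfl, rfl⟩)).2, tV] at hc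
    exact ⟨_, hc, tO⟩

/-- horizontal edge tiles -/
theorem lg_E1 (h : Adm c R) {a b ρ : ℕ} (hk : (true, true, a, b) ∈ events c R) (hρ : ρ ≤ R / 8) {x y : Fin c.n}
    (wx : Win c R 0 a (R / 4 - ρ) (3 * (R / 4) + ρ) x) (wy : Win c R (R / 2) b (7 * (R / 16) - 1 - ρ) (9 * (R / 16) + 1 + ρ) y) :
    (∃ j ∈ core c R (true, true, a, b), tile c R j = tile c R (x, y)) ∨ ((tile c R (x, y)).1 = false ∧ (tile c R (x, y)).2.1 = true) := by
  have h64 := h.d64
  have hp := h.pos
  obtain ⟨w1, w2, w3⟩ := wx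
  obtain ⟨v1, v2, v3⟩ := wy
  rw [Nat.add_zero] at w1 w2 w3
  have ly := Nat.mod_lt (y : ℕ) hp
  have sy := shift_cases hp (y : ℕ) (R / 2) (by omega)
  have l1 := line_iff h (y : ℕ)
  by_cases hx : R / 4 ≤ (x : ℕ) % R ∧ (x : ℕ) % R < 3 * (R / 4)
  · left
    have wx' : Win c R 0 a (R / 4) (3 * (R / 4)) x := ⟨by rw [Nat.add_zero]; exact w1, by rw [Nat.add_zero]; exact hx.1, by rw [Nat.add_zero]; exact hx.2⟩
    by_cases q1 : ((y : ℕ) + R / 2) % R < 7 * (R / 16)
    · obtain ⟨yo, eo⟩ := lg_cell_at h y (u := 7 * (R / 16) - 1) (by omega) (by omega)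
      obtain ⟨yi, ei⟩ := lg_cell_at h y (u := 7 * (R / 16)) (by omega) (by omega)
      have d1 := dm_of eo (by omega)
      have d2 := dm_of ei (by omega)
      have so := shift_cases hp (yo : ℕ) (R / 2) (by omega)
      have lo := Nat.mod_lt (yo : ℕ) hp
      have l2 := line_iff h (yo : ℕ)
      have tE : tile c R (x, yi) = (true, true, a, b) := lg_tile_Eh h wx' ⟨by rw [d2.1]; exact v1, by omega, by omega⟩
      have tF : tile c R (x, yo) = (false, false, (x : ℕ) / R, (yo : ℕ) / R) := by
        rw [lg_tile_mid h hx, if_neg (fun z => by have := l2.1 z; omega)]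
      have tO : tile c R (x, yo) = tile c R (x, y) := by
        rw [tF, lg_tile_mid h hx, if_neg (fun z => by have := l1.1 z; omega)]
        have : (yo : ℕ) / R = (y : ℕ) / R := by omega
        rw [this]
      have hne : tile c R (x, yi) ≠ tile c R (x, yo) := by rw [tE, tF]; simp
      have hc := (lg_core_v (R := R) (x := x) (y := yo) (y' := yi) (by omega) hne).1
      rw [tE, tF] at hc
      exact ⟨_, hc, tO⟩
    · by_cases q2 : ((y : ℕ) + R / 2) % R < 9 * (R / 16)
      · obtain ⟨j, hj, ej⟩ := event_eq_tile hk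
        exact ⟨j, hj, by rw [ej, lg_tile_Eh h wx' ⟨v1, by omega, q2⟩]⟩
      · obtain ⟨yo, eo⟩ := lg_cell_at h y (u := 9 * (R / 16)) (by omega) (by omega)
        obtain ⟨yi, ei⟩ := lg_cell_at h y (u := 9 * (R / 16) - 1) (by omega) (by omega)
        have d1 := dm_of eo (by omega)
        have d2 := dm_of ei (by omega)
        have so := shift_cases hp (yo : ℕ) (R / 2) (by omega)
        have lo := Nat.mod_lt (yo : ℕ) hp
        have l2 := line_iff h (yo : ℕ)
        have tE : tile c R (x, yi) = (true, true, a, b) := lg_tile_Eh h wx' ⟨by rw [d2.1]; exact v1, by omega, by omega⟩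
        have tF : tile c R (x, yo) = (false, false, (x : ℕ) / R, (yo : ℕ) / R) := by
          rw [lg_tile_mid h hx, if_neg (fun z => by have := l2.1 z; omega)]
        have tO : tile c R (x, yo) = tile c R (x, y) := by
          rw [tF, lg_tile_mid h hx, if_neg (fun z => by have := l1.1 z; omega)]
          have : (yo : ℕ) / R = (y : ℕ) / R := by omega
          rw [this]
        have hne : tile c R (x, yo) ≠ tile c R (x, yi) := by rw [tE, tF]; simp
        have hc := (lg_core_v (R := R) (x := x) (y := yi) (y' := yo) (by omega) hne).2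
        rw [tE, tF] at hc
        exact ⟨_, hc, tO⟩
  · right
    have lx := Nat.mod_lt (x : ℕ) hp
    have nx' : ((x : ℕ) + R / 4) % R < R / 2 := (near_iff h _).2 (by omega)
    have ny' : ((y : ℕ) + R / 4) % R < R / 2 := (near_iff h _).2 (by omega)
    rw [tile_V (i := (x, y)) nx' ny']
    exact ⟨rfl, rfl⟩

/-- **the tiles near a core**: the tile of a cell at distance `≤ R/8` from the core of `k` is the tile of a cell of the core, or `k` is an edge tile and the cell lies in a vertex tile -/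
theorem lg_cover (h : Adm c R) {k : EvId} (hk : k ∈ events c R) {ρ : ℕ} (hρ : ρ ≤ R / 8) {i : c.I} (hi : i ∈ nbh c ρ (core c R k)) :
    (∃ j ∈ core c R k, tile c R j = tile c R i) ∨ (k.1 = true ∧ (tile c R i).1 = false ∧ (tile c R i).2.1 = true) := by
  have h64 := h.d64
  have hp := h.pos
  have hb := nbh_box h hρ hi
  have sh := key_shape h hk
  obtain ⟨x, y⟩ := i
  obtain ⟨e, d, a, b⟩ := k
  cases e
  · left
    have hd : d = true := sh rfl
    subst hd
    have hb' : Win c R (R / 2) a (R / 4 - 1 - ρ) (3 * (R / 4) + 1 + ρ) x ∧ Win c R (R / 2) b (R / 4 - 1 - ρ) (3 * (R / 4) + 1 + ρ) y := by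
      simpa [Box] using hb
    by_cases hx : R / 4 ≤ (x : ℕ) % R ∧ (x : ℕ) % R < 3 * (R / 4)
    · exact lg_V1 h hρ hb'.1 hb'.2 hx
    · by_cases hy : R / 4 ≤ (y : ℕ) % R ∧ (y : ℕ) % R < 3 * (R / 4)
      · obtain ⟨⟨p, q⟩, hj, ej⟩ := lg_V1 h hρ hb'.2 hb'.1 hy
        rw [show ((false, true, b, a) : EvId) = swT (false, true, a, b) from rfl] at hj
        refine ⟨(q, p), (lg_core_swap h (false, true, a, b) q p).1 hj, ?_⟩
        rw [tile_swap h p q, ej, ← tile_swap h y x]
      · obtain ⟨j, hj, ej⟩ := event_eq_tile hk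
        refine ⟨j, hj, ?_⟩
        rw [ej]
        have lx := Nat.mod_lt (x : ℕ) hp
        have ly := Nat.mod_lt (y : ℕ) hp
        have sx := shift_cases hp (x : ℕ) (R / 2) (by omega)
        have sy := shift_cases hp (y : ℕ) (R / 2) (by omega)
        exact (lg_tile_V h ⟨hb'.1.1, by omega, by omega⟩ ⟨hb'.2.1, by omega, by omega⟩).symm
  · cases d
    · have hb' : Win c R (R / 2) a (7 * (R / 16) - 1 - ρ) (9 * (R / 16) + 1 + ρ) x ∧ Win c R 0 b (R / 4 - ρ) (3 * (R / 4) + ρ) y := by
        simpa [Box] using hb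
      have hk' : (true, true, b, a) ∈ events c R := by
        obtain ⟨⟨p, q⟩, hj, -⟩ := event_eq_tile hk
        have := lg_core_swap1 h hj
        rw [show swT (true, false, a, b) = (true, true, b, a) from rfl] at this
        exact mem_events_of_core this
      rcases lg_E1 h hk' hρ hb'.2 hb'.1 with ⟨⟨p, q⟩, hj, ej⟩ | hV
      · left
        rw [show ((true, true, b, a) : EvId) = swT (true, false, a, b) from rfl] at hj
        refine ⟨(q, p), (lg_core_swap h (true, false, a, b) q p).1 hj, ?_⟩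
        rw [tile_swap h p q, ej, ← tile_swap h y x]
      · right
        refine ⟨rfl, ?_⟩
        rw [tile_swap h y x]
        generalize tile c R (y, x) = t at hV ⊢
        obtain ⟨t1, t2, t3, t4⟩ := t
        obtain ⟨e1, e2⟩ := hV
        have e1' : t1 = false := e1
        have e2' : t2 = true := e2
        subst e1' e2'
        exact ⟨rfl, rfl⟩
    · have hb' : Win c R 0 a (R / 4 - ρ) (3 * (R / 4) + ρ) x ∧ Win c R (R / 2) b (7 * (R / 16) - 1 - ρ) (9 * (R / 16) + 1 + ρ) y := by
        simpa [Box] using hb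
      rcases lg_E1 h hk hρ hb'.1 hb'.2 with q | q
      · exact Or.inl q
      · exact Or.inr ⟨rfl, q⟩

/-! ## 3. The five clauses -/

theorem lg_mem_ctl {k : EvId} {i : c.I} : i ∈ ctl c R k ↔ ∃ j ∈ core c R k, tile c R j = tile c R i := by
  unfold ctl
  rw [mem_cellsOf, Finset.mem_image]

/-- the neighbourhood of a ring lies in the tiles at the ring -/
theorem lg_nbh_ctl (h : Adm c R) {k : EvId} (hk : k ∈ events c R) (hV : k.1 = false) {ρ : ℕ} (hρ : ρ ≤ R / 8) :
    nbh c ρ (core c R k) ⊆ ctl c R k := fun i hi => by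
  rcases lg_cover h hk hρ hi with q | q
  · exact lg_mem_ctl.2 q
  · rw [hV] at q
    exact absurd q.1 (by simp)

/-- (name of leaf L-ENT-LK-G1) -/
theorem lg_ring_ctl (h : Adm c R) {k : EvId} (hk : k ∈ events c R) (hk1 : k.1 = false) : nbh c (R / 32) (core c R k) ⊆ ctl c R k :=
  lg_nbh_ctl h hk hk1 (by have := h.d64; omega)

theorem lg_mem_perf {O : Finset c.I} {k : EvId} :
    k ∈ Wt.perf (c := c) R O ↔ k ∈ events c R ∧ if k.1 then nbh c R (core c R k) ⊆ O else patch c R k ⊆ O := by
  classical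
  unfold Wt.perf
  rw [Finset.mem_filter]

/-- a ring near a performed edge event is performed -/
theorem lg_perfV (h : Adm c R) {O : Finset c.I} {k k' : EvId} (hk : k ∈ Wt.perf (c := c) R O) (hE : k.1 = true) (hk' : k' ∈ events c R)
    (hV : k'.1 = false) (hm : ¬ Disjoint (nbh c (R / 32) (core c R k')) (nbh c (R / 32) (core c R k))) : k' ∈ Wt.perf (c := c) R O := by
  have h64 := h.d64
  have hp := h.pos
  have hO := (lg_mem_perf.1 hk).2
  rw [if_pos hE] at hO
  refine lg_mem_perf.2 ⟨hk', ?_⟩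
  rw [if_neg (by rw [hV]; simp)]
  obtain ⟨m, hm1, hm2⟩ := Finset.not_disjoint_iff.1 hm
  obtain ⟨c2, hc2, d2⟩ := mem_nbh.1 hm1
  obtain ⟨c3, hc3, d3⟩ := mem_nbh.1 hm2
  intro p hp'
  obtain ⟨c1, hc1, d1⟩ := mem_nbh.1 (patch_subset_nbh k' hp')
  have dd := box_diam h (ρ := 0) (by omega) (core_box h hc2) (core_box h hc1)
  have t1 := geo_idist_triangle c c3 m p
  have t2 := geo_idist_triangle c m c2 p
  have t3 := geo_idist_triangle c c2 c1 p
  rw [geo_idist_comm c m c2] at t2
  exact hO (mem_nbh.2 ⟨c3, hc3, by omega⟩)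

theorem lg_key_isV {t t' : Tile} (ht : (t.1 = false ∧ t.2.1 = true) ∨ (t'.1 = false ∧ t'.2.1 = true)) : (keyOf t t').1 = false := by
  unfold keyOf
  by_cases q : t.1 = false ∧ t.2.1 = true
  · rw [if_pos q]; exact q.1
  · rw [if_neg q, if_pos (ht.resolve_left q)]; exact (ht.resolve_left q).1

/-- after the rings the neighbourhood of the long sides of an edge tile splits: the patch, and pieces of the two vertex tiles -/
theorem lg_split (h : Adm c R) {k : EvId} (hk : k ∈ events c R) {U : Finset EvId}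
    (hU : ∀ k' ∈ events c R, k'.1 = false → ¬ Disjoint (core c R k') (nbh c (R / 32) (core c R k)) → k' ∉ U) :
    Splits ((topU c R U).restr (nbh c (R / 32) (core c R k))) (patch c R k) (nbh c (R / 32) (core c R k) \ ctl c R k) := by
  classical
  have h64 := h.d64
  refine ⟨?_, ?_, ?_⟩
  · rw [Finset.disjoint_left]
    intro i h1 h2
    exact (Finset.mem_sdiff.1 h2).2 (Finset.mem_inter.1 h1).2
  · intro i hi
    have hi' : i ∈ nbh c (R / 32) (core c R k) := (Finset.mem_inter.1 hi).2
    by_cases q : i ∈ ctl c R k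
    · exact Finset.mem_union_left _ (Finset.mem_inter.2 ⟨hi', q⟩)
    · exact Finset.mem_union_right _ (Finset.mem_sdiff.2 ⟨hi', q⟩)
  · intro f hf
    obtain ⟨hT, h1, h2⟩ := restr_faces_sub hf
    obtain ⟨hF, hcut⟩ := mem_topU_faces.1 hT
    have bad : ∀ p q : c.I, (p = f.1 ∧ q = fnb c f) ∨ (p = fnb c f ∧ q = f.1) → p ∈ ctl c R k → q ∉ ctl c R k → False := by
      intro p q hpq hp hq
      have hq' : q ∈ nbh c (R / 32) (core c R k) := by rcases hpq with e | e <;> rw [e.2] <;> assumption
      have hne : tile c R (fnb c f) ≠ tile c R f.1 := by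
        intro e
        obtain ⟨j, hj, ej⟩ := lg_mem_ctl.1 hp
        apply hq
        refine lg_mem_ctl.2 ⟨j, hj, ?_⟩
        rcases hpq with z | z <;> rw [ej, z.1, z.2, e]
      have hs : f ∈ seam c R := mem_seam.2 ⟨hF, hne⟩
      have hV : (tile c R q).1 = false ∧ (tile c R q).2.1 = true := by
        rcases lg_cover h hk (ρ := R / 32) (by omega) hq' with z | z
        · exact absurd (lg_mem_ctl.2 z) hq
        · exact z.2
      have hkey : (evKey c R f).1 = false := by
        rw [evKey_eq]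
        apply lg_key_isV
        rcases hpq with z | z
        · right; rw [← z.2]; exact hV
        · left; rw [← z.2]; exact hV
      exact hU _ (Finset.mem_image_of_mem _ hs) hkey (Finset.not_disjoint_iff.2 ⟨f.1, (mem_core_of_key hs).1, h1⟩) (hcut.resolve_left hne)
    by_cases c1 : f.1 ∈ ctl c R k <;> by_cases c2 : fnb c f ∈ ctl c R k
    · exact Or.inl ⟨Finset.mem_inter.2 ⟨h1, c1⟩, Finset.mem_inter.2 ⟨h2, c2⟩⟩
    · exact (bad _ _ (Or.inl ⟨rfl, rfl⟩) c1 c2).elim
    · exact (bad _ _ (Or.inr ⟨rfl, rfl⟩) c2 c1).elim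
    · exact Or.inr ⟨Finset.mem_sdiff.2 ⟨h1, c1⟩, Finset.mem_sdiff.2 ⟨h2, c2⟩⟩

theorem lg_pre_self {k : EvId} (hk : k ∈ events c R) : k ∈ pre c R k := by
  unfold pre
  split_ifs with hb
  · exact mem_evV.2 ⟨hk, hb⟩
  · exact hk

/-- the two proxies in the patch, on a path in a box -/
theorem lg_patch_top (h : Adm c R) {k : EvId} (hk : k ∈ events c R) {S : Finset EvId} (hkS : k ∉ S)
    (hS : ∀ k' ∈ events c R, k'.1 ≠ k.1 → ¬ Disjoint (patch c R k') (patch c R k) → (k' ∈ S ↔ k.1 = true)) :
    (cutS c R S).restr (patch c R k) = topO c R k ∧ (cutS c R (insert k S)).restr (patch c R k) = topC c R k := by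
  classical
  have key : ∀ k' ∈ events c R, k'.1 ≠ k.1 → ¬ Disjoint (patch c R k') (patch c R k) → (k' ∉ S ↔ k' ∈ pre c R k) := by
    intro k' hk' hc hm
    rw [hS k' hk' hc hm]
    unfold pre
    cases hb : k.1
    · simp only [Bool.false_eq_true, if_false, not_false_eq_true, true_iff]
      exact hk'
    · simp only [if_true, not_true_eq_false, false_iff]
      intro q
      exact hc ((mem_evV.1 q).2.trans hb.symm)
  unfold cutS topO topC
  constructor
  · refine topU_restr_patch h ⟨fun _ => lg_pre_self hk, fun _ => Finset.mem_sdiff.2 ⟨hk, hkS⟩⟩ fun k' hk' hc hm => ?_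
    rw [Finset.mem_sdiff]
    exact ⟨fun q => (key k' hk' hc hm).1 q.2, fun q => ⟨hk', (key k' hk' hc hm).2 q⟩⟩
  · refine topU_restr_patch h ⟨fun q => absurd (Finset.mem_insert_self k S) (Finset.mem_sdiff.1 q).2,
      fun q => absurd (Finset.mem_singleton_self k) (Finset.mem_sdiff.1 q).2⟩ fun k' hk' hc hm => ?_
    have hne : k' ≠ k := fun e => hc (by rw [e])
    rw [Finset.mem_sdiff, Finset.mem_sdiff, Finset.mem_insert, Finset.mem_singleton]
    exact ⟨fun q => ⟨(key k' hk' hc hm).1 (fun z => q.2 (Or.inr z)), hne⟩,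
      fun q => ⟨hk', fun z => (key k' hk' hc hm).2 q.1 (z.resolve_left hne)⟩⟩

theorem lg_step1 (h : Adm c R) (a : ℝ) (O : Finset c.I) (S : Finset EvId) (k : EvId)
    (hS : S ⊆ (Wt.perf (c := c) R O).filter (fun k => k.1 = false)) (hk : k ∈ Wt.perf (c := c) R O) (hV : k.1 = false) (hkS : k ∉ S) :
    Step c R a O (R / 32) S k := by
  have h64 := h.d64
  have hke : k ∈ events c R := (lg_mem_perf.1 hk).1
  refine ⟨patch c R k, patch_subset_of_perf hk, ?_, ?_⟩
  · intro i hi j hj
    by_contra hlt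
    apply hj
    have : j ∈ nbh c (R / 32) (core c R k) := mem_nbh.2 ⟨i, hi, by omega⟩
    exact Finset.mem_inter.2 ⟨this, lg_nbh_ctl h hke hV (by omega) this⟩
  · intro f f'
    obtain ⟨e1, e2⟩ := lg_patch_top h hke hkS (fun k' _ hc _ => by
      rw [hV]
      simp only [Bool.false_eq_true, iff_false]
      intro q
      exact hc (((Finset.mem_filter.1 (hS q)).2).trans hV.symm))
    rw [e1, e2]
    rfl

theorem lg_step2 (h : Adm c R) (hc : Whole c) {a : ℝ} (ha : 0 < a) (O : Finset c.I) (S : Finset EvId) (k : EvId)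
    (_hS : S ⊆ (Wt.perf (c := c) R O).filter (fun k => k.1 = true)) (hk : k ∈ Wt.perf (c := c) R O) (hE : k.1 = true) (hkS : k ∉ S) :
    Step c R a O (R / 32) ((Wt.perf (c := c) R O).filter (fun k => k.1 = false) ∪ S) k := by
  classical
  have h64 := h.d64
  have hp := h.pos
  have hke : k ∈ events c R := (lg_mem_perf.1 hk).1
  have hO := (lg_mem_perf.1 hk).2
  rw [if_pos hE] at hO
  obtain ⟨S', hS'⟩ : ∃ S' : Finset EvId, S' = (Wt.perf (c := c) R O).filter (fun k => k.1 = false) ∪ S := ⟨_, rfl⟩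
  rw [← hS']
  have hkS' : k ∉ S' := by
    rw [hS', Finset.mem_union]
    rintro (q | q)
    · have := (Finset.mem_filter.1 q).2
      rw [hE] at this
      exact absurd this (by simp)
    · exact hkS q
  have hnear : ∀ k' ∈ events c R, k'.1 = false → ¬ Disjoint (nbh c (R / 32) (core c R k')) (nbh c (R / 32) (core c R k)) → k' ∈ S' := by
    intro k' hk' hV hm
    rw [hS']
    exact Finset.mem_union_left _ (Finset.mem_filter.2 ⟨lg_perfV h hk hE hk' hV hm, hV⟩)
  obtain ⟨O', hO'⟩ : ∃ O' : Finset c.I, O' = nbh c (R / 32) (core c R k) := ⟨_, rfl⟩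
  refine ⟨O', ?_, ?_, ?_⟩
  · rw [hO']
    exact (nbh_mono (Nat.div_le_self _ _) (Finset.Subset.refl _)).trans hO
  · intro i hi j hj
    by_contra hlt
    apply hj
    rw [hO']
    exact mem_nbh.2 ⟨i, hi, by omega⟩
  · intro f f'
    obtain ⟨e1, e2⟩ := lg_patch_top h hke hkS' (fun k' hk' hcol hm => by
      simp only [hE, iff_true]
      have hV : k'.1 = false := by
        cases e : k'.1
        · rfl
        · exact absurd (e.trans hE.symm) hcol
      exact hnear k' hk' hV (fun hd => hm (hd.mono (patch_subset_nbh k') (patch_subset_nbh k))))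
    have hsp : ∀ S'' : Finset EvId, S' ⊆ S'' → Splits ((cutS c R S'').restr O') (patch c R k) (O' \ ctl c R k) := by
      intro S'' hsub
      rw [hO']
      refine lg_split h hke fun k' hk' hV hm q => ?_
      exact (Finset.mem_sdiff.1 q).2 (hsub (hnear k' hk' hV (fun hd => hm (hd.mono_left (subset_nbh _ _)))))
    have i1 : O' ∩ patch c R k = patch c R k := Finset.inter_eq_right.2 (by rw [hO']; exact patch_subset_nbh k)
    have i2 : O' ∩ (O' \ ctl c R k) = O' \ ctl c R k := Finset.inter_eq_right.2 Finset.sdiff_subset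
    have a1 := pr_Q_add hc a ha _ _ _ (hsp S' (Finset.Subset.refl _)) f f'
    have a2 := pr_Q_add hc a ha _ _ _ (hsp (insert k S') (Finset.subset_insert _ _)) f f'
    rw [restr_restr, restr_restr, i1, i2, e1] at a1
    rw [restr_restr, restr_restr, i1, i2, e2] at a2
    have e3 : (cutS c R S').restr (O' \ ctl c R k) = (cutS c R (insert k S')).restr (O' \ ctl c R k) := by
      unfold cutS
      refine topU_restr_congr fun g hg g1 _ => ?_
      have hne : evKey c R g ≠ k := by
        intro e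
        have := (mem_core_of_key hg).1
        rw [e] at this
        exact (Finset.mem_sdiff.1 g1).2 (core_subset_ctl k this)
      rw [Finset.mem_sdiff, Finset.mem_sdiff, Finset.mem_insert]
      exact ⟨fun q => ⟨q.1, fun z => q.2 (z.resolve_left hne)⟩, fun q => ⟨q.1, fun z => q.2 (Or.inr z)⟩⟩
    rw [a1, a2, e3]
    unfold Xk
    ring

/-- **the geometric input of `LinkStmt`** -/
theorem link_geo : LinkGeoStmt := by
  intro a ha G c R hgeo _
  have h := hgeo.adm
  have h64 := h.d64
  have hp := h.pos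
  refine ⟨?_, ?_, ?_, ?_, ?_⟩
  · intro k _ k' _ hc hne
    exact (patch_disjoint h hc hne).mono (core_subset_patch k) (core_subset_patch k')
  · intro k _ i hi i' hi'
    have := box_diam h (ρ := 0) (by omega) (core_box h hi) (core_box h hi')
    omega
  · intro k _
    exact patch_subset_nbh k
  · intro O S k hS hk hV hkS
    exact lg_step1 h a O S k hS hk hV hkS
  · intro O S k hS hk hE hkS
    exact lg_step2 h hgeo.whole ha O S k hS hk hE hkS

end Claimed.Agent.R285.Ent
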