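import Claimed.Agent.R285.Ent.Iso
import Claimed.Agent.R285.Ent.Geo

/-!
# ROW 285, entry engine, layer EXP (post BP-ENT-LOC #13339): THE EXPANSION IN PATTERNS, POINTWISE IN THE OBSERVATION `y`            (owner helper273; prefix `exp_` / names of `Ent/Defs`)
Paper-free: only `Ent/Defs.lean`, `Wt.Str` and helper108's `Ent/Iso.ent_iso`.   Source: [F] `cutoff-entry.tex` l.1115-1423 (locality (γ), (δ); (α), (β) are void here: the proxies do not depend on the marks).
## Exit theorems
* `ent_links`            `exp ((En full - Easm)/2) = ∏_{l ∈ links} (1 + lfac l)`                                  ((δ): dyadic box telescoping)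
* **`ent_expansion`**    `exp (En full / 2) * Zh full = scal * ∑_{π ⊆ items} pfac π`
* `ent_expansion_label`  the same with `pfacL t0`, `t0 ∈ tiles`
* `pfac_empty`, **`pfac_union`** (cells of the two patterns disjoint), **`pfac_mul`** (`g.Sep RR` of the covers), `pfacL_union`, `pfacL_mul`      ((γ))
* **`pfac_loc`**, `pfacL_loc`   dependence on `y` only through the cells of the pattern;  GEO INPUT `PatchIn c R` (the patch of an event lies in the tiles of its core)
* `pfac_per`, `pfacL_per`  invariance under the common shift `y + 2π`;   `pfac_hol`, `pfacL_hol`  entire in `y`.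
-/

set_option autoImplicit false

namespace Claimed.Agent.R285.Ent

open scoped BigOperators
open Claimed.Agent.R285 Claimed.Agent.R285.RG Claimed.Agent.R285.F4a

noncomputable section

variable {G : Geom} {c g : Grid G}

/-! ## 0. Finite sums -/

theorem exp_sum_powerset_union {α β : Type} [DecidableEq α] [AddCommMonoid β] (A B : Finset α) (hAB : Disjoint A B)
    (f : Finset α → β) : ∑ ε ∈ (A ∪ B).powerset, f ε = ∑ ε₁ ∈ A.powerset, ∑ ε₂ ∈ B.powerset, f (ε₁ ∪ ε₂) := by
  induction B using Finset.induction_on generalizing f with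
  | empty => simp
  | insert b B hb ih =>
    have hbA : b ∉ A := fun h => Finset.disjoint_left.1 hAB h (Finset.mem_insert_self b B)
    have hd : Disjoint A B := hAB.mono_right (Finset.subset_insert b B)
    rw [Finset.union_insert, Finset.sum_powerset_insert (by
      rw [Finset.mem_union]; exact fun h => h.elim hbA hb), ih hd, ih hd, ← Finset.sum_add_distrib]
    refine Finset.sum_congr rfl fun ε₁ _ => ?_
    rw [Finset.sum_powerset_insert hb]
    simp only [Finset.union_insert]

theorem exp_sum_powerset_image {α α' β : Type} [DecidableEq α] [DecidableEq α'] [AddCommMonoid β] (A : Finset α) (e : α → α')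
    (he : Function.Injective e) (f : Finset α' → β) : ∑ ε ∈ (A.image e).powerset, f ε = ∑ ε ∈ A.powerset, f (ε.image e) := by
  rw [Finset.powerset_image, Finset.sum_image fun x _ y _ h => Finset.image_injective he h]

/-- telescoping with the convention of `lkc` -/
theorem exp_tel (a : ℕ → ℝ) (n : ℕ) : ∑ j ∈ Finset.range (n + 1), (a j - if j = 0 then 0 else a (j - 1)) = a n := by
  induction n with
  | zero => simp
  | succ n ih => rw [Finset.sum_range_succ, ih]; simp

/-! ## 1. The three parts of a pattern -/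

/-- the pattern with the marks `S`, the selected tiles `Q`, the links `L` -/
def mkPat (S : Finset EvId) (Q : Finset Tile) (L : Finset (Link c)) : Finset (Item c) :=
  S.image Sum.inl ∪ (Q.image (Sum.inr ∘ Sum.inl) ∪ L.image (Sum.inr ∘ Sum.inr))

theorem mem_pS {π : Finset (Item c)} {k : EvId} : k ∈ pS π ↔ Sum.inl k ∈ π := by simp [pS]
theorem mem_pQ {π : Finset (Item c)} {t : Tile} : t ∈ pQ π ↔ Sum.inr (Sum.inl t) ∈ π := by simp [pQ]
theorem mem_pL {π : Finset (Item c)} {l : Link c} : l ∈ pL π ↔ Sum.inr (Sum.inr l) ∈ π := by simp [pL]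

theorem pS_mkPat (S : Finset EvId) (Q : Finset Tile) (L : Finset (Link c)) : pS (mkPat S Q L) = S := by
  ext k; simp [mem_pS, mkPat]
theorem pQ_mkPat (S : Finset EvId) (Q : Finset Tile) (L : Finset (Link c)) : pQ (mkPat S Q L) = Q := by
  ext k; simp [mem_pQ, mkPat]
theorem pL_mkPat (S : Finset EvId) (Q : Finset Tile) (L : Finset (Link c)) : pL (mkPat S Q L) = L := by
  ext k; simp [mem_pL, mkPat]

theorem pS_union (π π' : Finset (Item c)) : pS (π ∪ π') = pS π ∪ pS π' := by
  ext k; simp [mem_pS]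
theorem pQ_union (π π' : Finset (Item c)) : pQ (π ∪ π') = pQ π ∪ pQ π' := by
  ext k; simp [mem_pQ]
theorem pL_union (π π' : Finset (Item c)) : pL (π ∪ π') = pL π ∪ pL π' := by
  ext k; simp [mem_pL]

/-- sums over patterns -/
theorem exp_sum_items {β : Type} [AddCommMonoid β] (R : ℕ) (F : Finset (Item c) → β) :
    ∑ π ∈ (items c R).powerset, F π =
      ∑ S ∈ (events c R).powerset, ∑ Q ∈ (tiles c R).powerset, ∑ L ∈ (links c R).powerset, F (mkPat S Q L) := by
  classical
  unfold items
  rw [exp_sum_powerset_union _ _ (by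
    rw [Finset.disjoint_left]
    intro x hx hx'
    obtain ⟨k, -, rfl⟩ := Finset.mem_image.1 hx
    rcases Finset.mem_union.1 hx' with h | h
    · obtain ⟨t, -, h⟩ := Finset.mem_image.1 h
      exact absurd h (by simp)
    · obtain ⟨t, -, h⟩ := Finset.mem_image.1 h
      exact absurd h (by simp)), exp_sum_powerset_image _ _ Sum.inl_injective]
  refine Finset.sum_congr rfl fun S _ => ?_
  rw [exp_sum_powerset_union _ _ (by
    rw [Finset.disjoint_left]
    intro x hx hx'
    obtain ⟨k, -, rfl⟩ := Finset.mem_image.1 hx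
    obtain ⟨t, -, h⟩ := Finset.mem_image.1 hx'
    exact absurd h (by simp)), exp_sum_powerset_image _ _ (Sum.inr_injective.comp Sum.inl_injective)]
  refine Finset.sum_congr rfl fun Q _ => ?_
  rw [exp_sum_powerset_image _ _ (Sum.inr_injective.comp Sum.inr_injective)]
  rfl

/-! ## 2. (δ): the links -/

theorem exp_idist1_le (a b : Fin c.n) : c.idist1 a b ≤ c.n := by
  have ha := a.isLt
  have hb := b.isLt
  unfold Grid.idist1
  split
  · exact (min_le_left _ _).trans (by omega)
  · omega

theorem exp_idist_le (a b : c.I) : c.idist a b ≤ c.n := max_le (exp_idist1_le _ _) (exp_idist1_le _ _)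

theorem exp_idist_self (a : c.I) : c.idist a a = 0 := by
  have h : ∀ x : Fin c.n, c.idist1 x x = 0 := fun x => by
    unfold Grid.idist1
    split <;> simp
  unfold Grid.idist
  rw [h, h, max_self]

theorem exp_idist1_self (x : Fin c.n) : c.idist1 x x = 0 := by
  unfold Grid.idist1
  split <;> simp

theorem fcl_subset_lcells (R : ℕ) (l : Link c) : fcl c l.1 ⊆ lcells c R l := by
  classical
  intro i hi
  unfold lcells
  refine Finset.mem_filter.2 ⟨Finset.mem_univ _, i, hi, l.2.1.1, by simp [fcl], Or.inl ⟨rfl, ?_⟩⟩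
  rw [exp_idist1_self]
  exact Nat.zero_le _

theorem fcl_subset_lcells' (R : ℕ) (l : Link c) : fcl c l.2.1 ⊆ lcells c R l := by
  classical
  intro i hi
  unfold lcells
  exact Finset.mem_filter.2 ⟨Finset.mem_univ _, l.1.1, by simp [fcl], i, hi, Or.inr (Or.inr (Or.inl ⟨rfl, le_rfl⟩))⟩

theorem lbox_top (R : ℕ) (hR : 0 < R) (f : Face c) : lbox c R f c.n = Finset.univ := by
  unfold lbox nbh
  refine Finset.filter_true_of_mem fun i _ => ⟨f.1, by simp [fcl], ?_⟩
  calc c.idist f.1 i ≤ c.n := exp_idist_le _ _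
    _ ≤ 2 ^ c.n := Nat.lt_two_pow_self.le
    _ ≤ 2 ^ c.n * R := Nat.le_mul_of_pos_right _ hR

theorem perf_univ (R : ℕ) : Wt.perf (c := c) R Finset.univ = events c R := by
  unfold Wt.perf
  refine Finset.filter_true_of_mem fun k _ => ?_
  split_ifs <;> exact Finset.subset_univ _

theorem cellsOf_tiles (R : ℕ) : cellsOf c R (tiles c R) = Finset.univ := by
  ext i
  simp only [mem_cellsOf, Finset.mem_univ, iff_true]
  exact tile_mem_tiles R i

/-- with all seam faces cut the tiles split -/
theorem splits_tiles (R : ℕ) (t : Tile) (B : Finset Tile) (ht : t ∉ B) :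
    Splits ((topU c R ∅).restr (cellsOf c R (insert t B))) (cellsOf c R B) (cellsOf c R {t}) := by
  refine ⟨?_, ?_, ?_⟩
  · rw [Finset.disjoint_left]
    intro i h1 h2
    rw [mem_cellsOf] at h1 h2
    rw [Finset.mem_singleton] at h2
    exact ht (h2 ▸ h1)
  · intro i hi
    have : i ∈ cellsOf c R (insert t B) := (Finset.mem_inter.1 hi).2
    rw [mem_cellsOf, Finset.mem_insert] at this
    rw [Finset.mem_union, mem_cellsOf, mem_cellsOf, Finset.mem_singleton]
    tauto
  · intro f hf
    obtain ⟨hf1, hf2, hf3⟩ := Finset.mem_filter.1 hf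
    have hsame : tile c R (fnb c f) = tile c R f.1 := by
      rcases (mem_topU_faces.1 hf1).2 with h | h
      · exact h
      · exact absurd h (Finset.notMem_empty _)
    rw [mem_cellsOf, Finset.mem_insert] at hf2
    simp only [mem_cellsOf, Finset.mem_singleton, hsame]
    tauto

theorem Q_split_tiles {W : Wt c} (hW : W.Str) (R : ℕ) (f f' : Face c) :
    W.Q (topU c R ∅) f f' = ∑ t ∈ tiles c R, W.Q (tileTop c R t) f f' := by
  classical
  have key : ∀ B : Finset Tile, W.Q ((topU c R ∅).restr (cellsOf c R B)) f f' = ∑ t ∈ B, W.Q (tileTop c R t) f f' := by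
    intro B
    induction B using Finset.induction_on with
    | empty =>
      rw [Finset.sum_empty]
      refine hW.Q_supp _ _ _ (Or.inl fun h => ?_)
      have := (Finset.mem_filter.1 h).2.1
      rw [mem_cellsOf] at this
      exact absurd this (Finset.notMem_empty _)
    | insert t B ht ih =>
      rw [hW.Q_add _ _ _ (splits_tiles R t B ht), restr_restr, restr_restr]
      have e1 : cellsOf c R (insert t B) ∩ cellsOf c R B = cellsOf c R B := by
        ext i
        simp only [Finset.mem_inter, mem_cellsOf, Finset.mem_insert]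
        tauto
      have e2 : cellsOf c R (insert t B) ∩ cellsOf c R {t} = cellsOf c R {t} := by
        ext i
        simp only [Finset.mem_inter, mem_cellsOf, Finset.mem_insert, Finset.mem_singleton]
        tauto
      rw [e1, e2, ih, topU_restr_tile, Finset.sum_insert ht, add_comm]
  have h := key (tiles c R)
  rwa [cellsOf_tiles, restr_univ] at h

theorem Mbox_univ {W : Wt c} (hW : W.Str) (R : ℕ) (f f' : Face c) :
    W.Mbox R Finset.univ f f' = W.Q (Top.full c) f f' - ∑ t ∈ tiles c R, W.Q (tileTop c R t) f f'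
      - ∑ k ∈ events c R, (W.Q (topO c R k) f f' - W.Q (topC c R k) f f') := by
  unfold Wt.Mbox
  rw [perf_univ, Finset.sdiff_self, restr_univ, restr_univ, Q_split_tiles hW]

theorem sum_lkc (W : Wt c) (R : ℕ) (hR : 0 < R) (f f' : Face c) :
    ∑ j ∈ Finset.range (c.n + 1), W.lkc R (f, f', j) = (1 / 2) * W.Mbox R Finset.univ f f' := by
  unfold Wt.lkc
  rw [← Finset.mul_sum]
  have := exp_tel (fun j => W.Mbox R (lbox c R f j) f f') c.n
  simp only at this ⊢
  rw [this, lbox_top R hR]

/-- the quadratic form of a matrix on the faces -/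
def qform (q : Face c → Face c → ℝ) (w : Face c → ℂ) : ℂ := ∑ f, ∑ f', (q f f' : ℂ) * w f * w f'

theorem qform_sub (q q' : Face c → Face c → ℝ) (w : Face c → ℂ) :
    qform (fun f f' => q f f' - q' f f') w = qform q w - qform q' w := by
  unfold qform
  rw [← Finset.sum_sub_distrib]
  refine Finset.sum_congr rfl fun f _ => ?_
  rw [← Finset.sum_sub_distrib]
  refine Finset.sum_congr rfl fun f' _ => ?_
  push_cast
  ring

theorem qform_sum {ι : Type} (s : Finset ι) (q : ι → Face c → Face c → ℝ) (w : Face c → ℂ) :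
    qform (fun f f' => ∑ i ∈ s, q i f f') w = ∑ i ∈ s, qform (q i) w := by
  unfold qform
  rw [Finset.sum_comm (s := s)]
  refine Finset.sum_congr rfl fun f _ => ?_
  rw [Finset.sum_comm (s := s)]
  refine Finset.sum_congr rfl fun f' _ => ?_
  push_cast
  rw [Finset.sum_mul, Finset.sum_mul]

theorem qform_smul (a : ℝ) (q : Face c → Face c → ℝ) (w : Face c → ℂ) :
    qform (fun f f' => a * q f f') w = a * qform q w := by
  unfold qform
  rw [Finset.mul_sum]
  refine Finset.sum_congr rfl fun f _ => ?_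
  rw [Finset.mul_sum]
  refine Finset.sum_congr rfl fun f' _ => ?_
  push_cast
  ring

theorem En_eq_qform (W : Wt c) (T : Top c) (y : c.I → ℂ) : W.En T y = qform (W.Q T) (W.w y) := rfl

/-- the Gaussian mismatch is the sum of the link forms -/
theorem ent_energy {W : Wt c} (hW : W.Str) (R : ℕ) (hR : 0 < R) (y : c.I → ℂ) :
    (W.En (Top.full c) y - W.Easm R y) / 2 = ∑ l ∈ links c R, (W.lkc R l : ℂ) * W.w y l.1 * W.w y l.2.1 := by
  rw [← sum_linksAll hW (fun l => (W.lkc R l : ℂ) * W.w y l.1 * W.w y l.2.1) (fun l hl => by rw [hl]; simp)]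
  have h1 : ∑ l ∈ linksAll c, (W.lkc R l : ℂ) * W.w y l.1 * W.w y l.2.1
      = qform (fun f f' => (1 / 2) * W.Mbox R Finset.univ f f') (W.w y) := by
    unfold linksAll qform
    rw [Finset.sum_product]
    refine Finset.sum_congr rfl fun f _ => ?_
    rw [Finset.sum_product]
    refine Finset.sum_congr rfl fun f' _ => ?_
    show _ = ((1 / 2 * W.Mbox R Finset.univ f f' : ℝ) : ℂ) * W.w y f * W.w y f'
    rw [← sum_lkc W R hR, Complex.ofReal_sum, Finset.sum_mul, Finset.sum_mul]
  rw [h1, qform_smul]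
  have h2 : W.Mbox R Finset.univ = fun f f' => (W.Q (Top.full c) f f' - ∑ t ∈ tiles c R, W.Q (tileTop c R t) f f')
      - ∑ k ∈ events c R, (W.Q (topO c R k) f f' - W.Q (topC c R k) f f') := by
    funext f f'
    exact Mbox_univ hW R f f'
  rw [h2, qform_sub, qform_sub, qform_sum, qform_sum]
  simp only [qform_sub]
  unfold Wt.Easm
  simp only [En_eq_qform]
  push_cast
  ring

/-- **(δ)** -/
theorem ent_links {W : Wt c} (hW : W.Str) (R : ℕ) (hR : 0 < R) (y : c.I → ℂ) :
    Complex.exp ((W.En (Top.full c) y - W.Easm R y) / 2) = ∏ l ∈ links c R, (1 + W.lfac R l y) := by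
  rw [ent_energy hW R hR, Complex.exp_sum]
  refine Finset.prod_congr rfl fun l _ => ?_
  unfold Wt.lfac
  ring

/-! ## 3. The expansion in patterns -/

/-- the divisor without marks -/
theorem ent_divisor (W : Wt c) (R : ℕ) (y : c.I → ℂ) :
    (∏ k ∈ events c R, W.prox R k y) * ∏ t ∈ tiles c R, W.tdiv R t y = (W.scal R : ℂ) * Complex.exp (-W.Easm R y / 2) := by
  unfold Wt.prox Wt.tdiv Wt.scal Wt.Easm
  rw [Finset.prod_mul_distrib, Finset.prod_mul_distrib, ← Complex.exp_sum, ← Complex.exp_sum]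
  push_cast
  have e : Complex.exp (-(∑ k ∈ events c R, (W.En (topO c R k) y - W.En (topC c R k) y) + ∑ t ∈ tiles c R, W.En (tileTop c R t) y) / 2)
      = Complex.exp (∑ k ∈ events c R, -(W.En (topO c R k) y - W.En (topC c R k) y) / 2) *
        Complex.exp (∑ t ∈ tiles c R, -W.En (tileTop c R t) y / 2) := by
    rw [← Complex.exp_add]
    congr 1
    rw [← Finset.sum_div, ← Finset.sum_div, Finset.sum_neg_distrib, Finset.sum_neg_distrib]
    ring
  rw [e]
  ring

open Classical in
/-- the sum over all patterns -/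
theorem sum_pfac (W : Wt c) (R : ℕ) (y : c.I → ℂ) :
    ∑ π ∈ (items c R).powerset, W.pfac R π y =
      (∑ S ∈ (events c R).powerset.filter (Valid c R), W.halo R S y * ∏ t ∈ tiles c R \ halT c R S, W.tfac R t y) *
        ∏ l ∈ links c R, (1 + W.lfac R l y) := by
  rw [exp_sum_items, Finset.sum_filter, Finset.sum_mul]
  refine Finset.sum_congr rfl fun S _ => ?_
  unfold Wt.pfac PatOk
  simp only [pS_mkPat, pQ_mkPat, pL_mkPat]
  by_cases hS : Valid c R S
  · rw [if_pos hS]
    have h1 : ∏ t ∈ tiles c R \ halT c R S, W.tfac R t y = ∑ Q ∈ (tiles c R \ halT c R S).powerset, ∏ t ∈ Q, (W.tfac R t y - 1) := by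
      rw [← Finset.prod_one_add]
      refine Finset.prod_congr rfl fun t _ => by ring
    have h2 : (tiles c R \ halT c R S).powerset = (tiles c R).powerset.filter fun Q => Disjoint Q (halT c R S) := by
      ext Q
      rw [Finset.mem_powerset, Finset.mem_filter, Finset.mem_powerset, Finset.subset_sdiff]
    rw [h1, h2, Finset.sum_filter, Finset.prod_one_add, Finset.mul_sum (s := (tiles c R).powerset), Finset.sum_mul]
    refine Finset.sum_congr rfl fun Q _ => ?_
    by_cases hQ : Disjoint Q (halT c R S)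
    · simp only [hS, hQ, and_self, if_true]
      rw [Finset.mul_sum]
    · simp [hQ]
  · simp [hS]

/-- **the expansion in patterns**, pointwise in the observation -/
theorem ent_expansion {W : Wt c} (hW : W.Str) (R : ℕ) (hR : 0 < R) (y : c.I → ℂ) :
    Complex.exp (W.En (Top.full c) y / 2) * W.Zh (Top.full c) y = (W.scal R : ℂ) * ∑ π ∈ (items c R).powerset, W.pfac R π y := by
  classical
  rw [sum_pfac, ← ent_links hW R hR, ent_iso hW R y, ent_divisor]
  have e : Complex.exp ((W.En (Top.full c) y - W.Easm R y) / 2) = Complex.exp (W.En (Top.full c) y / 2) * Complex.exp (-W.Easm R y / 2) := by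
    rw [← Complex.exp_add]
    congr 1
    ring
  rw [e]
  have e2 : @Finset.filter _ (Valid c R) (Classical.decPred _) (events c R).powerset = (events c R).powerset.filter (Valid c R) := by
    congr
  rw [e2]
  ring

open Classical in
theorem pfac_mkPat (W : Wt c) (R : ℕ) (S : Finset EvId) (Q : Finset Tile) (L : Finset (Link c)) (y : c.I → ℂ) :
    W.pfac R (mkPat S Q L) y = if Valid c R S ∧ Disjoint Q (halT c R S) then
      W.halo R S y * (∏ t ∈ Q, (W.tfac R t y - 1)) * ∏ l ∈ L, W.lfac R l y else 0 := by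
  unfold Wt.pfac PatOk
  simp only [pS_mkPat, pQ_mkPat, pL_mkPat]

/-- the source tile may be taken out of the selected tiles -/
theorem sum_pfacL (W : Wt c) (R : ℕ) {t0 : Tile} (ht0 : t0 ∈ tiles c R) (y : c.I → ℂ) :
    ∑ π ∈ (items c R).powerset, W.pfacL R t0 π y = ∑ π ∈ (items c R).powerset, W.pfac R π y := by
  classical
  rw [exp_sum_items, exp_sum_items]
  refine Finset.sum_congr rfl fun S _ => ?_
  rw [← Finset.insert_erase ht0, Finset.sum_powerset_insert (Finset.notMem_erase _ _),
    Finset.sum_powerset_insert (Finset.notMem_erase _ _), ← Finset.sum_add_distrib, ← Finset.sum_add_distrib]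
  refine Finset.sum_congr rfl fun Q hQ => ?_
  have hQ0 : t0 ∉ Q := fun h => Finset.notMem_erase t0 _ (Finset.mem_powerset.1 hQ h)
  rw [← Finset.sum_add_distrib, ← Finset.sum_add_distrib]
  refine Finset.sum_congr rfl fun L _ => ?_
  unfold Wt.pfacL
  simp only [pS_mkPat, pQ_mkPat, Finset.mem_insert_self, if_true, add_zero, if_neg hQ0, pfac_mkPat]
  by_cases h0 : t0 ∈ halT c R S
  · have : ¬ Disjoint (insert t0 Q) (halT c R S) := fun h => Finset.disjoint_left.1 h (Finset.mem_insert_self _ _) h0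
    simp [h0, this]
  · have : Disjoint (insert t0 Q) (halT c R S) ↔ Disjoint Q (halT c R S) := by
      rw [Finset.disjoint_insert_left]
      exact ⟨fun h => h.2, fun h => ⟨h0, h⟩⟩
    rw [if_neg h0, Finset.prod_insert hQ0]
    simp only [this]
    split_ifs
    · ring
    · ring

/-- the expansion with a compulsory source tile -/
theorem ent_expansion_label {W : Wt c} (hW : W.Str) (R : ℕ) (hR : 0 < R) {t0 : Tile} (ht0 : t0 ∈ tiles c R) (y : c.I → ℂ) :
    Complex.exp (W.En (Top.full c) y / 2) * W.Zh (Top.full c) y =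
      (W.scal R : ℂ) * ∑ π ∈ (items c R).powerset, W.pfacL R t0 π y := by
  rw [sum_pfacL W R ht0, ent_expansion hW R hR]

/-! ## 4. (γ): multiplicativity -/

theorem skp_union (R : ℕ) (S S' : Finset EvId) : skp c R (S ∪ S') = skp c R S ∪ skp c R S' := by
  classical
  ext v
  simp only [skp, Finset.mem_filter, Finset.mem_union]
  constructor
  · rintro ⟨h1, e, he | he, h2⟩
    · exact Or.inl ⟨h1, e, he, h2⟩
    · exact Or.inr ⟨h1, e, he, h2⟩
  · rintro (⟨h1, e, he, h2⟩ | ⟨h1, e, he, h2⟩)
    · exact ⟨h1, e, Or.inl he, h2⟩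
    · exact ⟨h1, e, Or.inr he, h2⟩

theorem skp_empty (R : ℕ) : skp c R ∅ = ∅ := by
  classical
  ext v
  simp [skp]

theorem mem_halT {R : ℕ} {S : Finset EvId} {t : Tile} :
    t ∈ halT c R S ↔ ∃ k ∈ S ∪ skp c R S, ∃ i ∈ core c R k, tile c R i = t := by
  simp only [halT, Finset.mem_image, Finset.mem_biUnion]
  constructor
  · rintro ⟨i, ⟨k, hk, hi⟩, rfl⟩
    exact ⟨k, hk, i, hi, rfl⟩
  · rintro ⟨k, hk, i, hi, rfl⟩
    exact ⟨i, ⟨k, hk, hi⟩, rfl⟩

theorem halT_union (R : ℕ) (S S' : Finset EvId) : halT c R (S ∪ S') = halT c R S ∪ halT c R S' := by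
  ext t
  simp only [Finset.mem_union, mem_halT, skp_union]
  constructor
  · rintro ⟨k, (hk | hk) | (hk | hk), h⟩
    · exact Or.inl ⟨k, Or.inl hk, h⟩
    · exact Or.inr ⟨k, Or.inl hk, h⟩
    · exact Or.inl ⟨k, Or.inr hk, h⟩
    · exact Or.inr ⟨k, Or.inr hk, h⟩
  · rintro (⟨k, hk | hk, h⟩ | ⟨k, hk | hk, h⟩)
    · exact ⟨k, Or.inl (Or.inl hk), h⟩
    · exact ⟨k, Or.inr (Or.inl hk), h⟩
    · exact ⟨k, Or.inl (Or.inr hk), h⟩
    · exact ⟨k, Or.inr (Or.inr hk), h⟩

theorem halT_empty (R : ℕ) : halT c R ∅ = ∅ := by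
  ext t
  simp [mem_halT, skp_empty]

theorem cellsOf_union (R : ℕ) (A B : Finset Tile) : cellsOf c R (A ∪ B) = cellsOf c R A ∪ cellsOf c R B := by
  ext i
  simp only [mem_cellsOf, Finset.mem_union]

theorem cellsOf_disjoint {R : ℕ} {A B : Finset Tile} (h : Disjoint A B) : Disjoint (cellsOf c R A) (cellsOf c R B) := by
  rw [Finset.disjoint_left]
  intro i h1 h2
  exact Finset.disjoint_left.1 h (mem_cellsOf.1 h1) (mem_cellsOf.1 h2)

theorem cellsOf_mono {R : ℕ} {A B : Finset Tile} (h : A ⊆ B) : cellsOf c R A ⊆ cellsOf c R B :=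
  fun _ hi => mem_cellsOf.2 (h (mem_cellsOf.1 hi))

/-- every mark of the halo comes from one mark -/
theorem halT_single {R : ℕ} {S : Finset EvId} {t : Tile} (ht : t ∈ halT c R S) : ∃ e ∈ S, t ∈ halT c R {e} := by
  classical
  obtain ⟨k, hk, i, hi, rfl⟩ := mem_halT.1 ht
  rcases Finset.mem_union.1 hk with hk | hk
  · exact ⟨k, hk, mem_halT.2 ⟨k, Finset.mem_union_left _ (Finset.mem_singleton_self k), i, hi, rfl⟩⟩
  · obtain ⟨h1, e, he, h2⟩ := Finset.mem_filter.1 hk
    exact ⟨e, he, mem_halT.2 ⟨k, Finset.mem_union_right _ (Finset.mem_filter.2 ⟨h1, e, Finset.mem_singleton_self e, h2⟩), i, hi, rfl⟩⟩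

theorem core_nonempty {R : ℕ} {k : EvId} (hk : k ∈ events c R) : ∃ i, i ∈ core c R k := by
  obtain ⟨f, hf, rfl⟩ := Finset.mem_image.1 hk
  exact ⟨f.1, (mem_core_of_key hf).1⟩

/-- marks and skipped events of sets of marks with disjoint halos are different -/
theorem ev_disjoint {R : ℕ} {S S' : Finset EvId} (hS : S ⊆ events c R) (hh : Disjoint (halT c R S) (halT c R S')) :
    Disjoint (S ∪ skp c R S) (S' ∪ skp c R S') := by
  rw [Finset.disjoint_left]
  intro k hk hk'
  obtain ⟨i, hi⟩ := core_nonempty (Finset.union_subset hS (skp_subset R S) hk)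
  exact Finset.disjoint_left.1 hh (tile_mem_halT hk hi) (tile_mem_halT hk' hi)

theorem valid_union {R : ℕ} {S S' : Finset EvId} (hS : S ⊆ events c R) (hh : Disjoint (halT c R S) (halT c R S')) :
    Valid c R (S ∪ S') ↔ Valid c R S ∧ Valid c R S' := by
  have hd := ev_disjoint hS hh
  unfold Valid
  rw [skp_union, Finset.union_subset_iff, Finset.disjoint_union_left, Finset.disjoint_union_right, Finset.disjoint_union_right]
  have h1 : Disjoint S (skp c R S') := hd.mono Finset.subset_union_left Finset.subset_union_right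
  have h2 : Disjoint S' (skp c R S) := (hd.mono Finset.subset_union_right Finset.subset_union_left).symm
  tauto

/-- restriction of a halo topology to one of two groups with disjoint halos -/
theorem topU_restr_union {R : ℕ} {U U' : Finset EvId} {A A' : Finset Tile} (hd : Disjoint A A')
    (hU' : ∀ k ∈ U', ∀ i ∈ core c R k, tile c R i ∈ A') :
    ((topU c R (U ∪ U')).restr (cellsOf c R (A ∪ A'))).restr (cellsOf c R A) = (topU c R U).restr (cellsOf c R A) := by
  classical
  rw [restr_restr]
  have e : cellsOf c R (A ∪ A') ∩ cellsOf c R A = cellsOf c R A := by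
    ext i
    simp only [Finset.mem_inter, mem_cellsOf, Finset.mem_union]
    tauto
  rw [e]
  unfold Top.restr
  refine top_ext rfl ?_
  ext f
  simp only [Finset.mem_filter, mem_topU_faces, mem_cellsOf, Finset.mem_union]
  constructor
  · rintro ⟨⟨h1, h2⟩, h3, h4⟩
    refine ⟨⟨h1, ?_⟩, h3, h4⟩
    by_cases hs : tile c R (fnb c f) = tile c R f.1
    · exact Or.inl hs
    · rcases h2 with h2 | h2 | h2
      · exact Or.inl h2
      · exact Or.inr h2
      · exact absurd (hU' _ h2 _ (mem_core_of_key (mem_seam.2 ⟨h1, hs⟩)).1) (Finset.disjoint_left.1 hd h3)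
  · rintro ⟨⟨h1, h2⟩, h3, h4⟩
    exact ⟨⟨h1, h2.imp id Or.inl⟩, h3, h4⟩

theorem topU_splits {R : ℕ} {U U' : Finset EvId} {A A' : Finset Tile} (hd : Disjoint A A')
    (hU : ∀ k ∈ U, ∀ i ∈ core c R k, tile c R i ∈ A) (hU' : ∀ k ∈ U', ∀ i ∈ core c R k, tile c R i ∈ A') :
    Splits ((topU c R (U ∪ U')).restr (cellsOf c R (A ∪ A'))) (cellsOf c R A) (cellsOf c R A') := by
  refine ⟨cellsOf_disjoint hd, ?_, ?_⟩
  · intro i hi
    rw [← cellsOf_union]
    exact (Finset.mem_inter.1 hi).2
  · intro f hf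
    obtain ⟨hf1, hf2, hf3⟩ := Finset.mem_filter.1 hf
    obtain ⟨h1, h2⟩ := mem_topU_faces.1 hf1
    simp only [mem_cellsOf, Finset.mem_union] at hf2 hf3 ⊢
    by_cases hs : tile c R (fnb c f) = tile c R f.1
    · rw [hs]
      tauto
    · have hc := mem_core_of_key (mem_seam.2 ⟨h1, hs⟩)
      rcases h2 with h2 | h2
      · exact absurd h2 hs
      · rcases Finset.mem_union.1 h2 with h2 | h2
        · exact Or.inl ⟨hU _ h2 _ hc.1, hU _ h2 _ hc.2⟩
        · exact Or.inr ⟨hU' _ h2 _ hc.1, hU' _ h2 _ hc.2⟩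

theorem haloTerm_union {W : Wt c} (hW : W.Str) {R : ℕ} {S S' O O' : Finset EvId} (hS : S ⊆ events c R)
    (hh : Disjoint (halT c R S) (halT c R S')) (hO : O ⊆ S) (hO' : O' ⊆ S') (y : c.I → ℂ) :
    W.haloTerm R (S ∪ S') (O ∪ O') y = W.haloTerm R S O y * W.haloTerm R S' O' y := by
  classical
  have hd := ev_disjoint hS hh
  have hU : ∀ k ∈ skp c R S ∪ O, ∀ i ∈ core c R k, tile c R i ∈ halT c R S := fun k hk i hi =>
    tile_mem_halT (by
      rcases Finset.mem_union.1 hk with h | h
      · exact Finset.mem_union_right _ h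
      · exact Finset.mem_union_left _ (hO h)) hi
  have hU' : ∀ k ∈ skp c R S' ∪ O', ∀ i ∈ core c R k, tile c R i ∈ halT c R S' := fun k hk i hi =>
    tile_mem_halT (by
      rcases Finset.mem_union.1 hk with h | h
      · exact Finset.mem_union_right _ h
      · exact Finset.mem_union_left _ (hO' h)) hi
  have e1 : skp c R (S ∪ S') ∪ (O ∪ O') = (skp c R S ∪ O) ∪ (skp c R S' ∪ O') := by
    rw [skp_union]
    ext k
    simp only [Finset.mem_union]
    tauto
  have hdU : Disjoint (skp c R S ∪ O) (skp c R S' ∪ O') :=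
    hd.mono (Finset.union_subset Finset.subset_union_right (hO.trans Finset.subset_union_left))
      (Finset.union_subset Finset.subset_union_right (hO'.trans Finset.subset_union_left))
  have e2 : W.Zh (halTop c R (S ∪ S') (O ∪ O')) y = W.Zh (halTop c R S O) y * W.Zh (halTop c R S' O') y := by
    unfold halTop halC
    rw [e1, halT_union, hW.Zh_mul _ _ _ (topU_splits hh hU hU') y, topU_restr_union hh hU']
    congr 2
    rw [Finset.union_comm (skp c R S ∪ O), Finset.union_comm (halT c R S)]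
    exact topU_restr_union hh.symm hU
  unfold Wt.haloTerm
  rw [e2, e1, Finset.prod_union hdU, halT_union, Finset.prod_union hh, div_mul_div_comm]
  congr 1
  ring

/-- **(γ)** for the halo factors -/
theorem halo_union {W : Wt c} (hW : W.Str) {R : ℕ} {S S' : Finset EvId} (hS : S ⊆ events c R)
    (hh : Disjoint (halT c R S) (halT c R S')) (y : c.I → ℂ) :
    W.halo R (S ∪ S') y = W.halo R S y * W.halo R S' y := by
  classical
  have hd : Disjoint S S' := (ev_disjoint hS hh).mono Finset.subset_union_left Finset.subset_union_left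
  unfold Wt.halo
  rw [exp_sum_powerset_union S S' hd, Finset.sum_mul_sum]
  refine Finset.sum_congr rfl fun O hO => Finset.sum_congr rfl fun O' hO' => ?_
  rw [Finset.mem_powerset] at hO hO'
  have e : (S ∪ S') \ (O ∪ O') = (S \ O) ∪ (S' \ O') := by
    ext k
    simp only [Finset.mem_sdiff, Finset.mem_union, not_or]
    constructor
    · rintro ⟨h | h, h1, h2⟩
      · exact Or.inl ⟨h, h1⟩
      · exact Or.inr ⟨h, h2⟩
    · rintro (⟨h, h1⟩ | ⟨h, h1⟩)
      · exact ⟨Or.inl h, h1, fun h' => Finset.disjoint_left.1 hd h (hO' h')⟩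
      · exact ⟨Or.inr h, fun h' => Finset.disjoint_left.1 hd (hO h') h, h1⟩
  rw [e, Finset.card_union_of_disjoint (hd.mono Finset.sdiff_subset Finset.sdiff_subset), pow_add,
    haloTerm_union hW hS hh hO hO']
  ring

theorem halo_empty {W : Wt c} (hW : W.Str) (R : ℕ) (y : c.I → ℂ) : W.halo R ∅ y = 1 := by
  have h : W.Zh (halTop c R ∅ ∅) y = 1 := by
    classical
    refine hW.Zh_one _ ?_ ?_ y
    · unfold halTop halC Top.restr
      show _ ∩ cellsOf c R (halT c R ∅) = ∅
      rw [halT_empty]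
      ext i
      simp [mem_cellsOf]
    · unfold halTop halC Top.restr
      show Finset.filter (fun f : Face c => f.1 ∈ cellsOf c R (halT c R ∅) ∧ fnb c f ∈ cellsOf c R (halT c R ∅)) _ = ∅
      rw [halT_empty]
      ext f
      simp [mem_cellsOf]
  unfold Wt.halo Wt.haloTerm
  simp [h, skp_empty, halT_empty]

theorem pfac_empty {W : Wt c} (hW : W.Str) (R : ℕ) (y : c.I → ℂ) : W.pfac R ∅ y = 1 := by
  have h1 : pS (∅ : Finset (Item c)) = ∅ := by ext; simp [mem_pS]
  have h2 : pQ (∅ : Finset (Item c)) = ∅ := by ext; simp [mem_pQ]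
  have h3 : pL (∅ : Finset (Item c)) = ∅ := by ext; simp [mem_pL]
  have h4 : PatOk c R (∅ : Finset (Item c)) := by
    unfold PatOk Valid
    rw [h1, h2]
    simp
  unfold Wt.pfac
  rw [if_pos h4, h1, h2, h3, halo_empty hW]
  simp

/-- the cells of a pattern -/
def pcells (c : Grid G) (R : ℕ) (π : Finset (Item c)) : Finset c.I := π.biUnion (icells c R)

theorem halC_subset_pcells (R : ℕ) (π : Finset (Item c)) : halC c R (pS π) ⊆ pcells c R π := by
  intro i hi
  obtain ⟨e, he, ht⟩ := halT_single (mem_cellsOf.1 hi)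
  exact Finset.mem_biUnion.2 ⟨Sum.inl e, mem_pS.1 he, mem_cellsOf.2 ht⟩

theorem cellsOf_pQ_subset_pcells (R : ℕ) (π : Finset (Item c)) : cellsOf c R (pQ π) ⊆ pcells c R π := by
  intro i hi
  exact Finset.mem_biUnion.2 ⟨Sum.inr (Sum.inl (tile c R i)), mem_pQ.1 (mem_cellsOf.1 hi), mem_cellsOf.2 (Finset.mem_singleton_self _)⟩

theorem lcells_subset_pcells {R : ℕ} {π : Finset (Item c)} {l : Link c} (hl : l ∈ pL π) : lcells c R l ⊆ pcells c R π :=
  fun _ hi => Finset.mem_biUnion.2 ⟨Sum.inr (Sum.inr l), mem_pL.1 hl, hi⟩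

/-- sets of tiles (all of them tiles of cells) whose cells are disjoint are disjoint -/
theorem tiles_disjoint {R : ℕ} {A B : Finset Tile} (hA : A ⊆ tiles c R) (h : Disjoint (cellsOf c R A) (cellsOf c R B)) : Disjoint A B := by
  rw [Finset.disjoint_left]
  intro t h1 h2
  obtain ⟨i, -, rfl⟩ := Finset.mem_image.1 (hA h1)
  exact Finset.disjoint_left.1 h (mem_cellsOf.2 h1) (mem_cellsOf.2 h2)

theorem pQ_subset {R : ℕ} {π : Finset (Item c)} (hπ : π ⊆ items c R) : pQ π ⊆ tiles c R := by
  intro t ht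
  have := hπ (mem_pQ.1 ht)
  simpa [items] using this

theorem patOk_mono {R : ℕ} {π π' : Finset (Item c)} (h : PatOk c R (π ∪ π')) : PatOk c R π := by
  unfold PatOk Valid at h ⊢
  rw [pS_union, pQ_union, skp_union, halT_union] at h
  refine ⟨⟨Finset.subset_union_left.trans h.1.1, h.1.2.mono Finset.subset_union_left Finset.subset_union_left⟩,
    h.2.mono Finset.subset_union_left Finset.subset_union_left⟩

/-- **(γ)**: the factor of a pattern is multiplicative over patterns with disjoint cells -/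
theorem pfac_union {W : Wt c} (hW : W.Str) {R : ℕ} {π π' : Finset (Item c)} (hπ : π ⊆ items c R)
    (hd : Disjoint (pcells c R π) (pcells c R π')) (y : c.I → ℂ) : W.pfac R (π ∪ π') y = W.pfac R π y * W.pfac R π' y := by
  classical
  by_cases h1 : PatOk c R π
  swap
  · unfold Wt.pfac
    rw [if_neg h1, if_neg fun h => h1 (patOk_mono h), zero_mul]
  by_cases h2 : PatOk c R π'
  swap
  · unfold Wt.pfac
    rw [if_neg h2, if_neg fun h => h2 (patOk_mono (by rwa [Finset.union_comm])), mul_zero]
  have hS : pS π ⊆ events c R := h1.1.1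
  have hhh : Disjoint (halT c R (pS π)) (halT c R (pS π')) :=
    tiles_disjoint (halT_subset R _) (hd.mono (halC_subset_pcells R π) (halC_subset_pcells R π'))
  have hqh : Disjoint (pQ π) (halT c R (pS π')) :=
    tiles_disjoint (pQ_subset hπ) (hd.mono (cellsOf_pQ_subset_pcells R π) (halC_subset_pcells R π'))
  have hhq : Disjoint (halT c R (pS π)) (pQ π') :=
    tiles_disjoint (halT_subset R _) (hd.mono (halC_subset_pcells R π) (cellsOf_pQ_subset_pcells R π'))
  have hqq : Disjoint (pQ π) (pQ π') :=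
    tiles_disjoint (pQ_subset hπ) (hd.mono (cellsOf_pQ_subset_pcells R π) (cellsOf_pQ_subset_pcells R π'))
  have hll : Disjoint (pL π) (pL π') := by
    rw [Finset.disjoint_left]
    intro l hl hl'
    have : fnb c l.1 ∈ lcells c R l := fcl_subset_lcells R l (by simp [fcl])
    exact Finset.disjoint_left.1 hd (lcells_subset_pcells hl this) (lcells_subset_pcells hl' this)
  have h3 : PatOk c R (π ∪ π') := by
    unfold PatOk
    rw [pS_union, pQ_union, halT_union, valid_union hS hhh, Finset.disjoint_union_left, Finset.disjoint_union_right,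
      Finset.disjoint_union_right]
    exact ⟨⟨h1.1, h2.1⟩, ⟨h1.2, hqh⟩, ⟨hhq.symm, h2.2⟩⟩
  unfold Wt.pfac
  rw [if_pos h1, if_pos h2, if_pos h3, pS_union, pQ_union, pL_union, halo_union hW hS hhh, Finset.prod_union hqq,
    Finset.prod_union hll]
  ring

theorem pcells_disjoint_of_sep (N : Nest c g) {d : ℕ} {A B : Finset c.I} (h : g.Sep d (N.cl A) (N.cl B)) : Disjoint A B := by
  rw [Finset.disjoint_left]
  intro i h1 h2
  have := h (N.up i) (Finset.mem_image_of_mem _ h1) (N.up i) (Finset.mem_image_of_mem _ h2)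
  rw [exp_idist_self] at this
  exact absurd this (Nat.not_lt_zero _)

theorem cover_eq_cl (N : Nest c g) (R : ℕ) (π : Finset (Item c)) : cover N R π = N.cl (pcells c R π) := by
  unfold cover cov pcells Nest.cl
  rw [Finset.biUnion_image]

/-- **(γ)** in the form used by `ent_regroup` -/
theorem pfac_mul {W : Wt c} (hW : W.Str) (N : Nest c g) {R d : ℕ} {π π' : Finset (Item c)} (hπ : π ⊆ items c R)
    (hsep : g.Sep d (cover N R π) (cover N R π')) (y : c.I → ℂ) : W.pfac R (π ∪ π') y = W.pfac R π y * W.pfac R π' y := by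
  rw [cover_eq_cl, cover_eq_cl] at hsep
  exact pfac_union hW hπ (pcells_disjoint_of_sep N hsep) y

/-- (γ) with the compulsory source tile -/
theorem pfacL_union {W : Wt c} (hW : W.Str) {R : ℕ} {t0 : Tile} (ht0 : t0 ∈ tiles c R) {π π' : Finset (Item c)} (hπ : π ⊆ items c R)
    (hd : Disjoint (cellsOf c R {t0} ∪ pcells c R π) (pcells c R π')) (y : c.I → ℂ) :
    W.pfacL R t0 (π ∪ π') y = W.pfacL R t0 π y * W.pfac R π' y := by
  classical
  have hd0 : Disjoint (cellsOf c R {t0}) (pcells c R π') := hd.mono_left Finset.subset_union_left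
  have h0 : ({t0} : Finset Tile) ⊆ tiles c R := Finset.singleton_subset_iff.2 ht0
  have h1 : t0 ∉ pQ π' :=
    Finset.disjoint_singleton_left.1 (tiles_disjoint h0 (hd0.mono_right (cellsOf_pQ_subset_pcells R π')))
  have h2 : t0 ∉ halT c R (pS π') :=
    Finset.disjoint_singleton_left.1 (tiles_disjoint h0 (hd0.mono_right (halC_subset_pcells R π')))
  unfold Wt.pfacL
  rw [pQ_union, pS_union, halT_union, pfac_union hW hπ (hd.mono_left Finset.subset_union_right)]
  simp only [Finset.mem_union, h1, h2, or_false]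
  split_ifs <;> ring

theorem pfacL_mul {W : Wt c} (hW : W.Str) (N : Nest c g) {R d : ℕ} {t0 : Tile} (ht0 : t0 ∈ tiles c R) {Cs : Finset g.I}
    (hCs : N.cl (cellsOf c R {t0}) ⊆ Cs) {π π' : Finset (Item c)} (hπ : π ⊆ items c R)
    (hsep : g.Sep d (Cs ∪ cover N R π) (cover N R π')) (y : c.I → ℂ) :
    W.pfacL R t0 (π ∪ π') y = W.pfacL R t0 π y * W.pfac R π' y := by
  refine pfacL_union hW ht0 hπ (pcells_disjoint_of_sep (d := d) N ?_) y
  rw [cover_eq_cl, cover_eq_cl] at hsep
  intro a ha b hb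
  refine hsep a ?_ b hb
  unfold Nest.cl at ha ⊢
  rw [Finset.image_union] at ha
  exact Finset.mem_union.2 ((Finset.mem_union.1 ha).imp (fun h => hCs h) id)

theorem scal_pos {W : Wt c} (hW : W.Str) (R : ℕ) : 0 < W.scal R :=
  mul_pos (Finset.prod_pos fun _ _ => div_pos (hW.N_pos _) (hW.N_pos _)) (Finset.prod_pos fun _ _ => hW.N_pos _)

/-! ## 5. Locality in the observation -/

/-- GEO INPUT: the patch of an event lies in the tiles of its core -/
def PatchIn (c : Grid G) (R : ℕ) : Prop := ∀ k ∈ events c R, patch c R k ⊆ cellsOf c R ((core c R k).image (tile c R))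

theorem En_congr {W : Wt c} (hW : W.Str) (T : Top c) {y y' : c.I → ℂ} (h : ∀ f ∈ T.faces, W.w y f = W.w y' f) :
    W.En T y = W.En T y' := by
  unfold Wt.En
  refine Finset.sum_congr rfl fun f _ => Finset.sum_congr rfl fun f' _ => ?_
  by_cases hf : f ∈ T.faces
  · by_cases hf' : f' ∈ T.faces
    · rw [h f hf, h f' hf']
    · rw [hW.Q_supp T f f' (Or.inr hf')]; simp
  · rw [hW.Q_supp T f f' (Or.inl hf)]; simp

theorem w_congr (W : Wt c) {y y' : c.I → ℂ} {f : Face c} (h1 : y f.1 = y' f.1) (h2 : y (fnb c f) = y' (fnb c f)) :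
    W.w y f = W.w y' f := by
  unfold Wt.w wfC
  rw [h1, h2]

theorem En_restr_congr {W : Wt c} (hW : W.Str) (T : Top c) (O : Finset c.I) {y y' : c.I → ℂ} (h : ∀ i ∈ O, y i = y' i) :
    W.En (T.restr O) y = W.En (T.restr O) y' := by
  classical
  refine En_congr hW _ fun f hf => ?_
  obtain ⟨-, h1, h2⟩ := Finset.mem_filter.1 hf
  exact w_congr W (h _ h1) (h _ h2)

theorem Zh_restr_congr {W : Wt c} (hW : W.Str) (T : Top c) (O : Finset c.I) {y y' : c.I → ℂ} (h : ∀ i ∈ O, y i = y' i) :
    W.Zh (T.restr O) y = W.Zh (T.restr O) y' :=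
  hW.Zh_loc _ _ _ (fun i hi => h i (Finset.mem_inter.1 hi).2)
    (by classical exact fun f hf => ⟨h _ (Finset.mem_filter.1 hf).2.1, h _ (Finset.mem_filter.1 hf).2.2⟩)

theorem prox_congr {W : Wt c} (hW : W.Str) (R : ℕ) (k : EvId) {y y' : c.I → ℂ} (h : ∀ i ∈ patch c R k, y i = y' i) :
    W.prox R k y = W.prox R k y' := by
  unfold Wt.prox topO topC
  rw [En_restr_congr hW _ _ h, En_restr_congr hW _ _ h]

theorem tdiv_congr {W : Wt c} (hW : W.Str) (R : ℕ) (t : Tile) {y y' : c.I → ℂ} (h : ∀ i ∈ cellsOf c R {t}, y i = y' i) :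
    W.tdiv R t y = W.tdiv R t y' := by
  unfold Wt.tdiv tileTop
  rw [En_restr_congr hW _ _ h]

theorem tfac_congr {W : Wt c} (hW : W.Str) (R : ℕ) (t : Tile) {y y' : c.I → ℂ} (h : ∀ i ∈ cellsOf c R {t}, y i = y' i) :
    W.tfac R t y = W.tfac R t y' := by
  unfold Wt.tfac
  rw [tdiv_congr hW R t h]
  unfold tileTop
  rw [Zh_restr_congr hW _ _ h]

theorem halo_congr {W : Wt c} (hW : W.Str) {R : ℕ} (hgeo : PatchIn c R) {S : Finset EvId} (hS : S ⊆ events c R) {y y' : c.I → ℂ}
    (h : ∀ i ∈ halC c R S, y i = y' i) : W.halo R S y = W.halo R S y' := by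
  unfold Wt.halo
  refine Finset.sum_congr rfl fun O hO => ?_
  rw [Finset.mem_powerset] at hO
  unfold Wt.haloTerm halTop
  rw [Zh_restr_congr hW _ _ h]
  have h1 : ∏ k ∈ skp c R S ∪ O, W.prox R k y = ∏ k ∈ skp c R S ∪ O, W.prox R k y' := by
    refine Finset.prod_congr rfl fun k hk => prox_congr hW R k fun i hi => h i ?_
    have hk' : k ∈ S ∪ skp c R S := by
      rcases Finset.mem_union.1 hk with hk | hk
      · exact Finset.mem_union_right _ hk
      · exact Finset.mem_union_left _ (hO hk)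
    have := hgeo k (Finset.union_subset hS (skp_subset R S) hk') hi
    obtain ⟨j, hj, hji⟩ := Finset.mem_image.1 (mem_cellsOf.1 this)
    exact mem_cellsOf.2 (hji ▸ tile_mem_halT hk' hj)
  have h2 : ∏ t ∈ halT c R S, W.tdiv R t y = ∏ t ∈ halT c R S, W.tdiv R t y' :=
    Finset.prod_congr rfl fun t ht => tdiv_congr hW R t fun i hi =>
      h i (cellsOf_mono (Finset.singleton_subset_iff.2 ht) hi)
  rw [h1, h2]

theorem lfac_congr (W : Wt c) (R : ℕ) (l : Link c) {y y' : c.I → ℂ} (h : ∀ i ∈ lcells c R l, y i = y' i) :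
    W.lfac R l y = W.lfac R l y' := by
  classical
  have h1 : l.1.1 ∈ lcells c R l := fcl_subset_lcells R l (by simp [fcl])
  have h2 : l.2.1.1 ∈ lcells c R l := fcl_subset_lcells' R l (by simp [fcl])
  have h3 : fnb c l.1 ∈ lcells c R l := fcl_subset_lcells R l (by simp [fcl])
  have h4 : fnb c l.2.1 ∈ lcells c R l := fcl_subset_lcells' R l (by simp [fcl])
  unfold Wt.lfac
  rw [w_congr W (h _ h1) (h _ h3), w_congr W (h _ h2) (h _ h4)]

/-- **locality**: the factor of a pattern only sees the observation on the cells of the pattern -/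
theorem pfac_loc {W : Wt c} (hW : W.Str) {R : ℕ} (hgeo : PatchIn c R) (π : Finset (Item c)) {y y' : c.I → ℂ}
    (h : ∀ i ∈ pcells c R π, y i = y' i) : W.pfac R π y = W.pfac R π y' := by
  classical
  unfold Wt.pfac
  by_cases hp : PatOk c R π
  · rw [if_pos hp, if_pos hp, halo_congr hW hgeo hp.1.1 fun i hi => h i (halC_subset_pcells R π hi),
      Finset.prod_congr rfl fun t ht => by
        rw [tfac_congr hW R t fun i hi => h i (cellsOf_pQ_subset_pcells R π (cellsOf_mono (Finset.singleton_subset_iff.2 ht) hi))],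
      Finset.prod_congr rfl fun l hl => lfac_congr W R l fun i hi => h i (lcells_subset_pcells hl hi)]
  · rw [if_neg hp, if_neg hp]

theorem pfacL_loc {W : Wt c} (hW : W.Str) {R : ℕ} (hgeo : PatchIn c R) (t0 : Tile) (π : Finset (Item c)) {y y' : c.I → ℂ}
    (h : ∀ i ∈ cellsOf c R {t0} ∪ pcells c R π, y i = y' i) : W.pfacL R t0 π y = W.pfacL R t0 π y' := by
  unfold Wt.pfacL
  rw [pfac_loc hW hgeo π fun i hi => h i (Finset.mem_union_right _ hi),
    tfac_congr hW R t0 fun i hi => h i (Finset.mem_union_left _ hi)]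

/-! ## 6. The common shift -/

theorem w_shift (W : Wt c) (y : c.I → ℂ) (a : ℂ) (f : Face c) : W.w (fun i => y i + a) f = W.w y f := by
  unfold Wt.w wfC
  ring

theorem En_shift (W : Wt c) (T : Top c) (y : c.I → ℂ) (a : ℂ) : W.En T (fun i => y i + a) = W.En T y := by
  unfold Wt.En
  simp only [w_shift]

theorem pfac_per {W : Wt c} (hW : W.Str) (R : ℕ) (π : Finset (Item c)) (y : c.I → ℂ) :
    W.pfac R π (fun i => y i + 2 * Real.pi) = W.pfac R π y := by
  unfold Wt.pfac Wt.halo Wt.haloTerm Wt.tfac Wt.tdiv Wt.prox Wt.lfac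
  simp only [En_shift, w_shift, hW.Zh_per]

theorem pfacL_per {W : Wt c} (hW : W.Str) (R : ℕ) (t0 : Tile) (π : Finset (Item c)) (y : c.I → ℂ) :
    W.pfacL R t0 π (fun i => y i + 2 * Real.pi) = W.pfacL R t0 π y := by
  unfold Wt.pfacL
  rw [pfac_per hW]
  unfold Wt.tfac Wt.tdiv
  simp only [En_shift, hW.Zh_per]

/-! ## 7. Regularity -/

theorem exp_diff_prod {E ι : Type} [NormedAddCommGroup E] [NormedSpace ℂ E] (s : Finset ι) (f : ι → E → ℂ)
    (h : ∀ i ∈ s, Differentiable ℂ (f i)) : Differentiable ℂ fun y => ∏ i ∈ s, f i y := by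
  classical
  induction s using Finset.induction_on with
  | empty => simp
  | insert a s ha ih =>
    simp only [Finset.prod_insert ha]
    exact (h a (Finset.mem_insert_self a s)).mul (ih fun i hi => h i (Finset.mem_insert_of_mem hi))

theorem exp_diff_div {E : Type} [NormedAddCommGroup E] [NormedSpace ℂ E] {f g : E → ℂ} (hf : Differentiable ℂ f)
    (hg : Differentiable ℂ g) (hz : ∀ x, g x ≠ 0) : Differentiable ℂ fun y => f y / g y := by
  simp only [div_eq_mul_inv]
  exact hf.mul (hg.fun_inv hz)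

theorem w_hol (W : Wt c) (f : Face c) : Differentiable ℂ fun y => W.w y f := by
  unfold Wt.w wfC
  fun_prop

theorem En_hol (W : Wt c) (T : Top c) : Differentiable ℂ (W.En T) := by
  unfold Wt.En
  have := w_hol W
  fun_prop

theorem prox_hol (W : Wt c) (R : ℕ) (k : EvId) : Differentiable ℂ (W.prox R k) := by
  unfold Wt.prox
  have := En_hol W
  fun_prop

theorem tdiv_hol (W : Wt c) (R : ℕ) (t : Tile) : Differentiable ℂ (W.tdiv R t) := by
  unfold Wt.tdiv
  have := En_hol W
  fun_prop

theorem tfac_hol {W : Wt c} (hW : W.Str) (R : ℕ) (t : Tile) : Differentiable ℂ (W.tfac R t) := by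
  unfold Wt.tfac
  exact exp_diff_div (hW.Zh_hol _) (tdiv_hol W R t) (tdiv_ne_zero hW R t)

theorem lfac_hol (W : Wt c) (R : ℕ) (l : Link c) : Differentiable ℂ (W.lfac R l) := by
  unfold Wt.lfac
  have := w_hol W
  fun_prop

theorem halo_hol {W : Wt c} (hW : W.Str) (R : ℕ) (S : Finset EvId) : Differentiable ℂ (W.halo R S) := by
  unfold Wt.halo
  refine Differentiable.fun_sum fun O _ => (differentiable_const _).mul ?_
  unfold Wt.haloTerm
  refine exp_diff_div (hW.Zh_hol _) ((exp_diff_prod _ _ fun k _ => prox_hol W R k).mul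
    (exp_diff_prod _ _ fun t _ => tdiv_hol W R t)) fun y => mul_ne_zero
    (Finset.prod_ne_zero_iff.2 fun k _ => prox_ne_zero hW R k y) (Finset.prod_ne_zero_iff.2 fun t _ => tdiv_ne_zero hW R t y)

theorem pfac_hol {W : Wt c} (hW : W.Str) (R : ℕ) (π : Finset (Item c)) : Differentiable ℂ (W.pfac R π) := by
  classical
  unfold Wt.pfac
  by_cases hp : PatOk c R π
  · simp only [if_pos hp]
    exact ((halo_hol hW R _).mul (exp_diff_prod _ _ fun t _ => (tfac_hol hW R t).sub (differentiable_const _))).mul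
      (exp_diff_prod _ _ fun l _ => lfac_hol W R l)
  · simp only [if_neg hp]
    exact differentiable_const _

theorem pfacL_hol {W : Wt c} (hW : W.Str) (R : ℕ) (t0 : Tile) (π : Finset (Item c)) : Differentiable ℂ (W.pfacL R t0 π) := by
  classical
  unfold Wt.pfacL
  split_ifs
  · exact differentiable_const _
  · exact pfac_hol hW R π
  · exact (pfac_hol hW R π).mul (tfac_hol hW R t0)

end

end Claimed.Agent.R285.Ent
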