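import Claimed.Agent.R285.Ent.PropLaw
import Claimed.Agent.R285.Ent.Vol
import Claimed.Agent.R285.Ent.Exp
import Claimed.Agent.R285.Ent.Geo
import Claimed.Agent.R285.Reg.Gauss

/-!
# ROW 285, THE ENTRY ENGINE, POST PROP (#16189), part 2: THE ACTIVITIES, `ent_prop : PropStmt`            (architect helper66)
PAPER-FREE.  Everything for a GENERAL weight `W : Wt c` (consumers: XY, `C5` strengthened law):
* locality and period of `Kact`, `Jact` from `W.Str` (`Exp.pfac_loc`, `pfacL_loc`, `pfac_per`, `pfacL_per` of helper273);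
* reality from `W.IsReal`, parity from `W.IsEven` (`Ent/PropLaw.lean`);
* the averages `eav`: locality, period, reality (`integral_conj`), parity (`gauss`, `noise` are symmetric; a junk covariance gives `dirac 0`).
-/

set_option autoImplicit false

namespace Claimed.Agent.R285.Ent

open scoped BigOperators ENNReal NNReal ComplexConjugate
open MeasureTheory ProbabilityTheory
open Claimed.Agent.R285 Claimed.Agent.R285.RG Claimed.Agent.R285.B4 Claimed.Agent.R285.F4a Claimed.Agent.R285.F4b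

noncomputable section

variable {G : Geom} {c g : Grid G}

/-! ## 1. The factors of a pattern -/

theorem pr_patchIn {R : ℕ} (h : GeoOK c R) : PatchIn c R := fun k _ => patch_subset_tiles h.adm k

theorem pr_w_conj (W : Wt c) (y : c.I → ℂ) (f : Face c) : W.w (fun i => conj (y i)) f = conj (W.w y f) := by
  unfold Wt.w wfC
  simp only [map_add, map_sub, map_mul, Complex.conj_ofReal, map_ofNat, map_intCast]

theorem pr_En_conj (W : Wt c) (T : Top c) (y : c.I → ℂ) : W.En T (fun i => conj (y i)) = conj (W.En T y) := by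
  unfold Wt.En
  simp only [pr_w_conj, map_sum, map_mul, Complex.conj_ofReal]

theorem pr_tfac_conj {W : Wt c} (hR : W.IsReal) (R : ℕ) (t : Tile) (y : c.I → ℂ) :
    W.tfac R t (fun i => conj (y i)) = conj (W.tfac R t y) := by
  unfold Wt.tfac Wt.tdiv
  simp only [pr_En_conj, hR _ y, map_div₀, map_mul, Complex.conj_ofReal, ← Complex.exp_conj, map_neg, map_ofNat]

theorem pr_pfac_conj {W : Wt c} (hR : W.IsReal) (R : ℕ) (π : Finset (Item c)) (y : c.I → ℂ) :
    W.pfac R π (fun i => conj (y i)) = conj (W.pfac R π y) := by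
  unfold Wt.pfac
  split_ifs
  · simp only [map_mul, map_prod, map_sub, map_one, pr_tfac_conj hR]
    congr 1
    · congr 1
      unfold Wt.halo Wt.haloTerm Wt.tdiv Wt.prox
      simp only [pr_En_conj, hR _ y, map_sum, map_prod, map_div₀, map_mul, map_pow, map_neg, map_one, map_sub,
        Complex.conj_ofReal, ← Complex.exp_conj, map_ofNat]
    · unfold Wt.lfac
      simp only [pr_w_conj, map_sub, map_one, map_mul, Complex.conj_ofReal, ← Complex.exp_conj]
  · simp

theorem pr_pfacL_conj {W : Wt c} (hR : W.IsReal) (R : ℕ) (t0 : Tile) (π : Finset (Item c)) (y : c.I → ℂ) :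
    W.pfacL R t0 π (fun i => conj (y i)) = conj (W.pfacL R t0 π y) := by
  unfold Wt.pfacL
  split_ifs
  · simp
  · exact pr_pfac_conj hR R π y
  · rw [pr_pfac_conj hR, pr_tfac_conj hR, map_mul]

theorem pr_w_neg {W : Wt c} (hτ : W.τ = 0) (y : c.I → ℂ) (f : Face c) : W.w (-y) f = -W.w y f := by
  unfold Wt.w wfC
  rw [hτ]
  simp only [Pi.neg_apply, Pi.zero_apply, Int.cast_zero, mul_zero, add_zero]
  ring

theorem pr_En_neg {W : Wt c} (hτ : W.τ = 0) (T : Top c) (y : c.I → ℂ) : W.En T (-y) = W.En T y := by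
  unfold Wt.En
  simp only [pr_w_neg hτ]
  refine Finset.sum_congr rfl fun f _ => Finset.sum_congr rfl fun f' _ => ?_
  ring

theorem pr_pfac_neg {W : Wt c} (hE : W.IsEven) (R : ℕ) (π : Finset (Item c)) (y : c.I → ℂ) : W.pfac R π (-y) = W.pfac R π y := by
  unfold Wt.pfac Wt.halo Wt.haloTerm Wt.tfac Wt.tdiv Wt.prox Wt.lfac
  simp only [pr_En_neg hE.1, pr_w_neg hE.1, hE.2, mul_neg, neg_mul, neg_neg]

/-! ## 2. The averages -/

theorem pr_gauss_neg (Γ : Matrix G.V G.V ℝ) : (gauss G Γ).map (fun ζ => -ζ) = gauss G Γ := by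
  by_cases hΓ : Γ.PosSemidef
  · exact Reg.reg_gauss_neg hΓ
  · unfold gauss
    rw [multivariateGaussian_of_not_posSemidef _ hΓ, Measure.map_dirac' (MeasurableEquiv.measurable _),
      Measure.map_dirac' measurable_neg]
    congr 1
    simp

theorem pr_noise_neg (c : Grid G) : (noise c).map (fun e => -e) = noise c := by
  unfold noise
  have h := Measure.pi_map_pi (μ := fun _ : c.I => gaussianReal 0 1) (f := fun _ x => -x) (fun _ => by fun_prop)
  have h2 : (fun e : c.I → ℝ => -e) = fun e i => -(e i) := rfl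
  rw [h2, h]
  congr 1
  funext i
  rw [gaussianReal_map_neg]
  simp

theorem pr_integral_neg {α E : Type} [MeasurableSpace α] [AddGroup α] [MeasurableNeg α] [NormedAddCommGroup E] [NormedSpace ℝ E]
    (μ : Measure α) (hμ : μ.map (fun x => -x) = μ) (f : α → E) : ∫ x, f (-x) ∂μ = ∫ x, f x ∂μ := by
  conv_rhs => rw [← hμ]
  exact (integral_map_equiv (MeasurableEquiv.neg α) f).symm

theorem pr_avgC_congr (u u' : G.V → ℂ) (i : c.I) (h : ∀ v ∈ c.sites {i}, u v = u' v) : avgC c u i = avgC c u' i := by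
  unfold avgC
  rw [Finset.sum_congr rfl h]

theorem pr_eav_eq (a : ℝ) (m : ℕ) (F : (c.I → ℂ) → ℂ) (z : G.V → ℂ) :
    eav a c m F z = ∫ ζ, ∫ e, F (obsv a c (z + toC ζ) e) ∂(noise c) ∂(gauss G (Cless G m)) := rfl

theorem pr_eav_loc (a : ℝ) (m : ℕ) (F : (c.I → ℂ) → ℂ) (D : Finset c.I) (hF : ∀ y y', (∀ i ∈ D, y i = y' i) → F y = F y')
    (z z' : G.V → ℂ) (h : ∀ v ∈ c.sites D, z v = z' v) : eav a c m F z = eav a c m F z' := by
  rw [pr_eav_eq, pr_eav_eq]
  refine integral_congr_ae (Filter.Eventually.of_forall fun ζ => integral_congr_ae (Filter.Eventually.of_forall fun e => ?_))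
  refine hF _ _ fun i hi => ?_
  unfold obsv
  congr 1
  refine pr_avgC_congr _ _ i fun v hv => ?_
  have hv' : v ∈ c.sites D := by
    simp only [Grid.sites, Finset.mem_filter, Finset.mem_univ, true_and, Finset.mem_singleton] at hv ⊢
    rw [hv]; exact hi
  simp only [Pi.add_apply, h v hv']

theorem pr_eav_per (hc : Whole c) (a : ℝ) (ha : 0 < a) (m : ℕ) (F : (c.I → ℂ) → ℂ) (hF : ∀ y, F (fun i => y i + 2 * Real.pi) = F y)
    (z : G.V → ℂ) : eav a c m F (fun v => z v + ((2 * Real.pi / Real.sqrt a : ℝ) : ℂ)) = eav a c m F z := by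
  rw [pr_eav_eq, pr_eav_eq]
  refine integral_congr_ae (Filter.Eventually.of_forall fun ζ => integral_congr_ae (Filter.Eventually.of_forall fun e => ?_))
  simp only
  rw [← hF (obsv a c (z + toC ζ) e)]
  congr 1
  funext i
  have h0 : ((c.sites {i}).card : ℂ) ≠ 0 := by exact_mod_cast (unf_sites_pos hc i).ne'
  have hs : (Real.sqrt a : ℂ) ≠ 0 := by exact_mod_cast (Real.sqrt_pos.2 ha).ne'
  unfold obsv avgC
  have e1 : ∀ v : G.V, (Real.sqrt a : ℂ) * ((fun v => z v + ((2 * Real.pi / Real.sqrt a : ℝ) : ℂ)) + toC ζ) v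
      = (Real.sqrt a : ℂ) * (z + toC ζ) v + 2 * Real.pi := by
    intro v
    simp only [Pi.add_apply]
    push_cast
    field_simp
    ring
  simp only [e1, Finset.sum_add_distrib, Finset.sum_const, nsmul_eq_mul]
  field_simp
  ring

theorem pr_obsv_conj (a : ℝ) (φ : G.V → ℝ) (e : c.I → ℝ) (i : c.I) : conj (obsv a c (toC φ) e i) = obsv a c (toC φ) e i := by
  unfold obsv avgC toC
  simp only [map_add, map_div₀, map_sum, map_mul, Complex.conj_ofReal, map_natCast]

theorem pr_eav_real (a : ℝ) (m : ℕ) (F : (c.I → ℂ) → ℂ) (hF : ∀ y, F (fun i => conj (y i)) = conj (F y)) (φ : G.V → ℝ) :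
    (eav a c m F (toC φ)).im = 0 := by
  rw [← Complex.conj_eq_iff_im, pr_eav_eq, ← integral_conj]
  refine integral_congr_ae (Filter.Eventually.of_forall fun ζ => ?_)
  simp only
  rw [← integral_conj]
  refine integral_congr_ae (Filter.Eventually.of_forall fun e => ?_)
  simp only
  rw [← hF]
  congr 1
  funext i
  have : toC φ + toC ζ = toC (φ + ζ) := by funext v; simp [toC]
  rw [this, pr_obsv_conj]

theorem pr_eav_even (a : ℝ) (m : ℕ) (F : (c.I → ℂ) → ℂ) (hF : ∀ y, F (-y) = F y) (z : G.V → ℂ) :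
    eav a c m F (-z) = eav a c m F z := by
  rw [pr_eav_eq, pr_eav_eq, ← pr_integral_neg _ (pr_gauss_neg (Cless G m))]
  refine integral_congr_ae (Filter.Eventually.of_forall fun ζ => ?_)
  simp only
  rw [← pr_integral_neg _ (pr_noise_neg c)]
  refine integral_congr_ae (Filter.Eventually.of_forall fun e => ?_)
  simp only
  rw [← hF]
  congr 1
  funext i
  unfold obsv avgC toC
  simp only [Pi.neg_apply, Pi.add_apply, Complex.ofReal_neg]
  rw [neg_add, ← neg_div, ← Finset.sum_neg_distrib, neg_neg]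
  congr 2
  refine Finset.sum_congr rfl fun v _ => ?_
  ring

/-! ## 3. The activities of a general weight -/

theorem pr_sites_cl (N : Nest c g) (D : Finset c.I) : c.sites D ⊆ g.sites (N.cl D) := by
  intro v hv
  simp only [Grid.sites, Finset.mem_filter, Finset.mem_univ, true_and] at hv ⊢
  have : g.blk v = N.up (c.blk v) := by
    unfold Grid.blk Nest.up
    rw [N.comm, N.comm]
  rw [this]
  exact Finset.mem_image_of_mem _ hv

theorem pr_sites_mono (g : Grid G) {X Y : Finset g.I} (h : X ⊆ Y) : g.sites X ⊆ g.sites Y := by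
  intro v hv
  simp only [Grid.sites, Finset.mem_filter, Finset.mem_univ, true_and] at hv ⊢
  exact h hv

variable {W : Wt c} {R : ℕ}

theorem pr_Kact_loc (hG : GeoOK c R) (hW : W.Str) (a : ℝ) (N : Nest c g) (X : Finset g.I) (z z' : G.V → ℂ)
    (h : ∀ v ∈ g.sites X, z v = z' v) : W.Kact a N R X z = W.Kact a N R X z' := by
  classical
  unfold Wt.Kact
  split_ifs
  · rw [Finset.sum_apply, Finset.sum_apply]
    refine Finset.sum_congr rfl fun π hπ => ?_
    have hc : cover N R π = X := (Finset.mem_filter.1 hπ).2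
    refine pr_eav_loc a g.m _ (pcells c R π) (fun y y' hy => pfac_loc hW (pr_patchIn hG) π hy) z z' fun v hv => h v ?_
    rw [← hc, cover_eq_cl]
    exact pr_sites_cl N _ hv
  · rfl

theorem pr_Kact_per (hG : GeoOK c R) (hW : W.Str) (a : ℝ) (ha : 0 < a) (N : Nest c g) (X : Finset g.I) (z : G.V → ℂ) :
    W.Kact a N R X (fun v => z v + ((2 * Real.pi / Real.sqrt a : ℝ) : ℂ)) = W.Kact a N R X z := by
  classical
  unfold Wt.Kact
  split_ifs
  · rw [Finset.sum_apply, Finset.sum_apply]
    exact Finset.sum_congr rfl fun π _ => pr_eav_per hG.whole a ha g.m _ (pfac_per hW R π) z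
  · rfl

theorem pr_Jact_loc (hG : GeoOK c R) (hW : W.Str) (a : ℝ) (N : Nest c g) (t0 : Tile) (Cs X : Finset g.I) (z z' : G.V → ℂ)
    (hCs : N.cl (cellsOf c R {t0}) ⊆ Cs) (h : ∀ v ∈ g.sites X, z v = z' v) : W.Jact a N R t0 Cs X z = W.Jact a N R t0 Cs X z' := by
  classical
  unfold Wt.Jact
  split_ifs
  · rw [Finset.sum_apply, Finset.sum_apply]
    refine Finset.sum_congr rfl fun π hπ => ?_
    have hc : Cs ∪ cover N R π = X := (Finset.mem_filter.1 hπ).2
    refine pr_eav_loc a g.m _ (cellsOf c R {t0} ∪ pcells c R π) (fun y y' hy => pfacL_loc hW (pr_patchIn hG) t0 π hy) z z'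
      fun v hv => h v ?_
    have h1 := pr_sites_cl N _ hv
    refine pr_sites_mono g ?_ h1
    rw [← hc, cover_eq_cl]
    unfold Nest.cl
    rw [Finset.image_union]
    exact Finset.union_subset_union hCs (Finset.Subset.refl _)
  · rfl

theorem pr_Jact_per (hG : GeoOK c R) (hW : W.Str) (a : ℝ) (ha : 0 < a) (N : Nest c g) (t0 : Tile) (Cs X : Finset g.I) (z : G.V → ℂ) :
    W.Jact a N R t0 Cs X (fun v => z v + ((2 * Real.pi / Real.sqrt a : ℝ) : ℂ)) = W.Jact a N R t0 Cs X z := by
  classical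
  unfold Wt.Jact
  split_ifs
  · rw [Finset.sum_apply, Finset.sum_apply]
    exact Finset.sum_congr rfl fun π _ => pr_eav_per hG.whole a ha g.m _ (pfacL_per hW R t0 π) z
  · rfl

theorem pr_Kact_real (hR : W.IsReal) (a : ℝ) (N : Nest c g) (R : ℕ) : Act.Real (W.Kact a N R) := by
  classical
  intro X φ
  unfold Wt.Kact
  split_ifs
  · rw [Finset.sum_apply, Complex.im_sum]
    exact Finset.sum_eq_zero fun π _ => pr_eav_real a g.m _ (pr_pfac_conj hR R π) φ
  · rfl

theorem pr_Jact_real (hR : W.IsReal) (a : ℝ) (N : Nest c g) (R : ℕ) (t0 : Tile) (Cs : Finset g.I) : Act.Real (W.Jact a N R t0 Cs) := by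
  classical
  intro X φ
  unfold Wt.Jact
  split_ifs
  · rw [Finset.sum_apply, Complex.im_sum]
    exact Finset.sum_eq_zero fun π _ => pr_eav_real a g.m _ (pr_pfacL_conj hR R t0 π) φ
  · rfl

theorem pr_Kact_even (hE : W.IsEven) (a : ℝ) (N : Nest c g) (R : ℕ) (X : Finset g.I) (z : G.V → ℂ) :
    W.Kact a N R X (-z) = W.Kact a N R X z := by
  classical
  unfold Wt.Kact
  split_ifs
  · rw [Finset.sum_apply, Finset.sum_apply]
    exact Finset.sum_congr rfl fun π _ => pr_eav_even a g.m _ (pr_pfac_neg hE R π) z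
  · rfl

/-! ## 4. Exit -/

/-- **POST PROP, exit** -/
theorem ent_prop : PropStmt := by
  intro G c g N R a b0 b τ hG _ _ ha hb0
  have hW := pr_str hG.whole a b0 ha hb0 b τ
  refine ⟨hW, pr_Kact_loc hG hW a N, pr_Kact_per hG hW a ha N, fun t0 Cs X z z' hCs h => pr_Jact_loc hG hW a N t0 Cs X z z' hCs h,
    fun t0 Cs X z => pr_Jact_per hG hW a ha N t0 Cs X z,
    fun hb => ⟨pr_Kact_real (pr_isReal a b0 b hb τ) a N R, fun t0 Cs => pr_Jact_real (pr_isReal a b0 b hb τ) a N R t0 Cs⟩, ?_,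
    fun T y => pr_ZhatC_hol_b hG.whole T τ y⟩
  rintro rfl X z
  exact pr_Kact_even (pr_isEven a b0 b) a N R X z

end

end Claimed.Agent.R285.Ent
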