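import Claimed.Agent.R285.Ent.Exp
import Claimed.Agent.R285.Ent.Ident
import Claimed.Agent.R285.Ent.Prop
import Claimed.Agent.R285.Ent.Geo
import Claimed.Agent.R285.Ent.LinkGeo

/-!
# ROW 285, THE ENTRY ENGINE, post LOC: the exits `ExpStmt`, `IdentStmt`            (owner helper273)
Assembly only: `Ent/Exp.lean` (expansion), `Ent/Ident.lean` (subset identities), `Ent/Geo.lean` (helper108: `cov_conn`, `patch_subset_tiles`), `Ent/PropLaw.lean` (helper66: `pr_str`, `pr_ZhatC_real`), `F4a.Zobs_pos`.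
`LinkStmt`: `ent_link` = `link_of` (`Ent/Link.lean`) applied to `link_geo` (`Ent/LinkGeo.lean`, helper108).
-/

set_option autoImplicit false

namespace Claimed.Agent.R285.Ent

open scoped BigOperators ENNReal NNReal
open Claimed.Agent.R285 Claimed.Agent.R285.RG Claimed.Agent.R285.F4a

noncomputable section

variable {G : Geom}

/-- **POST LOC, exit 1** -/
theorem ent_exp : ExpStmt := by
  intro G c g N R W hgeo _ hW
  have hP : PatchIn c R := fun k _ => patch_subset_tiles hgeo.adm k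
  refine ⟨ent_expansion hW R hgeo.pos, scal_pos hW R, pfac_empty hW R, fun π π' hπ _ hsep y => pfac_mul hW N hπ hsep y,
    fun π y y' h => pfac_loc hW hP π h, pfac_per hW R, pfac_hol hW R, fun t0 ht0 => ⟨sum_pfacL W R ht0, ?_⟩⟩
  intro Cs hCs π π' hπ _ hsep y
  exact pfacL_mul hW N ht0 hCs hπ hsep y

/-- the bundle `ExpOK` for every structured weight -/
theorem ent_expOK {c g : Grid G} {N : Nest c g} {R : ℕ} {W : Wt c} (hgeo : GeoOK c R) (hg : g.Ok) (hN : NestOK N R) (hW : W.Str) :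
    ExpOK W N R :=
  expOK_of ent_exp hgeo hN hW fun _ hI => cov_conn (admN_of hgeo hg hN) hI

/-- the bundle `ExpLOK` for every structured weight -/
theorem ent_expLOK {c g : Grid G} {N : Nest c g} {R : ℕ} {W : Wt c} (hgeo : GeoOK c R) (hW : W.Str) {t0 : Tile} (ht0 : t0 ∈ tiles c R)
    {Cs : Finset g.I} (hCs : N.cl (cellsOf c R {t0}) ⊆ Cs) : ExpLOK W N R t0 Cs where
  sum := sum_pfacL W R ht0
  mul := fun _ _ hπ _ hsep y => pfacL_mul hW N ht0 hCs hπ hsep y
  loc := fun π _ _ h => pfacL_loc hW (fun k _ => patch_subset_tiles hgeo.adm k) t0 π h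
  cont := fun π => (pfacL_hol hW R t0 π).continuous
  sub := hCs

/-- **IdentW** (the general-`W` core asked for by C5): (ent:ordinary-subset) for every structured weight -/
theorem ent_identW {c g : Grid G} {N : Nest c g} {R : ℕ} {W : Wt c} (hgeo : GeoOK c R) (hg : g.Ok) (hN : NestOK N R) (a : ℝ) (hW : W.Str)
    (z : G.V → ℂ) (hI : ∀ π ⊆ items c R, Itg a c g.m (W.pfac R π) z) :
    eav a c g.m (fun y => Complex.exp (W.En (Top.full c) y / 2) * W.Zh (Top.full c) y) z = (W.scal R : ℂ) * ZA g RR (W.Kact a N R) z :=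
  identW hg a (ent_expOK hgeo hg hN hW) z hI

/-- **IdentWL**: (ent:labelled-subset) for every structured weight -/
theorem ent_identWL {c g : Grid G} {N : Nest c g} {R : ℕ} {W : Wt c} (hgeo : GeoOK c R) (hg : g.Ok) (hN : NestOK N R) (a : ℝ) (hW : W.Str)
    {t0 : Tile} (ht0 : t0 ∈ tiles c R) {Cs : Finset g.I} (hCs : N.cl (cellsOf c R {t0}) ⊆ Cs) (hconn : g.Conn RR Cs) (K : Act g)
    (hK : ∀ X, g.Sep RR Cs X → K X = W.Kact a N R X) (z : G.V → ℂ) (hI : ∀ π ⊆ items c R, Itg a c g.m (W.pfacL R t0 π) z) :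
    eav a c g.m (fun y => Complex.exp (W.En (Top.full c) y / 2) * W.Zh (Top.full c) y) z
      = (W.scal R : ℂ) * ZA1 g RR K (W.Jact a N R t0 Cs) z :=
  identWL hg a (ent_expOK hgeo hg hN hW) (ent_expLOK hgeo hW ht0 hCs) hconn K hK z hI

theorem ent_identIn : IdentIn := by
  intro G c g N R a b0 b τ hgeo hg hN ha hb0 hb
  have hW : (xyWt c a b0 b τ).Str := pr_str hgeo.whole a b0 ha hb0 b τ
  exact ⟨ent_expOK hgeo hg hN hW, scal_pos hW R, fun t0 ht0 Cs hCs => ent_expLOK hgeo hW ht0 hCs,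
    Zobs_pos hgeo.whole _ b hb 0 0, pr_ZhatC_real _ b τ⟩

/-- **POST LOC, exit 3** -/
theorem ent_ident : IdentStmt := ident_of ent_identIn

/-- **POST LOC, exit 2** -/
theorem ent_link : LinkStmt := link_of link_geo

end

end Claimed.Agent.R285.Ent
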