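import Claimed.Agent.R285.Ent.If
import Claimed.Agent.R285.Entry.Avg

/-!
# ROW 285, THE ENTRY ENGINE, POST AVG: `CostStmt` and `AvgStmt` of `Ent/If.lean`            (architect helper176)

`av_cost : CostStmt` (calculus of `Bd`: pure list algebra) and `av_avg : AvgStmt` (Gaussian averaging of a `Bd`-bounded function).
Tools: `Entry/AvgAbs.lean` (`avg_cameron`: completion + trace `≤ h · rank` + translation, in Cameron coordinates), `Entry/Avg.lean` (`En_form`, `En_split`, `Vobs_eq`, `openE_opn`, `Eobs_avg_le`, `quad_eq_filter`).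
* form domination (ent:dominating-open-energy) = `av_load`: test the minimiser of the open energy; a bond is charged to its source cell.
* background of the unit sector: `En_split` with `1 + θ' = h₂ / h₁`; deterministic cost `≤ h₁ h₂ / (2 a (h₂ - h₁)) ‖η‖²` by `av_load` again (trial field `v`).
-/

set_option autoImplicit false

namespace Claimed.Agent.R285.Ent

open scoped BigOperators ENNReal NNReal
open MeasureTheory ProbabilityTheory
open Claimed.Agent.R285 Claimed.Agent.R285.RG Claimed.Agent.R285.F4a Claimed.Agent.R285.Entry Claimed.Agent.R285.Avg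

noncomputable section

variable {G : Geom} {c : Grid G}

/-! ## 1. The calculus of costs -/

theorem av_q_mul (C C' : Cost c) (a : ℝ) (τ : Face c → ℤ) (y : c.I → ℝ) : (C.mul C').q a τ y = C.q a τ y + C'.q a τ y := by
  simp [Cost.q, Cost.mul]

theorem av_val_mul (C C' : Cost c) (a : ℝ) (τ : Face c → ℤ) (y : c.I → ℝ) :
    (C.mul C').val a τ y = C.val a τ y * C'.val a τ y := by
  rw [Cost.val, Cost.val, Cost.val, av_q_mul, ← Real.exp_add]
  congr 1
  simp only [Cost.mul]
  ring

theorem av_load_mul (C C' : Cost c) (i : c.I) : (C.mul C').load i = C.load i + C'.load i := by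
  simp [Cost.load, Cost.mul]

theorem av_size_mul (C C' : Cost c) : (C.mul C').size = C.size + C'.size := by
  simp [Cost.size, Cost.mul]

theorem av_wt_mul (C C' : Cost c) (θ : ℝ) : (C.mul C').wt θ = C.wt θ * C'.wt θ := by
  rw [Cost.wt, Cost.wt, Cost.wt, av_size_mul, ← Real.exp_add]
  congr 1
  simp only [Cost.mul]
  ring

/-- all products of two lists of costs -/
def avProd (L L' : List (Cost c)) : List (Cost c) := L.flatMap fun C => L'.map fun C' => C.mul C'

theorem av_sum_prod (f : Cost c → ℝ) (hf : ∀ C C', f (C.mul C') = f C * f C') (L L' : List (Cost c)) :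
    ((avProd L L').map f).sum = (L.map f).sum * (L'.map f).sum := by
  unfold avProd
  induction L with
  | nil => simp
  | cons C L ih =>
    simp only [List.flatMap_cons, List.map_append, List.sum_append, List.map_cons, List.sum_cons, ih, add_mul]
    congr 1
    rw [List.map_map, ← List.sum_map_mul_left]
    congr 1
    refine List.map_congr_left fun C' _ => ?_
    simp [hf]

theorem av_mem_prod {L L' : List (Cost c)} {D : Cost c} (h : D ∈ avProd L L') : ∃ C ∈ L, ∃ C' ∈ L', D = C.mul C' := by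
  unfold avProd at h
  obtain ⟨C, hC, h'⟩ := List.mem_flatMap.1 h
  obtain ⟨C', hC', rfl⟩ := List.mem_map.1 h'
  exact ⟨C, hC, C', hC', rfl⟩

theorem av_Lwt_nonneg (θ : ℝ) (L : List (Cost c)) : 0 ≤ Lwt θ L := by
  unfold Lwt
  refine List.sum_nonneg fun x hx => ?_
  obtain ⟨C, -, rfl⟩ := List.mem_map.1 hx
  exact (Real.exp_pos _).le

theorem av_Lval_nonneg (a : ℝ) (τ : Face c → ℤ) (L : List (Cost c)) (y : c.I → ℝ) : 0 ≤ Lval a τ L y := by
  unfold Lval
  refine List.sum_nonneg fun x hx => ?_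
  obtain ⟨C, -, rfl⟩ := List.mem_map.1 hx
  exact (Real.exp_pos _).le

theorem av_imK_mono (D D' : Finset c.I) (h : D ⊆ D') (H : ℝ) (R : ℕ) : imK c D' H R ⊆ imK c D H R := by
  intro k hk
  exact ⟨fun i hi => hk.1 i (h hi), fun f hf h1 h2 => hk.2 f hf (h h1) (h h2)⟩

theorem av_In_mono {C : Cost c} {D D' : Finset c.I} {h h' : ℝ} (hD : D ⊆ D') (hh : h ≤ h') (hC : C.In D h) : C.In D' h' :=
  ⟨fun p hp => ⟨(hC.ok p hp).1, (hC.ok p hp).2.1.trans hD, (hC.ok p hp).2.2⟩, fun i => (hC.load i).trans hh⟩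

theorem av_load_off {C : Cost c} {D : Finset c.I} {h : ℝ} (hC : C.In D h) (i : c.I) (hi : i ∉ D) : C.load i = 0 := by
  classical
  unfold Cost.load
  refine List.sum_eq_zero fun x hx => ?_
  obtain ⟨p, hp, rfl⟩ := List.mem_map.1 hx
  have : i ∉ p.1.cells := fun h' => hi ((hC.ok p hp).2.1 h')
  simp [this]

theorem av_In_mul {C C' : Cost c} {D D' : Finset c.I} {h h' : ℝ} (hC : C.In D h) (hC' : C'.In D' h') :
    (C.mul C').In (D ∪ D') (h + h') := by
  refine ⟨fun p hp => ?_, fun i => ?_⟩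
  · rcases List.mem_append.1 hp with hp | hp
    · exact ⟨(hC.ok p hp).1, (hC.ok p hp).2.1.trans Finset.subset_union_left, (hC.ok p hp).2.2⟩
    · exact ⟨(hC'.ok p hp).1, (hC'.ok p hp).2.1.trans Finset.subset_union_right, (hC'.ok p hp).2.2⟩
  · rw [av_load_mul]
    exact add_le_add (hC.load i) (hC'.load i)

theorem av_In_mul_disj {C C' : Cost c} {D D' : Finset c.I} {h : ℝ} (hd : Disjoint D D') (hC : C.In D h) (hC' : C'.In D' h) :
    (C.mul C').In (D ∪ D') h := by
  refine ⟨(av_In_mul hC hC').ok, fun i => ?_⟩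
  rw [av_load_mul]
  by_cases hi : i ∈ D
  · rw [av_load_off hC' i (Finset.disjoint_left.1 hd hi), add_zero]
    exact hC.load i
  · rw [av_load_off hC i hi, zero_add]
    exact hC'.load i

/-- **POST AVG, exit 1** -/
theorem av_cost : CostStmt := by
  intro G c a τ R H θ hθ
  refine ⟨?_, ?_, ?_, ?_, ?_⟩
  · intro D h z hh
    by_cases hz : z = 0
    · refine ⟨[], ?_, by simp, by simp [Lwt, hz]⟩
      intro y k _
      simp [Lval, hz]
    · have hz' : 0 < ‖z‖ := norm_pos_iff.2 hz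
      refine ⟨[⟨Real.log ‖z‖, []⟩], ?_, ?_, ?_⟩
      · intro y k _
        simp [Lval, Cost.val, Cost.q, Real.exp_log hz']
      · intro C hC
        rw [List.mem_singleton] at hC
        subst hC
        exact ⟨by simp, fun i => by simpa [Cost.load] using hh⟩
      · simp [Lwt, Cost.wt, Cost.size, Real.exp_log hz']
  · rintro D D' h h' w w' F hD hh hw ⟨L, h1, h2, h3⟩
    exact ⟨L, fun y k hk => h1 y k (av_imK_mono D D' hD H R hk), fun C hC => av_In_mono hD hh (h2 C hC), h3.trans hw⟩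
  · rintro D h w w' F F' ⟨L, h1, h2, h3⟩ ⟨L', h1', h2', h3'⟩
    refine ⟨L ++ L', ?_, ?_, ?_⟩
    · intro y k hk
      refine (norm_add_le _ _).trans ?_
      have : Lval a τ (L ++ L') y = Lval a τ L y + Lval a τ L' y := by simp [Lval]
      rw [this]
      exact add_le_add (h1 y k hk) (h1' y k hk)
    · intro C hC
      rcases List.mem_append.1 hC with hC | hC
      · exact h2 C hC
      · exact h2' C hC
    · have : Lwt θ (L ++ L') = Lwt θ L + Lwt θ L' := by simp [Lwt]
      rw [this]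
      exact add_le_add h3 h3'
  · rintro D D' h h' w w' F F' ⟨L, h1, h2, h3⟩ ⟨L', h1', h2', h3'⟩
    refine ⟨avProd L L', ?_, ?_, ?_⟩
    · intro y k hk
      rw [norm_mul]
      have : Lval a τ (avProd L L') y = Lval a τ L y * Lval a τ L' y :=
        av_sum_prod (fun C => C.val a τ y) (fun C C' => av_val_mul C C' a τ y) L L'
      rw [this]
      exact mul_le_mul (h1 y k (av_imK_mono _ _ Finset.subset_union_left H R hk))
        (h1' y k (av_imK_mono _ _ Finset.subset_union_right H R hk)) (norm_nonneg _) (av_Lval_nonneg a τ L y)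
    · intro E hE
      obtain ⟨C, hC, C', hC', rfl⟩ := av_mem_prod hE
      exact av_In_mul (h2 C hC) (h2' C' hC')
    · have : Lwt θ (avProd L L') = Lwt θ L * Lwt θ L' :=
        av_sum_prod (fun C => C.wt θ) (fun C C' => av_wt_mul C C' θ) L L'
      rw [this]
      exact mul_le_mul h3 h3' (av_Lwt_nonneg θ L') ((av_Lwt_nonneg θ L).trans h3)
  · rintro D D' h w w' F F' hd ⟨L, h1, h2, h3⟩ ⟨L', h1', h2', h3'⟩
    refine ⟨avProd L L', ?_, ?_, ?_⟩
    · intro y k hk
      rw [norm_mul]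
      have : Lval a τ (avProd L L') y = Lval a τ L y * Lval a τ L' y :=
        av_sum_prod (fun C => C.val a τ y) (fun C C' => av_val_mul C C' a τ y) L L'
      rw [this]
      exact mul_le_mul (h1 y k (av_imK_mono _ _ Finset.subset_union_left H R hk))
        (h1' y k (av_imK_mono _ _ Finset.subset_union_right H R hk)) (norm_nonneg _) (av_Lval_nonneg a τ L y)
    · intro E hE
      obtain ⟨C, hC, C', hC', rfl⟩ := av_mem_prod hE
      exact av_In_mul_disj hd (h2 C hC) (h2' C' hC')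
    · have : Lwt θ (avProd L L') = Lwt θ L * Lwt θ L' :=
        av_sum_prod (fun C => C.wt θ) (fun C C' => av_wt_mul C C' θ) L L'
      rw [this]
      exact mul_le_mul h3 h3' (av_Lwt_nonneg θ L') ((av_Lwt_nonneg θ L).trans h3)

/-! ## 2. Form domination: the load argument -/

theorem av_isEdge_mono {T T' : Top c} (h1 : T.cells ⊆ T'.cells) (h2 : T.faces ⊆ T'.faces) {e : G.V × Bool} (he : T.IsEdge e) :
    T'.IsEdge e :=
  ⟨he.1, h1 he.2.1, h1 he.2.2.1, he.2.2.2.imp id fun h => h2 h⟩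

open Classical in
/-- one trial field in all pieces: a bond is charged to its source cell -/
theorem av_load_quad (B : List (Top c × ℝ)) (D : Finset c.I) (hB : ∀ p ∈ B, p.1.Ok ∧ p.1.cells ⊆ D ∧ 0 ≤ p.2)
    (a : ℝ) (ha : 0 < a) (w : Face c → ℝ) (y : c.I → ℝ) (u : G.V → ℝ) :
    (B.map fun p => p.2 * p.1.quad a w y u).sum
      ≤ a⁻¹ * ∑ e ∈ Finset.univ.filter (Top.opn c D).IsEdge,
            (B.map fun p => if c.blk e.1 ∈ p.1.cells then p.2 else 0).sum * bsq c w u e
        + ∑ i ∈ (Top.opn c D).cells, (B.map fun p => if i ∈ p.1.cells then p.2 else 0).sum * (avg c u i - y i) ^ 2 := by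
  have hai : 0 ≤ a⁻¹ := (inv_pos.2 ha).le
  induction B with
  | nil => simp
  | cons p B ih =>
    have ih' := ih fun p' hp' => hB p' (List.mem_cons_of_mem _ hp')
    obtain ⟨hok, hcell, hp0⟩ := hB p List.mem_cons_self
    have hsub := top_le_opn p.1 hok D hcell
    simp only [List.map_cons, List.sum_cons, add_mul, Finset.sum_add_distrib]
    have h1 : p.2 * ∑ e ∈ Finset.univ.filter p.1.IsEdge, bsq c w u e
        ≤ ∑ e ∈ Finset.univ.filter (Top.opn c D).IsEdge, (if c.blk e.1 ∈ p.1.cells then p.2 else 0) * bsq c w u e := by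
      rw [Finset.mul_sum]
      have e1 : ∑ e ∈ Finset.univ.filter p.1.IsEdge, p.2 * bsq c w u e
          = ∑ e ∈ Finset.univ.filter p.1.IsEdge, (if c.blk e.1 ∈ p.1.cells then p.2 else 0) * bsq c w u e := by
        refine Finset.sum_congr rfl fun e he => ?_
        rw [if_pos (Finset.mem_filter.1 he).2.2.1]
      rw [e1]
      refine Finset.sum_le_sum_of_subset_of_nonneg ?_ fun e _ _ => ?_
      · intro e he
        exact Finset.mem_filter.2 ⟨Finset.mem_univ _, av_isEdge_mono hsub.1 hsub.2 (Finset.mem_filter.1 he).2⟩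
      · exact mul_nonneg (by split_ifs <;> first | exact hp0 | exact le_rfl) (sq_nonneg _)
    have h2 : p.2 * ∑ i ∈ p.1.cells, (avg c u i - y i) ^ 2
        ≤ ∑ i ∈ (Top.opn c D).cells, (if i ∈ p.1.cells then p.2 else 0) * (avg c u i - y i) ^ 2 := by
      rw [Finset.mul_sum]
      have e1 : ∑ i ∈ p.1.cells, p.2 * (avg c u i - y i) ^ 2
          = ∑ i ∈ p.1.cells, (if i ∈ p.1.cells then p.2 else 0) * (avg c u i - y i) ^ 2 := by
        refine Finset.sum_congr rfl fun i hi => ?_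
        rw [if_pos hi]
      rw [e1]
      refine Finset.sum_le_sum_of_subset_of_nonneg hsub.1 fun i _ _ => ?_
      exact mul_nonneg (by split_ifs <;> first | exact hp0 | exact le_rfl) (sq_nonneg _)
    rw [quad_eq_filter p.1]
    have h1' := mul_le_mul_of_nonneg_left h1 hai
    nlinarith

/-- the same with the bound `h` of the load -/
theorem av_load_quad_le {C : Cost c} {D : Finset c.I} {h : ℝ} (hC : C.In D h) (a : ℝ) (ha : 0 < a) (w : Face c → ℝ)
    (y : c.I → ℝ) (u : G.V → ℝ) :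
    (C.B.map fun p => p.2 * p.1.quad a w y u).sum ≤ h * (Top.opn c D).quad a w y u := by
  classical
  refine (av_load_quad C.B D hC.ok a ha w y u).trans ?_
  have e : h * (Top.opn c D).quad a w y u = a⁻¹ * ∑ e ∈ Finset.univ.filter (Top.opn c D).IsEdge, h * bsq c w u e
      + ∑ i ∈ (Top.opn c D).cells, h * (avg c u i - y i) ^ 2 := by
    rw [quad_eq_filter (Top.opn c D), ← Finset.mul_sum, ← Finset.mul_sum]
    ring
  rw [e]
  have hai : 0 ≤ a⁻¹ := (inv_pos.2 ha).le
  refine add_le_add (mul_le_mul_of_nonneg_left (Finset.sum_le_sum fun e _ => ?_) hai) (Finset.sum_le_sum fun i _ => ?_)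
  · exact mul_le_mul_of_nonneg_right (hC.load (c.blk e.1)) (sq_nonneg _)
  · exact mul_le_mul_of_nonneg_right (hC.load i) (sq_nonneg _)

/-- **(ent:dominating-open-energy)** -/
theorem av_load_En {C : Cost c} {D : Finset c.I} {h : ℝ} (hC : C.In D h) (a : ℝ) (ha : 0 < a) (w : Face c → ℝ) (y : c.I → ℝ) :
    (C.B.map fun p => p.2 * p.1.En a w y).sum ≤ h * (Top.opn c D).En a w y := by
  obtain ⟨u, hu⟩ := En_attained (Top.opn c D) a ha w y
  rw [hu]
  refine le_trans (List.sum_le_sum fun p hp => ?_) (av_load_quad_le hC a ha w y u)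
  exact mul_le_mul_of_nonneg_left (En_le_quad p.1 a ha w y u) (hC.ok p hp).2.2

theorem av_quad_avg (T : Top c) (a : ℝ) (τ : Face c → ℤ) (v : G.V → ℝ) :
    T.quad a (fun f => 2 * Real.pi * (τ f : ℝ)) (avg c v) v = a⁻¹ * ∑ e : T.graph.E, T.eta τ v e ^ 2 := by
  unfold Top.quad
  simp only [eta_eq, sub_self, ne_eq, OfNat.ofNat_ne_zero, not_false_eq_true, zero_pow, Finset.sum_const_zero, add_zero]

/-- the deterministic cost of a background -/
theorem av_det {C : Cost c} {D : Finset c.I} {h : ℝ} (hC : C.In D h) (a : ℝ) (ha : 0 < a) (τ : Face c → ℤ) (v : G.V → ℝ) :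
    C.q a τ (avg c v) ≤ h * (a⁻¹ * etaSq τ v D) := by
  unfold Cost.q etaSq
  rw [← av_quad_avg]
  refine le_trans (List.sum_le_sum fun p hp => ?_) (av_load_quad_le hC a ha _ _ v)
  exact mul_le_mul_of_nonneg_left (En_le_quad p.1 a ha _ _ v) (hC.ok p hp).2.2

/-- quadratic Cauchy-Schwarz for a cost -/
theorem av_q_split {C : Cost c} {D : Finset c.I} {h : ℝ} (hC : C.In D h) (a : ℝ) (ha : 0 < a) (θ : ℝ) (hθ : 0 < θ)
    (τ : Face c → ℤ) (y y' : c.I → ℝ) : C.q a τ (y + y') ≤ (1 + θ) * C.q a 0 y + (1 + θ⁻¹) * C.q a τ y' := by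
  unfold Cost.q
  rw [← List.sum_map_mul_left, ← List.sum_map_mul_left, ← List.sum_map_add]
  refine List.sum_le_sum fun p hp => ?_
  have h := En_split p.1 a ha θ hθ 0 (fun f => 2 * Real.pi * τ f) y y'
  rw [zero_add, ← Eobs_zero] at h
  have h' := mul_le_mul_of_nonneg_left h (hC.ok p hp).2.2
  have e : p.1.Eobs a τ (y + y') = p.1.En a (fun f => 2 * Real.pi * τ f) (y + y') := rfl
  have e' : p.1.Eobs a τ y' = p.1.En a (fun f => 2 * Real.pi * τ f) y' := rfl
  rw [e, e']
  linarith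

theorem av_q_continuous (C : Cost c) (a : ℝ) (ha : 0 < a) : Continuous fun y : c.I → ℝ => C.q a 0 y := by
  unfold Cost.q
  refine continuous_list_sum _ fun p _ => ?_
  obtain ⟨Q, -, hQ, -⟩ := En_form p.1 a ha
  simp only [hQ]
  unfold qf
  fun_prop

/-! ## 3. The average of one centred cost -/

theorem av_list_sum_fin {α : Type} (B : List α) (f : α → ℝ) : (B.map f).sum = ∑ k : Fin B.length, f (B.get k) := by
  conv_lhs => rw [← List.ofFn_get B]
  rw [List.map_ofFn, List.sum_ofFn]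
  rfl

theorem av_idist_self (g : Grid G) (b : g.I) : g.idist b b = 0 := by
  have h : ∀ x : Fin g.n, g.idist1 x x = 0 := by
    intro x
    unfold Grid.idist1
    split <;> simp
  simp [Grid.idist, h]

theorem av_under_sub {g : Grid G} (N : Nest c g) (X : Finset g.I) : under N X ⊆ cellsIn c (g.Dm X) := by
  classical
  intro i hi
  have hi' : N.up i ∈ X := (Finset.mem_filter.1 hi).2
  refine Finset.mem_filter.2 ⟨Finset.mem_univ _, fun v hv => ?_⟩
  have hv' : c.blk v = i := by
    simpa [Grid.sites] using hv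
  have hblk : g.blk v = N.up (c.blk v) := by
    simp only [Grid.blk, Nest.up, N.comm]
  simp only [Grid.Dm, Grid.sites, Grid.collar, Finset.mem_filter, Finset.mem_univ, true_and]
  exact ⟨N.up i, hi', by rw [hblk, hv', av_idist_self]; norm_num⟩

theorem av_opn_mono {D D' : Finset c.I} (h : D ⊆ D') :
    (Top.opn c D).cells ⊆ (Top.opn c D').cells ∧ (Top.opn c D).faces ⊆ (Top.opn c D').faces := by
  classical
  refine top_le_opn (Top.opn c D) (opn_ok c D) D' fun i hi => ?_
  simp only [Top.opn, Top.restr, Top.full, Finset.mem_inter, Finset.mem_univ, true_and] at hi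
  exact h hi

/-- the matrix of the open energy with its contraction -/
theorem av_open_form (a : ℝ) (ha : 0 < a) {g : Grid G} (N : Nest c g) (hc : Whole c) (hm : 1 ≤ g.m) (X : Finset g.I) :
    ∃ M : Matrix c.I c.I ℝ, M.PosSemidef ∧ (∀ y, openE a c (g.Dm X) y = qf M y) ∧
      (∀ y, (Top.opn c (cellsIn c (g.Dm X))).Eobs a 0 y = qf M y) ∧
      ∀ (x : G.V → ℝ) (e : c.I → ℝ),
        qf M ((obsB a c).mulVec ((Cless G g.m).mulVec x) + e) ≤ x ⬝ᵥ (Cless G g.m).mulVec x + e ⬝ᵥ e := by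
  obtain ⟨M, hMpsd, hM, -⟩ := En_form (Top.opn c (cellsIn c (g.Dm X))) a ha
  refine ⟨M, hMpsd, fun y => by rw [openE_opn a hc N X y, hM], hM, ?_⟩
  intro x e
  have h := energy_contraction a ha hc (Top.opn c (cellsIn c (g.Dm X))) (opn_ok c _) g.m hm x e
  rw [hM] at h
  have e1 : (fun i => avg c (fun x_1 => Real.sqrt a * (Cless G g.m).mulVec x x_1) i + e i)
      = (obsB a c).mulVec ((Cless G g.m).mulVec x) + e := by
    funext i
    simp only [obsB_mulVec, Pi.add_apply]
  have e2 : ∑ i, e i ^ 2 = e ⬝ᵥ e := by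
    simp only [dotProduct, sq]
  rw [e1, e2] at h
  exact h

/-- **(ent:entry-completion) + (ent:entry-trace) + (ent:real-translation)** for one cost, inflated from the load `h₁` to `h₂` -/
theorem av_cost_avg (a hs p1 h1 h2 : ℝ) (ha : 0 < a) (hp1 : 1 < p1) (hmar : p1 * hs < 1) (h10 : 0 < h1) (h12 : h1 < h2)
    (h2s : h2 < hs) {g : Grid G} (N : Nest c g) (hc : Whole c) (hm : 1 ≤ g.m) (X : Finset g.I) (C : Cost c)
    (hC : C.In (under N X) h1) (φ lam : G.V → ℝ) :
    ∫⁻ ζ, ∫⁻ e, ENNReal.ofReal (Real.exp (h2 / h1 * C.q a 0 (obsY a c 0 (φ + lam) ζ e) / 2))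
        ∂(noise c) ∂(gauss G (Cless G g.m))
      ≤ ENNReal.ofReal (Real.exp (thetaOf h1 h2 * C.size + Vobs a hs p1 c g (Cless G g.m) X φ
          + h2 * hs / (2 * (hs - h2)) * openE a c (g.Dm X) (fun i => avg c (fun x => Real.sqrt a * lam x) i))) := by
  obtain ⟨M, hMpsd, hMo, hM, hcontr⟩ := av_open_form a ha N hc hm X
  choose Q hQpsd hQ hQrk using fun k : Fin C.B.length => En_form (C.B.get k).1 a ha
  have h20 : 0 < h2 := h10.trans h12
  have ht : 0 < h2 / h1 := div_pos h20 h10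
  have hmem : ∀ k : Fin C.B.length, C.B.get k ∈ C.B := fun k => List.get_mem _ _
  have hMnn : ∀ y, 0 ≤ qf M y := qf_nonneg M hMpsd
  have hTM : ∀ (k : Fin C.B.length) y, qf (Q k) y ≤ qf M y := by
    intro k y
    obtain ⟨hok, hcell, -⟩ := hC.ok _ (hmem k)
    have hsub := top_le_opn (C.B.get k).1 hok (cellsIn c (g.Dm X)) (hcell.trans (av_under_sub N X))
    rw [← hQ, ← hM]
    exact Eobs_mono _ _ hsub.1 hsub.2 a ha _ y
  have hq : ∀ y, C.q a 0 y = ∑ k : Fin C.B.length, (C.B.get k).2 * qf (Q k) y := by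
    intro y
    rw [Cost.q, av_list_sum_fin]
    exact Finset.sum_congr rfl fun k _ => by rw [hQ]
  have hdom0 : ∀ y, C.q a 0 y ≤ h1 * qf M y := by
    intro y
    have h := av_load_En hC a ha 0 y
    have e : C.q a 0 y = (C.B.map fun p => p.2 * p.1.En a 0 y).sum := by
      unfold Cost.q
      simp only [Eobs_zero]
    rw [e]
    refine h.trans (mul_le_mul_of_nonneg_left ?_ h10.le)
    have hsub := av_opn_mono (av_under_sub N X)
    rw [← hM, Eobs_zero]
    exact Eobs_mono _ _ hsub.1 hsub.2 a ha _ y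
  have key := avg_cameron M hMpsd (obsB a c) (Cless G g.m) (B4.low_psd G Fam.entry B4.entry_adm g.m hm) hcontr
    hs p1 h2 hp1 hmar h20 h2s (Finset.univ : Finset (Fin C.B.length))
    (fun k => h2 / h1 * (C.B.get k).2) Q (fun _ => 1) (fun k => (C.B.get k).1.cells.card)
    (fun k _ => mul_nonneg ht.le (hC.ok _ (hmem k)).2.2) (fun k _ => hQpsd k) (fun _ _ => zero_le_one)
    (fun k _ y => by simpa using hTM k y) (fun k _ => hQrk k)
    (by
      intro y
      have e : ∑ k : Fin C.B.length, h2 / h1 * (C.B.get k).2 * qf (Q k) y = h2 / h1 * C.q a 0 y := by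
        rw [hq, Finset.mul_sum]
        exact Finset.sum_congr rfl fun k _ => by ring
      rw [e]
      have := mul_le_mul_of_nonneg_left (hdom0 y) ht.le
      have e2 : h2 / h1 * (h1 * qf M y) = h2 * qf M y := by
        field_simp
      rw [e2] at this
      exact this)
    ((obsB a c).mulVec φ) ((obsB a c).mulVec lam)
  have hL : ∀ (ζ : G.V → ℝ) (e : c.I → ℝ), h2 / h1 * C.q a 0 (obsY a c 0 (φ + lam) ζ e) / 2
      = (∑ k : Fin C.B.length, h2 / h1 * (C.B.get k).2
          * qf (Q k) ((obsB a c).mulVec φ + (obsB a c).mulVec lam + ((obsB a c).mulVec ζ + e))) / 2 := by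
    intro ζ e
    rw [obsY_zero, hq, Finset.mul_sum]
    congr 1
    exact Finset.sum_congr rfl fun k _ => by ring
  simp only [hL]
  refine le_trans key (ENNReal.ofReal_le_ofReal (Real.exp_le_exp.2 ?_))
  rw [← Vobs_eq a hs p1 c g (Cless G g.m) X M hMo φ, hMo, ← obsB_mulVec]
  have h2lt : h2 < 1 := by nlinarith
  have e3 : (∑ k : Fin C.B.length, h2 / h1 * (C.B.get k).2 * (1 * ((C.B.get k).1.cells.card : ℝ))) / (2 * (1 - h2))
      = thetaOf h1 h2 * C.size := by
    rw [Cost.size, av_list_sum_fin, thetaOf, Finset.mul_sum, Finset.sum_div]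
    refine Finset.sum_congr rfl fun k _ => ?_
    have : (1 - h2) ≠ 0 := by linarith
    field_simp
  rw [e3]

/-! ## 4. Lists of costs in a sector -/

/-- pointwise: background split off, load inflated from `h₁` to `h₂` -/
theorem av_val_le (a h1 h2 : ℝ) (ha : 0 < a) (h10 : 0 < h1) (h12 : h1 < h2) {D : Finset c.I} {C : Cost c} (hC : C.In D h1)
    (τ : Face c → ℤ) (v φ ζ : G.V → ℝ) (e : c.I → ℝ) :
    C.val a τ (obsY a c v φ ζ e) ≤ Real.exp (C.κ + h1 * h2 / (2 * a * (h2 - h1)) * etaSq τ v D)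
      * Real.exp (h2 / h1 * C.q a 0 (obsY a c 0 φ ζ e) / 2) := by
  have hd : 0 < h2 - h1 := by linarith
  have hθ : 0 < (h2 - h1) / h1 := div_pos hd h10
  rw [Cost.val, ← Real.exp_add, obsY_split]
  refine Real.exp_le_exp.2 ?_
  have h := av_q_split hC a ha ((h2 - h1) / h1) hθ τ (obsY a c 0 φ ζ e) (avg c v)
  have hdet := av_det hC a ha τ v
  have e1 : 1 + (h2 - h1) / h1 = h2 / h1 := by
    field_simp
    ring
  have e2 : 1 + ((h2 - h1) / h1)⁻¹ = h2 / (h2 - h1) := by
    rw [inv_div]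
    field_simp
    ring
  rw [e1, e2] at h
  have h3 : h2 / (h2 - h1) * C.q a τ (avg c v) ≤ h2 / (h2 - h1) * (h1 * (a⁻¹ * etaSq τ v D)) :=
    mul_le_mul_of_nonneg_left hdet (div_pos (h10.trans h12) hd).le
  have e3 : h2 / (h2 - h1) * (h1 * (a⁻¹ * etaSq τ v D)) / 2 = h1 * h2 / (2 * a * (h2 - h1)) * etaSq τ v D := by
    field_simp
  linarith

theorem av_noise_sfinite (c : Grid G) : SFinite (noise c) := by
  unfold noise
  infer_instance

theorem av_gauss_sfinite (Γ : Matrix G.V G.V ℝ) : SFinite (gauss G Γ) := by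
  unfold gauss
  infer_instance

/-- **the average of a list of costs** -/
theorem av_Lval_avg (a hs p1 h1 h2 : ℝ) (ha : 0 < a) (hp1 : 1 < p1) (hmar : p1 * hs < 1) (h10 : 0 < h1) (h12 : h1 < h2)
    (h2s : h2 < hs) {g : Grid G} (N : Nest c g) (hc : Whole c) (hm : 1 ≤ g.m) (X : Finset g.I) (τ : Face c → ℤ)
    (v φ lam : G.V → ℝ) (L : List (Cost c)) (hL : ∀ C ∈ L, C.In (under N X) h1) :
    ∫⁻ ζ, ∫⁻ e, ENNReal.ofReal (Lval a τ L (obsY a c v (φ + lam) ζ e)) ∂(noise c) ∂(gauss G (Cless G g.m))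
      ≤ ENNReal.ofReal (Lwt (thetaOf h1 h2) L * Real.exp (Vobs a hs p1 c g (Cless G g.m) X φ
          + h2 * hs / (2 * (hs - h2)) * openE a c (g.Dm X) (fun i => avg c (fun x => Real.sqrt a * lam x) i)
          + h1 * h2 / (2 * a * (h2 - h1)) * etaSq τ v (under N X))) := by
  have := av_noise_sfinite c
  induction L with
  | nil => simp [Lval]
  | cons C L ih =>
    have ih' := ih fun C' hC' => hL C' (List.mem_cons_of_mem _ hC')
    have hC := hL C List.mem_cons_self
    obtain ⟨A, hA⟩ : ∃ A : ℝ, A = Real.exp (C.κ + h1 * h2 / (2 * a * (h2 - h1)) * etaSq τ v (under N X)) := ⟨_, rfl⟩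
    have hA0 : 0 ≤ A := by rw [hA]; exact (Real.exp_pos _).le
    obtain ⟨f, hf⟩ : ∃ f : (G.V → ℝ) × (c.I → ℝ) → ℝ≥0∞, f = fun p =>
        ENNReal.ofReal (Real.exp (h2 / h1 * C.q a 0 (obsY a c 0 (φ + lam) p.1 p.2) / 2)) := ⟨_, rfl⟩
    have hfm : Measurable f := by
      rw [hf]
      have hcn : Continuous fun p : (G.V → ℝ) × (c.I → ℝ) => h2 / h1 * C.q a 0 (obsY a c 0 (φ + lam) p.1 p.2) / 2 :=
        (continuous_const.mul ((av_q_continuous C a ha).comp (obsY_continuous a c (φ + lam)))).div_const _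
      exact ENNReal.measurable_ofReal.comp (Real.measurable_exp.comp hcn.measurable)
    have hfm' : Measurable fun p : (G.V → ℝ) × (c.I → ℝ) => ENNReal.ofReal A * f p := hfm.const_mul _
    have hpt : ∀ (ζ : G.V → ℝ) (e : c.I → ℝ), ENNReal.ofReal (Lval a τ (C :: L) (obsY a c v (φ + lam) ζ e))
        ≤ ENNReal.ofReal A * f (ζ, e) + ENNReal.ofReal (Lval a τ L (obsY a c v (φ + lam) ζ e)) := by
      intro ζ e
      have e1 : Lval a τ (C :: L) (obsY a c v (φ + lam) ζ e)
          = C.val a τ (obsY a c v (φ + lam) ζ e) + Lval a τ L (obsY a c v (φ + lam) ζ e) := by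
        simp [Lval]
      rw [e1]
      refine ENNReal.ofReal_add_le.trans (add_le_add_left ?_ _)
      rw [hf]
      simp only
      rw [← ENNReal.ofReal_mul hA0, hA]
      exact ENNReal.ofReal_le_ofReal (av_val_le a h1 h2 ha h10 h12 hC τ v (φ + lam) ζ e)
    refine (lintegral_mono fun ζ => lintegral_mono fun e => hpt ζ e).trans ?_
    have e2 : ∀ ζ : G.V → ℝ, ∫⁻ e, (ENNReal.ofReal A * f (ζ, e)
          + ENNReal.ofReal (Lval a τ L (obsY a c v (φ + lam) ζ e))) ∂(noise c)
        = ∫⁻ e, ENNReal.ofReal A * f (ζ, e) ∂(noise c)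
          + ∫⁻ e, ENNReal.ofReal (Lval a τ L (obsY a c v (φ + lam) ζ e)) ∂(noise c) :=
      fun ζ => lintegral_add_left (hfm'.comp measurable_prodMk_left) _
    simp only [e2]
    rw [lintegral_add_left hfm'.lintegral_prod_right']
    simp only [lintegral_const_mul' _ _ ENNReal.ofReal_ne_top]
    have h1' := av_cost_avg a hs p1 h1 h2 ha hp1 hmar h10 h12 h2s N hc hm X C hC φ lam
    have e3 : ∫⁻ ζ, ∫⁻ e, f (ζ, e) ∂(noise c) ∂(gauss G (Cless G g.m))
        = ∫⁻ ζ, ∫⁻ e, ENNReal.ofReal (Real.exp (h2 / h1 * C.q a 0 (obsY a c 0 (φ + lam) ζ e) / 2))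
            ∂(noise c) ∂(gauss G (Cless G g.m)) := by
      rw [hf]
    rw [e3]
    refine (add_le_add (mul_le_mul_right h1' _) ih').trans ?_
    rw [← ENNReal.ofReal_mul hA0, ← ENNReal.ofReal_add (mul_nonneg hA0 (Real.exp_pos _).le)
      (mul_nonneg (av_Lwt_nonneg _ _) (Real.exp_pos _).le)]
    refine ENNReal.ofReal_le_ofReal (le_of_eq ?_)
    have e4 : Lwt (thetaOf h1 h2) (C :: L) = C.wt (thetaOf h1 h2) + Lwt (thetaOf h1 h2) L := by
      simp [Lwt]
    rw [e4, add_mul, hA, ← Real.exp_add, Cost.wt, ← Real.exp_add]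
    congr 2
    ring

/-! ## 5. Complex fields, integrability, exit -/

theorem av_avgC (c : Grid G) (r s : G.V → ℝ) (i : c.I) :
    avgC c (fun x => ((r x : ℝ) : ℂ) + ((s x : ℝ) : ℂ) * Complex.I) i
      = ((cellAvg c r i : ℝ) : ℂ) + ((cellAvg c s i : ℝ) : ℂ) * Complex.I := by
  simp only [avgC, cellAvg, Finset.sum_add_distrib, ← Finset.sum_mul]
  push_cast
  ring

/-- the observation of a complex field: real part `obsY`, imaginary part `B_s α η` -/
theorem av_obsv (a : ℝ) (ha : 0 < a) (c : Grid G) (φ lam v η ζ : G.V → ℝ) (e : c.I → ℝ) :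
    obsv a c (fld a φ lam v η + toC ζ) e = fun i => ((obsY a c v (φ + lam) ζ e i : ℝ) : ℂ)
      + ((avg c (fun x => Real.sqrt a * η x) i : ℝ) : ℂ) * Complex.I := by
  have hs : Real.sqrt a ≠ 0 := (Real.sqrt_pos.2 ha).ne'
  funext i
  have e1 : (fun x => (Real.sqrt a : ℂ) * (fld a φ lam v η + toC ζ) x)
      = fun x => ((v x + Real.sqrt a * ((φ + lam) x + ζ x) : ℝ) : ℂ) + ((Real.sqrt a * η x : ℝ) : ℂ) * Complex.I := by
    funext x
    simp only [fld, toC, Pi.add_apply]
    have e2 : v x + Real.sqrt a * (φ x + lam x + ζ x) = Real.sqrt a * (φ x + lam x + v x / Real.sqrt a + ζ x) := by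
      field_simp
      ring
    rw [e2]
    push_cast
    ring
  simp only [obsv, e1, av_avgC, obsY]
  push_cast
  ring

theorem av_obsv_continuous (a : ℝ) (c : Grid G) (z : G.V → ℂ) :
    Continuous fun p : (G.V → ℝ) × (c.I → ℝ) => obsv a c (z + toC p.1) p.2 := by
  refine continuous_pi fun i => ?_
  simp only [obsv, avgC, toC, Pi.add_apply]
  fun_prop

theorem av_openE_nonneg (a : ℝ) (ha : 0 < a) (c : Grid G) (D : Finset G.V) (y : c.I → ℝ) : 0 ≤ openE a c D y := by
  unfold openE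
  refine Real.iInf_nonneg fun u => ?_
  have h1 : 0 ≤ a⁻¹ := (inv_pos.2 ha).le
  have h2 : 0 ≤ bondE D u := by
    unfold bondE
    refine mul_nonneg (by norm_num) (Finset.sum_nonneg fun v _ => Finset.sum_nonneg fun e _ => ?_)
    split_ifs
    · exact sq_nonneg _
    · exact le_rfl
  have h3 : 0 ≤ ∑ i ∈ cellsIn c D, (cellAvg c u i - y i) ^ 2 := Finset.sum_nonneg fun _ _ => sq_nonneg _
  positivity

/-- **POST AVG, exit 2** -/
theorem av_avg : AvgStmt := by
  intro a hs p1 h1 h2 ha hp1 hmar h10 h12 h2s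
  have hd1 : 0 < hs - h2 := by linarith
  have hd2 : 0 < h2 - h1 := by linarith
  have h20 : 0 < h2 := h10.trans h12
  have hs0 : 0 < hs := h20.trans h2s
  refine ⟨max (h2 * hs / (2 * (hs - h2))) (h1 * h2 / (2 * a * (h2 - h1))), ?_⟩
  intro G c g N R hc hg _ _ τ X F H w hFc hBd φ lam v η hη
  obtain ⟨L, hdom, hIn, hw⟩ := hBd
  have hm : 1 ≤ g.m := hg.pos
  have := av_noise_sfinite c
  have := av_gauss_sfinite (Cless G g.m)
  obtain ⟨E, hE⟩ : ∃ E : ℝ, E = w * Real.exp (Vobs a hs p1 c g (Cless G g.m) X φ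
      + max (h2 * hs / (2 * (hs - h2))) (h1 * h2 / (2 * a * (h2 - h1)))
          * openE a c (g.Dm X) (fun i => avg c (fun x => Real.sqrt a * lam x) i)
      + max (h2 * hs / (2 * (hs - h2))) (h1 * h2 / (2 * a * (h2 - h1))) * etaSq τ v (under N X)) := ⟨_, rfl⟩
  rw [← hE]
  have hw0 : 0 ≤ w := (av_Lwt_nonneg _ L).trans hw
  have hE0 : 0 ≤ E := by rw [hE]; exact mul_nonneg hw0 (Real.exp_pos _).le
  -- the key bound
  have key : ∫⁻ ζ, ∫⁻ e, ‖F (obsv a c (fld a φ lam v η + toC ζ) e)‖ₑ ∂(noise c) ∂(gauss G (Cless G g.m))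
      ≤ ENNReal.ofReal E := by
    have hpt : ∀ (ζ : G.V → ℝ) (e : c.I → ℝ), ‖F (obsv a c (fld a φ lam v η + toC ζ) e)‖ₑ
        ≤ ENNReal.ofReal (Lval a τ L (obsY a c v (φ + lam) ζ e)) := by
      intro ζ e
      rw [← ofReal_norm, av_obsv a ha]
      exact ENNReal.ofReal_le_ofReal (hdom _ _ hη)
    refine (lintegral_mono fun ζ => lintegral_mono fun e => hpt ζ e).trans ?_
    refine (av_Lval_avg a hs p1 h1 h2 ha hp1 hmar h10 h12 h2s N hc hm X τ v φ lam L hIn).trans ?_
    refine ENNReal.ofReal_le_ofReal ?_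
    rw [hE]
    refine mul_le_mul hw (Real.exp_le_exp.2 ?_) (Real.exp_pos _).le hw0
    have ho := av_openE_nonneg a ha c (g.Dm X) (fun i => avg c (fun x => Real.sqrt a * lam x) i)
    have he : 0 ≤ etaSq τ v (under N X) := Finset.sum_nonneg fun _ _ => sq_nonneg _
    have m1 := mul_le_mul_of_nonneg_right
      (le_max_left (h2 * hs / (2 * (hs - h2))) (h1 * h2 / (2 * a * (h2 - h1)))) ho
    have m2 := mul_le_mul_of_nonneg_right
      (le_max_right (h2 * hs / (2 * (hs - h2))) (h1 * h2 / (2 * a * (h2 - h1)))) he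
    linarith
  have hcont : Continuous fun p : (G.V → ℝ) × (c.I → ℝ) => F (obsv a c (fld a φ lam v η + toC p.1) p.2) :=
    hFc.comp (av_obsv_continuous a c _)
  constructor
  · refine ⟨hcont.aestronglyMeasurable, ?_⟩
    rw [HasFiniteIntegral, lintegral_prod _ hcont.measurable.enorm.aemeasurable]
    exact lt_of_le_of_lt key ENNReal.ofReal_lt_top
  · have h1' : ‖eav a c g.m F (fld a φ lam v η)‖ₑ ≤ ENNReal.ofReal E := by
      refine le_trans ?_ key
      unfold eav conv nav
      refine (enorm_integral_le_lintegral_enorm _).trans (lintegral_mono fun ζ => ?_)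
      exact enorm_integral_le_lintegral_enorm _
    rw [← ofReal_norm] at h1'
    exact (ENNReal.ofReal_le_ofReal_iff hE0).1 h1'

end

end Claimed.Agent.R285.Ent
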