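import Claimed.Agent.R285.Ent.If
import Claimed.Agent.R285.Ent.PropLaw
import Claimed.Agent.R285.Ent.Geo
import Claimed.Agent.R285.Ent.Avg
import Claimed.Agent.R285.F4a.EnA
import Claimed.Agent.R285.F4a.EnB
import Claimed.Agent.R285.F4a.UnitB
import Claimed.Agent.R285.F4a.Tilt

/-!
# ROW 285, THE ENTRY ENGINE, POST MAJ (#16763): THE TRIVIAL MAJORANT OF COMPLEX DATA            (architect helper291)
PAPER-FREE.  Exit: `mj_main : MajStmt`.  All names: prefix `mj`.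

## Plan
`z = y + i k` (`mjZ y k`), `dk = ∇ k` on faces (`mjD c k`), `W = xyWt c a b0 b τ`, `W' = xyWt c a b0 ‖b‖ τ` (same `τ`, `Q`, `N`).
* s1 `mj_chi_norm`     : `|χ_s (x + i η)| ≤ e^{η²/2} χ_s (x)`.
* s2 `mj_Om_norm_le`   : `|∏ besC b| ≤ e^{(|b| - Re b) #E} ∏ bes |b|`;  `mj_Gs_norm` : `|prGs T z K| = e^{∑ k²/2} e^{-∑ (Av - y)²/2}`;  `mj_ZobsC_le` (sum over heights, `pr_ZobsC_summable`).
* s3 counting: `mj_edge_card` (`#E ≤ 2 s² |cells|`), `mj_face_card` (`#faces ≤ 2 |cells|`), `mj_b_le` (`|b| - Re b ≤ 2 |b - b0|`);   `mj_ZhatC_le`.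
* s4 energies: `mj_Qf_sum`, `mj_En_re` : `Re E_T (y + i k) = 𝒬_T (w (y)) - 𝒬_T (∇ k)`;  `mj_prox_le`, `mj_tdiv_le` : the divisors do not shrink.
* s5 `mj_haloTerm_le`, `mj_tfac_le` : the pointwise majorants.
* s6 `mj_bd` : transfer of `Bd` (multiply every cost by a constant).
* s7 geometry of halos: `mj_halC_card`, `mj_halC_mono`;  s8 arithmetic of the weights;  s9 `mj_main`.
-/

set_option autoImplicit false

namespace Claimed.Agent.R285.Ent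

open scoped BigOperators
open MeasureTheory
open Claimed.Agent.R285 Claimed.Agent.R285.RG Claimed.Agent.R285.F4a

noncomputable section

variable {G : Geom} {c : Grid G}

/-- the complex observation `y + i k` -/
def mjZ (y k : c.I → ℝ) : c.I → ℂ := fun i => (y i : ℂ) + (k i : ℂ) * Complex.I

/-- the face differences of the imaginary part -/
def mjD (c : Grid G) (k : c.I → ℝ) (f : Face c) : ℝ := k (fnb c f) - k f.1

theorem mj_Z_zero (y : c.I → ℝ) : mjZ y 0 = fun i => (y i : ℂ) := by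
  funext i
  simp [mjZ]

theorem mj_D_zero : mjD c 0 = 0 := by
  funext f
  simp [mjD]

theorem mj_wfC (τ : Face c → ℤ) (y k : c.I → ℝ) (f : Face c) :
    wfC c τ (mjZ y k) f = (wf c τ y f : ℂ) + (mjD c k f : ℂ) * Complex.I := by
  unfold wfC mjZ wf mjD
  push_cast
  ring

/-! ## 1. The cutoff -/

/-- `Re (-(x + i η - t)²/2) = η²/2 - (x - t)²/2` -/
theorem mj_chi_re (x η t : ℝ) :
    (-((x : ℂ) + (η : ℂ) * Complex.I - (t : ℂ)) ^ 2 / 2).re = η ^ 2 / 2 + -(x - t) ^ 2 / 2 := by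
  have h : (-((x : ℂ) + (η : ℂ) * Complex.I - (t : ℂ)) ^ 2 / 2)
      = (((η ^ 2 / 2 + -(x - t) ^ 2 / 2 : ℝ)) : ℂ) + ((-(x - t) * η : ℝ) : ℂ) * Complex.I := by
    push_cast
    ring_nf
    rw [Complex.I_sq]
    ring
  rw [h, Complex.add_re, Complex.ofReal_re, Complex.re_ofReal_mul, Complex.I_re, mul_zero, add_zero]

/-- LEAF MJ-1 -/
theorem mj_chi_norm (s : ℝ) (hs : 0 < s) (x η : ℝ) :
    ‖chiC s ((x : ℂ) + (η : ℂ) * Complex.I)‖ ≤ Real.exp (η ^ 2 / 2) * chi s x := by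
  have hden := chiL_den_pos s hs
  unfold chiC chiS chi
  rw [norm_div, Complex.norm_real, Real.norm_of_nonneg hden.le, ← mul_div_assoc]
  refine div_le_div_of_nonneg_right ?_ hden.le
  have hle : -s ≤ s := by linarith
  refine (intervalIntegral.norm_integral_le_integral_norm hle).trans (le_of_eq ?_)
  rw [← intervalIntegral.integral_const_mul]
  refine intervalIntegral.integral_congr fun t _ => ?_
  show ‖Complex.exp (-((x : ℂ) + (η : ℂ) * Complex.I - (t : ℂ)) ^ 2 / 2)‖ = Real.exp (η ^ 2 / 2) * Real.exp (-(x - t) ^ 2 / 2)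
  rw [Complex.norm_exp, ← Real.exp_add, mj_chi_re]

/-! ## 2. The height sum -/

open Classical in
/-- LEAF MJ-2 (`E2.besC_norm_le` with `bp = ‖b‖`, `pr_besC_eq`; pattern: `E2.WuC_norm_le`) -/
theorem mj_Om_norm_le (T : Top c) (b : ℂ) (τ : Face c → ℤ) (K : G.V → ℤ) :
    ‖prOm T b τ K‖ ≤ Real.exp ((‖b‖ - b.re) * (Finset.univ.filter T.IsEdge).card) * prOmR T ‖b‖ τ K := by
  unfold prOm prOmR
  rw [norm_prod]
  refine (Finset.prod_le_prod (g := fun e => Real.exp (‖b‖ - b.re) * bes ‖b‖ (K (stp e.1 e.2) - K e.1 + prEc c τ e))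
    (fun _ _ => norm_nonneg _) fun e _ => ?_).trans (le_of_eq ?_)
  · rw [pr_besC_eq]
    exact E2.besC_norm_le b ‖b‖ le_rfl _
  · rw [Finset.prod_mul_distrib, Finset.prod_const, mul_comm (‖b‖ - b.re), Real.exp_nat_mul]

theorem mj_OmR_nonneg (T : Top c) (t : ℝ) (ht : 0 ≤ t) (τ : Face c → ℤ) (K : G.V → ℤ) : 0 ≤ prOmR T t τ K := by
  classical
  unfold prOmR
  exact Finset.prod_nonneg fun e _ => bes_nonneg t ht _

/-- the real Gaussian factor -/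
def mjGr (T : Top c) (y : c.I → ℝ) (K : G.V → ℤ) : ℝ := Real.exp (-(∑ i ∈ T.cells, (prAv c K i - y i) ^ 2) / 2)

/-- `Re ((a - (y + i k))²) = (a - y)² - k²` -/
theorem mj_sq_re (a y k : ℝ) : (((a : ℂ) - ((y : ℂ) + (k : ℂ) * Complex.I)) ^ 2).re = (a - y) ^ 2 - k ^ 2 := by
  have h : ((a : ℂ) - ((y : ℂ) + (k : ℂ) * Complex.I)) ^ 2
      = ((((a - y) ^ 2 - k ^ 2 : ℝ)) : ℂ) + ((-2 * (a - y) * k : ℝ) : ℂ) * Complex.I := by
    push_cast
    ring_nf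
    rw [Complex.I_sq]
    ring
  rw [h, Complex.add_re, Complex.ofReal_re, Complex.re_ofReal_mul, Complex.I_re, mul_zero, add_zero]

/-- LEAF MJ-2: `Re (-(x - y - i k)²/2) = -(x - y)²/2 + k²/2` -/
theorem mj_Gs_norm (T : Top c) (y k : c.I → ℝ) (K : G.V → ℤ) :
    ‖prGs T (mjZ y k) K‖ = Real.exp ((∑ i ∈ T.cells, k i ^ 2) / 2) * mjGr T y K := by
  unfold prGs mjGr
  rw [Complex.norm_exp, ← Real.exp_add]
  congr 1
  have h1 : (-(∑ i ∈ T.cells, ((prAv c K i : ℂ) - mjZ y k i) ^ 2) / 2).re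
      = -(∑ i ∈ T.cells, (((prAv c K i : ℂ) - mjZ y k i) ^ 2).re) / 2 := by
    have : -(∑ i ∈ T.cells, ((prAv c K i : ℂ) - mjZ y k i) ^ 2) / 2
        = (((-(1 / 2) : ℝ)) : ℂ) * ∑ i ∈ T.cells, ((prAv c K i : ℂ) - mjZ y k i) ^ 2 := by
      push_cast
      ring
    rw [this, Complex.re_ofReal_mul, Complex.re_sum]
    ring
  rw [h1]
  have h2 : ∀ i ∈ T.cells, (((prAv c K i : ℂ) - mjZ y k i) ^ 2).re = (prAv c K i - y i) ^ 2 - k i ^ 2 :=
    fun i _ => mj_sq_re _ _ _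
  rw [Finset.sum_congr rfl h2, Finset.sum_sub_distrib]
  ring

/-- LEAF MJ-2 -/
theorem mj_Gs_real (T : Top c) (y : c.I → ℝ) (K : G.V → ℤ) : prGs T (mjZ y 0) K = (mjGr T y K : ℂ) := by
  unfold prGs mjGr
  rw [mj_Z_zero]
  push_cast
  rfl

open Classical in
/-- LEAF MJ-3: `pr_ZobsC_eq`, `norm_tsum_le_tsum_norm`, `pr_ZobsC_summable`, `mj_Om_norm_le`, `mj_Gs_norm`; at `(‖b‖, y)` the terms are nonnegative reals
(`pr_Om_real`, `mj_Gs_real`, `Complex.ofReal_tsum`, `Complex.norm_real`, `tsum_nonneg`). -/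
theorem mj_ZobsC_le (hc : Whole c) (T : Top c) (b : ℂ) (τ : Face c → ℤ) (y k : c.I → ℝ) :
    ‖ZobsC T b τ (mjZ y k)‖ ≤ Real.exp ((‖b‖ - b.re) * (Finset.univ.filter T.IsEdge).card + (∑ i ∈ T.cells, k i ^ 2) / 2)
      * ‖ZobsC T (‖b‖ : ℂ) τ (mjZ y 0)‖ := by
  rw [pr_ZobsC_eq, pr_ZobsC_eq]
  unfold prZg
  have hs1 := pr_ZobsC_summable hc T b τ (mjZ y k)
  have hs2 := pr_ZobsC_summable hc T (‖b‖ : ℂ) τ (mjZ y 0)
  have e2 : ∀ h : T.graph.V → ℤ, prOm T (‖b‖ : ℂ) τ (prExt T h) * prGs T (mjZ y 0) (prExt T h)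
      = ((prOmR T ‖b‖ τ (prExt T h) * mjGr T y (prExt T h) : ℝ) : ℂ) := by
    intro h
    rw [pr_Om_real, mj_Gs_real]
    push_cast
    ring
  have hnn : ∀ h : T.graph.V → ℤ, 0 ≤ prOmR T ‖b‖ τ (prExt T h) * mjGr T y (prExt T h) := fun h =>
    mul_nonneg (mj_OmR_nonneg T _ (norm_nonneg _) τ _) (Real.exp_pos _).le
  have hs3 : Summable fun h : T.graph.V → ℤ => prOmR T ‖b‖ τ (prExt T h) * mjGr T y (prExt T h) := by
    refine hs2.congr fun h => ?_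
    rw [e2, Complex.norm_real, Real.norm_of_nonneg (hnn h)]
  have e3 : ‖∑' h : T.graph.V → ℤ, prOm T (‖b‖ : ℂ) τ (prExt T h) * prGs T (mjZ y 0) (prExt T h)‖
      = ∑' h : T.graph.V → ℤ, prOmR T ‖b‖ τ (prExt T h) * mjGr T y (prExt T h) := by
    rw [tsum_congr e2, ← Complex.ofReal_tsum, Complex.norm_real, Real.norm_of_nonneg (tsum_nonneg hnn)]
  rw [e3, ← tsum_mul_left]
  refine (norm_tsum_le_tsum_norm hs1).trans (hs1.tsum_le_tsum (fun h => ?_) (hs3.mul_left _))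
  rw [norm_mul, mj_Gs_norm, Real.exp_add]
  have h1 := mj_Om_norm_le T b τ (prExt T h)
  have h2 : 0 ≤ Real.exp ((∑ i ∈ T.cells, k i ^ 2) / 2) * mjGr T y (prExt T h) :=
    mul_nonneg (Real.exp_pos _).le (Real.exp_pos _).le
  calc ‖prOm T b τ (prExt T h)‖ * (Real.exp ((∑ i ∈ T.cells, k i ^ 2) / 2) * mjGr T y (prExt T h))
      ≤ (Real.exp ((‖b‖ - b.re) * (Finset.univ.filter T.IsEdge).card) * prOmR T ‖b‖ τ (prExt T h))
        * (Real.exp ((∑ i ∈ T.cells, k i ^ 2) / 2) * mjGr T y (prExt T h)) := mul_le_mul_of_nonneg_right h1 h2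
    _ = _ := by ring

/-! ## 3. Counting -/

theorem mj_sites_card (hc : Whole c) (Y : Finset c.I) : (c.sites Y).card = c.m ^ 2 * Y.card := by
  classical
  have h : c.sites Y = Y.biUnion fun i => c.sites {i} := by
    ext v
    simp [Grid.sites]
  rw [h, Finset.card_biUnion]
  · rw [Finset.sum_congr rfl fun i _ => whole_sites_card hc i]
    simp [mul_comm]
  · intro i _ j _ hij
    rw [Function.onFun, Finset.disjoint_left]
    intro v hv hv'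
    simp only [Grid.sites, Finset.mem_filter, Finset.mem_univ, true_and, Finset.mem_singleton] at hv hv'
    exact hij (hv.symm.trans hv')

open Classical in
/-- LEAF MJ-4: `e ↦ e.1` has fibres of size `≤ 2`, `e.1 ∈ c.sites T.cells`, `whole_sites_card` -/
theorem mj_edge_card (hc : Whole c) (T : Top c) : (Finset.univ.filter T.IsEdge).card ≤ 2 * (c.m ^ 2 * T.cells.card) := by
  have h : Finset.univ.filter T.IsEdge ⊆ (c.sites T.cells) ×ˢ (Finset.univ : Finset Bool) := by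
    intro e he
    have he' := (Finset.mem_filter.1 he).2
    refine Finset.mem_product.2 ⟨?_, Finset.mem_univ _⟩
    simp only [Grid.sites, Finset.mem_filter, Finset.mem_univ, true_and]
    exact he'.2.1
  refine (Finset.card_le_card h).trans ?_
  rw [Finset.card_product, mj_sites_card hc]
  simp [mul_comm]

/-- LEAF MJ-4: `T.faces ⊆ T.cells ×ˢ univ` -/
theorem mj_face_card (T : Top c) (hT : T.Ok) : T.faces.card ≤ 2 * T.cells.card := by
  classical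
  have h : T.faces ⊆ T.cells ×ˢ (Finset.univ : Finset Bool) := by
    intro f hf
    exact Finset.mem_product.2 ⟨(hT f hf).2.1, Finset.mem_univ _⟩
  refine (Finset.card_le_card h).trans ?_
  rw [Finset.card_product]
  simp [mul_comm]

/-- LEAF MJ-4 -/
theorem mj_b_le (b : ℂ) (b0 : ℝ) (hb0 : 0 ≤ b0) : ‖b‖ - b.re ≤ 2 * ‖b - b0‖ := by
  have h1 : ‖b‖ ≤ ‖b - b0‖ + b0 := by
    have := norm_add_le (b - b0) (b0 : ℂ)
    rw [sub_add_cancel, Complex.norm_real, Real.norm_of_nonneg hb0] at this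
    exact this
  have h2 : b0 - b.re ≤ ‖b - b0‖ := by
    have := Complex.abs_re_le_norm (b - b0)
    rw [Complex.sub_re, Complex.ofReal_re] at this
    have h3 := neg_abs_le (b.re - b0)
    linarith
  linarith

/-- **the majorant of `\hat Z`** -/
theorem mj_ZhatC_le (hc : Whole c) (T : Top c) (hT : T.Ok) (b : ℂ) (b0 : ℝ) (hb0 : 0 ≤ b0) (hb : ‖b - b0‖ ≤ 1 / (c.m : ℝ) ^ 2)
    (τ : Face c → ℤ) (y k : c.I → ℝ) (H H' : ℝ) (hk : ∀ i ∈ T.cells, |k i| ≤ H) (hk' : ∀ f ∈ T.faces, |mjD c k f| ≤ H') :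
    ‖ZhatC T b τ (mjZ y k)‖ ≤ Real.exp ((4 + H ^ 2 / 2 + H' ^ 2) * T.cells.card) * ‖ZhatC T (‖b‖ : ℂ) τ (mjZ y 0)‖ := by
  classical
  have hm : (0 : ℝ) < (c.m : ℝ) := by exact_mod_cast hc.pos
  unfold ZhatC
  rw [norm_mul, norm_mul, norm_prod, norm_prod]
  have h1 := mj_ZobsC_le hc T b τ y k
  have e0 : ∀ f, ‖chiC c.m (wfC c τ (mjZ y 0) f)‖ = chi c.m (wf c τ y f) := by
    intro f
    rw [mj_wfC, mj_D_zero]
    simp only [Pi.zero_apply, Complex.ofReal_zero, zero_mul, add_zero]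
    rw [chiL_real, Complex.norm_real, Real.norm_of_nonneg (chiL_pos _ _ hm).le]
  have hP0 : 0 ≤ ∏ f ∈ T.faces, chi c.m (wf c τ y f) := Finset.prod_nonneg fun f _ => (chiL_pos _ _ hm).le
  have h2 : ∏ f ∈ T.faces, ‖chiC c.m (wfC c τ (mjZ y k) f)‖
      ≤ Real.exp (H' ^ 2 * T.cells.card) * ∏ f ∈ T.faces, ‖chiC c.m (wfC c τ (mjZ y 0) f)‖ := by
    have e1 : ∀ f ∈ T.faces, ‖chiC c.m (wfC c τ (mjZ y k) f)‖ ≤ Real.exp (H' ^ 2 / 2) * chi c.m (wf c τ y f) := by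
      intro f hf
      rw [mj_wfC]
      refine (mj_chi_norm _ hm _ _).trans
        (mul_le_mul_of_nonneg_right (Real.exp_le_exp.2 ?_) (chiL_pos _ _ hm).le)
      have h3 := abs_le.1 (hk' f hf)
      have h4 : mjD c k f ^ 2 ≤ H' ^ 2 := sq_le_sq' h3.1 h3.2
      linarith
    have e2 : Real.exp (H' ^ 2 / 2) ^ T.faces.card ≤ Real.exp (H' ^ 2 * T.cells.card) := by
      rw [← Real.exp_nat_mul]
      apply Real.exp_le_exp.2
      have h5 : (T.faces.card : ℝ) ≤ 2 * T.cells.card := by exact_mod_cast mj_face_card T hT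
      have h6 : 0 ≤ H' ^ 2 / 2 := by positivity
      calc (T.faces.card : ℝ) * (H' ^ 2 / 2) ≤ (2 * T.cells.card) * (H' ^ 2 / 2) := mul_le_mul_of_nonneg_right h5 h6
        _ = H' ^ 2 * T.cells.card := by ring
    calc ∏ f ∈ T.faces, ‖chiC c.m (wfC c τ (mjZ y k) f)‖
        ≤ ∏ f ∈ T.faces, (Real.exp (H' ^ 2 / 2) * chi c.m (wf c τ y f)) :=
          Finset.prod_le_prod (fun _ _ => norm_nonneg _) e1
      _ = Real.exp (H' ^ 2 / 2) ^ T.faces.card * ∏ f ∈ T.faces, chi c.m (wf c τ y f) := by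
          rw [Finset.prod_mul_distrib, Finset.prod_const]
      _ ≤ Real.exp (H' ^ 2 * T.cells.card) * ∏ f ∈ T.faces, chi c.m (wf c τ y f) :=
          mul_le_mul_of_nonneg_right e2 hP0
      _ = _ := by simp only [e0]
  have h7 : (‖b‖ - b.re) * (Finset.univ.filter T.IsEdge).card + (∑ i ∈ T.cells, k i ^ 2) / 2
      ≤ (4 + H ^ 2 / 2) * T.cells.card := by
    have a1 : ((Finset.univ.filter T.IsEdge).card : ℝ) ≤ 2 * ((c.m : ℝ) ^ 2 * T.cells.card) := by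
      exact_mod_cast mj_edge_card hc T
    have a2 := mj_b_le b b0 hb0
    have a3 : (‖b‖ - b.re) * (Finset.univ.filter T.IsEdge).card ≤ 4 * T.cells.card := by
      calc (‖b‖ - b.re) * ((Finset.univ.filter T.IsEdge).card : ℝ)
          ≤ (2 * ‖b - b0‖) * ((Finset.univ.filter T.IsEdge).card : ℝ) :=
            mul_le_mul_of_nonneg_right a2 (Nat.cast_nonneg _)
        _ ≤ (2 * (1 / (c.m : ℝ) ^ 2)) * (2 * ((c.m : ℝ) ^ 2 * T.cells.card)) :=
            mul_le_mul (by linarith) a1 (Nat.cast_nonneg _) (by positivity)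
        _ = 4 * T.cells.card := by
            field_simp
            ring
    have a4 : ∑ i ∈ T.cells, k i ^ 2 ≤ T.cells.card * H ^ 2 := by
      rw [← nsmul_eq_mul, ← Finset.sum_const]
      refine Finset.sum_le_sum fun i hi => ?_
      have h3 := abs_le.1 (hk i hi)
      exact sq_le_sq' h3.1 h3.2
    linarith
  have hZ0 : 0 ≤ ‖ZobsC T (‖b‖ : ℂ) τ (mjZ y 0)‖ := norm_nonneg _
  have hQ0 : 0 ≤ ∏ f ∈ T.faces, ‖chiC c.m (wfC c τ (mjZ y 0) f)‖ := Finset.prod_nonneg fun _ _ => norm_nonneg _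
  obtain ⟨A, hA⟩ : ∃ A : ℝ, A = (‖b‖ - b.re) * (Finset.univ.filter T.IsEdge).card + (∑ i ∈ T.cells, k i ^ 2) / 2 :=
    ⟨_, rfl⟩
  rw [← hA] at h1 h7
  calc ‖ZobsC T b τ (mjZ y k)‖ * ∏ f ∈ T.faces, ‖chiC c.m (wfC c τ (mjZ y k) f)‖
      ≤ (Real.exp A * ‖ZobsC T (‖b‖ : ℂ) τ (mjZ y 0)‖)
        * (Real.exp (H' ^ 2 * T.cells.card) * ∏ f ∈ T.faces, ‖chiC c.m (wfC c τ (mjZ y 0) f)‖) :=
        mul_le_mul h1 h2 (Finset.prod_nonneg fun _ _ => norm_nonneg _) (by positivity)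
    _ = Real.exp (A + H' ^ 2 * T.cells.card)
        * (‖ZobsC T (‖b‖ : ℂ) τ (mjZ y 0)‖ * ∏ f ∈ T.faces, ‖chiC c.m (wfC c τ (mjZ y 0) f)‖) := by
        rw [Real.exp_add]
        ring
    _ ≤ Real.exp ((4 + H ^ 2 / 2 + H' ^ 2) * T.cells.card)
        * (‖ZobsC T (‖b‖ : ℂ) τ (mjZ y 0)‖ * ∏ f ∈ T.faces, ‖chiC c.m (wfC c τ (mjZ y 0) f)‖) := by
        refine mul_le_mul_of_nonneg_right (Real.exp_le_exp.2 ?_) (mul_nonneg hZ0 hQ0)
        linarith

/-! ## 4. The energies -/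

/-- LEAF MJ-5 (`F4a.Qf_quadratic`) -/
theorem mj_Qf_sum (a : ℝ) (ha : 0 < a) (T : Top c) (w : Face c → ℝ) : ∑ f, ∑ f', T.Qmat a f f' * w f * w f' = T.Qf a w := by
  obtain ⟨h1, hz⟩ := Qf_quadratic T a ha w
  rw [h1]
  symm
  refine Finset.sum_subset (Finset.subset_univ _) (fun f _ hf => ?_) |>.trans ?_
  · exact Finset.sum_eq_zero fun f' _ => by rw [hz f f' (Or.inl hf)]; ring
  · refine Finset.sum_congr rfl fun f _ => ?_
    refine Finset.sum_subset (Finset.subset_univ _) (fun f' _ hf' => ?_)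
    rw [hz f f' (Or.inr hf')]; ring

theorem mj_Qf_zero (a : ℝ) (ha : 0 < a) (T : Top c) : T.Qf a 0 = 0 := by
  rw [← mj_Qf_sum a ha]
  simp

theorem mj_Qf_nonneg (a : ℝ) (ha : 0 < a) (T : Top c) (w : Face c → ℝ) : 0 ≤ T.Qf a w := by
  unfold Top.Qf
  rw [En_eq_lsq T a ha]
  exact lsq_nonneg _ _

theorem mj_Qf_mono (a : ℝ) (ha : 0 < a) (T T' : Top c) (h1 : T.cells ⊆ T'.cells) (h2 : T.faces ⊆ T'.faces) (w : Face c → ℝ) :
    T.Qf a w ≤ T'.Qf a w := Eobs_mono T T' h1 h2 a ha w 0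

/-- LEAF MJ-5: `Re ((Q : ℂ) (u + i v) (u' + i v')) = Q u u' - Q v v'` -/
theorem mj_En_re (a b0 : ℝ) (ha : 0 < a) (b : ℂ) (τ : Face c → ℤ) (T : Top c) (y k : c.I → ℝ) :
    ((xyWt c a b0 b τ).En T (mjZ y k)).re = T.Qf a (wf c τ y) - T.Qf a (mjD c k) := by
  rw [← mj_Qf_sum a ha, ← mj_Qf_sum a ha, ← Finset.sum_sub_distrib]
  unfold Wt.En
  rw [Complex.re_sum]
  refine Finset.sum_congr rfl fun f _ => ?_
  rw [Complex.re_sum, ← Finset.sum_sub_distrib]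
  refine Finset.sum_congr rfl fun f' _ => ?_
  have h1 : ∀ g : Face c, (xyWt c a b0 b τ).w (mjZ y k) g = (wf c τ y g : ℂ) + (mjD c k g : ℂ) * Complex.I :=
    fun g => mj_wfC τ y k g
  have h2 : (xyWt c a b0 b τ).Q T f f' = T.Qmat a f f' := rfl
  rw [h1, h1, h2]
  simp only [Complex.mul_re, Complex.mul_im, Complex.add_re, Complex.add_im, Complex.ofReal_re, Complex.ofReal_im,
    Complex.I_re, Complex.I_im]
  ring


theorem mj_half_re (A : ℂ) : (-A / 2).re = -A.re / 2 := by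
  have : -A / 2 = (((-(1 / 2) : ℝ)) : ℂ) * A := by
    push_cast
    ring
  rw [this, Complex.re_ofReal_mul]
  ring

theorem mj_prox_norm (W : Wt c) (R : ℕ) (hN : ∀ T, 0 < W.N T) (e : EvId) (z : c.I → ℂ) :
    ‖W.prox R e z‖ = W.N (topO c R e) / W.N (topC c R e)
      * Real.exp (-((W.En (topO c R e) z).re - (W.En (topC c R e) z).re) / 2) := by
  unfold Wt.prox
  rw [norm_mul, Complex.norm_real, Real.norm_of_nonneg (div_pos (hN _) (hN _)).le, Complex.norm_exp, mj_half_re, Complex.sub_re]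

theorem mj_tdiv_norm (W : Wt c) (R : ℕ) (hN : ∀ T, 0 < W.N T) (t : Tile) (z : c.I → ℂ) :
    ‖W.tdiv R t z‖ = W.N (tileTop c R t) * Real.exp (-(W.En (tileTop c R t) z).re / 2) := by
  unfold Wt.tdiv
  rw [norm_mul, Complex.norm_real, Real.norm_of_nonneg (hN _).le, Complex.norm_exp, mj_half_re]

theorem mj_topC_le (R : ℕ) (e : EvId) :
    (topC c R e).cells ⊆ (topO c R e).cells ∧ (topC c R e).faces ⊆ (topO c R e).faces := by
  classical
  refine ⟨Finset.Subset.refl _, ?_⟩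
  unfold topC topO topU Top.restr Top.cut
  intro f hf
  simp only [Finset.mem_filter, Finset.mem_sdiff, Finset.mem_singleton] at hf ⊢
  exact ⟨⟨hf.1.1, fun h => hf.1.2 ⟨h.1, fun h' => h.2 h'.1⟩⟩, hf.2⟩

theorem mj_N_pos (hc : Whole c) (a b0 : ℝ) (hb0 : 0 < b0) (b : ℂ) (τ : Face c → ℤ) (T : Top c) : 0 < (xyWt c a b0 b τ).N T :=
  Zobs_pos hc T b0 hb0 0 0

/-- the proxies do not shrink -/
theorem mj_prox_le (hc : Whole c) (a b0 : ℝ) (ha : 0 < a) (hb0 : 0 < b0) (b b' : ℂ) (τ : Face c → ℤ) (R : ℕ) (e : EvId) (y k : c.I → ℝ) :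
    ‖(xyWt c a b0 b' τ).prox R e (mjZ y 0)‖ ≤ ‖(xyWt c a b0 b τ).prox R e (mjZ y k)‖ := by
  rw [mj_prox_norm _ R (mj_N_pos hc a b0 hb0 b' τ), mj_prox_norm _ R (mj_N_pos hc a b0 hb0 b τ), mj_En_re a b0 ha, mj_En_re a b0 ha,
    mj_En_re a b0 ha, mj_En_re a b0 ha, mj_D_zero, mj_Qf_zero a ha, mj_Qf_zero a ha]
  have h1 := mj_Qf_mono a ha _ _ (mj_topC_le (c := c) R e).1 (mj_topC_le (c := c) R e).2 (mjD c k)
  refine mul_le_mul_of_nonneg_left (Real.exp_le_exp.2 ?_) (div_pos (mj_N_pos hc a b0 hb0 b τ _) (mj_N_pos hc a b0 hb0 b τ _)).le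
  linarith

theorem mj_prox_pos (hc : Whole c) (a b0 : ℝ) (hb0 : 0 < b0) (b : ℂ) (τ : Face c → ℤ) (R : ℕ) (e : EvId) (z : c.I → ℂ) :
    0 < ‖(xyWt c a b0 b τ).prox R e z‖ := by
  rw [mj_prox_norm _ R (mj_N_pos hc a b0 hb0 b τ)]
  exact mul_pos (div_pos (mj_N_pos hc a b0 hb0 b τ _) (mj_N_pos hc a b0 hb0 b τ _)) (Real.exp_pos _)

/-- the tile divisors do not shrink -/
theorem mj_tdiv_le (hc : Whole c) (a b0 : ℝ) (ha : 0 < a) (hb0 : 0 < b0) (b b' : ℂ) (τ : Face c → ℤ) (R : ℕ) (t : Tile) (y k : c.I → ℝ) :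
    ‖(xyWt c a b0 b' τ).tdiv R t (mjZ y 0)‖ ≤ ‖(xyWt c a b0 b τ).tdiv R t (mjZ y k)‖ := by
  rw [mj_tdiv_norm _ R (mj_N_pos hc a b0 hb0 b' τ), mj_tdiv_norm _ R (mj_N_pos hc a b0 hb0 b τ), mj_En_re a b0 ha, mj_En_re a b0 ha,
    mj_D_zero, mj_Qf_zero a ha]
  have h1 := mj_Qf_nonneg a ha (tileTop c R t) (mjD c k)
  refine mul_le_mul_of_nonneg_left (Real.exp_le_exp.2 ?_) (mj_N_pos hc a b0 hb0 b τ _).le
  linarith

theorem mj_tdiv_pos (hc : Whole c) (a b0 : ℝ) (hb0 : 0 < b0) (b : ℂ) (τ : Face c → ℤ) (R : ℕ) (t : Tile) (z : c.I → ℂ) :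
    0 < ‖(xyWt c a b0 b τ).tdiv R t z‖ := by
  rw [mj_tdiv_norm _ R (mj_N_pos hc a b0 hb0 b τ)]
  exact mul_pos (mj_N_pos hc a b0 hb0 b τ _) (Real.exp_pos _)

/-! ## 5. The pointwise majorants -/

/-- restrictions of cuts of the full topology are well-formed and live in the region -/
theorem mj_restr_ok (E : Finset (Face c)) (D : Finset c.I) :
    (((Top.full c).cut E).restr D).Ok ∧ (((Top.full c).cut E).restr D).cells = D ∧
      ∀ f ∈ (((Top.full c).cut E).restr D).faces, IsFace c f ∧ f.1 ∈ D ∧ fnb c f ∈ D := by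
  classical
  have h3 : ∀ f ∈ (((Top.full c).cut E).restr D).faces, IsFace c f ∧ f.1 ∈ D ∧ fnb c f ∈ D := by
    intro f hf
    unfold Top.restr Top.cut Top.full at hf
    simp only [Finset.mem_filter, Finset.mem_sdiff, Finset.mem_univ, true_and] at hf
    exact ⟨hf.1.1, hf.2.1, hf.2.2⟩
  have h2 : (((Top.full c).cut E).restr D).cells = D := by
    unfold Top.restr Top.cut Top.full
    simp
  refine ⟨fun f hf => ?_, h2, h3⟩
  rw [h2]
  exact h3 f hf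

theorem mj_cut_empty (T : Top c) : T.cut ∅ = T := by
  unfold Top.cut
  simp

/-- the constant per cell -/
def mjC0 (H : ℝ) (R : ℕ) : ℝ := 4 + H ^ 2 / 2 + (H / R) ^ 2

theorem mjC0_nonneg (H : ℝ) (R : ℕ) : 0 ≤ mjC0 H R := by
  unfold mjC0
  positivity

/-- `\hat Z` on a restricted cut topology, imaginary part in `imK` -/
theorem mj_Zh_le (hc : Whole c) (E : Finset (Face c)) (D : Finset c.I) (b : ℂ) (b0 : ℝ) (hb0 : 0 ≤ b0) (hb : ‖b - b0‖ ≤ 1 / (c.m : ℝ) ^ 2)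
    (τ : Face c → ℤ) (y k : c.I → ℝ) (H : ℝ) (R : ℕ) (hk : k ∈ imK c D H R) :
    ‖ZhatC (((Top.full c).cut E).restr D) b τ (mjZ y k)‖
      ≤ Real.exp (mjC0 H R * D.card) * ‖ZhatC (((Top.full c).cut E).restr D) (‖b‖ : ℂ) τ (mjZ y 0)‖ := by
  obtain ⟨h1, h2, h3⟩ := mj_restr_ok (c := c) E D
  have := mj_ZhatC_le hc _ h1 b b0 hb0 hb τ y k H (H / R) (fun i hi => hk.1 i (h2 ▸ hi))
    (fun f hf => hk.2 f (h3 f hf).1 (h3 f hf).2.1 (h3 f hf).2.2)
  rw [h2] at this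
  exact this

theorem mj_haloTerm_le (hc : Whole c) (a b0 : ℝ) (ha : 0 < a) (hb0 : 0 < b0) (b : ℂ) (hb : ‖b - b0‖ ≤ 1 / (c.m : ℝ) ^ 2)
    (τ : Face c → ℤ) (R : ℕ) (S O : Finset EvId) (y k : c.I → ℝ) (H : ℝ) (hk : k ∈ imK c (halC c R S) H R) :
    ‖(xyWt c a b0 b τ).haloTerm R S O (mjZ y k)‖
      ≤ Real.exp (mjC0 H R * (halC c R S).card) * ‖(xyWt c a b0 (‖b‖ : ℂ) τ).haloTerm R S O (mjZ y 0)‖ := by
  unfold Wt.haloTerm
  rw [norm_div, norm_div, norm_mul, norm_mul, norm_prod, norm_prod, norm_prod, norm_prod, ← mul_div_assoc]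
  have hZ := mj_Zh_le hc ((seam c R).filter fun f => evKey c R f ∉ skp c R S ∪ O) (halC c R S) b b0 hb0.le hb τ y k H R hk
  have hd1 : ∏ e ∈ skp c R S ∪ O, ‖(xyWt c a b0 (‖b‖ : ℂ) τ).prox R e (mjZ y 0)‖
      ≤ ∏ e ∈ skp c R S ∪ O, ‖(xyWt c a b0 b τ).prox R e (mjZ y k)‖ :=
    Finset.prod_le_prod (fun _ _ => norm_nonneg _) fun e _ => mj_prox_le hc a b0 ha hb0 b _ τ R e y k
  have hd2 : ∏ t ∈ halT c R S, ‖(xyWt c a b0 (‖b‖ : ℂ) τ).tdiv R t (mjZ y 0)‖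
      ≤ ∏ t ∈ halT c R S, ‖(xyWt c a b0 b τ).tdiv R t (mjZ y k)‖ :=
    Finset.prod_le_prod (fun _ _ => norm_nonneg _) fun t _ => mj_tdiv_le hc a b0 ha hb0 b _ τ R t y k
  have hp1 : 0 < ∏ e ∈ skp c R S ∪ O, ‖(xyWt c a b0 (‖b‖ : ℂ) τ).prox R e (mjZ y 0)‖ :=
    Finset.prod_pos fun e _ => mj_prox_pos hc a b0 hb0 _ τ R e _
  have hp2 : 0 < ∏ t ∈ halT c R S, ‖(xyWt c a b0 (‖b‖ : ℂ) τ).tdiv R t (mjZ y 0)‖ :=
    Finset.prod_pos fun t _ => mj_tdiv_pos hc a b0 hb0 _ τ R t _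
  exact div_le_div₀ (by positivity) hZ (mul_pos hp1 hp2) (mul_le_mul hd1 hd2 hp2.le (hp1.le.trans hd1))

theorem mj_tfac_le (hc : Whole c) (a b0 : ℝ) (ha : 0 < a) (hb0 : 0 < b0) (b : ℂ) (hb : ‖b - b0‖ ≤ 1 / (c.m : ℝ) ^ 2)
    (τ : Face c → ℤ) (R : ℕ) (t : Tile) (y k : c.I → ℝ) (H : ℝ) (hk : k ∈ imK c (cellsOf c R {t}) H R) :
    ‖(xyWt c a b0 b τ).tfac R t (mjZ y k)‖
      ≤ Real.exp (mjC0 H R * (cellsOf c R {t}).card) * ‖(xyWt c a b0 (‖b‖ : ℂ) τ).tfac R t (mjZ y 0)‖ := by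
  unfold Wt.tfac
  rw [norm_div, norm_div, ← mul_div_assoc]
  have hZ := mj_Zh_le hc ∅ (cellsOf c R {t}) b b0 hb0.le hb τ y k H R hk
  rw [mj_cut_empty] at hZ
  exact div_le_div₀ (by positivity) hZ (mj_tdiv_pos hc a b0 hb0 _ τ R t _) (mj_tdiv_le hc a b0 ha hb0 b _ τ R t y k)

theorem mj_halo_le (hc : Whole c) (a b0 : ℝ) (ha : 0 < a) (hb0 : 0 < b0) (b : ℂ) (hb : ‖b - b0‖ ≤ 1 / (c.m : ℝ) ^ 2)
    (τ : Face c → ℤ) (R : ℕ) (S : Finset EvId) (y k : c.I → ℝ) (H : ℝ) (hk : k ∈ imK c (halC c R S) H R) :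
    ‖(xyWt c a b0 b τ).halo R S (mjZ y k)‖
      ≤ Real.exp (mjC0 H R * (halC c R S).card)
        * ‖∑ O ∈ S.powerset, ((‖(xyWt c a b0 (‖b‖ : ℂ) τ).haloTerm R S O (mjZ y 0)‖ : ℝ) : ℂ)‖ := by
  have e1 : ‖∑ O ∈ S.powerset, ((‖(xyWt c a b0 (‖b‖ : ℂ) τ).haloTerm R S O (mjZ y 0)‖ : ℝ) : ℂ)‖
      = ∑ O ∈ S.powerset, ‖(xyWt c a b0 (‖b‖ : ℂ) τ).haloTerm R S O (mjZ y 0)‖ := by
    rw [← Complex.ofReal_sum, Complex.norm_real, Real.norm_of_nonneg (Finset.sum_nonneg fun _ _ => norm_nonneg _)]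
  rw [e1, Finset.mul_sum]
  unfold Wt.halo
  refine (norm_sum_le _ _).trans (Finset.sum_le_sum fun O _ => ?_)
  rw [norm_mul, norm_pow, norm_neg, norm_one, one_pow, one_mul]
  exact mj_haloTerm_le hc a b0 ha hb0 b hb τ R S O y k H hk

/-! ## 6. Transfer of `Bd` -/

theorem mj_zero_mem (D : Finset c.I) (R : ℕ) : (0 : c.I → ℝ) ∈ imK c D 0 R := by
  refine ⟨fun i _ => by simp, fun f _ _ _ => by simp⟩

/-- the cost multiplied by `K` -/
def mj_scale (K : ℝ) (C : Cost c) : Cost c := ⟨C.κ + Real.log K, C.B⟩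

theorem mj_scale_val {K : ℝ} (hK : 0 < K) (C : Cost c) (a : ℝ) (τ : Face c → ℤ) (y : c.I → ℝ) :
    (mj_scale K C).val a τ y = K * C.val a τ y := by
  unfold Cost.val
  have e : (mj_scale K C).κ + (mj_scale K C).q a τ y / 2 = Real.log K + (C.κ + C.q a τ y / 2) := by
    show C.κ + Real.log K + C.q a τ y / 2 = _
    ring
  rw [e, Real.exp_add, Real.exp_log hK]

theorem mj_scale_wt {K : ℝ} (hK : 0 < K) (C : Cost c) (θ : ℝ) : (mj_scale K C).wt θ = K * C.wt θ := by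
  unfold Cost.wt
  have e : (mj_scale K C).κ + θ * (mj_scale K C).size = Real.log K + (C.κ + θ * C.size) := by
    show C.κ + Real.log K + θ * C.size = _
    ring
  rw [e, Real.exp_add, Real.exp_log hK]

theorem mj_scale_Lval {K : ℝ} (hK : 0 < K) (L : List (Cost c)) (a : ℝ) (τ : Face c → ℤ) (y : c.I → ℝ) :
    Lval a τ (L.map (mj_scale K)) y = K * Lval a τ L y := by
  unfold Lval
  rw [List.map_map, ← List.sum_map_mul_left]
  congr 1
  exact List.map_congr_left fun C _ => mj_scale_val hK C a τ y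

theorem mj_scale_Lwt {K : ℝ} (hK : 0 < K) (L : List (Cost c)) (θ : ℝ) : Lwt θ (L.map (mj_scale K)) = K * Lwt θ L := by
  unfold Lwt
  rw [List.map_map, ← List.sum_map_mul_left]
  congr 1
  exact List.map_congr_left fun C _ => mj_scale_wt hK C θ

/-- LEAF MJ-6: multiply every cost by `K` (`κ ↦ κ + log K`) -/
theorem mj_bd {a : ℝ} {τ : Face c → ℤ} {R : ℕ} {H θ : ℝ} {D : Finset c.I} {h : ℝ} {F F' : (c.I → ℂ) → ℂ} {w K : ℝ} (hK : 0 < K)
    (hF : Bd a τ R 0 θ D h F' w) (hle : ∀ y k, k ∈ imK c D H R → ‖F (mjZ y k)‖ ≤ K * ‖F' (mjZ y 0)‖) :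
    Bd a τ R H θ D h F (K * w) := by
  obtain ⟨L, h1, h2, h3⟩ := hF
  refine ⟨L.map (mj_scale K), ?_, ?_, ?_⟩
  · intro y k hk
    rw [mj_scale_Lval hK]
    exact (hle y k hk).trans (mul_le_mul_of_nonneg_left (h1 y 0 (mj_zero_mem D R)) hK.le)
  · intro C hC
    obtain ⟨C0, hC0, rfl⟩ := List.mem_map.1 hC
    exact ⟨(h2 C0 hC0).ok, (h2 C0 hC0).load⟩
  · rw [mj_scale_Lwt hK]
    exact mul_le_mul_of_nonneg_left h3 hK.le

theorem mj_bd_mono {a : ℝ} {τ : Face c → ℤ} {R : ℕ} {H θ : ℝ} {D : Finset c.I} {h : ℝ} {F : (c.I → ℂ) → ℂ} {w w' : ℝ}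
    (hF : Bd a τ R H θ D h F w) (hw : w ≤ w') : Bd a τ R H θ D h F w' := by
  obtain ⟨L, h1, h2, h3⟩ := hF
  exact ⟨L, h1, h2, h3.trans hw⟩

/-- LEAF MJ-6: a function which does not vanish at a real point can only be bounded with a nonnegative load -/
theorem mj_load_nonneg {a : ℝ} {τ : Face c → ℤ} {R : ℕ} {θ : ℝ} {D : Finset c.I} {h : ℝ} {F : (c.I → ℂ) → ℂ} {w : ℝ}
    (hF : Bd a τ R 0 θ D h F w) (i0 : c.I) (y : c.I → ℝ) (hy : F (mjZ y 0) ≠ 0) : 0 ≤ h := by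
  obtain ⟨L, h1, h2, _⟩ := hF
  have hpos : 0 < Lval a τ L y := (norm_pos_iff.2 hy).trans_le (h1 y 0 (mj_zero_mem D R))
  cases L with
  | nil => exact absurd hpos (by simp [Lval])
  | cons C L' =>
    have hC := h2 C (List.mem_cons_self)
    refine le_trans ?_ (hC.load i0)
    unfold Cost.load
    refine List.sum_nonneg fun x hx => ?_
    obtain ⟨p, hp, rfl⟩ := List.mem_map.1 hx
    split_ifs
    · exact (hC.ok p hp).2.2
    · exact le_rfl

/-! ## 7. Geometry of the halos -/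

/-- LEAF MJ-7 (`mem_halC`, `mem_skp`) -/
theorem mj_halC_mono {R : ℕ} {S : Finset EvId} {e : EvId} (he : e ∈ S) : halC c R {e} ⊆ halC c R S := by
  intro i hi
  rw [mem_halC] at hi ⊢
  obtain ⟨k, hk, j, hj, ht⟩ := hi
  refine ⟨k, ?_, j, hj, ht⟩
  rcases Finset.mem_union.1 hk with hk | hk
  · rw [Finset.mem_singleton] at hk
    rw [hk]
    exact Finset.mem_union_left _ he
  · rw [mem_skp] at hk
    obtain ⟨h1, h2, e', he', h3, h4⟩ := hk
    rw [Finset.mem_singleton] at he'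
    rw [he'] at h3 h4
    exact Finset.mem_union_right _ (mem_skp.2 ⟨h1, h2, e, he, h3, h4⟩)

/-- LEAF MJ-7 (`mem_halC`, `mem_skp`) -/
theorem mj_halC_cover {R : ℕ} (S : Finset EvId) : halC c R S ⊆ S.biUnion fun e => halC c R {e} := by
  intro i hi
  rw [mem_halC] at hi
  obtain ⟨k, hk, j, hj, ht⟩ := hi
  rw [Finset.mem_biUnion]
  rcases Finset.mem_union.1 hk with hk | hk
  · exact ⟨k, hk, mem_halC.2 ⟨k, Finset.mem_union_left _ (Finset.mem_singleton_self k), j, hj, ht⟩⟩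
  · rw [mem_skp] at hk
    obtain ⟨h1, h2, e, he, h3, h4⟩ := hk
    exact ⟨e, he, mem_halC.2 ⟨k, Finset.mem_union_right _ (mem_skp.2 ⟨h1, h2, e, Finset.mem_singleton_self e, h3, h4⟩), j, hj, ht⟩⟩

/-- LEAF MJ-7 (`halC_near`, `core_ne`, `card_le_of_centre`, `Finset.card_biUnion_le`) -/
theorem mj_halC_card {R : ℕ} (h : Adm c R) (S : Finset EvId) (hS : S ⊆ events c R) : (halC c R S).card ≤ (6 * R + 1) ^ 2 * S.card := by
  refine (Finset.card_le_card (mj_halC_cover S)).trans ?_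
  rw [mul_comm]
  refine Finset.card_biUnion_le_card_mul _ _ _ fun e he => ?_
  obtain ⟨j0, hj0⟩ := core_ne (hS he)
  have h1 := card_le_of_centre (D := 3 * R) (X := halC c R {e}) j0 (fun i hi => by
    have h2 := halC_near h hj0 hi
    have h3 : 5 * (R / 8) ≤ R := by omega
    omega)
  calc (halC c R {e}).card ≤ (2 * (3 * R) + 1) ^ 2 := h1
    _ = (6 * R + 1) ^ 2 := by ring

/-- LEAF MJ-7 (`tile_diam`, `card_le_of_centre`) -/
theorem mj_tile_card {R : ℕ} (h : Adm c R) (t : Tile) : (cellsOf c R {t}).card ≤ (6 * R + 1) ^ 2 := by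
  rcases (cellsOf c R {t}).eq_empty_or_nonempty with he | ⟨i0, hi0⟩
  · rw [he]
    simp
  · have e0 : tile c R i0 = t := by simpa [cellsOf] using hi0
    have h1 := card_le_of_centre (D := 3 * R) (X := cellsOf c R {t}) i0 (fun i hi => by
      have e1 : tile c R i = t := by simpa [cellsOf] using hi
      have h2 := tile_diam h (e0.trans e1.symm)
      omega)
    calc (cellsOf c R {t}).card ≤ (2 * (3 * R) + 1) ^ 2 := h1
      _ = (6 * R + 1) ^ 2 := by ring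

/-! ## 8. Arithmetic of the weights -/

/-- the constant per mark -/
def mjK1 (H : ℝ) (R : ℕ) : ℝ := Real.exp (mjC0 H R * ((6 * R + 1) ^ 2 : ℕ))

theorem mjK1_ge (H : ℝ) (R : ℕ) : 1 ≤ mjK1 H R :=
  Real.one_le_exp (mul_nonneg (mjC0_nonneg H R) (Nat.cast_nonneg _))

/-- the constant of the statement -/
def mjCM (H : ℝ) (R nZ : ℕ) : ℝ := mjK1 H R ^ (nZ + 1) + 1

theorem mjCM_ge1 (H : ℝ) (R nZ : ℕ) : mjK1 H R + 1 ≤ mjCM H R nZ := by
  unfold mjCM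
  have : mjK1 H R ≤ mjK1 H R ^ (nZ + 1) := le_self_pow₀ (mjK1_ge H R) (Nat.succ_ne_zero nZ)
  linarith

theorem mjCM_ge2 (H : ℝ) (R nZ : ℕ) : mjK1 H R ^ nZ ≤ mjCM H R nZ := by
  unfold mjCM
  have : mjK1 H R ^ nZ ≤ mjK1 H R ^ (nZ + 1) := pow_le_pow_right₀ (mjK1_ge H R) (Nat.le_succ nZ)
  linarith

theorem mj_exp_le (H : ℝ) (R N n : ℕ) (hN : N ≤ (6 * R + 1) ^ 2 * n) : Real.exp (mjC0 H R * N) ≤ mjK1 H R ^ n := by
  unfold mjK1
  rw [← Real.exp_nat_mul]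
  apply Real.exp_le_exp.2
  have h0 := mjC0_nonneg H R
  have h1 : (N : ℝ) ≤ (((6 * R + 1) ^ 2 : ℕ) : ℝ) * n := by exact_mod_cast hN
  calc mjC0 H R * N ≤ mjC0 H R * ((((6 * R + 1) ^ 2 : ℕ) : ℝ) * n) := mul_le_mul_of_nonneg_left h1 h0
    _ = n * (mjC0 H R * ((6 * R + 1) ^ 2 : ℕ)) := by ring

theorem mj_weight (K K1 CM CR big : ℝ) (n m nZ : ℕ) (P : Prop) [Decidable P] (hK1 : 1 ≤ K1) (hCM1 : K1 ≤ CM) (hCM2 : K1 ^ nZ ≤ CM)
    (hCR : 1 ≤ CR) (hbig : 1 ≤ big) (hK : K ≤ K1 ^ (n + m)) (hm : m ≤ nZ) (hP : P → m = 0) :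
    K * (CR ^ n * if P then 1 else big) ≤ (CM * CR) ^ n * if P then 1 else CM * big := by
  have hCM0 : 0 ≤ CM := by linarith
  have h1 : K1 ^ n ≤ CM ^ n := pow_le_pow_left₀ (by linarith) hCM1 n
  rw [mul_pow]
  split_ifs with hp
  · have h2 : K ≤ CM ^ n := by
      rw [hP hp, add_zero] at hK
      exact hK.trans h1
    rw [mul_one, mul_one]
    exact mul_le_mul_of_nonneg_right h2 (by positivity)
  · have h2 : K1 ^ m ≤ CM := (pow_le_pow_right₀ hK1 hm).trans hCM2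
    have h3 : K ≤ CM ^ n * CM := by
      rw [pow_add] at hK
      exact hK.trans (mul_le_mul h1 h2 (by positivity) (by positivity))
    calc K * (CR ^ n * big) ≤ (CM ^ n * CM) * (CR ^ n * big) := mul_le_mul_of_nonneg_right h3 (by positivity)
      _ = _ := by ring

/-! ## 9. Exit -/

theorem mj_tfac_ne (hc : Whole c) (a b0 : ℝ) (hb0 : 0 < b0) (t' : ℝ) (ht' : 0 < t') (τ : Face c → ℤ) (R : ℕ) (t : Tile) (y : c.I → ℝ) :
    (xyWt c a b0 (t' : ℂ) τ).tfac R t (mjZ y 0) ≠ 0 := by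
  unfold Wt.tfac
  refine div_ne_zero ?_ (norm_pos_iff.1 (mj_tdiv_pos hc a b0 hb0 _ τ R t _))
  show ZhatC (tileTop c R t) (t' : ℂ) τ (mjZ y 0) ≠ 0
  rw [mj_Z_zero, pr_ZhatC_real]
  refine Complex.ofReal_ne_zero.2 (ne_of_gt ?_)
  unfold Top.Zhat
  exact mul_pos (Zobs_pos hc _ t' ht' τ y) (Finset.prod_pos fun f _ => chiL_pos _ _ (by exact_mod_cast hc.pos))

/-- **POST MAJ, exit** -/
theorem mj_main : MajStmt := by
  intro a b0 H R nZ ha hb0 hH hR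
  have hK1 := mjK1_ge H R
  have hC1 := mjCM_ge1 H R nZ
  have hC2 := mjCM_ge2 H R nZ
  refine ⟨mjCM H R nZ, by linarith, ?_⟩
  intro G c τ Z cb θ CR big b hg hθ hCR hbig hnZ hb hP
  have hc := hg.whole
  have hadm := hg.adm
  have hm1 : (1 : ℝ) ≤ (c.m : ℝ) ^ 2 := by
    have h1 : 1 ≤ c.m := hc.pos
    have h2 : (1 : ℝ) ≤ c.m := by exact_mod_cast h1
    nlinarith
  have hb1 : ‖b - b0‖ ≤ 1 / (c.m : ℝ) ^ 2 := hb.le.trans (div_le_div_of_nonneg_right (min_le_right _ _) (by positivity))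
  have hb2 : ‖b - b0‖ < b0 := lt_of_lt_of_le hb ((div_le_self (le_min hb0.le zero_le_one) hm1).trans (min_le_left _ _))
  have hbpos : 0 < ‖b‖ := by
    have h1 := norm_sub_norm_le (b0 : ℂ) b
    rw [Complex.norm_real, Real.norm_of_nonneg hb0.le, norm_sub_rev] at h1
    linarith
  refine ⟨?_, ?_, ?_⟩
  · intro S hS
    have h1 := mj_bd (H := H) (F := (xyWt c a b0 b τ).halo R S) (Real.exp_pos (mjC0 H R * (halC c R S).card)) (hP.halo S hS)
      (fun y k hk => mj_halo_le hc a b0 ha hb0 b hb1 τ R S y k H hk)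
    refine mj_bd_mono h1 (mj_weight _ (mjK1 H R) _ CR big _ ((S.filter fun k => ¬ Disjoint (halC c R {k}) Z).card) nZ _ hK1
      (by linarith) hC2 hCR hbig ?_ ?_ ?_)
    · rw [Finset.card_filter_add_card_filter_not]
      exact mj_exp_le H R _ _ (mj_halC_card hadm S hS.1)
    · refine le_trans (Finset.card_le_card fun x hx => ?_) hnZ
      exact Finset.mem_filter.2 ⟨hS.1 (Finset.mem_filter.1 hx).1, (Finset.mem_filter.1 hx).2⟩
    · intro hd
      refine Finset.card_eq_zero.2 (Finset.filter_eq_empty_iff.2 fun k hk => ?_)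
      exact not_not.2 (Finset.disjoint_of_subset_left (mj_halC_mono hk) hd)
  · intro t ht hd
    have h0 := hP.tile t ht
    rw [if_pos hd] at h0
    have h1 := mj_bd (H := H) (F := (xyWt c a b0 b τ).tfac R t) (Real.exp_pos (mjC0 H R * (cellsOf c R {t}).card)) h0
      (fun y k hk => mj_tfac_le hc a b0 ha hb0 b hb1 τ R t y k H hk)
    obtain ⟨i0, -, -⟩ := Finset.mem_image.1 ht
    have hcb : 0 ≤ cb := mj_load_nonneg h0 i0 0 (mj_tfac_ne hc a b0 hb0 ‖b‖ hbpos τ R t 0)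
    have h2 := (av_cost G c a τ R H θ hθ).1 (cellsOf c R {t}) cb (-1) hcb
    have h3 := (av_cost G c a τ R H θ hθ).2.2.1 _ _ _ _ _ _ h1 h2
    have e : (fun y => (xyWt c a b0 b τ).tfac R t y - 1) = fun y => (xyWt c a b0 b τ).tfac R t y + (-1) := by
      funext y
      ring
    rw [e]
    refine mj_bd_mono h3 ?_
    have h4 := mj_exp_le H R _ 1 (by simpa using mj_tile_card hadm t)
    rw [pow_one] at h4
    rw [norm_neg, norm_one]
    have h5 : Real.exp (mjC0 H R * (cellsOf c R {t}).card) * CR ≤ mjK1 H R * CR := mul_le_mul_of_nonneg_right h4 (by linarith)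
    nlinarith
  · intro t ht hd
    have h0 := hP.tile t ht
    rw [if_neg hd] at h0
    have h1 := mj_bd (H := H) (F := (xyWt c a b0 b τ).tfac R t) (Real.exp_pos (mjC0 H R * (cellsOf c R {t}).card)) h0
      (fun y k hk => mj_tfac_le hc a b0 ha hb0 b hb1 τ R t y k H hk)
    refine mj_bd_mono h1 ?_
    have h4 := mj_exp_le H R _ 1 (by simpa using mj_tile_card hadm t)
    rw [pow_one] at h4
    exact mul_le_mul_of_nonneg_right (by linarith) (by linarith)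

/-- Stores the on-demand equation lemmas of the definitions above in THIS module (rule 6 hygiene). -/
theorem mj_forced : True := by
  have := @mjZ.eq_1
  have := @mjD.eq_1
  have := @mjGr.eq_1
  have := @mjC0.eq_1
  have := @mjK1.eq_1
  have := @mjCM.eq_1
  trivial

end

end Claimed.Agent.R285.Ent
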