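import Claimed.Agent.R285.Entry.NtDefs

/-!
# ROW 285, ENTRY: THE INTERFACES BELOW `PhysRStmt`            (owner helper33, deputy chief of ENTRY)
Nothing is sorried here: every exit of a post is a `def …Stmt : Prop`; `Ent/PhysTop.lean` proves `PhysRStmt` from them (the type check of that proof is the test of the interfaces).
```
PhysRStmt  ⟸  NormGenStmt   (NORM, helper229: Entry/Nt*.lean, Ent/Phys.lean)      generic reduction  Phys + PhysPos ⟸ BoxOK   for every `Y : Phy c`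
            +  BoxXYStmt     (GOOD helper109 + helper94, GOOD-GA helper269, PERT helper221 + helper47)      BoxOK for `xyPhy`, eventually in `s`, on the real parameter interval
            +  XyQLocStmt, XyFaceCoStmt, XySrcStmt, XyZoneStmt   (NT-XY, helper14: Entry/NtXY.lean)
            +  NGeoStmt      (GEO, helper108)          +  PhyOkStmt (helper66: Entry/PhyXY.lean)          +  `pr_str` (helper66, proved)
```
If a `Stmt` is false / too strong / inconvenient: tell helper33 at once, it is changed HERE and the proof in `PhysTop.lean` is adapted by helper33.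

## Order of the constants
`a, b₀`; `c_*`, `c_g`, `C_b` (GOOD);  `c_b`, `θ`;  `C_p`, `C_q`, `c_q` (shapes);  `K`, first `R` (NORM);  `R = 2^{kR}`, `P = R⁵`, `γ = e^{-c_g R}`;  `U = U_big` (NORM, after `R`, `γ`);  `C_R` (NORM, after the number `nZ` of events at the zone);
`c_R`, first `s` (GOOD + PERT, after `U`);  `s = 2^{ks}`;  the volume.
-/

set_option autoImplicit false

namespace Claimed.Agent.R285.Ent

open scoped BigOperators
open Claimed.Agent.R285 Claimed.Agent.R285.RG Claimed.Agent.R285.F4a Claimed.Agent.R285.Entry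

noncomputable section

variable {G : Geom}

/-- the source cells of the unit sector: a `3 × 3` block which contains the four cells of the junction `(n/2 - 1, n/2 - 1)` carrying the circulation of `tauU` -/
def srcZ (c : Grid G) : Finset c.I := zone c 1

/-- **POST NORM, generic exit** ([F] L4.7 part 1 + the bad boxes): for every representation `Y` the box bounds give the physical input of the engine, at real observations.
`γ` = gain of a retained mark (any number in `(0, 1]`), the engine gets `K R⁸ √γ` per mark off the zone (half of the marks are retained; `(P/R)² = R⁸` offsets).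
`bg` = price of the source in the reserve, `Ds cz / 2` = the self energy of a junction removed by a seam. -/
def NormGenStmt : Prop :=
  ∀ (a cstar cb θ Cp Cq cq x0 C0 : ℝ), 0 < a → 0 < cstar → cstar < 1 → 1 - cstar < cb → 0 ≤ θ → 0 ≤ Cp → 0 ≤ Cq → 0 < cq → 1 ≤ x0 → 1 ≤ C0 →
  ∃ (K : ℝ) (k1 : ℕ), 1 ≤ K ∧ ∀ kR ≥ k1, ∀ γ : ℝ, 0 < γ → γ ≤ 1 → ∃ U : ℝ, 0 ≤ U ∧ ∀ nZ : ℕ, ∃ CR : ℝ, 1 ≤ CR ∧
  ∀ (G : Geom) (c : Grid G) (Y : Phy c), Y.R = 2 ^ kR → Whole c → (2 ^ kR) ^ 5 ≤ c.n → Y.Ok → Y.W.Str → NGeo c (2 ^ kR) → FaceCo c a Cp →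
  ∀ Ds : ℝ, QLoc Y.W Cq cq Ds →
  ∀ (Zs Z : Finset c.I) (cz x ea bg : ℝ), x ≤ x0 → 0 ≤ ea → ea ≤ 1 / ((2 : ℝ) ^ kR) ^ 12 → 1 ≤ bg →
    BoxOK Y a ((2 ^ kR) ^ 5) Zs x cstar U γ C0 ea bg → Src Y Zs cz → ZoneOK c (2 ^ kR) ((2 ^ kR) ^ 5) Zs Z nZ →
    Phys Y.W (2 ^ kR) Z a cb θ 0 (K * ((2 : ℝ) ^ kR) ^ 8 * Real.sqrt γ) (CR * bg ^ 4 * Real.exp (Ds * cz / 2)) ∧
    PhysPos Y.W (2 ^ kR) Z a cb θ CR (CR * bg ^ 4 * Real.exp (Ds * cz / 2))

/-- **POSTS GOOD + PERT, exit**: the box bounds for the cutoff XY height law.  Centred sector: all real `b` with `|b - b₀| < c_R / s²`; unit sector: `b = b₀`, source cells `srcZ c`, price `(2 + s)^{C_b}`.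
Pins and normaliser ratios `≤ 4`, a good box `≤ 13`, allowance `R^{-12}`, gain `e^{-c_g R}` (marks AND isolated tiles). -/
def BoxXYStmt : Prop :=
  ∀ (b0 a : ℝ), 0 < b0 → 0 < a → aLim b0 = a → ∃ (cstar cg Cb : ℝ) (k1 : ℕ), 0 < cstar ∧ cstar < 1 ∧ 0 < cg ∧ 0 ≤ Cb ∧
  ∀ kR ≥ k1, ∀ U : ℝ, 0 ≤ U → ∃ (cR : ℝ) (k0 : ℕ), 0 < cR ∧ ∀ ks ≥ k0,
  ∀ (G : Geom) (c : Grid G), GeoOK c (2 ^ kR) → c.m = 2 ^ ks → (2 ^ kR) ^ 5 ≤ c.n →
    (∀ b : ℝ, |b - b0| < cR / ((2 : ℝ) ^ ks) ^ 2 → 0 < b ∧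
      BoxOK (xyPhy c (2 ^ kR) a b0 b 0) a ((2 ^ kR) ^ 5) ∅ 4 cstar U (Real.exp (-cg * 2 ^ kR)) 13 (1 / ((2 : ℝ) ^ kR) ^ 12) 1) ∧
    (G.bc = BC.free → 2 * 2 ^ kR ∣ c.n → 8 * (2 ^ kR) ^ 5 ≤ c.n →
      BoxOK (xyPhy c (2 ^ kR) a b0 b0 (tauU c)) a ((2 ^ kR) ^ 5) (srcZ c) 4 cstar U (Real.exp (-cg * 2 ^ kR)) 13 (1 / ((2 : ℝ) ^ kR) ^ 12)
        (Real.exp (Cb * Real.log (2 + (2 : ℝ) ^ ks))))

/-- **POST NT-XY, exit 1**: (ent:face-matrix-bounds), second line, and (ent:guarded-face-error) for `Qmat a`; the junction coefficient is `D_s ≤ C log (2 + s)`. -/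
def XyQLocStmt : Prop :=
  ∀ a : ℝ, 0 < a → ∃ (Cq cq : ℝ) (s1 n1 : ℕ), 0 ≤ Cq ∧ 0 < cq ∧ ∀ (G : Geom) (c : Grid G), Whole c → s1 ≤ c.m → n1 ≤ c.n →
    ∃ Ds : ℝ, 0 ≤ Ds ∧ Ds ≤ Cq * Real.log (2 + c.m) ∧ ∀ (b0 : ℝ) (b : ℂ) (τ : Face c → ℤ), QLoc (xyWt c a b0 b τ) Cq cq Ds

/-- **POST NT-XY, exit 2**: two-cell Poincaré -/
def XyFaceCoStmt : Prop := ∀ a : ℝ, 0 < a → ∃ Cp : ℝ, 0 ≤ Cp ∧ ∀ (G : Geom) (c : Grid G), Whole c → FaceCo c a Cp

/-- **POST NT-XY, exit 3**: the circulation of the two sectors -/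
def XySrcStmt : Prop :=
  ∀ (G : Geom) (c : Grid G) (R : ℕ) (a b0 b : ℝ), Whole c →
    Src (xyPhy c R a b0 b 0) ∅ 0 ∧ (G.bc = BC.free → 2 ∣ c.n → 4 ≤ c.n → Src (xyPhy c R a b0 b (tauU c)) (srcZ c) ((2 * Real.pi) ^ 2))

/-- **POST NT-XY, exit 4**: the zone of radius `2 P` -/
def XyZoneStmt : Prop :=
  ∀ (G : Geom) (c : Grid G) (R : ℕ), GeoOK c R → G.bc = BC.free → 2 * R ∣ c.n → 8 * R ^ 5 ≤ c.n →
    ZoneOK c R (R ^ 5) (srcZ c) (zone c (2 * R ^ 5)) (3 * (4 * R ^ 4 + 8) ^ 2)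

/-- **POST GEO, exit**: the metric facts of NORM -/
def NGeoStmt : Prop := ∀ (G : Geom) (c : Grid G) (R : ℕ), GeoOK c R → NGeo c R

/-- **the factor model represents the XY weights** (helper66) -/
def PhyOkStmt : Prop := ∀ (G : Geom) (c : Grid G) (R : ℕ) (a b0 b : ℝ) (τ : Face c → ℤ), Whole c → 0 < b → (xyPhy c R a b0 b τ).Ok

end

end Claimed.Agent.R285.Ent
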