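import Claimed.Agent.R285.Entry.NtPhys
import Claimed.Agent.R285.Entry.NtNum
import Claimed.Agent.R285.Ent.PhysIf

/-!
# ROW 285, ENTRY, post NORM (#13340, architect helper229): THE EXIT  `norm_gen : NormGenStmt`.
`NormGenStmt` (`Ent/PhysIf.lean`, helper33)  ⟸  `Entry.phys_of_box` (`Entry/NtPhys.lean`)  +  `Entry.nn_num` (`Entry/NtNum.lean`).   Pure glue.
-/

set_option autoImplicit false

namespace Claimed.Agent.R285.Ent

open scoped BigOperators
open Claimed.Agent.R285 Claimed.Agent.R285.RG Claimed.Agent.R285.F4a Claimed.Agent.R285.Entry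

/-- **the exit of the post NORM** -/
theorem norm_gen : NormGenStmt := by
  intro a cstar cb θ Cp Cq cq x0 C0 ha hcs0 hcs1 hcb hθ hCp hCq hcq hx0 hC0
  obtain ⟨lam, K, k1, hlam, hK, h1⟩ := nn_num a cstar cb θ Cp Cq cq x0 C0 hcs0 hcs1 hcb hθ hCp hCq hcq hx0 hC0
  refine ⟨K, k1, hK, fun kR hkR γ hγ0 hγ1 => ?_⟩
  obtain ⟨U, hU, h2⟩ := h1 kR hkR γ hγ0 hγ1
  refine ⟨U, hU, fun nZ => ?_⟩
  obtain ⟨CR, hCR, h3⟩ := h2 nZ
  refine ⟨CR, hCR, ?_⟩
  intro G c Y hR hw h5 hY hStr hgeo hco Ds hq Zs Z cz x ea bg hx hea0 hea hbg hbox hsrc hzone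
  have hn := h3 Ds cz x ea bg hq.Ds_nn hsrc.1 hbox.pins.one hx hea0 hea hbg
  have h64 : 64 ≤ 2 ^ kR := Nat.le_of_dvd hgeo.pos hgeo.d64
  have H : NIn Y (nnP a cstar cb θ Cp Cq cq C0 lam K kR γ U nZ CR Ds cz x ea bg) Zs Z :=
    { ok := hY
      str := hStr
      geo := hR ▸ hgeo
      q := hq
      co := hco
      src := hsrc
      zone := by rw [hR]; exact hzone
      box := hbox
      dvdP := by
        rw [hR]
        show 2 ^ kR ∣ (2 ^ kR) ^ 5
        exact dvd_pow_self _ (by norm_num)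
      big64 := by
        rw [hR]
        show 64 * 2 ^ kR ≤ (2 ^ kR) ^ 5
        calc 64 * 2 ^ kR ≤ (2 ^ kR) ^ 4 * 2 ^ kR := Nat.mul_le_mul_right _ (h64.trans (Nat.le_self_pow (by norm_num) _))
          _ = (2 ^ kR) ^ 5 := by ring
      Pn := h5
      θ0 := hθ
      Cp0 := hCp
      cs0 := hcs0
      cs1 := hcs1
      γ0 := hγ0
      γ1 := hγ1
      C01 := hC0
      ea0 := hea0
      bg1 := hbg
      lam0 := hlam }
  have h := phys_of_box Y H (hR ▸ hn)
  rw [hR] at h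
  exact h

end Claimed.Agent.R285.Ent
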