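import Claimed.Agent.R285.Ent.PhysIf
import Claimed.Agent.R285.Ent.PropLaw

/-!
# ROW 285, ENTRY: `PhysRStmt` FROM THE EXITS OF NORM, GOOD + PERT, NT-XY, GEO            (owner helper33)
Pure glue and numerics; no sorry.  Interfaces: `Ent/PhysIf.lean`.  Prefix `pt_`.
-/

set_option autoImplicit false

namespace Claimed.Agent.R285.Ent

open scoped BigOperators
open Claimed.Agent.R285 Claimed.Agent.R285.RG Claimed.Agent.R285.F4a Claimed.Agent.R285.Entry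

noncomputable section

variable {G : Geom} {c : Grid G}

/-! ## 1. Monotonicity -/

theorem pt_bd_mono {a : ℝ} {τ : Face c → ℤ} {R : ℕ} {H θ : ℝ} {D : Finset c.I} {h : ℝ} {F : (c.I → ℂ) → ℂ} {w w' : ℝ} (hw : w ≤ w')
    (hB : Bd a τ R H θ D h F w) : Bd a τ R H θ D h F w' := by
  obtain ⟨L, h1, h2, h3⟩ := hB
  exact ⟨L, h1, h2, h3.trans hw⟩

theorem pt_phys_mono {W : Wt c} {R : ℕ} {Z : Finset c.I} {a cb θ H gm gm' big big' : ℝ} (h0 : 0 ≤ gm) (hg : gm ≤ gm') (hb0 : 0 ≤ big)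
    (hb : big ≤ big') (h : Phys W R Z a cb θ H gm big) : Phys W R Z a cb θ H gm' big' where
  halo := fun S hS => by
    refine pt_bd_mono ?_ (h.halo S hS)
    refine mul_le_mul (pow_le_pow_left₀ h0 hg _) ?_ ?_ (pow_nonneg (h0.trans hg) _)
    · split_ifs
      · exact le_rfl
      · exact hb
    · split_ifs
      · exact zero_le_one
      · exact hb0
  tile := fun t ht hd => pt_bd_mono hg (h.tile t ht hd)
  tileZ := fun t ht hd => pt_bd_mono hb (h.tileZ t ht hd)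

theorem pt_pos_mono {W : Wt c} {R : ℕ} {Z : Finset c.I} {a cb θ CR CR' big big' : ℝ} (h0 : 0 ≤ CR) (hg : CR ≤ CR') (hb0 : 0 ≤ big)
    (hb : big ≤ big') (h : PhysPos W R Z a cb θ CR big) : PhysPos W R Z a cb θ CR' big' where
  halo := fun S hS => by
    refine pt_bd_mono ?_ (h.halo S hS)
    refine mul_le_mul (pow_le_pow_left₀ h0 hg _) ?_ ?_ (pow_nonneg (h0.trans hg) _)
    · split_ifs
      · exact le_rfl
      · exact hb
    · split_ifs
      · exact zero_le_one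
      · exact hb0
  tile := fun t ht => by
    refine pt_bd_mono ?_ (h.tile t ht)
    split_ifs
    · exact hg
    · exact hb

/-- without a zone the constant `big` does not matter -/
theorem pt_phys_empty {W : Wt c} {R : ℕ} {a cb θ H gm big : ℝ} (big' : ℝ) (h : Phys W R ∅ a cb θ H gm big) : Phys W R ∅ a cb θ H gm big' where
  halo := fun S hS => by
    have := h.halo S hS
    simpa using this
  tile := h.tile
  tileZ := fun t _ hd => absurd (Finset.disjoint_empty_right _) hd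

theorem pt_pos_empty {W : Wt c} {R : ℕ} {a cb θ CR big : ℝ} (big' : ℝ) (h : PhysPos W R ∅ a cb θ CR big) : PhysPos W R ∅ a cb θ CR big' where
  halo := fun S hS => by
    have := h.halo S hS
    simpa using this
  tile := fun t ht => by
    have := h.tile t ht
    simpa using this

theorem pt_zone_empty (c : Grid G) (R P : ℕ) : ZoneOK c R P ∅ ∅ 0 where
  box := fun _ _ b hb => absurd (Finset.disjoint_empty_right _) hb
  sub := Finset.Subset.refl _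
  four := by simp
  cnt := by simp

/-! ## 2. Numerics -/

/-- `K x⁸ √(e^{-c x}) ≤ C e^{-(c/4) x}` -/
theorem pt_num1 (K cg : ℝ) (hK : 0 ≤ K) (hcg : 0 < cg) : ∃ C : ℝ, 0 ≤ C ∧ ∀ x : ℝ, 0 ≤ x →
    K * x ^ 8 * Real.sqrt (Real.exp (-cg * x)) ≤ C * Real.exp (-(cg / 4) * x) := by
  refine ⟨K * ((Nat.factorial 8 : ℝ) * (4 / cg) ^ 8), by positivity, fun x hx => ?_⟩
  have e1 : Real.sqrt (Real.exp (-cg * x)) = Real.exp (-(cg / 4) * x) * Real.exp (-(cg / 4) * x) := by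
    rw [← Real.exp_add, Real.sqrt_eq_iff_mul_self_eq (Real.exp_pos _).le (Real.exp_pos _).le, ← Real.exp_add]
    congr 1
    ring
  have e2 : x ^ 8 * Real.exp (-(cg / 4) * x) ≤ (Nat.factorial 8 : ℝ) * (4 / cg) ^ 8 := by
    have h := Real.pow_div_factorial_le_exp (cg / 4 * x) (by positivity) 8
    have h2 : (cg / 4 * x) ^ 8 ≤ (Nat.factorial 8 : ℝ) * Real.exp (cg / 4 * x) := by
      rw [div_le_iff₀ (by positivity)] at h
      linarith
    have h3 : x ^ 8 = (4 / cg) ^ 8 * (cg / 4 * x) ^ 8 := by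
      rw [← mul_pow]
      congr 1
      field_simp
    have h4 : Real.exp (cg / 4 * x) * Real.exp (-(cg / 4) * x) = 1 := by
      rw [← Real.exp_add]
      simp
    calc x ^ 8 * Real.exp (-(cg / 4) * x) = (4 / cg) ^ 8 * (cg / 4 * x) ^ 8 * Real.exp (-(cg / 4) * x) := by rw [h3]
      _ ≤ (4 / cg) ^ 8 * ((Nat.factorial 8 : ℝ) * Real.exp (cg / 4 * x)) * Real.exp (-(cg / 4) * x) := by gcongr
      _ = (Nat.factorial 8 : ℝ) * (4 / cg) ^ 8 * (Real.exp (cg / 4 * x) * Real.exp (-(cg / 4) * x)) := by ring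
      _ = (Nat.factorial 8 : ℝ) * (4 / cg) ^ 8 := by rw [h4, mul_one]
  rw [e1]
  calc K * x ^ 8 * (Real.exp (-(cg / 4) * x) * Real.exp (-(cg / 4) * x))
      = K * (x ^ 8 * Real.exp (-(cg / 4) * x)) * Real.exp (-(cg / 4) * x) := by ring
    _ ≤ K * ((Nat.factorial 8 : ℝ) * (4 / cg) ^ 8) * Real.exp (-(cg / 4) * x) := by gcongr

/-- the price of the source is a power of `s` -/
theorem pt_num2 (CRz Cb Cq Ds s CR : ℝ) (hCRz : 0 ≤ CRz) (hCb : 0 ≤ Cb) (hs : 1 ≤ s) (hDs : Ds ≤ Cq * Real.log (2 + s))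
    (h1 : CRz * Real.exp ((4 * Cb + Cq * (2 * Real.pi) ^ 2 / 2) * Real.log 3) ≤ CR) (h2 : 4 * Cb + Cq * (2 * Real.pi) ^ 2 / 2 ≤ CR)
    (hCq : 0 ≤ Cq) :
    CRz * Real.exp (Cb * Real.log (2 + s)) ^ 4 * Real.exp (Ds * (2 * Real.pi) ^ 2 / 2) ≤ CR * s ^ CR := by
  set E : ℝ := 4 * Cb + Cq * (2 * Real.pi) ^ 2 / 2 with hE
  have hE0 : 0 ≤ E := by positivity
  have hs0 : 0 < s := by linarith
  have hl : Real.log (2 + s) ≤ Real.log 3 + Real.log s := by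
    rw [← Real.log_mul (by norm_num) hs0.ne']
    exact Real.log_le_log (by linarith) (by linarith)
  have hl0 : 0 ≤ Real.log (2 + s) := Real.log_nonneg (by linarith)
  have e1 : Real.exp (Cb * Real.log (2 + s)) ^ 4 * Real.exp (Ds * (2 * Real.pi) ^ 2 / 2) ≤ Real.exp (E * Real.log (2 + s)) := by
    rw [← Real.exp_nat_mul, ← Real.exp_add]
    apply Real.exp_le_exp.2
    have : Ds * (2 * Real.pi) ^ 2 / 2 ≤ Cq * Real.log (2 + s) * (2 * Real.pi) ^ 2 / 2 := by gcongr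
    rw [hE]
    push_cast
    nlinarith
  have e2 : Real.exp (E * Real.log (2 + s)) ≤ Real.exp (E * Real.log 3) * s ^ E := by
    rw [Real.rpow_def_of_pos hs0, ← Real.exp_add]
    apply Real.exp_le_exp.2
    nlinarith
  have e3 : s ^ E ≤ s ^ CR := Real.rpow_le_rpow_of_exponent_le hs h2
  have hsE : 0 ≤ s ^ E := Real.rpow_nonneg hs0.le _
  calc CRz * Real.exp (Cb * Real.log (2 + s)) ^ 4 * Real.exp (Ds * (2 * Real.pi) ^ 2 / 2)
      = CRz * (Real.exp (Cb * Real.log (2 + s)) ^ 4 * Real.exp (Ds * (2 * Real.pi) ^ 2 / 2)) := by ring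
    _ ≤ CRz * (Real.exp (E * Real.log 3) * s ^ E) := mul_le_mul_of_nonneg_left (e1.trans e2) hCRz
    _ = CRz * Real.exp (E * Real.log 3) * s ^ E := by ring
    _ ≤ CR * s ^ CR := mul_le_mul h1 e3 hsE ((by positivity : (0 : ℝ) ≤ CRz * Real.exp (E * Real.log 3)).trans h1)

theorem pt_le_two_pow (k : ℕ) : k ≤ 2 ^ k := Nat.lt_two_pow_self.le

/-! ## 3. The assembly -/

/-- **`PhysRStmt` from the exits of the posts.** -/
theorem physR_of (hN : NormGenStmt) (hB : BoxXYStmt) (hQ : XyQLocStmt) (hF : XyFaceCoStmt) (hS : XySrcStmt) (hZ : XyZoneStmt) (hGe : NGeoStmt)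
    (hY : PhyOkStmt) : PhysRStmt := by
  intro b0 a hb0 ha hab
  obtain ⟨cstar, cg, Cb, kB, hc0, hc1, hcg, hCb, hB1⟩ := hB b0 a hb0 ha hab
  refine ⟨cstar, hc0, hc1, fun cb θ hcb hθ => ?_⟩
  obtain ⟨Cq, cq, s1, n1, hCq, hcq, hQ1⟩ := hQ a ha
  obtain ⟨Cp, hCp, hF1⟩ := hF a ha
  obtain ⟨K, kN, hK, hN1⟩ := hN a cstar cb θ Cp Cq cq 4 13 ha hc0 hc1 hcb hθ hCp hCq hcq (by norm_num) (by norm_num)
  obtain ⟨C, hC0, hC⟩ := pt_num1 K cg (by linarith) hcg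
  refine ⟨C, cg / 4, max kB (max kN (max n1 2)), by positivity, fun kR hkR => ?_⟩
  simp only [ge_iff_le, max_le_iff] at hkR
  obtain ⟨hkB, hkN, hkn, hk2⟩ := hkR
  have hx0 : (0 : ℝ) ≤ 2 ^ kR := by positivity
  obtain ⟨U, hU, hN2⟩ := hN1 kR hkN (Real.exp (-cg * 2 ^ kR)) (Real.exp_pos _) (Real.exp_le_one_iff.2 (by nlinarith))
  obtain ⟨CR0, hCR0, hN0⟩ := hN2 0
  obtain ⟨CRz, hCRz, hNz⟩ := hN2 (3 * (4 * (2 ^ kR) ^ 4 + 8) ^ 2)
  obtain ⟨cR, k0, hcR, hB2⟩ := hB1 kR hkB U hU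
  refine ⟨max (max CR0 CRz) (max (CRz * Real.exp ((4 * Cb + Cq * (2 * Real.pi) ^ 2 / 2) * Real.log 3)) (4 * Cb + Cq * (2 * Real.pi) ^ 2 / 2)),
    cR, max k0 s1, hCR0.trans ((le_max_left _ _).trans (le_max_left _ _)), hcR, fun ks hks G c hgeo hcm h5 => ?_⟩
  simp only [ge_iff_le, max_le_iff] at hks
  obtain ⟨hk0, hks1⟩ := hks
  obtain ⟨hBc, hBu⟩ := hB2 ks hk0 G c hgeo hcm h5
  have hw := hgeo.whole
  have hs1 : s1 ≤ c.m := by rw [hcm]; exact hks1.trans (pt_le_two_pow ks)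
  have hn1 : n1 ≤ c.n := by
    refine le_trans ?_ h5
    calc n1 ≤ kR := hkn
      _ ≤ 2 ^ kR := pt_le_two_pow kR
      _ = (2 ^ kR) ^ 1 := (pow_one _).symm
      _ ≤ (2 ^ kR) ^ 5 := Nat.pow_le_pow_right (by positivity) (by norm_num)
  obtain ⟨Ds, hDs0, hDs, hQ2⟩ := hQ1 G c hw hs1 hn1
  have hgm := hC ((2 : ℝ) ^ kR) hx0
  have hgm0 : 0 ≤ K * ((2 : ℝ) ^ kR) ^ 8 * Real.sqrt (Real.exp (-cg * 2 ^ kR)) := by positivity
  have hea : (0 : ℝ) ≤ 1 / ((2 : ℝ) ^ kR) ^ 12 := by positivity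
  constructor
  · intro b hb
    obtain ⟨hbpos, hbox⟩ := hBc b hb
    obtain ⟨p1, p2⟩ := hN0 G c (xyPhy c (2 ^ kR) a b0 b 0) rfl hw h5 (hY G c _ a b0 b 0 hw hbpos) (pr_str hw a b0 ha hb0 b 0) (hGe G c _ hgeo)
      (hF1 G c hw) Ds (hQ2 b0 b 0) ∅ ∅ 0 4 _ 1 le_rfl hea le_rfl le_rfl hbox (hS G c _ a b0 b hw).1 (pt_zone_empty c _ _)
    exact ⟨pt_phys_mono hgm0 hgm zero_le_one le_rfl (pt_phys_empty 1 p1),
      pt_pos_mono (by linarith) ((le_max_left _ _).trans (le_max_left _ _)) zero_le_one le_rfl (pt_pos_empty 1 p2)⟩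
  · intro hfree hdv h8
    have hbox := hBu hfree hdv h8
    have h2n : 2 ∣ c.n := (Dvd.intro _ rfl).trans hdv
    have h4n : 4 ≤ c.n := by
      refine le_trans ?_ h8
      have : 1 ≤ (2 ^ kR) ^ 5 := Nat.one_le_pow _ _ (by positivity)
      omega
    have hks0 : (0 : ℝ) ≤ 2 ^ ks := by positivity
    have hbg : 1 ≤ Real.exp (Cb * Real.log (2 + (2 : ℝ) ^ ks)) :=
      Real.one_le_exp (mul_nonneg hCb (Real.log_nonneg (by linarith)))
    obtain ⟨p1, p2⟩ := hNz G c (xyPhy c (2 ^ kR) a b0 b0 (tauU c)) rfl hw h5 (hY G c _ a b0 b0 _ hw hb0) (pr_str hw a b0 ha hb0 b0 (tauU c))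
      (hGe G c _ hgeo) (hF1 G c hw) Ds (hQ2 b0 b0 (tauU c)) (srcZ c) (zone c (2 * (2 ^ kR) ^ 5)) ((2 * Real.pi) ^ 2) 4 _ _ le_rfl hea le_rfl hbg hbox
      ((hS G c _ a b0 b0 hw).2 hfree h2n h4n) (hZ G c _ hgeo hfree hdv h8)
    have hcmR : (c.m : ℝ) = (2 : ℝ) ^ ks := by rw [hcm]; push_cast; rfl
    rw [hcmR] at hDs
    have hbig := pt_num2 CRz Cb Cq Ds ((2 : ℝ) ^ ks)
      (max (max CR0 CRz) (max (CRz * Real.exp ((4 * Cb + Cq * (2 * Real.pi) ^ 2 / 2) * Real.log 3)) (4 * Cb + Cq * (2 * Real.pi) ^ 2 / 2)))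
      (by linarith) hCb (one_le_pow₀ (by norm_num)) hDs ((le_max_left _ _).trans (le_max_right _ _)) ((le_max_right _ _).trans (le_max_right _ _)) hCq
    have hbig0 : 0 ≤ CRz * Real.exp (Cb * Real.log (2 + (2 : ℝ) ^ ks)) ^ 4 * Real.exp (Ds * (2 * Real.pi) ^ 2 / 2) := by
      have : 0 ≤ CRz := by linarith
      positivity
    exact ⟨pt_phys_mono hgm0 hgm hbig0 hbig p1, pt_pos_mono (by linarith) ((le_max_right _ _).trans (le_max_left _ _)) hbig0 hbig p2⟩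

end

end Claimed.Agent.R285.Ent
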