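import Claimed.Agent.R285.Ent.TrI5
import Claimed.Agent.R285.Ker.B8a
import Claimed.Agent.R285.Ker.Deg

/-!
# ROW 285, POST TRANSPORT, INSTANCES, part 7: the covariance `C_{<m}` for `etiMor`      (architect helper225)
`Cless G m = cov G (Fam.entry.lowP m)`, degree `≤ pp * (m - 1) + …  < 40 m` (`Ker.ker_lowP_natDegree`).
* GLOBAL case (`G.bc = G'.bc`, `c.n = c'.n`, hence `G = G'`): `ψ` is a permutation of the sites which satisfies `step` with `ρ` = exchange of `0, 1` if `r.1`, of `2, 3` if `r.2`: `Ker.ker_cov_sym'`.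
  (`eti_fold_succ`, `eti_succ` at the level of the sites give the steps `+e`; the steps `-e` follow by injectivity or by the same arithmetic.)
* EMBEDDED case (`r = (false, false)`, source free, both sites at distance `≥ 40 m` from the walls): both kernels are the plane kernel:
  `Ker.ker_cov_plane_box` (source; free target), `RG.sp_cov_plane` (torus target: `|x - y| + deg < M ≤ M'`), `Ker.ker_aeval_shift` (translation of the plane kernel).
-/

set_option autoImplicit false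

namespace Claimed.Agent.R285.Ent

open scoped BigOperators
open Claimed.Agent.R285 Claimed.Agent.R285.RG Claimed.Agent.R285.F4a

noncomputable section

/-- one step up (`s = true`) or down on one axis, with the boundary convention -/
def etiStep (bc : BC) (M : ℕ) (s : Bool) (x : ℕ) : ℕ :=
  match bc with
  | BC.per => if s then (if x + 1 < M then x + 1 else 0) else (if 0 < x then x - 1 else M - 1)
  | BC.free => if s then (if x + 1 < M then x + 1 else x) else x - 1

theorem eti_kg_eqns_cite : True := by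
  have := @etiStep.eq_1; trivial

theorem eti_kg_step {bc : BC} {M : ℕ} {r : Bool} {a : ℕ} (h : EtiAdm bc bc M M r a) {x : ℕ} (hx : x < M) (s : Bool) :
    etiA M r a (etiStep bc M s x) = etiStep bc M (xor s r) (etiA M r a x) := by
  obtain ⟨h1, h2, h3, h4, -⟩ := h
  unfold etiA etiStep
  cases bc <;> cases r <;> cases s <;> simp at h3 h4 ⊢ <;> split_ifs <;> omega

theorem eti_kg_fold {G : Geom} (x : Fin G.M) (s : Bool) :
    ((G.fold (((x : ℕ) : ℤ) + (if s then 1 else -1)) : Fin G.M) : ℕ) = etiStep G.bc G.M s x := by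
  have hx := x.2
  unfold etiStep
  rcases hG : G.bc with _ | _
  · have := fold_per_val hG (((x : ℕ) : ℤ) + (if s then 1 else -1))
    cases s
    · simp only [Bool.false_eq_true, if_false] at this ⊢
      split_ifs with hc
      · have e : (((x : ℕ) : ℤ) + -1) % (G.M : ℤ) = (x : ℕ) - 1 := Int.emod_eq_of_lt (by omega) (by omega)
        omega
      · have e0 : ((x : ℕ) : ℤ) = 0 := by omega
        have e : (((x : ℕ) : ℤ) + -1) % (G.M : ℤ) = (G.M : ℤ) - 1 := by
          rw [e0, show (0 : ℤ) + -1 = ((G.M : ℤ) - 1) + (G.M : ℤ) * (-1) by ring, Int.add_mul_emod_self_left]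
          exact Int.emod_eq_of_lt (by omega) (by omega)
        omega
    · simp only [if_true] at this ⊢
      split_ifs with hc
      · have e : (((x : ℕ) : ℤ) + 1) % (G.M : ℤ) = (x : ℕ) + 1 := Int.emod_eq_of_lt (by omega) (by omega)
        omega
      · have e1 : ((x : ℕ) : ℤ) + 1 = G.M := by omega
        have e2 : (((x : ℕ) : ℤ) + 1) % (G.M : ℤ) = 0 := by rw [e1, Int.emod_self]
        omega
  · have := fold_free_val hG (((x : ℕ) : ℤ) + (if s then 1 else -1))
    cases s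
    · simp only [Bool.false_eq_true, if_false] at this ⊢
      by_cases hc : 0 < (x : ℕ)
      · have e : (((x : ℕ) : ℤ) + -1) % (2 * (G.M : ℤ)) = (x : ℕ) - 1 := Int.emod_eq_of_lt (by omega) (by omega)
        rw [e, if_pos (by omega)] at this
        omega
      · have e0 : ((x : ℕ) : ℤ) = 0 := by omega
        have e : (((x : ℕ) : ℤ) + -1) % (2 * (G.M : ℤ)) = 2 * (G.M : ℤ) - 1 := by
          rw [e0, show (0 : ℤ) + -1 = (2 * (G.M : ℤ) - 1) + (2 * (G.M : ℤ)) * (-1) by ring, Int.add_mul_emod_self_left]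
          exact Int.emod_eq_of_lt (by omega) (by omega)
        rw [e, if_neg (by omega)] at this
        omega
    · simp only [if_true] at this ⊢
      have e : (((x : ℕ) : ℤ) + 1) % (2 * (G.M : ℤ)) = (x : ℕ) + 1 := Int.emod_eq_of_lt (by omega) (by omega)
      rw [e] at this
      split_ifs at this ⊢ <;> omega

/-- the affine map commutes with the steps -/
theorem eti_kg_axis {G : Geom} {r : Bool} {a : ℕ} (h : EtiAdm G.bc G.bc G.M G.M r a) (x : Fin G.M) (s : Bool) :
    etiM G.hM r a (G.fold (((x : ℕ) : ℤ) + (if s then 1 else -1)))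
      = G.fold ((((etiM G.hM r a x : Fin G.M) : ℕ) : ℤ) + (if xor s r then 1 else -1)) := by
  apply Fin.ext
  rw [etiM_val h, eti_kg_fold, eti_kg_fold, etiM_val h, eti_kg_step h x.2]

/-- the permutation of the four directions -/
def etiRho (r : Bool × Bool) : Equiv.Perm (Fin 4) where
  toFun := ![if r.1 then 1 else 0, if r.1 then 0 else 1, if r.2 then 3 else 2, if r.2 then 2 else 3]
  invFun := ![if r.1 then 1 else 0, if r.1 then 0 else 1, if r.2 then 3 else 2, if r.2 then 2 else 3]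
  left_inv := by obtain ⟨a, b⟩ := r; cases a <;> cases b <;> decide
  right_inv := by obtain ⟨a, b⟩ := r; cases a <;> cases b <;> decide

theorem eti_kg_geom_ext {G G' : Geom} (h1 : G.bc = G'.bc) (h2 : G.M = G'.M) : G = G' := by
  obtain ⟨b, M, hM⟩ := G
  obtain ⟨b', M', hM'⟩ := G'
  simp only at h1 h2
  subst h1 h2
  rfl

variable {G G' : Geom} {c g : Grid G} {c' g' : Grid G'} {N : Nest c g} {N' : Nest c' g'} {R : ℕ} {r : Bool × Bool} {T : ℕ × ℕ}

/-- LEAF L-ETI-KERG -/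
theorem eti_ker_glob (h : EtiOK N N' R r T) (hg : G.bc = G'.bc ∧ c.n = c'.n) (P : Polynomial ℝ) (v w : G.V) :
    RG.cov G' P ((etiMor N N' R r T).ψ v) ((etiMor N N' R r T).ψ w) = RG.cov G P v w := by
  have hM : G.M = G'.M := by rw [h.vol.M, h.vol'.M, h.m_eq, hg.2]
  obtain rfl : G = G' := eti_kg_geom_ext hg.1 hM
  have hinj := eti_ψ_inj h
  have hbij : Function.Bijective (etiMor N N' R r T).ψ := Finite.injective_iff_bijective.1 hinj
  refine Ker.ker_cov_sym' (Equiv.ofBijective _ hbij) (etiRho r) ?_ P v w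
  intro v e
  have k1 := eti_kg_axis h.s1 v.1
  have k2 := eti_kg_axis h.s2 v.2
  show (etiMor N N' R r T).ψ (G.π (G.ι v + dir e)) = G.π (G.ι ((etiMor N N' R r T).ψ v) + dir (etiRho r e))
  obtain ⟨r1, r2⟩ := r
  have t1 := k1 true
  have f1 := k1 false
  have t2 := k2 true
  have f2 := k2 false
  simp only [if_true, Bool.false_eq_true, if_false] at t1 f1 t2 f2
  fin_cases e
  · refine Prod.ext ?_ ?_
    · show etiM G.hM _ _ (G.fold (((v.1 : ℕ) : ℤ) + 1)) = _
      rw [t1]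
      cases r1 <;> rfl
    · show etiM G.hM _ _ (G.fold (((v.2 : ℕ) : ℤ) + 0)) = _
      rw [add_zero, fold_coe]
      cases r1 <;> simp [etiRho, dir, Geom.π, Geom.ι, fold_coe, etiMor]
  · refine Prod.ext ?_ ?_
    · show etiM G.hM _ _ (G.fold (((v.1 : ℕ) : ℤ) + -1)) = _
      rw [f1]
      cases r1 <;> rfl
    · show etiM G.hM _ _ (G.fold (((v.2 : ℕ) : ℤ) + 0)) = _
      rw [add_zero, fold_coe]
      cases r1 <;> simp [etiRho, dir, Geom.π, Geom.ι, fold_coe, etiMor]
  · refine Prod.ext ?_ ?_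
    · show etiM G.hM _ _ (G.fold (((v.1 : ℕ) : ℤ) + 0)) = _
      rw [add_zero, fold_coe]
      cases r2 <;> simp [etiRho, dir, Geom.π, Geom.ι, fold_coe, etiMor]
    · show etiM G.hM _ _ (G.fold (((v.2 : ℕ) : ℤ) + 1)) = _
      rw [t2]
      cases r2 <;> rfl
  · refine Prod.ext ?_ ?_
    · show etiM G.hM _ _ (G.fold (((v.1 : ℕ) : ℤ) + 0)) = _
      rw [add_zero, fold_coe]
      cases r2 <;> simp [etiRho, dir, Geom.π, Geom.ι, fold_coe, etiMor]
    · show etiM G.hM _ _ (G.fold (((v.2 : ℕ) : ℤ) + -1)) = _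
      rw [f2]
      cases r2 <;> rfl

/-- translation of the plane kernel -/
theorem eti_plane_shift (P : Polynomial ℝ) (t x y : ℤ × ℤ) :
    (Polynomial.aeval spLapZ P) (Pi.single (y + t) 1) (x + t) = (Polynomial.aeval spLapZ P) (Pi.single y 1) x := by
  rw [← Ker.ker_aeval_shift P t (Pi.single (y + t) 1) x]
  have e : (fun z : ℤ × ℤ => (Pi.single (y + t) (1 : ℝ) : ℤ × ℤ → ℝ) (z + t)) = Pi.single y 1 := by
    funext z
    by_cases hz : z = y
    · subst hz; simp
    · rw [Pi.single_eq_of_ne hz, Pi.single_eq_of_ne (fun e => hz (add_right_cancel e))]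
  rw [e]

/-- one axis of an embedding: the value of the unreflected affine map -/
theorem eti_emb_val {bc bc' : BC} {n n' a x : ℕ} (h : EtiAdm bc bc' n n' false a) (hx : x < n) :
    ((etiA n' false a x : ℕ) : ℤ) = ((x : ℤ) + a) % n' ∧ (bc' = BC.free → etiA n' false a x = x + a) := by
  obtain ⟨h1, h2, -, h4, -⟩ := h
  unfold etiA
  simp only [Bool.false_eq_true, if_false]
  constructor
  · split_ifs with hc
    · rw [Int.emod_eq_of_lt (by omega) (by omega)]; push_cast; ring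
    · have e : ((x : ℤ) + a) % n' = (x : ℤ) + a - n' := by
        rw [← Int.sub_emod_right, Int.emod_eq_of_lt (by omega) (by omega)]
      rw [e]; omega
  · intro hf
    have := h4 hf
    simp only [Bool.false_eq_true, if_false] at this
    rw [if_pos (by omega)]

/-- LEAF L-ETI-KERE -/
theorem eti_ker_emb (h : EtiOK N N' R r T) (hr : r = (false, false)) (hf : G.bc = BC.free) (P : Polynomial ℝ) (D : ℕ) (hP : P.natDegree ≤ D) (v w : G.V)
    (hv : D ≤ (v.1 : ℕ) ∧ (v.1 : ℕ) + D < G.M ∧ D ≤ (v.2 : ℕ) ∧ (v.2 : ℕ) + D < G.M)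
    (hw : D ≤ (w.1 : ℕ) ∧ (w.1 : ℕ) + D < G.M ∧ D ≤ (w.2 : ℕ) ∧ (w.2 : ℕ) + D < G.M) :
    RG.cov G' P ((etiMor N N' R r T).ψ v) ((etiMor N N' R r T).ψ w) = RG.cov G P v w := by
  subst hr
  obtain ⟨v1, v2, v3, v4⟩ := hv
  obtain ⟨w1, w2, w3, w4⟩ := hw
  have s1 := h.s1
  have s2 := h.s2
  simp only at s1 s2
  set a1 := etiSc c.m false (etiSc R false T.1) with ha1
  set a2 := etiSc c.m false (etiSc R false T.2) with ha2
  -- the source
  rw [Ker.ker_cov_plane_box G P v w ⟨by omega, by omega, by omega, by omega⟩,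
    ← eti_plane_shift P ((a1 : ℤ), (a2 : ℤ)) (G.ι v) (G.ι w)]
  have val1 : ∀ u : G.V, ((((etiMor N N' R (false, false) T).ψ u).1 : Fin G'.M) : ℕ) = etiA G'.M false a1 u.1 := fun u => eti_ψ1 h u
  have val2 : ∀ u : G.V, ((((etiMor N N' R (false, false) T).ψ u).2 : Fin G'.M) : ℕ) = etiA G'.M false a2 u.2 := fun u => eti_ψ2 h u
  rcases Reg.regl_bc G' with hp | hp
  · -- torus
    have hπ : ∀ u : G.V, (etiMor N N' R (false, false) T).ψ u = G'.π (G.ι u + ((a1 : ℤ), (a2 : ℤ))) := fun u => by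
      refine Prod.ext (Fin.ext ?_) (Fin.ext ?_)
      · have e1 := (eti_emb_val s1 u.1.2).1
        have e2 := Reg.regl_fold_per G' hp (((u.1 : ℕ) : ℤ) + a1)
        rw [val1 u]
        have : (((G'.π (G.ι u + ((a1 : ℤ), (a2 : ℤ)))).1 : Fin G'.M) : ℕ) = ((G'.fold (((u.1 : ℕ) : ℤ) + a1) : Fin G'.M) : ℕ) := rfl
        rw [this]
        omega
      · have e1 := (eti_emb_val s2 u.2.2).1
        have e2 := Reg.regl_fold_per G' hp (((u.2 : ℕ) : ℤ) + a2)
        rw [val2 u]
        have : (((G'.π (G.ι u + ((a1 : ℤ), (a2 : ℤ)))).2 : Fin G'.M) : ℕ) = ((G'.fold (((u.2 : ℕ) : ℤ) + a2) : Fin G'.M) : ℕ) := rfl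
        rw [this]
        omega
    rw [hπ v, hπ w]
    refine sp_cov_plane G' hp P _ _ ?_
    have hM := s1.n_le
    have e1 : ((G.ι v + ((a1 : ℤ), (a2 : ℤ))).1 - (G.ι w + ((a1 : ℤ), (a2 : ℤ))).1) = ((v.1 : ℕ) : ℤ) - ((w.1 : ℕ) : ℤ) := by
      show ((v.1 : ℕ) : ℤ) + a1 - (((w.1 : ℕ) : ℤ) + a1) = _
      ring
    have e2 : ((G.ι v + ((a1 : ℤ), (a2 : ℤ))).2 - (G.ι w + ((a1 : ℤ), (a2 : ℤ))).2) = ((v.2 : ℕ) : ℤ) - ((w.2 : ℕ) : ℤ) := by
      show ((v.2 : ℕ) : ℤ) + a2 - (((w.2 : ℕ) : ℤ) + a2) = _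
      ring
    rw [e1, e2]
    have : max (((v.1 : ℕ) : ℤ) - ((w.1 : ℕ) : ℤ)).natAbs (((v.2 : ℕ) : ℤ) - ((w.2 : ℕ) : ℤ)).natAbs + D < G.M := by
      rcases max_cases (((v.1 : ℕ) : ℤ) - ((w.1 : ℕ) : ℤ)).natAbs (((v.2 : ℕ) : ℤ) - ((w.2 : ℕ) : ℤ)).natAbs with ⟨e, -⟩ | ⟨e, -⟩ <;> rw [e] <;> omega
    omega
  · -- free square
    have f1 : ∀ u : G.V, ((((etiMor N N' R (false, false) T).ψ u).1 : Fin G'.M) : ℕ) = (u.1 : ℕ) + a1 := fun u => by
      rw [val1 u]; exact (eti_emb_val s1 u.1.2).2 hp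
    have f2 : ∀ u : G.V, ((((etiMor N N' R (false, false) T).ψ u).2 : Fin G'.M) : ℕ) = (u.2 : ℕ) + a2 := fun u => by
      rw [val2 u]; exact (eti_emb_val s2 u.2.2).2 hp
    have hι : ∀ u : G.V, G'.ι ((etiMor N N' R (false, false) T).ψ u) = G.ι u + ((a1 : ℤ), (a2 : ℤ)) := fun u => by
      refine Prod.ext ?_ ?_
      · show (((((etiMor N N' R (false, false) T).ψ u).1 : Fin G'.M) : ℕ) : ℤ) = ((u.1 : ℕ) : ℤ) + a1
        rw [f1 u]; push_cast; ring
      · show (((((etiMor N N' R (false, false) T).ψ u).2 : Fin G'.M) : ℕ) : ℤ) = ((u.2 : ℕ) : ℤ) + a2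
        rw [f2 u]; push_cast; ring
    have b1 := s1.free hp
    have b2 := s2.free hp
    simp only [Bool.false_eq_true, if_false] at b1 b2
    rw [Ker.ker_cov_plane_box G' P _ _ ⟨by rw [f1 v]; omega, by rw [f1 v]; omega, by rw [f2 v]; omega, by rw [f2 v]; omega⟩, hι v, hι w]

/-- a site in a deep cell is far from the walls -/
theorem eti_site_deep {m n k x : ℕ} (hm : 0 < m) (h1 : k ≤ x / m) (h2 : x / m + k < n) : k * m ≤ x ∧ x + k * m < m * n := by
  have a1 : x / m * m ≤ x := Nat.div_mul_le_self x m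
  have a2 : x < (x / m + 1) * m := by
    have := Nat.lt_div_mul_add (a := x) hm
    nlinarith
  have a3 : (x / m + 1 + k) * m ≤ n * m := Nat.mul_le_mul_right _ (by omega)
  constructor
  · nlinarith
  · nlinarith

/-- LEAF L-ETI-KER (glue) -/
theorem eti_ker (h : EtiOK N N' R r T) (v w : G.V) (hv : (etiMor N N' R r T).deep (40 * R) (c.blk v)) (hw : (etiMor N N' R r T).deep (40 * R) (c.blk w)) :
    Cless G' g'.m ((etiMor N N' R r T).ψ v) ((etiMor N N' R r T).ψ w) = Cless G g.m v w := by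
  have hgm : g'.m = g.m := by rw [h.vol'.gm, h.vol.gm, h.m_eq]
  rw [hgm]
  show RG.cov G' (Fam.entry.lowP g.m) _ _ = RG.cov G (Fam.entry.lowP g.m) v w
  by_cases hg : G.bc = G'.bc ∧ c.n = c'.n
  · exact eti_ker_glob h hg _ v w
  · have hr : r = (false, false) := by
      have h1 : ¬ (r.1 = true ∨ r.2 = true) := fun e => hg ⟨(h.refl e).1, by rw [h.vol.cn, h.vol'.cn, (h.refl e).2]⟩
      push Not at h1
      exact Prod.ext (by simpa using h1.1) (by simpa using h1.2)
    have hf : G.bc = BC.free := by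
      rcases Reg.regl_bc G with hp | hp
      · exact absurd ⟨hp.trans (h.c1.per hp).1.symm, (h.c1.per hp).2.symm⟩ hg
      · exact hp
    have hdeg : (Fam.entry.lowP g.m).natDegree ≤ 40 * R * c.m := by
      have := Ker.ker_lowP_natDegree Fam.entry 0 (by simp [Fam.entry]) g.m
      rw [h.vol.gm] at this ⊢
      have e : pp = 32 := rfl
      rw [e] at this
      nlinarith [Nat.zero_le (R * c.m)]
    have hm := h.vol.whole.pos
    obtain ⟨hv1, hv2⟩ := hv
    obtain ⟨hw1, hw2⟩ := hw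
    have hv1' := hv1.resolve_left hg
    have hv2' := hv2.resolve_left hg
    have hw1' := hw1.resolve_left hg
    have hw2' := hw2.resolve_left hg
    have bv1 : (((c.blk v).1 : Fin c.n) : ℕ) = (v.1 : ℕ) / c.m := h.vol.blk1 v.1
    have bv2 : (((c.blk v).2 : Fin c.n) : ℕ) = (v.2 : ℕ) / c.m := h.vol.blk1 v.2
    have bw1 : (((c.blk w).1 : Fin c.n) : ℕ) = (w.1 : ℕ) / c.m := h.vol.blk1 w.1
    have bw2 : (((c.blk w).2 : Fin c.n) : ℕ) = (w.2 : ℕ) / c.m := h.vol.blk1 w.2
    rw [bv1] at hv1'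
    rw [bv2] at hv2'
    rw [bw1] at hw1'
    rw [bw2] at hw2'
    have k1 := eti_site_deep hm hv1'.1 hv1'.2
    have k2 := eti_site_deep hm hv2'.1 hv2'.2
    have k3 := eti_site_deep hm hw1'.1 hw1'.2
    have k4 := eti_site_deep hm hw2'.1 hw2'.2
    rw [← h.vol.M] at k1 k2 k3 k4
    exact eti_ker_emb h hr hf _ (40 * R * c.m) hdeg v w ⟨k1.1, k1.2, k2.1, k2.2⟩ ⟨k3.1, k3.2, k4.1, k4.2⟩

end

end Claimed.Agent.R285.Ent
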