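import Claimed.Agent.R285.Ent.TrI6
import Claimed.Agent.R285.Ent.TrI7

/-!
# ROW 285, POST TRANSPORT, INSTANCES, part 8: `etiMor_ok`      (helper225)
-/

set_option autoImplicit false

namespace Claimed.Agent.R285.Ent

open scoped BigOperators
open Claimed.Agent.R285 Claimed.Agent.R285.RG Claimed.Agent.R285.F4a

noncomputable section

variable {G G' : Geom} {c g : Grid G} {c' g' : Grid G'} {N : Nest c g} {N' : Nest c' g'} {R : ℕ} {r : Bool × Bool} {T : ℕ × ℕ}

/-- **the affine morphisms are morphisms** -/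
theorem etiMor_ok (h : EtiOK N N' R r T) : (etiMor N N' R r T).Ok R where
  m_eq := h.m_eq
  gm_eq := eti_gm_eq h
  n_le := eti_n_le h
  n_ge := eti_n_ge
  φ_inj := eti_φ_inj h
  δ_inj := fun _ _ e => e
  deep_mono := eti_deep_mono
  deep_step := eti_deep_step h
  lift := eti_lift2 h
  dd_zero := eti_dd_zero h
  dd_le := eti_dd_le h
  dd_eq := eti_dd_eq h
  cross := eti_cross2 h
  cross' := eti_cross2' h
  face := eti_face h
  face_lift := eti_face_lift2 h
  tile := eti_tile h
  θT_inj := eti_θT_inj h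
  key := eti_key h
  θE_inj := eti_θE_inj h
  θE_fst := fun _ => rfl
  up := eti_up h
  φg_inj := eti_φg_inj h
  up_lift := eti_up_lift h
  gd_le := eti_gd_le h
  gd_eq := eti_gd_eq h
  ψ_inj := eti_ψ_inj h
  blk := eti_blk h
  blk_lift := eti_blk_lift h
  bond := eti_bond h
  bond_lift := fun v w d' e hvw _ => eti_bond_lift h v w d' e hvw
  ker := eti_ker h

end

end Claimed.Agent.R285.Ent
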