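import Claimed.Agent.R285.Map.Sym

/-!
# ROW 285, POST TRANSPORT, INSTANCES: classification of the symmetries of a torus with a grid            (helper273)
`etc_class`: on a torus (`g.Ok`, at least two blocks per side, `3 ≤ M`) every `s : GridSym g` is, after an optional exchange of the coordinates, a product of two maps of one axis,
`x ↦ x + m t` or `x ↦ m (t + 1) - 1 - x` (blocks: `u ↦ u + t`, `u ↦ t - u`), `t < g.n`.  Input: `Pack.sym_affine` (`Map/Sym.lean`).  Nothing is sorried.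
-/

set_option autoImplicit false

namespace Claimed.Agent.R285.Ent

open Claimed.Agent.R285 Claimed.Agent.R285.RG Claimed.Agent.R285.Pack

variable {G : Geom} {g : Grid G}

/-- an affine map of one axis which preserves the blocks of side `m` -/
def etcAx (m : ℕ) (r : Bool) (t : ℕ) (x : ℤ) : ℤ := if r then (m : ℤ) * (t + 1) - 1 - x else x + (m : ℤ) * t

theorem etc_arith_pos {m n p : ℕ} (hm : 0 < m) (hn : 2 ≤ n) (hp : p < n * m)
    (h : ∀ x, x < m → ((p + x) % (n * m)) / m = p / m) : p % m = 0 := by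
  by_contra hr
  have hlt := Nat.mod_lt p hm
  have hdm := Nat.div_add_mod p m
  have hq : p / m < n := Nat.div_lt_of_lt_mul (by rwa [Nat.mul_comm] at hp)
  have h1 := h (m - p % m) (by omega)
  have e : p + (m - p % m) = m * (p / m + 1) := by rw [Nat.mul_add, Nat.mul_one]; omega
  rw [e] at h1
  rcases Nat.lt_or_ge (p / m + 1) n with h2 | h2
  · rw [Nat.mod_eq_of_lt (by rw [Nat.mul_comm n m]; exact Nat.mul_lt_mul_of_pos_left h2 hm), Nat.mul_div_cancel_left _ hm] at h1
    omega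
  · have e2 : p / m + 1 = n := by omega
    rw [e2, Nat.mul_comm m n, Nat.mod_self, Nat.zero_div] at h1
    omega

theorem etc_arith_neg {m n p : ℕ} (hm : 0 < m) (hn : 2 ≤ n) (hp : p < n * m)
    (h : ∀ x, x < m → ((p + n * m - x) % (n * m)) / m = p / m) : p % m + 1 = m := by
  by_contra hr
  have hlt := Nat.mod_lt p hm
  have hdm := Nat.div_add_mod p m
  have hq : p / m < n := Nat.div_lt_of_lt_mul (by rwa [Nat.mul_comm] at hp)
  have h1 := h (p % m + 1) (by omega)
  rcases Nat.eq_zero_or_pos (p / m) with h2 | h2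
  · rw [h2] at h1 hdm
    obtain ⟨n', rfl⟩ : ∃ n', n = n' + 1 := ⟨n - 1, by omega⟩
    have e : p + (n' + 1) * m - (p % m + 1) = m * n' + (m - 1) := by
      rw [Nat.add_mul, Nat.one_mul, Nat.mul_comm n' m]; omega
    have e3 : m * n' + (m - 1) < (n' + 1) * m := by rw [Nat.add_mul, Nat.one_mul, Nat.mul_comm n' m]; omega
    rw [e, Nat.mod_eq_of_lt e3, Nat.mul_add_div hm, Nat.div_eq_of_lt (by omega)] at h1
    omega
  · obtain ⟨q', hq'⟩ : ∃ q', p / m = q' + 1 := ⟨p / m - 1, by omega⟩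
    rw [hq'] at h1 hdm hq
    have hmq : m * (q' + 1) = m * q' + m := by rw [Nat.mul_add, Nat.mul_one]
    have e : p + n * m - (p % m + 1) = (m * q' + (m - 1)) + n * m := by omega
    have e3 : m * q' + (m - 1) < n * m := by
      have : m * (q' + 1) ≤ m * n := Nat.mul_le_mul_left m hq.le
      rw [Nat.mul_comm n m]; omega
    rw [e, Nat.add_mod_right, Nat.mod_eq_of_lt e3, Nat.mul_add_div hm, Nat.div_eq_of_lt (by omega)] at h1
    omega

/-- one axis: a map `x ↦ p ± x` which maps the first block into one block -/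
theorem etc_axis (hG : G.bc = BC.per) (hg : g.Ok) (hn : 2 ≤ g.n) (p : Fin G.M) (ε : Bool)
    (h : ∀ x : Fin G.M, (x : ℕ) < g.m → g.blk1 (G.fold (((p : ℕ) : ℤ) + (if ε then -1 else 1) * ((x : ℕ) : ℤ))) = g.blk1 p) :
    ∃ t, t < g.n ∧ ∀ x : ℤ, ((p : ℕ) : ℤ) + (if ε then -1 else 1) * x = etcAx g.m ε t x := by
  have hM := syml_M hG hg
  have hm := hg.pos
  have hp : (p : ℕ) < g.n * g.m := hM ▸ p.2
  have hmM : g.m ≤ G.M := by rw [hM]; exact Nat.le_mul_of_pos_left _ (by omega)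
  have hq : (p : ℕ) / g.m < g.n := Nat.div_lt_of_lt_mul (by rwa [Nat.mul_comm] at hp)
  have hdm := Nat.div_add_mod (p : ℕ) g.m
  have hb : ∀ x : Fin G.M, (x : ℕ) < g.m →
      ((G.fold (((p : ℕ) : ℤ) + (if ε then -1 else 1) * ((x : ℕ) : ℤ)) : Fin G.M) : ℕ) / g.m = (p : ℕ) / g.m := by
    intro x hx
    rw [← syml_blk1 hG hg, ← syml_blk1 hG hg, h x hx]
  refine ⟨(p : ℕ) / g.m, hq, ?_⟩
  have hMM : ∀ y : ℕ, y % G.M = y % (g.n * g.m) := fun y => by rw [hM]
  cases ε
  · have key : (p : ℕ) % g.m = 0 := by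
      refine etc_arith_pos hm hn hp fun x hx => ?_
      have h1 : ((G.fold (((p : ℕ) : ℤ) + (if false = true then -1 else 1) * ((x : ℕ) : ℤ)) : Fin G.M) : ℕ) / g.m = (p : ℕ) / g.m :=
        hb ⟨x, by omega⟩ hx
      have h2 := Reg.regl_fold_per G hG (((p : ℕ) : ℤ) + (if false = true then -1 else 1) * ((x : ℕ) : ℤ))
      have h3 : (((p : ℕ) : ℤ) + (if false = true then -1 else 1) * ((x : ℕ) : ℤ)) = (((p : ℕ) + x : ℕ) : ℤ) := by
        simp
      have h4 : ((G.fold (((p : ℕ) : ℤ) + (if false = true then -1 else 1) * ((x : ℕ) : ℤ)) : Fin G.M) : ℕ) = ((p : ℕ) + x) % G.M := by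
        rw [show (((p : ℕ) : ℤ) + (if false = true then -1 else 1) * ((x : ℕ) : ℤ)) % (G.M : ℤ) = ((((p : ℕ) + x) % G.M : ℕ) : ℤ) by
          rw [h3, Int.natCast_mod]] at h2
        exact_mod_cast h2
      rw [h4, hMM] at h1
      exact h1
    intro x
    unfold etcAx
    simp only [Bool.false_eq_true, if_false, one_mul]
    have : ((p : ℕ) : ℤ) = (g.m : ℤ) * (((p : ℕ) / g.m : ℕ) : ℤ) := by
      have : (p : ℕ) = g.m * ((p : ℕ) / g.m) := by omega
      exact_mod_cast this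
    linarith
  · have key : (p : ℕ) % g.m + 1 = g.m := by
      refine etc_arith_neg hm hn hp fun x hx => ?_
      have h1 : ((G.fold (((p : ℕ) : ℤ) + (if true = true then -1 else 1) * ((x : ℕ) : ℤ)) : Fin G.M) : ℕ) / g.m = (p : ℕ) / g.m :=
        hb ⟨x, by omega⟩ hx
      have h2 := Reg.regl_fold_per G hG (((p : ℕ) : ℤ) + (if true = true then -1 else 1) * ((x : ℕ) : ℤ))
      have h3 : (((p : ℕ) : ℤ) + (if true = true then -1 else 1) * ((x : ℕ) : ℤ)) + (G.M : ℤ) = (((p : ℕ) + G.M - x : ℕ) : ℤ) := by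
        simp only [if_true]
        omega
      have h4 : ((G.fold (((p : ℕ) : ℤ) + (if true = true then -1 else 1) * ((x : ℕ) : ℤ)) : Fin G.M) : ℕ) = ((p : ℕ) + G.M - x) % G.M := by
        rw [← Int.add_emod_right, h3, ← Int.natCast_mod] at h2
        exact_mod_cast h2
      have h5 : (p : ℕ) + G.M - x = (p : ℕ) + g.n * g.m - x := by omega
      rw [h4, hMM, h5] at h1
      exact h1
    intro x
    unfold etcAx
    simp only [if_true]
    have : ((p : ℕ) : ℤ) + 1 = (g.m : ℤ) * ((((p : ℕ) / g.m : ℕ) : ℤ) + 1) := by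
      have : (p : ℕ) + 1 = g.m * ((p : ℕ) / g.m + 1) := by rw [Nat.mul_add, Nat.mul_one]; omega
      exact_mod_cast this
    linarith

/-- the linear part of a symmetry is a signed permutation -/
theorem etc_lin (hG : G.bc = BC.per) (hM : 3 ≤ G.M) (s : GridSym g) :
    ∃ (r : Bool × Bool) (sw : Bool), ∀ y : ℤ × ℤ,
      symT s y = ((if r.1 then -1 else 1) * (if sw then y.2 else y.1), (if r.2 then -1 else 1) * (if sw then y.1 else y.2)) := by
  obtain ⟨h1, -⟩ := sym_opp hG hM s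
  have n02 : s.ρ 0 ≠ s.ρ 2 := fun h => by have := s.ρ.injective h; simp at this
  have n12 : dir (s.ρ 2) ≠ -dir (s.ρ 0) := fun h => by
    rw [← h1] at h
    have := s.ρ.injective (syml_dir_inj h); simp at this
  unfold symT
  generalize s.ρ 0 = a at *
  generalize s.ρ 2 = b at *
  fin_cases a <;> fin_cases b <;>
  first
    | (exfalso; simp [dir] at n02 n12; done)
    | (refine ⟨(false, false), false, fun y => ?_⟩; simp [dir]; done)
    | (refine ⟨(true, false), false, fun y => ?_⟩; simp [dir]; done)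
    | (refine ⟨(false, true), false, fun y => ?_⟩; simp [dir]; done)
    | (refine ⟨(true, true), false, fun y => ?_⟩; simp [dir]; done)
    | (refine ⟨(false, false), true, fun y => ?_⟩; simp [dir]; done)
    | (refine ⟨(true, false), true, fun y => ?_⟩; simp [dir]; done)
    | (refine ⟨(false, true), true, fun y => ?_⟩; simp [dir]; done)
    | (refine ⟨(true, true), true, fun y => ?_⟩; simp [dir]; done)

/-- **classification of the symmetries of a torus which preserve a grid** -/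
theorem etc_class (hG : G.bc = BC.per) (hg : g.Ok) (hn : 2 ≤ g.n) (hM : 3 ≤ G.M) (s : GridSym g) :
    ∃ (r : Bool × Bool) (T : ℕ × ℕ) (sw : Bool), T.1 < g.n ∧ T.2 < g.n ∧ ∀ v : G.V,
      s.σ v = G.π (etcAx g.m r.1 T.1 (G.ι (if sw then (v.2, v.1) else v)).1, etcAx g.m r.2 T.2 (G.ι (if sw then (v.2, v.1) else v)).2) := by
  obtain ⟨r, sw, hlin⟩ := etc_lin hG hM s
  have hσ : ∀ v, s.σ v = G.π (G.ι (s.σ (G.π 0)) + symT s (G.ι v)) := fun v => by
    have := sym_affine hG hM s 0 (G.ι v)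
    rwa [zero_add, Reg.reg_pi_iota] at this
  have hm := hg.pos
  have z0 : ∀ x : Fin G.M, (x : ℕ) < g.m → g.blk1 x = g.blk1 ⟨0, G.hM⟩ := by
    intro x hx
    apply Fin.ext
    rw [syml_blk1 hG hg, syml_blk1 hG hg, Nat.div_eq_of_lt hx]
    simp
  have hsame : ∀ v v' : G.V, g.blk v = g.blk v' → g.blk (s.σ v) = g.blk (s.σ v') := fun v v' h => by
    rw [s.blk, s.blk, h]
  have hfold0 : ∀ p : Fin G.M, G.fold ((p : ℕ) : ℤ) = p := fun p => by
    have := congrArg Prod.fst (Reg.reg_pi_iota (G := G) (p, p))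
    exact this
  set P := s.σ (G.π 0) with hP
  -- the two axes
  have ax1 : ∀ x : Fin G.M, (x : ℕ) < g.m →
      g.blk1 (G.fold (((P.1 : ℕ) : ℤ) + (if r.1 then -1 else 1) * ((x : ℕ) : ℤ))) = g.blk1 P.1 := by
    intro x hx
    have h1 := hsame (if sw then (⟨0, G.hM⟩, x) else (x, ⟨0, G.hM⟩)) (⟨0, G.hM⟩, ⟨0, G.hM⟩) (by
      cases sw
      · exact Prod.ext (z0 x hx) rfl
      · exact Prod.ext rfl (z0 x hx))
    rw [hσ, hσ, hlin, hlin] at h1
    have h2 := congrArg Prod.fst h1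
    cases sw <;> simpa [Grid.blk, Geom.π, Geom.ι, hfold0] using h2
  have ax2 : ∀ x : Fin G.M, (x : ℕ) < g.m →
      g.blk1 (G.fold (((P.2 : ℕ) : ℤ) + (if r.2 then -1 else 1) * ((x : ℕ) : ℤ))) = g.blk1 P.2 := by
    intro x hx
    have h1 := hsame (if sw then (x, ⟨0, G.hM⟩) else (⟨0, G.hM⟩, x)) (⟨0, G.hM⟩, ⟨0, G.hM⟩) (by
      cases sw
      · exact Prod.ext rfl (z0 x hx)
      · exact Prod.ext (z0 x hx) rfl)
    rw [hσ, hσ, hlin, hlin] at h1
    have h2 := congrArg Prod.snd h1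
    cases sw <;> simpa [Grid.blk, Geom.π, Geom.ι, hfold0] using h2
  obtain ⟨t1, ht1, e1⟩ := etc_axis hG hg hn P.1 r.1 ax1
  obtain ⟨t2, ht2, e2⟩ := etc_axis hG hg hn P.2 r.2 ax2
  refine ⟨r, (t1, t2), sw, ht1, ht2, fun v => ?_⟩
  rw [hσ, hlin, ← e1, ← e2]
  cases sw <;> rfl

end Claimed.Agent.R285.Ent
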