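import Claimed.Agent.R285.Ent.TrDefs
import Claimed.Agent.R285.Ent.Geo
import Claimed.Agent.R285.Ker.B8a

/-!
# ROW 285, POST TRANSPORT, INSTANCES: the exchange of the two coordinates            (helper273)
`etwSwap N : Mor N N` (`ψ v = (v.2, v.1)`, `δ = not`, no reversal, labels `Geo.swT`, everything is deep), `etw_swap_ok : (etwSwap N).Ok R`.  Nothing is sorried.
-/

set_option autoImplicit false

namespace Claimed.Agent.R285.Ent

open scoped BigOperators
open Claimed.Agent.R285 Claimed.Agent.R285.RG Claimed.Agent.R285.F4a Claimed.Agent.R285.Geo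

noncomputable section

variable {G : Geom} {c g : Grid G}

/-- the exchange of the coordinates -/
def etwSwap (N : Nest c g) : Mor N N :=
  ⟨Prod.swap, Prod.swap, Prod.swap, fun d => !d, fun _ => false, swT, swT, fun _ _ => True⟩

theorem etw_swT_inj : Function.Injective swT := fun t t' h => by
  rw [← swT_swT t, h, swT_swT]

theorem etw_dd (d : Bool) (i j : c.I) : dd c (!d) i.swap j.swap = dd c d i j := by
  cases d <;> rfl

theorem etw_idist (g : Grid G) (u v : g.I) : g.idist u.swap v.swap = g.idist u v := max_comm _ _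

theorem etw_fnb (f : Face c) : fnb c (f.1.swap, !f.2) = (fnb c f).swap := by
  obtain ⟨⟨x, y⟩, d⟩ := f
  cases d <;> rfl

theorem etw_isFace {f : Face c} (hf : IsFace c f) : IsFace c (f.1.swap, !f.2) := by
  obtain ⟨⟨x, y⟩, d⟩ := f
  cases d <;> exact hf

theorem etw_stp (v : G.V) (d : Bool) : stp v.swap (!d) = (stp v d).swap := by
  obtain ⟨x, y⟩ := v
  cases d <;> rfl

/-- the permutation of the four directions -/
def etwRho : Equiv.Perm (Fin 4) := ⟨![2, 3, 0, 1], ![2, 3, 0, 1], by decide, by decide⟩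

theorem etw_step (v : G.V) (e : Fin 4) :
    (Equiv.prodComm _ _ : Equiv.Perm G.V) (G.π (G.ι v + dir e)) = G.π (G.ι ((Equiv.prodComm _ _ : Equiv.Perm G.V) v) + dir (etwRho e)) := by
  obtain ⟨x, y⟩ := v
  fin_cases e <;> rfl

theorem etw_ker (P : Polynomial ℝ) (v w : G.V) : RG.cov G P v.swap w.swap = RG.cov G P v w :=
  Ker.ker_cov_sym' (Equiv.prodComm _ _) etwRho etw_step P v w

theorem etw_swap_ok (N : Nest c g) {R : ℕ} (h : Adm c R) : (etwSwap N).Ok R where
  m_eq := rfl
  gm_eq := rfl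
  n_le := le_rfl
  n_ge := fun _ _ _ => Or.inr le_rfl
  φ_inj := Prod.swap_injective
  δ_inj := Bool.not_injective
  deep_mono := fun _ _ _ _ _ => trivial
  deep_step := fun _ _ _ _ _ _ => trivial
  lift := fun _ _ j' _ _ => ⟨j'.swap, Prod.swap_swap j'⟩
  dd_zero := fun d i j => by
    show dd c (!d) i.swap j.swap = 0 ↔ _
    rw [etw_dd]
  dd_le := fun d i j => (etw_dd d i j).le
  dd_eq := fun _ d i j _ _ => etw_dd d i j
  cross := fun _ _ _ _ _ => trivial
  cross' := fun _ _ _ _ _ => trivial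
  face := fun f hf => ⟨etw_isFace hf, etw_fnb f⟩
  face_lift := fun f' _ hf _ _ => ⟨(f'.1.swap, !f'.2), etw_isFace hf, by
    obtain ⟨⟨x, y⟩, d⟩ := f'
    cases d <;> rfl⟩
  tile := fun i => tile_swap h i.1 i.2
  θT_inj := etw_swT_inj.injOn
  key := fun f _ => by
    show evKey c R (f.1.swap, !f.2) = swT (evKey c R f)
    rw [evKey_eq, evKey_eq, etw_fnb, ← keyOf_swap]
    exact congrArg₂ keyOf (tile_swap h f.1.1 f.1.2) (tile_swap h (fnb c f).1 (fnb c f).2)
  θE_inj := etw_swT_inj.injOn
  θE_fst := fun _ => rfl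
  up := fun _ => rfl
  φg_inj := Prod.swap_injective
  up_lift := fun _ i' _ => ⟨i'.swap, Prod.swap_swap i'⟩
  gd_le := fun u v => (etw_idist g u v).le
  gd_eq := fun _ i v _ _ => (etw_idist g (N.up i) v).symm
  ψ_inj := Prod.swap_injective
  blk := fun _ => rfl
  blk_lift := fun _ v' _ => ⟨v'.swap, Prod.swap_swap v'⟩
  bond := fun v d _ => etw_stp v d
  bond_lift := fun v w d' hs _ _ => ⟨!d', Bool.not_not d', by
    have := etw_stp v (!d')
    rw [Bool.not_not] at this
    exact Prod.swap_injective (this.symm.trans hs)⟩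
  ker := fun v w _ _ => etw_ker _ v w

theorem etw_swap_glob (N : Nest c g) (ρ : ℕ) (i : c.I) : (etwSwap N).deep ρ i := trivial

theorem etw_swap_psi (N : Nest c g) (v : G.V) : (etwSwap N).ψ v = (v.2, v.1) := rfl

end

end Claimed.Agent.R285.Ent
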