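import Claimed.Agent.R285.Ent.TrMain
import Claimed.Agent.R285.Ent.TrISw
import Claimed.Agent.R285.Ent.TrI8
import Claimed.Agent.R285.Ent.TrICl
import Claimed.Agent.R285.Ent.PropLaw
import Claimed.Agent.R285.Map.Defs

/-!
# ROW 285, POST TRANSPORT: THE THREE EXITS `GaugeStmt`, `SymStmt`, `CopyStmt`            (helper238)
-/

set_option autoImplicit false

namespace Claimed.Agent.R285.Ent

open scoped BigOperators ENNReal NNReal
open MeasureTheory ProbabilityTheory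
open Claimed.Agent.R285 Claimed.Agent.R285.RG Claimed.Agent.R285.B4 Claimed.Agent.R285.F4a Claimed.Agent.R285.F4b

noncomputable section

/-! ## 0. Volumes -/

theorem etr_vol (𝒱 : Vol) (h : GeoOK 𝒱.c (vR 𝒱)) :
    0 < 𝒱.s ∧ 0 < 𝒱.m ∧ 𝒱.m = vR 𝒱 * 𝒱.s ∧ 𝒱.g.Ok ∧ NestOK (vNest 𝒱) (vR 𝒱) := by
  have hs0 : 0 < 𝒱.s := h.whole.pos
  have hm : 𝒱.m = vR 𝒱 * 𝒱.s := (Nat.div_mul_cancel 𝒱.hsm).symm
  have hm0 : 0 < 𝒱.m := by rw [hm]; exact Nat.mul_pos h.pos hs0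
  refine ⟨hs0, hm0, hm, B8.torusGrid_ok 𝒱.G 𝒱.m _ hm0, hm, fun i => ?_⟩
  show ((i : ℕ) * 𝒱.s) / 𝒱.m = (i : ℕ) / vR 𝒱
  rw [hm]
  exact Nat.mul_div_mul_right _ _ hs0

/-! ## 1. Gauge covariance -/

variable {G : Geom} {c g : Grid G}

/-- L-ETR-ID -/
theorem etr_id_ok (N : Nest c g) {R : ℕ} (_hc : GeoOK c R) : (Mor.id N).Ok R where
  m_eq := rfl
  gm_eq := rfl
  n_le := le_rfl
  n_ge := fun _ _ _ => Or.inr le_rfl
  φ_inj := Function.injective_id
  δ_inj := Function.injective_id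
  deep_mono := fun _ _ _ _ _ => trivial
  deep_step := fun _ _ _ _ _ _ => trivial
  lift := fun _ _ j' _ _ => ⟨j', rfl⟩
  dd_zero := fun _ _ _ => Iff.rfl
  dd_le := fun _ _ _ => le_rfl
  dd_eq := fun _ _ _ _ _ _ => rfl
  cross := fun _ _ _ _ _ => trivial
  cross' := fun _ _ _ _ _ => trivial
  face := fun _ hf => ⟨hf, rfl⟩
  face_lift := fun f' _ hf _ _ => ⟨f', hf, rfl⟩
  tile := fun _ => rfl
  θT_inj := Function.injective_id.injOn
  key := fun _ _ => rfl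
  θE_inj := Function.injective_id.injOn
  θE_fst := fun _ => rfl
  up := fun _ => rfl
  φg_inj := Function.injective_id
  up_lift := fun _ i' _ => ⟨i', rfl⟩
  gd_le := fun _ _ => le_rfl
  gd_eq := fun _ _ _ _ _ => rfl
  ψ_inj := Function.injective_id
  blk := fun _ => rfl
  blk_lift := fun _ v' _ => ⟨v', rfl⟩
  bond := fun _ _ _ => rfl
  bond_lift := fun _ _ d' h _ _ => ⟨d', rfl, h⟩
  ker := fun _ _ _ _ => rfl

theorem etr_id_image (N : Nest c g) (π : Finset (Item c)) : π.image (Mor.id N).Θ = π := by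
  have h : (Mor.id N).Θ = id := funext fun I => Mor.id_Θ N I
  rw [h, Finset.image_id]

theorem etr_icells_under (N : Nest c g) {R : ℕ} {π : Finset (Item c)} {X : Finset g.I} (h : cover N R π ⊆ X) :
    ∀ I ∈ π, icells c R I ⊆ under N X := by
  intro I hI i hi
  refine Finset.mem_filter.2 ⟨Finset.mem_univ _, h ?_⟩
  exact Finset.mem_biUnion.2 ⟨I, hI, Finset.mem_image_of_mem _ hi⟩

theorem etr_gauge_aux (a b0 : ℝ) (𝒱 : Vol) (ha : 0 < a) (hb0 : 0 < b0) (hfree : 𝒱.G.bc = BC.free) (h2 : 2 * 𝒱.m ∣ 𝒱.G.M)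
    (hG : GeoOK 𝒱.c (vR 𝒱)) (X : Finset 𝒱.g.I) (κ : 𝒱.G.V → ℤ) (hκ : IsGauge 𝒱 X κ) (z : 𝒱.G.V → ℂ) :
    (vW a b0 𝒱 b0 (tauU 𝒱.c)).Kact a (vNest 𝒱) (vR 𝒱) X z
      = entK0 a b0 𝒱 b0 X (z + toC fun x => 2 * Real.pi / Real.sqrt a * (κ x : ℝ)) := by
  have hW := pr_str hG.whole a b0 ha hb0 (b0 : ℂ) (tauU 𝒱.c)
  have hW0 := pr_str hG.whole a b0 ha hb0 (b0 : ℂ) (0 : Face 𝒱.c → ℤ)
  have hid := etr_id_ok (vNest 𝒱) hG
  have hM := etr_met hG
  have hQ : QNIso (Mor.id (vNest 𝒱)) (xyWt 𝒱.c a b0 b0 (tauU 𝒱.c)) (xyWt 𝒱.c a b0 b0 0) := by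
    refine ⟨fun T _ f f' _ _ => ?_, fun T _ => ?_⟩
    · rw [Mor.id_top, Mor.id_F, Mor.id_F, Mor.id_sg, Mor.id_sg]
      simp [xyWt]
    · rw [Mor.id_top]
      rfl
  unfold entK0 vW Wt.Kact Wt.EF
  by_cases h : 𝒱.g.Conn RR X
  · rw [if_pos h, if_pos h, Finset.sum_apply, Finset.sum_apply]
    refine Finset.sum_congr rfl fun π hπ => ?_
    obtain ⟨hπ1, hπ2⟩ := Finset.mem_filter.1 hπ
    have hP : PatDeep (Mor.id (vNest 𝒱)) (vR 𝒱) (under (vNest 𝒱) X) π :=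
      ⟨Finset.mem_powerset.1 hπ1, fun _ _ _ _ => trivial, etr_icells_under _ hπ2.le⟩
    unfold eav conv nav
    refine integral_congr_ae (Filter.Eventually.of_forall fun ζ => ?_)
    refine integral_congr_ae (Filter.Eventually.of_forall fun e => ?_)
    have hY := etl_gauge a b0 𝒱 ha hfree h2 hG X κ hκ (b0 : ℂ) (z + toC ζ) e
    have := etr_pfac (Mor.id (vNest 𝒱)) hid hM hM hW hW0 hQ hY hP
    rw [etr_id_image] at this
    simp only [this]
    rw [add_right_comm]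
  · rw [if_neg h, if_neg h]
    rfl

/-- **EXIT 4** -/
theorem etr_gauge : GaugeStmt := by
  intro a b0 𝒱 ha hb0 hfree h2 hG X κ hκ z
  refine ⟨etr_gauge_aux a b0 𝒱 ha hb0 hfree h2 hG X κ hκ z, fun κ' hκ' => ?_⟩
  rw [← etr_gauge_aux a b0 𝒱 ha hb0 hfree h2 hG X κ hκ z, ← etr_gauge_aux a b0 𝒱 ha hb0 hfree h2 hG X κ' hκ' z]

/-! ## 2. Covariance -/

/-- a global morphism: everything is deep -/
def Mor.Glob {N : Nest c g} (Φ : Mor N N) : Prop := ∀ ρ i, Φ.deep ρ i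

/-- INTERFACE to the instances (helper225, `Ent/TrI*.lean`): the swap of the coordinates -/
theorem etr_swap_exists (N : Nest c g) {R : ℕ} (hper : G.bc = BC.per) (hc : GeoOK c R) (hg : g.Ok) (hN : NestOK N R) :
    ∃ Φ : Mor N N, Φ.Ok R ∧ Φ.Glob ∧ ∀ v, Φ.ψ v = (v.2, v.1) :=
  ⟨etwSwap N, etw_swap_ok N hc.adm, fun _ _ => trivial, fun _ => rfl⟩

theorem etr_emod_of {z M w : ℤ} (k : ℤ) (h : z = w + k * M) (h0 : 0 ≤ w) (h1 : w < M) : z % M = w := by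
  rw [h, Int.add_mul_emod_self_right, Int.emod_eq_of_lt h0 h1]

/-- one axis of a torus: the folded affine map of `etc_class` is the wrapped affine map of `etiMor` -/
theorem etr_ax_match (hper : G.bc = BC.per) {m s R n : ℕ} (hm : m = R * s) (hR : 0 < R) (hs : 0 < s) (hM : G.M = n * m) (r : Bool) {t : ℕ} (ht : t < n)
    (x : Fin G.M) : ((G.fold (etcAx m r t ((x : ℕ) : ℤ)) : Fin G.M) : ℕ) = etiA G.M r (etiSc s r (etiSc R r t)) x := by
  have h1 := Reg.regl_fold_per G hper (etcAx m r t ((x : ℕ) : ℤ))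
  have hx := x.2
  have hm0 : 0 < m := by rw [hm]; exact Nat.mul_pos hR hs
  have hmt : m * t + m ≤ G.M := by
    have : m * (t + 1) ≤ m * n := Nat.mul_le_mul_left m ht
    rw [hM, Nat.mul_comm n m]
    rw [Nat.mul_add, Nat.mul_one] at this
    exact this
  obtain ⟨A, hA⟩ : ∃ A, A = m * t := ⟨_, rfl⟩
  have hAz : (m : ℤ) * (t : ℤ) = (A : ℤ) := by rw [hA]; push_cast; ring
  rw [← hA] at hmt
  generalize (G.fold (etcAx m r t ((x : ℕ) : ℤ)) : Fin G.M) = F at h1 ⊢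
  unfold etcAx at h1
  unfold etiA etiSc
  cases r
  · simp only [Bool.false_eq_true, if_false] at h1 ⊢
    have ea : s * (R * t) = A := by rw [hA, hm]; ring
    rw [ea]
    rw [hAz] at h1
    split_ifs with hc
    · rw [etr_emod_of 0 (w := ((x : ℕ) : ℤ) + A) (by ring) (by omega) (by omega)] at h1
      omega
    · rw [etr_emod_of 1 (w := ((x : ℕ) : ℤ) + A - G.M) (by ring) (by omega) (by omega)] at h1
      omega
  · simp only [if_true] at h1 ⊢
    have ea : s * (R * t + (R - 1)) + (s - 1) = A + m - 1 := by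
      obtain ⟨R', rfl⟩ : ∃ R', R = R' + 1 := ⟨R - 1, by omega⟩
      obtain ⟨s', rfl⟩ : ∃ s', s = s' + 1 := ⟨s - 1, by omega⟩
      rw [hA, hm]
      simp only [Nat.add_sub_cancel]
      have : (R' + 1) * (s' + 1) * t + (R' + 1) * (s' + 1) = (s' + 1) * ((R' + 1) * t + R') + s' + 1 := by ring
      omega
    rw [ea]
    have e2 : (m : ℤ) * ((t : ℤ) + 1) - 1 - ((x : ℕ) : ℤ) = (A : ℤ) + m - 1 - ((x : ℕ) : ℤ) := by rw [mul_add, hAz]; ring
    rw [e2] at h1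
    split_ifs with hc
    · rw [etr_emod_of 0 (w := (A : ℤ) + m - 1 - ((x : ℕ) : ℤ)) (by ring) (by omega) (by omega)] at h1
      omega
    · rw [etr_emod_of (-1) (w := (A : ℤ) + m - 1 - ((x : ℕ) : ℤ) + G.M) (by ring) (by omega) (by omega)] at h1
      omega

/-- INTERFACE to the instances (helper225): classification of the symmetries.  `etc_class` (helper273) + `etiMor` (helper225) -/
theorem etr_sym_class (N : Nest c g) {R : ℕ} (hper : G.bc = BC.per) (hc : GeoOK c R) (hg : g.Ok) (hN : NestOK N R) (s : GridSym g) (_hs : s.Pres c) :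
    ∃ (Φ : Mor N N) (sw : Bool), Φ.Ok R ∧ Φ.Glob ∧ ∀ v, s.σ v = Φ.ψ (if sw then (v.2, v.1) else v) := by
  have hV := etiVol_of hc hg hN
  have hR := hc.pos
  have hs0 := hc.whole.pos
  have hgn : 8 ≤ g.n := by
    have h1 := hc.big
    rw [hV.cn, Nat.mul_comm 8 R] at h1
    exact Nat.le_of_mul_le_mul_left h1 hR
  have hM : G.M = g.n * g.m := Pack.syml_M hper hg
  have hgm : 0 < g.m := hg.pos
  have hM3 : 3 ≤ G.M := by
    rw [hM]
    calc 3 ≤ g.n * 1 := by omega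
      _ ≤ g.n * g.m := Nat.mul_le_mul_left _ hgm
  obtain ⟨r, T, sw, hT1, hT2, hσ⟩ := etc_class hper hg (by omega) hM3 s
  have hA : ∀ (rr : Bool) (t : ℕ), t < g.n → EtiAdm G.bc G.bc g.n g.n rr t := fun rr t ht =>
    ⟨ht, le_rfl, fun h => ⟨h, rfl⟩, fun h => (by rw [hper] at h; cases h), fun h _ => (by rw [hper] at h; cases h)⟩
  have hOK : EtiOK N N R r T := ⟨hV, hV, rfl, hA _ _ hT1, hA _ _ hT2, fun _ => ⟨rfl, rfl⟩⟩
  refine ⟨etiMor N N R r T, sw, etiMor_ok hOK, fun _ _ => ⟨Or.inl ⟨rfl, rfl⟩, Or.inl ⟨rfl, rfl⟩⟩, fun v => ?_⟩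
  rw [hσ]
  refine Prod.ext (Fin.ext ?_) (Fin.ext ?_)
  · rw [eti_ψ1 hOK]
    exact etr_ax_match hper hV.gm hR hs0 hM r.1 hT1 _
  · rw [eti_ψ2 hOK]
    exact etr_ax_match hper hV.gm hR hs0 hM r.2 hT2 _

theorem etr_gblk_surj (hg : g.Ok) : Function.Surjective g.blk := by
  intro u
  obtain ⟨v1, h1⟩ := hg.surj u.1
  obtain ⟨v2, h2⟩ := hg.surj u.2
  exact ⟨(v1, v2), Prod.ext h1 h2⟩

/-- **the W-generic core of `SymStmt`**: a weight which is carried by all global morphisms of the volume -/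
theorem etr_sym_core (N : Nest c g) {R : ℕ} (hper : G.bc = BC.per) (hc : GeoOK c R) (hg : g.Ok) (hN : NestOK N R) (a : ℝ) {W : Wt c} (hW : W.Str)
    (hI : ∀ Φ : Mor N N, Φ.Ok R → Φ.Glob → WtIso Φ W W) (s : GridSym g) (hs : s.Pres c) (X : Finset g.I) (z : G.V → ℂ) :
    W.Kact a N R (X.map s.τ.toEmbedding) (fun v => z (s.σ.symm v)) = W.Kact a N R X z := by
  obtain ⟨Φ, sw, hΦ, hgl, hσ⟩ := etr_sym_class N hper hc hg hN s hs
  set z' : G.V → ℂ := fun v => z (s.σ.symm v) with hz'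
  have hzσ : ∀ v, z' (s.σ v) = z v := fun v => by simp [hz']
  cases sw with
  | false =>
    have hσ' : ∀ v, s.σ v = Φ.ψ v := fun v => by simpa using hσ v
    have hτ : ∀ u, Φ.φg u = s.τ u := by
      intro u
      obtain ⟨v, rfl⟩ := etr_gblk_surj hg u
      rw [← etr_gblk Φ hΦ, ← hσ', s.blk]
    have h1 := etr_Kact Φ hΦ hc hc hg hW hW (hI Φ hΦ hgl) a X (fun i _ => hgl _ i) z z' (fun v _ => by rw [← hσ', hzσ])
    rw [h1, Finset.map_eq_image]
    congr 2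
    exact funext fun u => (hτ u).symm
  | true =>
    obtain ⟨Ψ, hΨ, hgl', hψ⟩ := etr_swap_exists N hper hc hg hN
    have hσ' : ∀ v, s.σ v = Φ.ψ (Ψ.ψ v) := fun v => by rw [hψ]; simpa using hσ v
    have hτ : ∀ u, Φ.φg (Ψ.φg u) = s.τ u := by
      intro u
      obtain ⟨v, rfl⟩ := etr_gblk_surj hg u
      rw [← etr_gblk Ψ hΨ, ← etr_gblk Φ hΦ, ← hσ', s.blk]
    have h1 := etr_Kact Ψ hΨ hc hc hg hW hW (hI Ψ hΨ hgl') a X (fun i _ => hgl' _ i) z (fun w => z' (Φ.ψ w))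
      (fun v _ => by rw [← hσ', hzσ])
    have h2 := etr_Kact Φ hΦ hc hc hg hW hW (hI Φ hΦ hgl) a (X.image Ψ.φg) (fun i _ => hgl _ i) (fun w => z' (Φ.ψ w)) z' (fun v _ => rfl)
    rw [h1, h2, Finset.map_eq_image, Finset.image_image]
    congr 2
    exact funext fun u => (hτ u).symm

/-- **EXIT 2** -/
theorem etr_sym : SymStmt := by
  intro G c g N R a b0 b h0 hper hc hg hN ha hb0 s hs X z _ _
  have hn : 3 ≤ c.n := by have := hc.big; have := hc.pos; omega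
  exact etr_sym_core N hper hc hg hN a (pr_str hc.whole a b0 ha hb0 b 0)
    (fun Φ hΦ _ => etl_xy_iso Φ hΦ hc.whole hc.whole hn hn a b0 ha b 0 0 fun f _ => by simp) s hs X z

end

end Claimed.Agent.R285.Ent
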