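import Claimed.Agent.R285.Ent.TrUnit

/-!
# ROW 285, POST TRANSPORT: the exit `etr_copy : CopyStmt`            (helper238)
Glue only (no leaf here): `entKT`, `entJT` between two centred squares (`etr_unit_core`), the centred sector from `etr_copy_core`.
-/

set_option autoImplicit false

namespace Claimed.Agent.R285.Ent

open scoped BigOperators ENNReal NNReal
open MeasureTheory ProbabilityTheory
open Claimed.Agent.R285 Claimed.Agent.R285.RG Claimed.Agent.R285.B4 Claimed.Agent.R285.F4a Claimed.Agent.R285.F4b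

noncomputable section

open Classical in
/-- the ordinary activity of the unit sector is the engine in the sector `τ`, or zero -/
theorem etr_entKT_eq (a b0 : ℝ) (𝒱 : Vol) (ha : 0 < a) (hb0 : 0 < b0) (hfree : 𝒱.G.bc = BC.free) (h2 : 2 * 𝒱.m ∣ 𝒱.G.M)
    (hG : GeoOK 𝒱.c (vR 𝒱)) (X : Finset 𝒱.g.I) (z : 𝒱.G.V → ℂ) :
    entKT a b0 𝒱 X z = if 𝒱.g.Sep RR (entCs 𝒱) X ∨ ∃ κ, IsGauge 𝒱 X κ then (vW a b0 𝒱 b0 (tauU 𝒱.c)).Kact a (vNest 𝒱) (vR 𝒱) X z else 0 := by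
  unfold entKT
  by_cases h : 𝒱.g.Sep RR (entCs 𝒱) X
  · rw [if_pos h, if_pos (Or.inl h)]
  · rw [if_neg h]
    by_cases hk : ∃ κ, IsGauge 𝒱 X κ
    · rw [dif_pos hk, if_pos (Or.inr hk)]
      exact (etr_gauge_aux a b0 𝒱 ha hb0 hfree h2 hG X _ hk.choose_spec z).symm
    · rw [dif_neg hk, if_neg (by tauto)]

theorem etr_Jact_zero {G : Geom} {c g : Grid G} (W : Wt c) (a : ℝ) (N : Nest c g) (R : ℕ) (t0 : Tile) {Cs X : Finset g.I} (h : ¬ Cs ⊆ X) (z : G.V → ℂ) :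
    W.Jact a N R t0 Cs X z = 0 := by
  classical
  unfold Wt.Jact
  split_ifs
  · rw [Finset.filter_false_of_mem, Finset.sum_empty]
    · rfl
    · intro π _ e
      exact h (e ▸ Finset.subset_union_left)
  · rfl

/-- **the unit sector**: the smaller centred square against the larger one -/
theorem etr_unit_core (a b0 : ℝ) (ha : 0 < a) (hb0 : 0 < b0) (𝒱 𝒱' : Vol) (hs : 𝒱.s = 𝒱'.s) (hm : 𝒱.m = 𝒱'.m)
    (hG : GeoOK 𝒱.c (vR 𝒱)) (hG' : GeoOK 𝒱'.c (vR 𝒱')) (hf : 𝒱.G.bc = BC.free) (hf' : 𝒱'.G.bc = BC.free)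
    (h2 : 2 * 𝒱.m ∣ 𝒱.G.M) (h2' : 2 * 𝒱'.m ∣ 𝒱'.G.M) (hbig : 8 * (𝒱.s * vR 𝒱 ^ 5) ≤ 𝒱.G.M) (hle : 𝒱.G.M ≤ 𝒱'.G.M)
    (S : Finset (ℤ × ℤ)) (hfit : Fits 𝒱.G 𝒱.ctr (162 * 𝒱.m) S) (z : 𝒱.G.V → ℂ) (z' : 𝒱'.G.V → ℂ)
    (hz : ∀ x, NearS S 𝒱.m x → z (𝒱.G.π (x + 𝒱.ctr)) = z' (𝒱'.G.π (x + 𝒱'.ctr))) :
    entKT a b0 𝒱 (𝒱.g.foldS (S.image (· + 𝒱.ctr))) z = entKT a b0 𝒱' (𝒱'.g.foldS (S.image (· + 𝒱'.ctr))) z' ∧
    entJT a b0 𝒱 (𝒱.g.foldS (S.image (· + 𝒱.ctr))) z = entJT a b0 𝒱' (𝒱'.g.foldS (S.image (· + 𝒱'.ctr))) z' := by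
  classical
  have hR : vR 𝒱' = vR 𝒱 := by unfold vR; rw [hs, hm]
  have hG'' : GeoOK 𝒱'.c (vR 𝒱) := hR ▸ hG'
  have h2'' : 2 * 𝒱.m ∣ 𝒱'.G.M := hm ▸ h2'
  obtain ⟨-, hm0, -, hg, hN⟩ := etr_vol 𝒱 hG
  have hd := etr_ctr_dvd 𝒱 h2
  have hd' := etr_ctr_dvd 𝒱' h2''
  have hev : 2 ∣ 𝒱.G.M := dvd_trans (Dvd.intro _ rfl) h2
  have hev' : 2 ∣ 𝒱'.G.M := dvd_trans (Dvd.intro _ rfl) h2'
  have hc1 : (𝒱'.ctr - 𝒱.ctr).1 = ((𝒱'.G.M / 2 : ℕ) : ℤ) - ((𝒱.G.M / 2 : ℕ) : ℤ) := rfl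
  have hc2 : (𝒱'.ctr - 𝒱.ctr).2 = ((𝒱'.G.M / 2 : ℕ) : ℤ) - ((𝒱.G.M / 2 : ℕ) : ℤ) := rfl
  obtain ⟨Φ, hΦ, hsh⟩ := etr_shift_exists 𝒱 𝒱' hs hm hG hG'' hf (𝒱'.ctr - 𝒱.ctr) (dvd_sub hd'.1 hd.1) (dvd_sub hd'.2 hd.2)
    (fun hp => by rw [hf'] at hp; cases hp) (fun _ => by rw [hc1, hc2]; omega)
  have hP : CtrPair 𝒱 𝒱' Φ := ⟨hs, hm, hG, hG'', hf, hf', h2, h2'', hle, hΦ, hsh⟩
  have hC : ChartOK 𝒱 𝒱' Φ 𝒱.ctr 𝒱'.ctr S := etr_chart_free Φ hG hf hsh le_rfl hfit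
  have hX' := etr_chart_image Φ hΦ hC
  have hBD : BDeep 𝒱 3 (𝒱.g.foldS (S.image (· + 𝒱.ctr))) := fun u hu => by
    have := etr_fits_bdeep 𝒱 hm0 hf hfit u hu
    omega
  have hn : 3 ≤ 𝒱.c.n := by have := hG.big; have := hG.pos; omega
  have hn' : 3 ≤ 𝒱'.c.n := by have := hG''.big; have := hG.pos; omega
  have hW := pr_str hG.whole a b0 ha hb0 (b0 : ℂ) (tauU 𝒱.c)
  have hW' := pr_str hG''.whole a b0 ha hb0 (b0 : ℂ) (tauU 𝒱'.c)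
  have hI : WtIso Φ (xyWt 𝒱.c a b0 b0 (tauU 𝒱.c)) (xyWt 𝒱'.c a b0 b0 (tauU 𝒱'.c)) :=
    etl_xy_iso Φ hΦ hG.whole hG''.whole hn hn' a b0 ha b0 _ _ fun f _ => etr_tauU_shift hP f
  have hCs := etr_entCs_shift hP hbig
  constructor
  · rw [etr_entKT_eq a b0 𝒱 ha hb0 hf h2 hG, etr_entKT_eq a b0 𝒱' ha hb0 hf' h2' hG', hR]
    have hK := etr_copy_step Φ hΦ hC hG hG'' hW hW' hI a hz
    have hiff : (𝒱'.g.Sep RR (entCs 𝒱') (𝒱'.g.foldS (S.image (· + 𝒱'.ctr))) ∨ ∃ κ, IsGauge 𝒱' (𝒱'.g.foldS (S.image (· + 𝒱'.ctr))) κ) ↔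
        (𝒱.g.Sep RR (entCs 𝒱) (𝒱.g.foldS (S.image (· + 𝒱.ctr))) ∨ ∃ κ, IsGauge 𝒱 (𝒱.g.foldS (S.image (· + 𝒱.ctr))) κ) := by
      rw [← hX', ← hCs, etr_ctr_sep hP, etr_gauge_iff hP _ hBD]
    by_cases hc : 𝒱.g.Sep RR (entCs 𝒱) (𝒱.g.foldS (S.image (· + 𝒱.ctr))) ∨ ∃ κ, IsGauge 𝒱 (𝒱.g.foldS (S.image (· + 𝒱.ctr))) κ
    · rw [if_pos hc, if_pos (hiff.2 hc)]
      exact hK
    · rw [if_neg hc, if_neg fun h => hc (hiff.1 h)]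
  · unfold entJT
    rw [hR]
    by_cases hsub : entCs 𝒱 ⊆ 𝒱.g.foldS (S.image (· + 𝒱.ctr))
    · obtain ⟨ht, hz1, hz2, -, -⟩ := geo_unit 𝒱 hf h2 hG hN hbig
      have hD0 : cellsOf 𝒱.c (vR 𝒱) {entT0 𝒱} ⊆ under (vNest 𝒱) (𝒱.g.foldS (S.image (· + 𝒱.ctr))) := by
        intro i hi
        have h1 := hz2 (hz1 hi)
        exact Finset.mem_filter.2 ⟨Finset.mem_univ _, hsub (Finset.mem_filter.1 h1).2⟩
      obtain ⟨i, -, hi⟩ := Finset.mem_image.1 ht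
      have ht0 : ∃ i, tile 𝒱.c (vR 𝒱) i = entT0 𝒱 ∧ Φ.deep (2 * vR 𝒱) i :=
        ⟨i, hi, hΦ.deep_mono _ _ i (by unfold etrMu; omega)
          (hC.deep i (hD0 (Finset.mem_filter.2 ⟨Finset.mem_univ _, by rw [hi]; exact Finset.mem_singleton_self _⟩)))⟩
      have := etr_copy_stepJ Φ hΦ hC hG hG'' hW hW' hI a (entCs 𝒱) ht0 hD0 hz
      rw [etr_entT0_shift hP, hCs] at this
      exact this
    · have hsub' : ¬ entCs 𝒱' ⊆ 𝒱'.g.foldS (S.image (· + 𝒱'.ctr)) := by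
        rw [← hX', ← hCs, Finset.image_subset_image_iff hΦ.φg_inj]
        exact hsub
      rw [etr_Jact_zero _ _ _ _ _ hsub, etr_Jact_zero _ _ _ _ _ hsub']

/-- **EXIT 3** -/
theorem etr_copy : CopyStmt := by
  refine ⟨163, fun a b0 h0 𝒱 𝒱' ha hb0 hs hm hG hG' => ?_⟩
  have hR : vR 𝒱' = vR 𝒱 := by unfold vR; rw [hs, hm]
  obtain ⟨-, hm0, -, -, -⟩ := etr_vol 𝒱 hG
  have hG'' : GeoOK 𝒱'.c (vR 𝒱) := hR ▸ hG'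
  refine ⟨fun b o o' h1 h2 h1' h2' S hfit hfit' z _ z' _ hz => ?_, fun hf hf' h2 h2' hbig hbig' => ?_⟩
  · have hF : WFam 𝒱.s 𝒱.m fun 𝒰 => vW a b0 𝒰 b 0 :=
      ⟨fun 𝒰 _ _ h => pr_str h.whole a b0 ha hb0 b 0, fun 𝒰 𝒰' Φ _ _ _ _ h h' hΦ =>
        etl_xy_iso Φ hΦ h.whole h'.whole (by have := h.big; have := h.pos; omega) (by have := h'.big; have := h'.pos; omega) a b0 ha b 0 0
          fun f _ => by simp⟩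
    have := etr_copy_core hF a 𝒱 𝒱' rfl rfl hs.symm hm.symm hG hG'' o o' h1 h2 h1' h2' S hfit hfit' z z'
      fun x hx => hz x (hx.mono (by nlinarith))
    unfold entK0
    rw [hR]
    exact this
  · have key : ∀ S : Finset (ℤ × ℤ), Fits 𝒱.G 𝒱.ctr (163 * 𝒱.m) S → Fits 𝒱'.G 𝒱'.ctr (163 * 𝒱.m) S → ∀ (z : 𝒱.G.V → ℂ) (z' : 𝒱'.G.V → ℂ),
        (∀ x, NearS S (163 * 𝒱.m) x → z (𝒱.G.π (x + 𝒱.ctr)) = z' (𝒱'.G.π (x + 𝒱'.ctr))) →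
        entKT a b0 𝒱 (𝒱.g.foldS (S.image (· + 𝒱.ctr))) z = entKT a b0 𝒱' (𝒱'.g.foldS (S.image (· + 𝒱'.ctr))) z' ∧
        entJT a b0 𝒱 (𝒱.g.foldS (S.image (· + 𝒱.ctr))) z = entJT a b0 𝒱' (𝒱'.g.foldS (S.image (· + 𝒱'.ctr))) z' := by
      intro S hfit hfit' z z' hz
      rcases le_total 𝒱.G.M 𝒱'.G.M with hle | hle
      · exact etr_unit_core a b0 ha hb0 𝒱 𝒱' hs hm hG hG' hf hf' h2 h2' hbig hle S (etr_fits_mono hfit (by omega)) z z'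
          fun x hx => hz x (hx.mono (by nlinarith))
      · have := etr_unit_core a b0 ha hb0 𝒱' 𝒱 hs.symm hm.symm hG' hG hf' hf h2' h2 (by rw [← hs, hR]; exact hbig') hle S
          (etr_fits_mono (hm ▸ hfit') (by omega)) z' z fun x hx => (hz x (hx.mono (by rw [← hm]; nlinarith))).symm
        exact ⟨this.1.symm, this.2.symm⟩
    exact ⟨fun S hfit hfit' z _ z' _ hz => (key S hfit hfit' z z' hz).1, fun S hfit hfit' z _ z' _ hz => (key S hfit hfit' z z' hz).2⟩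

end

end Claimed.Agent.R285.Ent
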