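import Claimed.Agent.R285.F4a.Defs

/-!
# ROW 285, THE ENTRY ENGINE ([F] T4.6 = [E] P3.1 = [C] L5.3 = [B] T9.1): DEFINITIONS            (owner helper56)
Nothing is sorried here.  Plan of the proof, interfaces and exit statements of all posts: `R285/Ent/If.lean`.

## The construction (a SIMPLIFIED version of [F] s4.6 / [B] s9.2; all changes are explained in `If.lean`)
* cells `c` (side `s`), blocks `g` (side `m`), everything below in CELL coordinates; `R` = isolation scale, `64 ∣ R`, `R ∣ c.n`.
* GEOMETRY v2 (helper109's fix: NO SLITS; s1 and links/lcells are owned by helper108).  TILES, four kinds, clipped at free walls (`x = i.1`, `y = i.2`):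
    `V` = vertex tiles `[aR - R/4, aR + R/4)²`;   `Eh` = `[aR + R/4, aR + 3R/4) × [bR - R/16, bR + R/16)`;   `Ev` = the same with `x, y` exchanged;   `F` = the rest of a square (a cross).
  Adjacent kinds: `V|E`, `V|F`, `E|F` only.  Only T-junctions: no contact through a point.
* SEAM = faces between different tiles.  It is cut by TWO colours of EVENTS only (no period `q`, no proximity groups, no orbits).  AN EVENT ISOLATES A TILE AND HAS THE NAME OF THIS TILE:
    first colour (flag `k.1 = false`): RING events, all faces around a vertex tile;     second colour (flag `k.1 = true`): the two long sides `E|F` of an edge tile (its short sides are ring faces).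
  Each colour class is invariant under all symmetries of the `R`-grid; cores of one colour have distance `≥ 3R/16`; rings before edge tiles.
* patch `= R/32`-neighbourhood of the cut faces INSIDE THE TILES AT THE CUT FACES (`ctl`), inner part `R/64`, guard `= patch ∖ inner`, testing patch `R/16`.  A mark at a ring skips the four edge events at its sides (`skp`).
  CONSEQUENCE: every proxy which occurs is the proxy of the path without marks (`topO`, `topC` do not depend on the marks).  Every positive topology is a disjoint union of INDUCED graphs on unions of tiles.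
* the binary expansion is the inclusion-exclusion identity `∑_{O ⊆ S ⊆ E} (-1)^{|S ∖ O|} = [O = E]`, used twice.
* LINKS by dyadic box telescoping (`Mbox`, `lkc`): no plane inverse, no periodisation, finitely many links.
-/

set_option autoImplicit false

namespace Claimed.Agent.R285.Ent

open scoped BigOperators ENNReal NNReal
open MeasureTheory ProbabilityTheory
open Claimed.Agent.R285 Claimed.Agent.R285.RG Claimed.Agent.R285.F4a

noncomputable section

variable {G : Geom}

/-! ## 1. Tiles, seam, events -/

section geometry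

variable (c : Grid G) (R : ℕ)

/-- indices of vertices of the `R`-grid: modulo the number of periods on the torus -/
def red (k : ℕ) : ℕ :=
  match G.bc with
  | BC.per => k % (c.n / R)
  | BC.free => k

/-- tiles: `(false, true, a, b)` = vertex tile `[aR - R/4, aR + R/4) × [bR - R/4, bR + R/4)`;
`(true, true, a, b)` = edge tile `Eh` = `[aR + R/4, aR + 3R/4) × [bR - R/16, bR + R/16)`;   `(true, false, a, b)` = edge tile `Ev` = `[aR - R/16, aR + R/16) × [bR + R/4, bR + 3R/4)`;
`(false, false, a, b)` = face tile: the rest of the square `[aR, (a+1)R) × [bR, (b+1)R)` -/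
abbrev Tile : Type := Bool × Bool × ℕ × ℕ

/-- the tile of a cell -/
def tile (i : c.I) : Tile :=
  if ((i.1 : ℕ) + R / 4) % R < R / 2 ∧ ((i.2 : ℕ) + R / 4) % R < R / 2 then
    (false, true, red c R (((i.1 : ℕ) + R / 4) / R), red c R (((i.2 : ℕ) + R / 4) / R))
  else if (R / 4 ≤ (i.1 : ℕ) % R ∧ (i.1 : ℕ) % R < 3 * (R / 4)) ∧ ((i.2 : ℕ) + R / 16) % R < R / 8 then
    (true, true, (i.1 : ℕ) / R, red c R (((i.2 : ℕ) + R / 16) / R))
  else if ((i.1 : ℕ) + R / 16) % R < R / 8 ∧ (R / 4 ≤ (i.2 : ℕ) % R ∧ (i.2 : ℕ) % R < 3 * (R / 4)) then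
    (true, false, red c R (((i.1 : ℕ) + R / 16) / R), (i.2 : ℕ) / R)
  else (false, false, (i.1 : ℕ) / R, (i.2 : ℕ) / R)

/-- all tiles -/
def tiles : Finset Tile := Finset.univ.image (tile c R)

/-- the cells of a set of tiles -/
def cellsOf (A : Finset Tile) : Finset c.I := Finset.univ.filter fun i => tile c R i ∈ A

open Classical in
/-- the faces between different tiles -/
def seam : Finset (Face c) := Finset.univ.filter fun f => IsFace c f ∧ tile c R (fnb c f) ≠ tile c R f.1

/-- events = the tiles which they isolate: `(false, true, a, b)` = RING event of the vertex tile `(a, b)` (first colour); `(true, d, a, b)` = the long sides of the edge tile `(true, d, a, b)` (second colour) -/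
abbrev EvId : Type := Bool × Bool × ℕ × ℕ

/-- the event which cuts a seam face: the vertex tile of the face if there is one, else its edge tile -/
def evKey (f : Face c) : EvId :=
  if (tile c R f.1).1 = false ∧ (tile c R f.1).2.1 = true then tile c R f.1
  else if (tile c R (fnb c f)).1 = false ∧ (tile c R (fnb c f)).2.1 = true then tile c R (fnb c f)
  else if (tile c R f.1).1 = true then tile c R f.1
  else tile c R (fnb c f)

/-- all events -/
def events : Finset EvId := (seam c R).image (evKey c R)

/-- the events of the second colour (edge tiles; the name is historical) -/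
def evV : Finset EvId := (events c R).filter fun k => k.1 = true

/-- the faces cut by an event -/
def cutF (k : EvId) : Finset (Face c) := (seam c R).filter fun f => evKey c R f = k

/-- the cells at the cut faces -/
def core (k : EvId) : Finset c.I := (cutF c R k).image Prod.fst ∪ (cutF c R k).image (fnb c)

open Classical in
/-- the `r`-neighbourhood of a set of cells -/
def nbh (r : ℕ) (A : Finset c.I) : Finset c.I := Finset.univ.filter fun i => ∃ a ∈ A, c.idist a i ≤ r

/-- the cells of the tiles at the cut faces -/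
def ctl (k : EvId) : Finset c.I := cellsOf c R ((core c R k).image (tile c R))

/-- the open patch (inside the tiles at the cut faces: the neighbourhood of the long sides of an edge tile would stick into the two vertex tiles) -/
def patch (k : EvId) : Finset c.I := nbh c (R / 32) (core c R k) ∩ ctl c R k

/-- the part enclosed by the guard -/
def inner (k : EvId) : Finset c.I := nbh c (R / 64) (core c R k) ∩ ctl c R k

/-- the guard cells -/
def guard (k : EvId) : Finset c.I := patch c R k \ inner c R k

/-- the larger patch in which a guard is tested -/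
def tpatch (k : EvId) : Finset c.I := nbh c (R / 16) (core c R k) ∩ ctl c R k

/-- **the topology in which exactly the events of `U` are NOT cut** -/
def topU (U : Finset EvId) : Top c := (Top.full c).cut ((seam c R).filter fun f => evKey c R f ∉ U)

/-- the events which are not yet cut when `k` is considered on the path without marks (`k` included) -/
def pre (k : EvId) : Finset EvId := if k.1 then evV c R else events c R

/-- the open patch before the event -/
def topO (k : EvId) : Top c := (topU c R (pre c R k)).restr (patch c R k)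

/-- the open patch after the event -/
def topC (k : EvId) : Top c := (topU c R (pre c R k \ {k})).restr (patch c R k)

/-- an isolated tile -/
def tileTop (t : Tile) : Top c := (Top.full c).restr (cellsOf c R {t})

open Classical in
/-- the events of the second colour skipped after the marks `S` -/
def skp (S : Finset EvId) : Finset EvId :=
  (evV c R).filter fun v => ∃ e ∈ S, e.1 = false ∧ ¬ Disjoint (patch c R e) (patch c R v)

/-- valid sets of marks -/
def Valid (S : Finset EvId) : Prop := S ⊆ events c R ∧ Disjoint S (skp c R S)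

/-- the tiles of the halos of the marks `S` -/
def halT (S : Finset EvId) : Finset Tile := ((S ∪ skp c R S).biUnion (core c R)).image (tile c R)

/-- the cells of the halos -/
def halC (S : Finset EvId) : Finset c.I := cellsOf c R (halT c R S)

/-- the positive halo topology: marks `S`, open marks `O ⊆ S` -/
def halTop (S O : Finset EvId) : Top c := (topU c R (skp c R S ∪ O)).restr (halC c R S)

end geometry

/-! ## 2. The weights of one sector -/

/-- the data of one law in one sector on all cut topologies -/
structure Wt (c : Grid G) where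
  /-- the integral face connection -/
  τ : Face c → ℤ
  /-- the matrix of the Gaussian energy `E_T (w) = ∑ Q_T (f, f') w_f w_f'` -/
  Q : Top c → Face c → Face c → ℝ
  /-- `\hat Z_T^τ (y)` (cutoff included), at the current parameter, continued to complex observations -/
  Zh : Top c → (c.I → ℂ) → ℂ
  /-- the centred normalisers `Z_T^0 (0)` at the BASE POINT (positive numbers) -/
  N : Top c → ℝ

/-- complex face data -/
def wfC (c : Grid G) (τ : Face c → ℤ) (y : c.I → ℂ) (f : Face c) : ℂ := y (fnb c f) - y f.1 + 2 * Real.pi * τ f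

namespace Wt

variable {c : Grid G} (W : Wt c) (R : ℕ)

/-- face data -/
def w (y : c.I → ℂ) (f : Face c) : ℂ := wfC c W.τ y f

/-- `E_T^τ (y)` -/
def En (T : Top c) (y : c.I → ℂ) : ℂ := ∑ f, ∑ f', (W.Q T f f' : ℂ) * W.w y f * W.w y f'

/-- (ent:proxy) -/
def prox (k : EvId) (y : c.I → ℂ) : ℂ :=
  ((W.N (topO c R k) / W.N (topC c R k) : ℝ) : ℂ) * Complex.exp (-(W.En (topO c R k) y - W.En (topC c R k) y) / 2)

/-- `Z_b^0 (0) e^{-E_b (y)/2}` -/
def tdiv (t : Tile) (y : c.I → ℂ) : ℂ := (W.N (tileTop c R t) : ℂ) * Complex.exp (-W.En (tileTop c R t) y / 2)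

/-- `T_Q^τ (y)` -/
def tfac (t : Tile) (y : c.I → ℂ) : ℂ := W.Zh (tileTop c R t) y / W.tdiv R t y

/-- one signed term of the halo factor -/
def haloTerm (S O : Finset EvId) (y : c.I → ℂ) : ℂ :=
  W.Zh (halTop c R S O) y / ((∏ k ∈ skp c R S ∪ O, W.prox R k y) * ∏ t ∈ halT c R S, W.tdiv R t y)

/-- **the signed halo factor of the marks `S`** -/
def halo (S : Finset EvId) (y : c.I → ℂ) : ℂ := ∑ O ∈ S.powerset, (-1) ^ (S \ O).card * W.haloTerm R S O y

/-- the scalar of the divisor without marks -/
def scal : ℝ := (∏ k ∈ events c R, W.N (topO c R k) / W.N (topC c R k)) * ∏ t ∈ tiles c R, W.N (tileTop c R t)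

/-- `E_asm` -/
def Easm (y : c.I → ℂ) : ℂ :=
  ∑ k ∈ events c R, (W.En (topO c R k) y - W.En (topC c R k) y) + ∑ t ∈ tiles c R, W.En (tileTop c R t) y

/-! ### links -/

open Classical in
/-- the events performed inside the box `O` -/
def perf (O : Finset c.I) : Finset EvId :=
  (events c R).filter fun k => if k.1 then nbh c R (core c R k) ⊆ O else patch c R k ⊆ O

/-- the matrix of `E - E_asm` computed inside the box `O` -/
def Mbox (O : Finset c.I) (f f' : Face c) : ℝ :=
  W.Q ((Top.full c).restr O) f f' - W.Q ((topU c R (events c R \ perf (c := c) R O)).restr O) f f'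
    - ∑ k ∈ perf (c := c) R O, (W.Q (topO c R k) f f' - W.Q (topC c R k) f f')

end Wt

/-- links: two faces and a dyadic scale -/
abbrev Link (c : Grid G) : Type := Face c × Face c × ℕ

/-- the two cells of a face -/
def fcl (c : Grid G) (f : Face c) : Finset c.I := {f.1, fnb c f}

/-- the box of radius `2^j R` around a face (around BOTH cells: covariant under reflections, which reverse faces) -/
def lbox (c : Grid G) (R : ℕ) (f : Face c) (j : ℕ) : Finset c.I := nbh c (2 ^ j * R) (fcl c f)

/-- all triples -/
def linksAll (c : Grid G) : Finset (Link c) := Finset.univ ×ˢ (Finset.univ ×ˢ Finset.range (c.n + 1))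

/-- the links which can have a non-zero coefficient: two faces, the second one inside the box (`Geo.lkc_dead`: all other coefficients vanish; their covers would be disconnected) -/
def Live (c : Grid G) (R : ℕ) (l : Link c) : Prop := IsFace c l.1 ∧ IsFace c l.2.1 ∧ fcl c l.2.1 ⊆ lbox c R l.1 l.2.2

open Classical in
/-- all links -/
def links (c : Grid G) (R : ℕ) : Finset (Link c) := (linksAll c).filter (Live c R)

namespace Wt

variable {c : Grid G} (W : Wt c) (R : ℕ)

/-- the coefficient `b_ℓ` -/
def lkc (l : Link c) : ℝ :=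
  (1 / 2) * (W.Mbox R (lbox c R l.1 l.2.2) l.1 l.2.1 - if l.2.2 = 0 then 0 else W.Mbox R (lbox c R l.1 (l.2.2 - 1)) l.1 l.2.1)

/-- (ent:face-links) -/
def lfac (l : Link c) (y : c.I → ℂ) : ℂ := Complex.exp ((W.lkc R l : ℂ) * W.w y l.1 * W.w y l.2.1) - 1

end Wt

/-! ## 3. Patterns, covers -/

/-- items: marks, selected tiles, links -/
abbrev Item (c : Grid G) : Type := EvId ⊕ (Tile ⊕ Link c)

instance decEqLink (c : Grid G) : DecidableEq (Link c) := inferInstance
instance decEqTL (c : Grid G) : DecidableEq (Tile ⊕ Link c) := inferInstance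
instance decEqItem (c : Grid G) : DecidableEq (Item c) := instDecidableEqSum

/-- the three parts of a pattern -/
def pS {c : Grid G} (π : Finset (Item c)) : Finset EvId := π.preimage Sum.inl Sum.inl_injective.injOn
def pQ {c : Grid G} (π : Finset (Item c)) : Finset Tile :=
  π.preimage (Sum.inr ∘ Sum.inl) (Sum.inr_injective.comp Sum.inl_injective).injOn
def pL {c : Grid G} (π : Finset (Item c)) : Finset (Link c) :=
  π.preimage (Sum.inr ∘ Sum.inr) (Sum.inr_injective.comp Sum.inr_injective).injOn

/-- all items -/
def items (c : Grid G) (R : ℕ) : Finset (Item c) :=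
  (events c R).image Sum.inl ∪ ((tiles c R).image (Sum.inr ∘ Sum.inl) ∪ (links c R).image (Sum.inr ∘ Sum.inr))

/-- compatible patterns -/
def PatOk (c : Grid G) (R : ℕ) (π : Finset (Item c)) : Prop := Valid c R (pS π) ∧ Disjoint (pQ π) (halT c R (pS π))

open Classical in
/-- **the factor of a pattern before averaging** (zero on incompatible patterns) -/
def Wt.pfac {c : Grid G} (W : Wt c) (R : ℕ) (π : Finset (Item c)) (y : c.I → ℂ) : ℂ :=
  if PatOk c R π then W.halo R (pS π) y * (∏ t ∈ pQ π, (W.tfac R t y - 1)) * ∏ l ∈ pL π, W.lfac R l y else 0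

open Classical in
/-- the cells occupied by a link: the crosses which certify its box, the symmetric segments to the second face (all four cells of the faces are contained).
Covariant under all symmetries of the grid of cells. -/
def lcells (c : Grid G) (R : ℕ) (l : Link c) : Finset c.I :=
  Finset.univ.filter fun i : c.I => ∃ p ∈ fcl c l.1, ∃ p' ∈ fcl c l.2.1,
    (i.2 = p.2 ∧ c.idist1 i.1 p.1 ≤ 2 ^ l.2.2 * R) ∨ (i.1 = p.1 ∧ c.idist1 i.2 p.2 ≤ 2 ^ l.2.2 * R) ∨
    (i.2 = p'.2 ∧ c.idist1 i.1 p.1 ≤ c.idist1 p'.1 p.1) ∨ (i.1 = p'.1 ∧ c.idist1 i.2 p.2 ≤ c.idist1 p'.2 p.2)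

/-- the cells occupied by an item -/
def icells (c : Grid G) (R : ℕ) : Item c → Finset c.I
  | Sum.inl k => halC c R {k}
  | Sum.inr (Sum.inl t) => cellsOf c R {t}
  | Sum.inr (Sum.inr l) => lcells c R l

variable {c g : Grid G}

/-- `cov_m (I)`: the blocks met by the cells of an item -/
def cov (N : Nest c g) (R : ℕ) (I : Item c) : Finset g.I := N.cl (icells c R I)

/-- (ent:occupied-cover) -/
def cover (N : Nest c g) (R : ℕ) (π : Finset (Item c)) : Finset g.I := π.biUnion (cov N R)

/-! ## 4. Averaging, activities -/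

/-- complex cell averages -/
def avgC (c : Grid G) (u : G.V → ℂ) (i : c.I) : ℂ := (∑ v ∈ c.sites {i}, u v) / ((c.sites {i}).card : ℂ)

/-- the observation `y = B_s (α z) + e` -/
def obsv (a : ℝ) (c : Grid G) (z : G.V → ℂ) (e : c.I → ℝ) : c.I → ℂ := fun i => avgC c (fun x => (Real.sqrt a : ℂ) * z x) i + (e i : ℂ)

/-- averaging of the noise -/
def nav (a : ℝ) (c : Grid G) (F : (c.I → ℂ) → ℂ) : Fn G := fun z => ∫ e, F (obsv a c z e) ∂(noise c)

/-- averaging of the noise and of `C_{<m}` -/
def eav (a : ℝ) (c : Grid G) (m : ℕ) (F : (c.I → ℂ) → ℂ) : Fn G := conv (Cless G m) (nav a c F)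

/-- `F_π`, the averaged factor of a pattern -/
def Wt.EF (W : Wt c) (a : ℝ) (m R : ℕ) (π : Finset (Item c)) : Fn G := eav a c m (W.pfac R π)

open Classical in
/-- **the ordinary activity**: the sum over the patterns with occupied cover `X` -/
def Wt.Kact (W : Wt c) (a : ℝ) (N : Nest c g) (R : ℕ) : Act g := fun X =>
  if g.Conn RR X then ∑ π ∈ (items c R).powerset.filter (fun π => cover N R π = X), W.EF a g.m R π else 0

/-! ### the compulsory component -/

open Classical in
/-- the factor of a labelled pattern: the source tile `t0` is never selected; if it is isolated its factor is attached to the marker -/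
def Wt.pfacL (W : Wt c) (R : ℕ) (t0 : Tile) (π : Finset (Item c)) (y : c.I → ℂ) : ℂ :=
  if t0 ∈ pQ π then 0 else if t0 ∈ halT c R (pS π) then W.pfac R π y else W.pfac R π y * W.tfac R t0 y

open Classical in
/-- **the labelled activity** with the compulsory cover `Cs` (ent:occupied-label-cover) -/
def Wt.Jact (W : Wt c) (a : ℝ) (N : Nest c g) (R : ℕ) (t0 : Tile) (Cs : Finset g.I) : Act g := fun X =>
  if g.Conn RR X then
    ∑ π ∈ (items c R).powerset.filter (fun π => Cs ∪ cover N R π = X), eav a c g.m (W.pfacL R t0 π) else 0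

/-! ## 5. The structural hypotheses on the weights (all trivial for height laws) -/

/-- `O₁`, `O₂` split the topology `T` -/
def Splits (T : Top c) (O₁ O₂ : Finset c.I) : Prop :=
  Disjoint O₁ O₂ ∧ T.cells ⊆ O₁ ∪ O₂ ∧ ∀ f ∈ T.faces, (f.1 ∈ O₁ ∧ fnb c f ∈ O₁) ∨ (f.1 ∈ O₂ ∧ fnb c f ∈ O₂)

/-- factorisation over components, locality, period, positivity -/
structure Wt.Str (W : Wt c) : Prop where
  Zh_mul : ∀ T O₁ O₂, Splits T O₁ O₂ → ∀ y, W.Zh T y = W.Zh (T.restr O₁) y * W.Zh (T.restr O₂) y
  Zh_one : ∀ T, T.cells = ∅ → T.faces = ∅ → ∀ y, W.Zh T y = 1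
  Zh_loc : ∀ T y y', (∀ i ∈ T.cells, y i = y' i) → (∀ f ∈ T.faces, y f.1 = y' f.1 ∧ y (fnb c f) = y' (fnb c f)) →
    W.Zh T y = W.Zh T y'
  Zh_per : ∀ T y, W.Zh T (fun i => y i + 2 * Real.pi) = W.Zh T y
  Zh_hol : ∀ T, Differentiable ℂ (W.Zh T)
  N_mul : ∀ T O₁ O₂, Splits T O₁ O₂ → W.N T = W.N (T.restr O₁) * W.N (T.restr O₂)
  N_pos : ∀ T, 0 < W.N T
  Q_add : ∀ T O₁ O₂, Splits T O₁ O₂ → ∀ f f', W.Q T f f' = W.Q (T.restr O₁) f f' + W.Q (T.restr O₂) f f'
  Q_supp : ∀ T f f', (f ∉ T.faces ∨ f' ∉ T.faces) → W.Q T f f' = 0
  Q_symm : ∀ T f f', W.Q T f f' = W.Q T f' f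

/-! ## 6. The XY weights -/

/-- `p_b (k) = e^{-b} I_k (b)` at complex `b` -/
def besC (b : ℂ) (k : ℤ) : ℂ :=
  Complex.exp (-b) * ∑' m : ℕ, (b / 2) ^ (2 * m + k.natAbs) / ((m.factorial : ℂ) * ((m + k.natAbs).factorial : ℂ))

/-- `Z_T^τ (y)` at complex temperature and complex observations -/
def ZobsC (T : Top c) (b : ℂ) (τ : Face c → ℤ) (y : c.I → ℂ) : ℂ :=
  ∑' h : T.graph.V → ℤ, (∏ e : T.graph.E, besC b (h (T.graph.tgt e) - h (T.graph.src e) + T.econn τ e)) *
    Complex.exp (-(∑ i ∈ T.cells, ((∑ v : T.graph.V, if c.blk v.1 = i then (2 * Real.pi * (h v : ℝ) : ℂ) else 0)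
      / ((c.sites {i}).card : ℂ) - y i) ^ 2) / 2)

/-- `\hat Z_T^τ (y)` -/
def ZhatC (T : Top c) (b : ℂ) (τ : Face c → ℤ) (y : c.I → ℂ) : ℂ := ZobsC T b τ y * ∏ f ∈ T.faces, chiC c.m (wfC c τ y f)

/-- **the weights of the cutoff XY height law**: reference stiffness `a`, base point `b0`, parameter `b`, sector `τ` -/
def xyWt (c : Grid G) (a b0 : ℝ) (b : ℂ) (τ : Face c → ℤ) : Wt c where
  τ := τ
  Q := fun T => T.Qmat a
  Zh := fun T => ZhatC T b τ
  N := fun T => T.Zobs b0 0 0

end

end Claimed.Agent.R285.Ent
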