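import Claimed.Agent.R285.Ent.LinkGeo

/-!
# ROW 285, THE ENTRY ENGINE: LIPSCHITZ COMPONENTS OF THE CUT TOPOLOGIES, at the level of the volume            (BP-ENT-GEO, helper108)
Input of `Entry/GoodBox.lean` `GoodGeo` (post BP-ENT-GOODGEO, helper190): everything about TILES which `CGeom.NoDiag` of the shapes needs.  No window occurs here.

## How to use it with `Entry.eg_nodiag_of_col`  (`T` = a topology whose retained faces are "same tile or event in `U`", `W` = a window which carries it)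
* `col := glCol c R U` : `some (tile i)` if the tile of `i` is a vertex / edge tile which is not in `U` (an ISOLATED tile), `none` otherwise.  It depends only on the tile (`gl_col_congr`).
* `h1` = `gl_col_face`  (needs `RC c R U`: an edge tile at a retained ring face is retained.  `gl_rc_halo` : `RC (skp S ∪ O)`, `gl_rc_pre`, `gl_rc_pre'` : `RC (pre k)`, `RC (pre k \ {k})`, `gl_rc_univ`).
* `h2` = `gl_col_cut`.
* `h3`: `Pres c R T.cells z` gives a third cell `r ∈ T.cells` with `tile r ∈ {tile p, tile q}`, so `col r = col p = col q`; `gl_unc` (contrapositive of `gl_col_cut`) shows that the two faces `p - r`, `r - q` are "same tile or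
  event in `U`", hence retained.  `Pres`: `gl_pres_sat` (`T.cells = (union of tiles) ∩ B`, the four cells of the junction in `B`: pieces of halos in boxes, isolated tiles), `gl_pres_nbh` (`patch`, `tpatch`, `inner`, ...).
* marks: `gl_VV` (adjacent cells in vertex tiles have the same tile), `gl_end_ring` (a ring which touches an edge tile `k` meets its patch, so `k ∈ skp S` if the ring is in `S`), `gl_end_ring_cut`.
-/

set_option autoImplicit false

namespace Claimed.Agent.R285.Ent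

open scoped BigOperators
open Claimed.Agent.R285 Claimed.Agent.R285.RG Claimed.Agent.R285.F4a Claimed.Agent.R285.Geo

variable {G : Geom} {c : Grid G} {R : ℕ}

/-! ## 1. Seam faces, colours, junctions -/

/-- the band of a coordinate around the lines of the `R`-grid -/
def glN (R x : ℕ) : Prop := x % R < R / 4 ∨ 3 * (R / 4) ≤ x % R

theorem gl_isV_iff (h : Adm c R) (i : c.I) : ((tile c R i).1 = false ∧ (tile c R i).2.1 = true) ↔ glN R i.1 ∧ glN R i.2 := by
  have h64 := h.d64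
  unfold glN
  rcases tile_cases h i with ⟨c1, e1⟩ | ⟨c1, e1⟩ | ⟨c1, e1⟩ | ⟨c1, e1⟩ <;> rw [e1]
  · simp only [true_and]; exact ⟨fun _ => c1, fun _ => trivial⟩
  · simp only [Bool.true_eq_false, false_and, false_iff]; omega
  · simp only [Bool.true_eq_false, false_and, false_iff]; omega
  · simp only [Bool.false_eq_true, and_false, false_iff]; omega

/-- **seam faces which step in the first coordinate** -/
theorem gl_seam_h (h : Adm c R) (x y : Fin c.n) (hf : G.bc = BC.per ∨ (x : ℕ) + 1 < c.n) (hne : tile c R (nx x, y) ≠ tile c R (x, y)) :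
    ((glN R x ∧ ¬ glN R (nx x) ∨ ¬ glN R x ∧ glN R (nx x)) ∧ glN R y) ∨ (glN R x ∧ glN R (nx x) ∧ ¬ glN R y) := by
  have h64 := h.d64
  have hp := h.pos
  have lx := Nat.mod_lt (x : ℕ) hp
  have s0 := nx_cases h x 0 hf
  simp only [Nat.add_zero, red_div h] at s0
  unfold glN
  rcases tile_cases h (x, y) with ⟨c1, e1⟩ | ⟨c1, e1⟩ | ⟨c1, e1⟩ | ⟨c1, e1⟩ <;>
  rcases tile_cases h (nx x, y) with ⟨c2, e2⟩ | ⟨c2, e2⟩ | ⟨c2, e2⟩ | ⟨c2, e2⟩ <;>
  simp only at c1 c2
  · exfalso
    apply hne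
    rw [e1, e2]
    have := (near_iff h (x : ℕ)).2 c1.1
    rcases nx_cases h x (R / 4) hf with q | q
    · simp only; rw [q.2.2]
    · omega
  · omega
  · omega
  · omega
  · omega
  · exfalso
    apply hne
    rw [e1, e2]
    rcases s0 with q | q
    · simp only; rw [q.2.2]
    · omega
  · omega
  · omega
  · omega
  · omega
  · exfalso
    apply hne
    rw [e1, e2]
    have := (line_iff h (x : ℕ)).2 c1.1
    rcases nx_cases h x (R / 16) hf with q | q
    · simp only; rw [q.2.2]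
    · omega
  · omega
  · omega
  · omega
  · omega
  · exfalso
    apply hne
    rw [e1, e2]
    rcases s0 with q | q
    · simp only; rw [q.2.2]
    · omega

theorem gl_seam_v (h : Adm c R) (x y : Fin c.n) (hf : G.bc = BC.per ∨ (y : ℕ) + 1 < c.n) (hne : tile c R (x, nx y) ≠ tile c R (x, y)) :
    ((glN R y ∧ ¬ glN R (nx y) ∨ ¬ glN R y ∧ glN R (nx y)) ∧ glN R x) ∨ (glN R y ∧ glN R (nx y) ∧ ¬ glN R x) := by
  refine gl_seam_h h y x hf fun e => hne ?_
  rw [tile_swap h (nx y) x, tile_swap h y x, e]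

/-- vertex and edge tiles -/
def isVE (t : Tile) : Prop := t.1 = true ∨ t.2.1 = true

instance (t : Tile) : Decidable (isVE t) := by unfold isVE; infer_instance

/-- the colour of a cell: its tile if this tile is isolated -/
def glCol (c : Grid G) (R : ℕ) (U : Finset EvId) (i : c.I) : Option Tile :=
  if isVE (tile c R i) ∧ tile c R i ∉ U then some (tile c R i) else none

/-- an edge tile at a retained seam face is retained -/
def RC (c : Grid G) (R : ℕ) (U : Finset EvId) : Prop :=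
  ∀ g ∈ seam c R, evKey c R g ∈ U → ((tile c R g.1).1 = true → tile c R g.1 ∈ U) ∧ ((tile c R (fnb c g)).1 = true → tile c R (fnb c g) ∈ U)

/-- the four cells at the junction with lower left cell `z`: for every diagonal pair in `D` a third cell lies in `D`, in the tile of one of the two -/
def Pres (c : Grid G) (R : ℕ) (D : Finset c.I) (z : c.I) : Prop :=
  (z ∈ D → fnb c (fnb c (z, true), false) ∈ D →
    (fnb c (z, true) ∈ D ∧ (tile c R (fnb c (z, true)) = tile c R z ∨ tile c R (fnb c (z, true)) = tile c R (fnb c (fnb c (z, true), false)))) ∨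
    (fnb c (z, false) ∈ D ∧ (tile c R (fnb c (z, false)) = tile c R z ∨ tile c R (fnb c (z, false)) = tile c R (fnb c (fnb c (z, true), false))))) ∧
  (fnb c (z, true) ∈ D → fnb c (z, false) ∈ D →
    (z ∈ D ∧ (tile c R z = tile c R (fnb c (z, true)) ∨ tile c R z = tile c R (fnb c (z, false)))) ∨
    (fnb c (fnb c (z, true), false) ∈ D ∧ (tile c R (fnb c (fnb c (z, true), false)) = tile c R (fnb c (z, true)) ∨
      tile c R (fnb c (fnb c (z, true), false)) = tile c R (fnb c (z, false)))))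

theorem gl_col_congr (U : Finset EvId) {i j : c.I} (e : tile c R i = tile c R j) : glCol c R U i = glCol c R U j := by
  unfold glCol
  rw [e]

/-- adjacent cells in vertex tiles have the same tile -/
theorem gl_VV (h : Adm c R) {f : Face c} (hF : IsFace c f) (h1 : (tile c R f.1).1 = false ∧ (tile c R f.1).2.1 = true)
    (h2 : (tile c R (fnb c f)).1 = false ∧ (tile c R (fnb c f)).2.1 = true) : tile c R (fnb c f) = tile c R f.1 := by
  obtain ⟨⟨p, q⟩, d⟩ := f
  by_contra hne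
  have v1 := (gl_isV_iff h _).1 h1
  have v2 := (gl_isV_iff h _).1 h2
  cases d
  · have hF' : G.bc = BC.per ∨ (q : ℕ) + 1 < c.n := by simpa [IsFace] using hF
    have a := gl_seam_v h p q hF' hne
    have v2' : glN R p ∧ glN R (nx q) := v2
    have v1' : glN R p ∧ glN R q := v1
    tauto
  · have hF' : G.bc = BC.per ∨ (p : ℕ) + 1 < c.n := by simpa [IsFace] using hF
    have a := gl_seam_h h p q hF' hne
    have v2' : glN R (nx p) ∧ glN R q := v2
    have v1' : glN R p ∧ glN R q := v1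
    tauto

theorem gl_key_VE (h : Adm c R) {k : EvId} (hk : k ∈ events c R) : isVE k := by
  have := key_shape h hk
  unfold isVE
  cases e : k.1
  · exact Or.inr (this e)
  · exact Or.inl rfl

theorem gl_col_cut (h : Adm c R) (U : Finset EvId) {f : Face c} (hF : IsFace c f) (hne : tile c R (fnb c f) ≠ tile c R f.1) (hk : evKey c R f ∉ U) :
    glCol c R U (fnb c f) ≠ glCol c R U f.1 := by
  have hs : f ∈ seam c R := mem_seam.2 ⟨hF, hne⟩
  have hVE := gl_key_VE h (Finset.mem_image_of_mem (evKey c R) hs)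
  unfold glCol
  rcases evKey_mem (R := R) f with e | e
  · rw [e] at hVE hk
    rw [if_pos (⟨hVE, hk⟩ : isVE (tile c R f.1) ∧ tile c R f.1 ∉ U)]
    split_ifs
    · intro z
      exact hne (Option.some.inj z)
    · simp
  · rw [e] at hVE hk
    rw [if_pos (⟨hVE, hk⟩ : isVE (tile c R (fnb c f)) ∧ tile c R (fnb c f) ∉ U)]
    split_ifs
    · intro z
      exact hne (Option.some.inj z)
    · simp

theorem gl_unc (h : Adm c R) (U : Finset EvId) {f : Face c} (hF : IsFace c f) (hcol : glCol c R U (fnb c f) = glCol c R U f.1) :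
    tile c R (fnb c f) = tile c R f.1 ∨ evKey c R f ∈ U := by
  by_contra hcon
  rw [not_or] at hcon
  exact gl_col_cut h U hF hcon.1 hcon.2 hcol

theorem gl_col_face (h : Adm c R) {U : Finset EvId} (hU : RC c R U) {f : Face c} (hF : IsFace c f)
    (hu : tile c R (fnb c f) = tile c R f.1 ∨ evKey c R f ∈ U) : glCol c R U (fnb c f) = glCol c R U f.1 := by
  by_cases hne : tile c R (fnb c f) = tile c R f.1
  · exact gl_col_congr U hne
  · have hk := hu.resolve_left hne
    have hs : f ∈ seam c R := mem_seam.2 ⟨hF, hne⟩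
    have hrc := hU f hs hk
    have n1 : ¬ (isVE (tile c R f.1) ∧ tile c R f.1 ∉ U) := by
      rintro ⟨v, nu⟩
      cases e : (tile c R f.1).1
      · have e2 : (tile c R f.1).2.1 = true := by
          rcases v with v | v
          · rw [e] at v; exact absurd v (by simp)
          · exact v
        apply nu
        have : evKey c R f = tile c R f.1 := by
          rw [evKey_eq]
          unfold keyOf
          rw [if_pos ⟨e, e2⟩]
        rwa [this] at hk
      · exact nu (hrc.1 e)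
    have n2 : ¬ (isVE (tile c R (fnb c f)) ∧ tile c R (fnb c f) ∉ U) := by
      rintro ⟨v, nu⟩
      cases e : (tile c R (fnb c f)).1
      · have e2 : (tile c R (fnb c f)).2.1 = true := by
          rcases v with v | v
          · rw [e] at v; exact absurd v (by simp)
          · exact v
        apply nu
        have : evKey c R f = tile c R (fnb c f) := by
          rw [evKey_eq]
          exact (lg_key_V (fun z => hne (gl_VV h hF z ⟨e, e2⟩)) ⟨e, e2⟩).1
        rwa [this] at hk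
      · exact nu (hrc.2 e)
    unfold glCol
    rw [if_neg n1, if_neg n2]

/-- **at a junction one of the four faces joins two cells of one tile** -/
theorem gl_junction (h : Adm c R) (z : c.I) (h1 : IsFace c (z, true)) (h2 : IsFace c (z, false)) :
    tile c R (fnb c (z, true)) = tile c R z ∨ tile c R (fnb c (z, false)) = tile c R z ∨
      tile c R (fnb c (fnb c (z, true), false)) = tile c R (fnb c (z, true)) ∨ tile c R (fnb c (fnb c (z, true), false)) = tile c R (fnb c (z, false)) := by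
  obtain ⟨x, y⟩ := z
  have hf1 : G.bc = BC.per ∨ (x : ℕ) + 1 < c.n := by simpa [IsFace] using h1
  have hf2 : G.bc = BC.per ∨ (y : ℕ) + 1 < c.n := by simpa [IsFace] using h2
  show tile c R (nx x, y) = tile c R (x, y) ∨ tile c R (x, nx y) = tile c R (x, y) ∨ tile c R (nx x, nx y) = tile c R (nx x, y) ∨
    tile c R (nx x, nx y) = tile c R (x, nx y)
  by_contra hcon
  simp only [not_or] at hcon
  obtain ⟨n1, n2, n3, n4⟩ := hcon
  have a1 := gl_seam_h h x y hf1 n1
  have a2 := gl_seam_v h x y hf2 n2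
  have a3 := gl_seam_v h (nx x) y hf2 n3
  have a4 := gl_seam_h h x (nx y) hf1 n4
  tauto

theorem gl_pres_sat (h : Adm c R) (A : Finset Tile) (B : Finset c.I) (z : c.I) (h1 : IsFace c (z, true)) (h2 : IsFace c (z, false))
    (hB : z ∈ B ∧ fnb c (z, true) ∈ B ∧ fnb c (z, false) ∈ B ∧ fnb c (fnb c (z, true), false) ∈ B) : Pres c R (cellsOf c R A ∩ B) z := by
  have J := gl_junction h z h1 h2
  obtain ⟨b0, b1, b2, b3⟩ := hB
  have key : ∀ i j : c.I, i ∈ cellsOf c R A ∩ B → j ∈ B → tile c R j = tile c R i → j ∈ cellsOf c R A ∩ B := by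
    intro i j hi hj e
    refine Finset.mem_inter.2 ⟨mem_cellsOf.2 ?_, hj⟩
    rw [e]
    exact mem_cellsOf.1 (Finset.mem_inter.1 hi).1
  constructor
  · intro p q
    rcases J with e | e | e | e
    · exact Or.inl ⟨key _ _ p b1 e, Or.inl e⟩
    · exact Or.inr ⟨key _ _ p b2 e, Or.inl e⟩
    · exact Or.inl ⟨key _ _ q b1 e.symm, Or.inr e.symm⟩
    · exact Or.inr ⟨key _ _ q b2 e.symm, Or.inr e.symm⟩
  · intro p q
    rcases J with e | e | e | e
    · exact Or.inl ⟨key _ _ p b0 e.symm, Or.inl e.symm⟩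
    · exact Or.inl ⟨key _ _ q b0 e.symm, Or.inr e.symm⟩
    · exact Or.inr ⟨key _ _ p b3 e, Or.inl e⟩
    · exact Or.inr ⟨key _ _ q b3 e, Or.inr e⟩

/-! ## 2. Retained rings retain their edge tiles -/

theorem gl_period (h : Adm c R) (x : Fin c.n) : R * ((x : ℕ) / R) + R ≤ c.n := by
  obtain ⟨K, hK⟩ := h.dvd
  have hx := x.2
  have h1 : (x : ℕ) / R < K := Nat.div_lt_of_lt_mul (by rw [← hK]; exact hx)
  have h2 : R * ((x : ℕ) / R + 1) ≤ R * K := Nat.mul_le_mul_left _ h1
  rw [Nat.mul_add, Nat.mul_one] at h2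
  omega

theorem gl_nx_val (h : Adm c R) (x : Fin c.n) (hx : (x : ℕ) % R + 1 < R) : (x : ℕ) + 1 = (nx x : Fin c.n) := by
  have := gl_period h x
  have e := Nat.div_add_mod (x : ℕ) R
  show (x : ℕ) + 1 = ((x : ℕ) + 1) % c.n
  rw [Nat.mod_eq_of_lt (by omega)]

/-- adjacent cells in edge tiles have the same tile -/
theorem gl_EE_h (h : Adm c R) (x y : Fin c.n) (hf : G.bc = BC.per ∨ (x : ℕ) + 1 < c.n) (h1 : (tile c R (x, y)).1 = true)
    (h2 : (tile c R (nx x, y)).1 = true) : tile c R (nx x, y) = tile c R (x, y) := by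
  have h64 := h.d64
  have hp := h.pos
  have lx := Nat.mod_lt (x : ℕ) hp
  have s0 := nx_cases h x 0 hf
  simp only [Nat.add_zero, red_div h] at s0
  rcases tile_cases h (x, y) with ⟨c1, e1⟩ | ⟨c1, e1⟩ | ⟨c1, e1⟩ | ⟨c1, e1⟩
  · rw [e1] at h1; exact absurd h1 (by simp)
  · rcases tile_cases h (nx x, y) with ⟨c2, e2⟩ | ⟨c2, e2⟩ | ⟨c2, e2⟩ | ⟨c2, e2⟩
    · rw [e2] at h2; exact absurd h2 (by simp)
    · simp only at c1 c2
      rw [e1, e2]
      rcases s0 with q | q
      · simp only; rw [q.2.2]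
      · omega
    · simp only at c1 c2
      omega
    · rw [e2] at h2; exact absurd h2 (by simp)
  · rcases tile_cases h (nx x, y) with ⟨c2, e2⟩ | ⟨c2, e2⟩ | ⟨c2, e2⟩ | ⟨c2, e2⟩
    · rw [e2] at h2; exact absurd h2 (by simp)
    · simp only at c1 c2
      omega
    · simp only at c1 c2
      rw [e1, e2]
      have := (line_iff h (x : ℕ)).2 c1.1
      rcases nx_cases h x (R / 16) hf with q | q
      · simp only; rw [q.2.2]
      · omega
    · rw [e2] at h2; exact absurd h2 (by simp)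
  · rw [e1] at h1; exact absurd h1 (by simp)

theorem gl_swT_fst (t : Tile) : (swT t).1 = t.1 := rfl

theorem gl_EE (h : Adm c R) {f : Face c} (hF : IsFace c f) (h1 : (tile c R f.1).1 = true) (h2 : (tile c R (fnb c f)).1 = true) :
    tile c R (fnb c f) = tile c R f.1 := by
  obtain ⟨⟨p, q⟩, d⟩ := f
  cases d
  · have hF' : G.bc = BC.per ∨ (q : ℕ) + 1 < c.n := by simpa [IsFace] using hF
    show tile c R (p, nx q) = tile c R (p, q)
    have h1' : (tile c R (p, q)).1 = true := h1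
    have h2' : (tile c R (p, nx q)).1 = true := h2
    rw [tile_swap h q p, gl_swT_fst] at h1'
    rw [tile_swap h (nx q) p, gl_swT_fst] at h2'
    rw [tile_swap h (nx q) p, tile_swap h q p, gl_EE_h h q p hF' h1' h2']
  · have hF' : G.bc = BC.per ∨ (p : ℕ) + 1 < c.n := by simpa [IsFace] using hF
    exact gl_EE_h h p q hF' h1 h2

/-- a horizontal edge tile and the vertex tile at its end: their cores meet -/
theorem gl_end_core (h : Adm c R) {x xv y : Fin c.n} (hadj : (x : ℕ) + 1 = xv ∨ (xv : ℕ) + 1 = x)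
    (hE : (tile c R (x, y)).1 = true ∧ (tile c R (x, y)).2.1 = true) (hV : (tile c R (xv, y)).1 = false ∧ (tile c R (xv, y)).2.1 = true) :
    ∃ m, m ∈ core c R (tile c R (xv, y)) ∧ m ∈ core c R (tile c R (x, y)) := by
  have h64 := h.d64
  have hp := h.pos
  have hN := (gl_isV_iff h _).1 hV
  have hNx : glN R xv := hN.1
  have hxy : (R / 4 ≤ (x : ℕ) % R ∧ (x : ℕ) % R < 3 * (R / 4)) ∧ ((y : ℕ) % R < R / 16 ∨ 15 * (R / 16) ≤ (y : ℕ) % R) := by
    rcases tile_cases h (x, y) with ⟨c1, e1⟩ | ⟨c1, e1⟩ | ⟨c1, e1⟩ | ⟨c1, e1⟩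
    · rw [e1] at hE; exact absurd hE.1 (by simp)
    · exact c1
    · rw [e1] at hE; exact absurd hE.2 (by simp)
    · rw [e1] at hE; exact absurd hE.1 (by simp)
  obtain ⟨hx, hy⟩ := hxy
  have ly := Nat.mod_lt (y : ℕ) hp
  have sy := shift_cases hp (y : ℕ) (R / 2) (by omega)
  have lxv := Nat.mod_lt (xv : ℕ) hp
  have sxv := shift_cases hp (xv : ℕ) (R / 2) (by omega)
  have wx : Win c R 0 (red c R (((x : ℕ) + 0) / R)) (R / 4) (3 * (R / 4)) x := ⟨rfl, by rw [Nat.add_zero]; exact hx.1, by rw [Nat.add_zero]; exact hx.2⟩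
  have wxv : Win c R (R / 2) (red c R (((xv : ℕ) + R / 2) / R)) (R / 4) (3 * (R / 4)) xv := by
    unfold glN at hNx
    exact ⟨rfl, by omega, by omega⟩
  have tE : tile c R (x, y) = (true, true, red c R (((x : ℕ) + 0) / R), red c R (((y : ℕ) + R / 2) / R)) :=
    lg_tile_Eh h wx ⟨rfl, by omega, by omega⟩
  have tV : tile c R (xv, y) = (false, true, red c R (((xv : ℕ) + R / 2) / R), red c R (((y : ℕ) + R / 2) / R)) :=
    lg_tile_V h wxv ⟨rfl, by omega, by omega⟩
  -- the two rows at a long side, in the half of the period which contains `y`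
  obtain ⟨yi, yo, hadjy, wi, wo⟩ : ∃ yi yo : Fin c.n, ((yi : ℕ) + 1 = yo ∨ (yo : ℕ) + 1 = yi) ∧
      Win c R (R / 2) (red c R (((y : ℕ) + R / 2) / R)) (7 * (R / 16)) (9 * (R / 16)) yi ∧
      ((R / 16 ≤ (yo : ℕ) % R ∧ (yo : ℕ) % R < 15 * (R / 16))) := by
    by_cases q : ((y : ℕ) + R / 2) % R < R / 2
    · obtain ⟨yo, eo⟩ := lg_cell_at h y (u := 7 * (R / 16) - 1) (by omega) (by omega)
      obtain ⟨yi, ei⟩ := lg_cell_at h y (u := 7 * (R / 16)) (by omega) (by omega)
      have d1 := dm_of eo (by omega)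
      have d2 := dm_of ei (by omega)
      have so := shift_cases hp (yo : ℕ) (R / 2) (by omega)
      have lo := Nat.mod_lt (yo : ℕ) hp
      exact ⟨yi, yo, Or.inr (by omega), ⟨by rw [d2.1], by omega, by omega⟩, by omega⟩
    · obtain ⟨yo, eo⟩ := lg_cell_at h y (u := 9 * (R / 16)) (by omega) (by omega)
      obtain ⟨yi, ei⟩ := lg_cell_at h y (u := 9 * (R / 16) - 1) (by omega) (by omega)
      have d1 := dm_of eo (by omega)
      have d2 := dm_of ei (by omega)
      have so := shift_cases hp (yo : ℕ) (R / 2) (by omega)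
      have lo := Nat.mod_lt (yo : ℕ) hp
      exact ⟨yi, yo, Or.inl (by omega), ⟨by rw [d2.1], by omega, by omega⟩, by omega⟩
  have tEi : tile c R (x, yi) = tile c R (x, y) := by rw [tE]; exact lg_tile_Eh h wx wi
  have tVi : tile c R (xv, yi) = tile c R (xv, y) := by rw [tV]; exact lg_tile_V h wxv (wi.mono (by omega) (by omega))
  have tF : tile c R (x, yo) = (false, false, (x : ℕ) / R, (yo : ℕ) / R) := by
    rw [lg_tile_mid h hx, if_neg (fun z => by have := (line_iff h (yo : ℕ)).1 z; omega)]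
  refine ⟨(x, yi), ?_, ?_⟩
  · have nV := lg_mid_notV h hx yi
    have isV : (tile c R (xv, yi)).1 = false ∧ (tile c R (xv, yi)).2.1 = true := by rw [tVi]; exact hV
    rw [← tVi]
    rcases hadj with e | e
    · have hc := (lg_core_h (R := R) (x := x) (x' := xv) (y := yi) e (fun z => nV (by rw [← z]; exact isV))).1
      rwa [(lg_key_V nV isV).1] at hc
    · have hc := (lg_core_h (R := R) (x := xv) (x' := x) (y := yi) e (fun z => nV (by rw [z]; exact isV))).2
      rwa [(lg_key_V nV isV).2] at hc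
  · rw [← tEi]
    rcases hadjy with e | e
    · have hc := (lg_core_v (R := R) (x := x) (y := yi) (y' := yo) e (by rw [tEi, tE, tF]; simp)).1
      rw [tF, tEi, tE] at hc
      rw [tEi, tE]
      exact hc
    · have hc := (lg_core_v (R := R) (x := x) (y := yo) (y' := yi) e (by rw [tEi, tE, tF]; simp)).2
      rw [tF, tEi, tE] at hc
      rw [tEi, tE]
      exact hc

theorem gl_E_shape (h : Adm c R) (i : c.I) (hE : (tile c R i).1 = true) :
    ((tile c R i).2.1 = true ∧ ¬ glN R i.1 ∧ glN R i.2) ∨ ((tile c R i).2.1 = false ∧ glN R i.1 ∧ ¬ glN R i.2) := by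
  have h64 := h.d64
  unfold glN
  rcases tile_cases h i with ⟨c1, e1⟩ | ⟨c1, e1⟩ | ⟨c1, e1⟩ | ⟨c1, e1⟩
  · rw [e1] at hE; exact absurd hE (by simp)
  · left; rw [e1]; exact ⟨rfl, by omega, by omega⟩
  · right; rw [e1]; exact ⟨rfl, by omega, by omega⟩
  · rw [e1] at hE; exact absurd hE (by simp)

theorem gl_end_h (h : Adm c R) (p q : Fin c.n) (hf : G.bc = BC.per ∨ (p : ℕ) + 1 < c.n) {i j : c.I}
    (hij : (i = (p, q) ∧ j = (nx p, q)) ∨ (i = (nx p, q) ∧ j = (p, q))) (hi : (tile c R i).1 = true)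
    (hj : (tile c R j).1 = false ∧ (tile c R j).2.1 = true) : ∃ m, m ∈ core c R (tile c R j) ∧ m ∈ core c R (tile c R i) := by
  have h64 := h.d64
  have hp := h.pos
  have hN := (gl_isV_iff h _).1 hj
  have sh := gl_E_shape h i hi
  have s0 := nx_cases h p 0 hf
  simp only [Nat.add_zero] at s0
  have lp := Nat.mod_lt (p : ℕ) hp
  rcases hij with ⟨rfl, rfl⟩ | ⟨rfl, rfl⟩
  · rcases sh with ⟨t, a, b⟩ | ⟨t, a, b⟩
    · have a' : ¬ glN R p := a
      have e := gl_nx_val h p (by unfold glN at a'; omega)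
      exact gl_end_core h (Or.inl e) ⟨hi, t⟩ hj
    · exact absurd hN.2 b
  · rcases sh with ⟨t, a, b⟩ | ⟨t, a, b⟩
    · have a' : ¬ glN R (nx p) := a
      have e := gl_nx_val h p (by unfold glN at a'; omega)
      exact gl_end_core h (Or.inr e) ⟨hi, t⟩ hj
    · exact absurd hN.2 b

/-- an edge tile and a vertex tile which share a face: their cores meet -/
theorem gl_end_meet (h : Adm c R) {g : Face c} (hF : IsFace c g) {i j : c.I} (hij : (i = g.1 ∧ j = fnb c g) ∨ (i = fnb c g ∧ j = g.1))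
    (hi : (tile c R i).1 = true) (hj : (tile c R j).1 = false ∧ (tile c R j).2.1 = true) :
    ∃ m, m ∈ core c R (tile c R j) ∧ m ∈ core c R (tile c R i) := by
  obtain ⟨⟨p, q⟩, d⟩ := g
  cases d
  · have hF' : G.bc = BC.per ∨ (q : ℕ) + 1 < c.n := by simpa [IsFace] using hF
    have e1 : fnb c ((p, q), false) = (p, nx q) := rfl
    rw [e1] at hij
    obtain ⟨i1, i2⟩ := i
    obtain ⟨j1, j2⟩ := j
    have hij' : ((i2, i1) = (q, p) ∧ (j2, j1) = (nx q, p)) ∨ ((i2, i1) = (nx q, p) ∧ (j2, j1) = (q, p)) := by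
      rcases hij with ⟨a, b⟩ | ⟨a, b⟩
      · left
        have a' := Prod.ext_iff.1 a
        have b' := Prod.ext_iff.1 b
        exact ⟨Prod.ext a'.2 a'.1, Prod.ext b'.2 b'.1⟩
      · right
        have a' := Prod.ext_iff.1 a
        have b' := Prod.ext_iff.1 b
        exact ⟨Prod.ext a'.2 a'.1, Prod.ext b'.2 b'.1⟩
    have ti := tile_swap h i1 i2
    have tj := tile_swap h j1 j2
    have hi' : (tile c R (i2, i1)).1 = true := by rw [ti, gl_swT_fst]; exact hi
    have hj' : (tile c R (j2, j1)).1 = false ∧ (tile c R (j2, j1)).2.1 = true := by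
      rw [tj]
      generalize tile c R (j1, j2) = t at hj ⊢
      obtain ⟨t1, t2, t3, t4⟩ := t
      obtain ⟨z1, z2⟩ := hj
      have z1' : t1 = false := z1
      have z2' : t2 = true := z2
      subst z1' z2'
      exact ⟨rfl, rfl⟩
    obtain ⟨⟨m1, m2⟩, hm1, hm2⟩ := gl_end_h h q p hF' hij' hi' hj'
    refine ⟨(m2, m1), ?_, ?_⟩
    · have := lg_core_swap1 h hm1
      rwa [tj, swT_swT] at this
    · have := lg_core_swap1 h hm2
      rwa [ti, swT_swT] at this
  · have hF' : G.bc = BC.per ∨ (p : ℕ) + 1 < c.n := by simpa [IsFace] using hF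
    exact gl_end_h h p q hF' hij hi hj

/-- a ring which touches an edge tile: the edge tile is an event and the two patches meet -/
theorem gl_end_ring (h : Adm c R) {g : Face c} (hg : g ∈ seam c R) {i j : c.I} (hij : (i = g.1 ∧ j = fnb c g) ∨ (i = fnb c g ∧ j = g.1))
    (hi : (tile c R i).1 = true) (hj : (tile c R j).1 = false ∧ (tile c R j).2.1 = true) :
    tile c R i ∈ events c R ∧ evKey c R g = tile c R j ∧ ¬ Disjoint (patch c R (tile c R j)) (patch c R (tile c R i)) := by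
  obtain ⟨m, hm1, hm2⟩ := gl_end_meet h (mem_seam.1 hg).1 hij hi hj
  refine ⟨mem_events_of_core hm2, ?_, Finset.not_disjoint_iff.2 ⟨m, core_subset_patch _ hm1, core_subset_patch _ hm2⟩⟩
  have nV : ¬ ((tile c R i).1 = false ∧ (tile c R i).2.1 = true) := fun z => by rw [hi] at z; exact absurd z.1 (by simp)
  rw [evKey_eq]
  rcases hij with ⟨rfl, rfl⟩ | ⟨rfl, rfl⟩
  · exact (lg_key_V nV hj).1
  · exact (lg_key_V nV hj).2

/-- the event of a seam face at an edge tile: the edge tile, or the ring at its end -/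
theorem gl_key_E (h : Adm c R) {g : Face c} (hg : g ∈ seam c R) {i : c.I} (hi : i = g.1 ∨ i = fnb c g) (hE : (tile c R i).1 = true) :
    evKey c R g = tile c R i ∨
      ((evKey c R g).1 = false ∧ tile c R i ∈ events c R ∧ ¬ Disjoint (patch c R (evKey c R g)) (patch c R (tile c R i))) := by
  obtain ⟨hF, hne⟩ := mem_seam.1 hg
  obtain ⟨j, hij⟩ : ∃ j, (i = g.1 ∧ j = fnb c g) ∨ (i = fnb c g ∧ j = g.1) := by
    rcases hi with e | e
    · exact ⟨_, Or.inl ⟨e, rfl⟩⟩
    · exact ⟨_, Or.inr ⟨e, rfl⟩⟩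
  have hne' : tile c R j ≠ tile c R i := by
    rcases hij with ⟨rfl, rfl⟩ | ⟨rfl, rfl⟩
    · exact hne
    · exact fun e => hne e.symm
  by_cases hj : (tile c R j).1 = false ∧ (tile c R j).2.1 = true
  · right
    obtain ⟨a, b, d⟩ := gl_end_ring h hg hij hE hj
    rw [b]
    exact ⟨hj.1, a, d⟩
  · left
    have nV : ¬ ((tile c R i).1 = false ∧ (tile c R i).2.1 = true) := fun z => by rw [hE] at z; exact absurd z.1 (by simp)
    have hj1 : (tile c R j).1 = false := by
      cases e : (tile c R j).1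
      · rfl
      · exfalso
        rcases hij with ⟨rfl, rfl⟩ | ⟨rfl, rfl⟩
        · exact hne (gl_EE h hF hE e)
        · exact hne (gl_EE h hF e hE)
    rw [evKey_eq]
    unfold keyOf
    rcases hij with ⟨rfl, rfl⟩ | ⟨rfl, rfl⟩
    · rw [if_neg nV, if_neg hj, if_pos hE]
    · rw [if_neg hj, if_neg nV, if_neg (by rw [hj1]; simp)]

theorem gl_rc_halo (h : Adm c R) {S O : Finset EvId} (_hS : Valid c R S) (hO : O ⊆ S) : RC c R (skp c R S ∪ O) := by
  have key : ∀ g ∈ seam c R, evKey c R g ∈ skp c R S ∪ O → ∀ i, (i = g.1 ∨ i = fnb c g) → (tile c R i).1 = true → tile c R i ∈ skp c R S ∪ O := by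
    intro g hg hk i hi hE
    rcases gl_key_E h hg hi hE with e | ⟨a, b, d⟩
    · rwa [e] at hk
    · refine Finset.mem_union_left _ (mem_skp.2 ⟨b, hE, evKey c R g, ?_, a, d⟩)
      rcases Finset.mem_union.1 hk with q | q
      · have := (mem_skp.1 q).2.1
        rw [a] at this
        exact absurd this (by simp)
      · exact hO q
  exact fun g hg hk => ⟨key g hg hk _ (Or.inl rfl), key g hg hk _ (Or.inr rfl)⟩

theorem gl_rc_pre (h : Adm c R) (k : EvId) : RC c R (pre c R k) := by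
  have key : ∀ g ∈ seam c R, evKey c R g ∈ pre c R k → ∀ i, (i = g.1 ∨ i = fnb c g) → (tile c R i).1 = true → tile c R i ∈ pre c R k := by
    intro g hg hk i hi hE
    rcases gl_key_E h hg hi hE with e | ⟨a, b, d⟩
    · rwa [e] at hk
    · unfold pre at hk ⊢
      split_ifs at hk ⊢
      · exact mem_evV.2 ⟨b, hE⟩
      · exact b
  exact fun g hg hk => ⟨key g hg hk _ (Or.inl rfl), key g hg hk _ (Or.inr rfl)⟩

theorem gl_rc_pre' (h : Adm c R) (k : EvId) : RC c R (pre c R k \ {k}) := by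
  have key : ∀ g ∈ seam c R, evKey c R g ∈ pre c R k \ {k} → ∀ i, (i = g.1 ∨ i = fnb c g) → (tile c R i).1 = true → tile c R i ∈ pre c R k \ {k} := by
    intro g hg hk i hi hE
    rcases gl_key_E h hg hi hE with e | ⟨a, b, d⟩
    · rwa [e] at hk
    · have hk' := Finset.mem_sdiff.1 hk
      refine Finset.mem_sdiff.2 ⟨?_, ?_⟩
      · exact (gl_rc_pre h k g hg hk'.1).elim fun z1 z2 => by
          rcases hi with rfl | rfl
          · exact z1 hE
          · exact z2 hE
      · rw [Finset.mem_singleton]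
        intro e
        have h1 := hk'.1
        unfold pre at h1
        rw [← e, if_pos hE] at h1
        have := (mem_evV.1 h1).2
        rw [a] at this
        exact absurd this (by simp)
  exact fun g hg hk => ⟨key g hg hk _ (Or.inl rfl), key g hg hk _ (Or.inr rfl)⟩

/-- the rings at the ends of an edge mark are cut in every halo topology -/
theorem gl_end_ring_cut (h : Adm c R) {S O : Finset EvId} (hS : Valid c R S) (hO : O ⊆ S) {k : EvId} (hk : k ∈ S) (hE : k.1 = true)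
    {g : Face c} (hg : g ∈ seam c R) (hgk : tile c R g.1 = k ∨ tile c R (fnb c g) = k) (hV : (evKey c R g).1 = false) : evKey c R g ∉ skp c R S ∪ O := by
  intro hmem
  obtain ⟨i, hi, ti⟩ : ∃ i, (i = g.1 ∨ i = fnb c g) ∧ tile c R i = k := by
    rcases hgk with e | e
    · exact ⟨_, Or.inl rfl, e⟩
    · exact ⟨_, Or.inr rfl, e⟩
  have hS' : evKey c R g ∈ S := by
    rcases Finset.mem_union.1 hmem with q | q
    · have := (mem_skp.1 q).2.1
      rw [hV] at this
      exact absurd this (by simp)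
    · exact hO q
  rcases gl_key_E h hg hi (by rw [ti]; exact hE) with e | ⟨a, b, d⟩
  · rw [e, ti, hE] at hV
    exact absurd hV (by simp)
  · rw [ti] at b d
    exact Finset.disjoint_left.1 hS.2 hk (mem_skp.2 ⟨b, hE, _, hS', a, d⟩)

/-! ## 4. Clipped neighbourhoods of cores -/

/-- the cells at the long sides of an edge tile do not lie in vertex tiles -/
theorem gl_notV_core {k : EvId} (hE : k.1 = true) {j : c.I} (hj : j ∈ core c R k) : ¬ ((tile c R j).1 = false ∧ (tile c R j).2.1 = true) := by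
  intro hV
  obtain ⟨f, _, hk, hjf⟩ := mem_core.1 hj
  have : (evKey c R f).1 = false := by
    rw [evKey_eq]
    apply lg_key_isV
    rcases hjf with rfl | rfl
    · exact Or.inl hV
    · exact Or.inr hV
  rw [hk, hE] at this
  exact absurd this (by simp)

theorem gl_notV_ctl {k : EvId} (hE : k.1 = true) {i : c.I} (hi : i ∈ ctl c R k) : ¬ ((tile c R i).1 = false ∧ (tile c R i).2.1 = true) := by
  obtain ⟨j, hj, e⟩ := lg_mem_ctl.1 hi
  rw [← e]
  exact gl_notV_core hE hj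

/-- a window inside the band -/
theorem gl_win_N (h : Adm c R) {a lo hi : ℕ} {x : Fin c.n} (hw : Win c R (R / 2) a lo hi x) (h1 : R / 4 ≤ lo) (h2 : hi ≤ 3 * (R / 4)) : glN R x := by
  have h64 := h.d64
  have hp := h.pos
  obtain ⟨-, w2, w3⟩ := hw
  have lx := Nat.mod_lt (x : ℕ) hp
  unfold glN
  rcases shift_cases hp (x : ℕ) (R / 2) (by omega) with q | q <;> omega

/-- **a cell `r` whose horizontal neighbour `p` and vertical neighbour `q` lie in other tiles**, `p`, `q` in a clipped neighbourhood of the core of `k`: one of them lies in the core -/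
theorem gl_corner (h : Adm c R) {k : EvId} {ρ : ℕ} (hρ : ρ ≤ R / 16) {fh fv : Face c} (hh : fh ∈ seam c R) (hv : fv ∈ seam c R)
    (dh : fh.2 = true) (dv : fv.2 = false) {r p q : c.I} (hrp : (r = fh.1 ∧ p = fnb c fh) ∨ (r = fnb c fh ∧ p = fh.1))
    (hrq : (r = fv.1 ∧ q = fnb c fv) ∨ (r = fnb c fv ∧ q = fv.1))
    (hp : p ∈ nbh c ρ (core c R k) ∩ ctl c R k) (hq : q ∈ nbh c ρ (core c R k) ∩ ctl c R k) : p ∈ core c R k ∨ q ∈ core c R k := by
  have h64 := h.d64
  have hpos := h.pos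
  obtain ⟨hp1, hp2⟩ := Finset.mem_inter.1 hp
  obtain ⟨hq1, hq2⟩ := Finset.mem_inter.1 hq
  have cp : p ∈ core c R (evKey c R fh) := by
    rcases hrp with ⟨-, rfl⟩ | ⟨-, rfl⟩
    · exact (mem_core_of_key hh).2
    · exact (mem_core_of_key hh).1
  have cq : q ∈ core c R (evKey c R fv) := by
    rcases hrq with ⟨-, rfl⟩ | ⟨-, rfl⟩
    · exact (mem_core_of_key hv).2
    · exact (mem_core_of_key hv).1
  -- one of the two events is a ring
  have step1 : (evKey c R fh).1 = false ∨ (evKey c R fv).1 = false := by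
    obtain ⟨⟨ph, qh⟩, d1⟩ := fh
    obtain ⟨⟨pv, qv⟩, d2⟩ := fv
    simp only at dh dv
    subst dh dv
    obtain ⟨hF1, n1⟩ := mem_seam.1 hh
    obtain ⟨hF2, n2⟩ := mem_seam.1 hv
    have hF1' : G.bc = BC.per ∨ (ph : ℕ) + 1 < c.n := by simpa [IsFace] using hF1
    have hF2' : G.bc = BC.per ∨ (qv : ℕ) + 1 < c.n := by simpa [IsFace] using hF2
    have a1 := gl_seam_h h ph qh hF1' n1
    have a2 := gl_seam_v h pv qv hF2' n2
    have v1 := gl_isV_iff h ((ph, qh) : c.I)
    have v2 := gl_isV_iff h ((nx ph, qh) : c.I)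
    have v3 := gl_isV_iff h ((pv, qv) : c.I)
    have v4 := gl_isV_iff h ((pv, nx qv) : c.I)
    simp only at v1 v2 v3 v4
    have k1 : (glN R ph ∧ glN R qh) ∨ (glN R (nx ph) ∧ glN R qh) → (evKey c R ((ph, qh), true)).1 = false := by
      intro z
      rw [evKey_eq]
      apply lg_key_isV
      rcases z with z | z
      · exact Or.inl (v1.2 z)
      · exact Or.inr (v2.2 z)
    have k2 : (glN R pv ∧ glN R qv) ∨ (glN R pv ∧ glN R (nx qv)) → (evKey c R ((pv, qv), false)).1 = false := by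
      intro z
      rw [evKey_eq]
      apply lg_key_isV
      rcases z with z | z
      · exact Or.inl (v3.2 z)
      · exact Or.inr (v4.2 z)
    have er : (r.1 = ph ∨ r.1 = nx ph) ∧ r.1 = pv := by
      constructor
      · rcases hrp with ⟨e, -⟩ | ⟨e, -⟩
        · left; rw [e]
        · right; rw [e]; rfl
      · rcases hrq with ⟨e, -⟩ | ⟨e, -⟩
        · rw [e]
        · rw [e]; rfl
    have eN : glN R ph ∧ glN R (nx ph) → glN R pv := by
      intro z
      rw [← er.2]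
      rcases er.1 with e | e <;> rw [e]
      · exact z.1
      · exact z.2
    rcases a1 with ⟨z, b⟩ | ⟨a, a', -⟩
    · left
      apply k1
      rcases z with ⟨a, -⟩ | ⟨-, a'⟩
      · exact Or.inl ⟨a, b⟩
      · exact Or.inr ⟨a', b⟩
    · right
      have cc := eN ⟨a, a'⟩
      rcases a2 with ⟨z, -⟩ | ⟨-, -, ncc⟩
      · apply k2
        rcases z with ⟨d, -⟩ | ⟨-, d'⟩
        · exact Or.inl ⟨cc, d⟩
        · exact Or.inr ⟨cc, d'⟩
      · exact absurd cc ncc
  cases hk1 : k.1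
  · -- rings
    have key : ∀ (e : EvId) (s : c.I), e.1 = false → s ∈ core c R e → s ∈ nbh c ρ (core c R k) → s ∈ core c R k := by
      intro e s he hs hN
      obtain ⟨a, ha, hd⟩ := mem_nbh.1 hN
      have := core_sep h (hk1.trans he.symm) ha hs (by omega)
      rw [this]
      exact hs
    rcases step1 with e | e
    · exact Or.inl (key _ _ e cp hp1)
    · exact Or.inr (key _ _ e cq hq1)
  · -- edge events: impossible
    exfalso
    have nVp := gl_notV_ctl hk1 hp2
    have nVq := gl_notV_ctl hk1 hq2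
    have hVr : (tile c R r).1 = false ∧ (tile c R r).2.1 = true := by
      rcases step1 with e | e
      · have sh := key_shape h (Finset.mem_image_of_mem (evKey c R) hh) e
        rcases evKey_mem (R := R) fh with z | z <;> rw [z] at e sh
        · rcases hrp with ⟨e1, e2⟩ | ⟨e1, e2⟩
          · rw [e1]; exact ⟨e, sh⟩
          · rw [e2] at nVp; exact absurd ⟨e, sh⟩ nVp
        · rcases hrp with ⟨e1, e2⟩ | ⟨e1, e2⟩
          · rw [e2] at nVp; exact absurd ⟨e, sh⟩ nVp
          · rw [e1]; exact ⟨e, sh⟩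
      · have sh := key_shape h (Finset.mem_image_of_mem (evKey c R) hv) e
        rcases evKey_mem (R := R) fv with z | z <;> rw [z] at e sh
        · rcases hrq with ⟨e1, e2⟩ | ⟨e1, e2⟩
          · rw [e1]; exact ⟨e, sh⟩
          · rw [e2] at nVq; exact absurd ⟨e, sh⟩ nVq
        · rcases hrq with ⟨e1, e2⟩ | ⟨e1, e2⟩
          · rw [e2] at nVq; exact absurd ⟨e, sh⟩ nVq
          · rw [e1]; exact ⟨e, sh⟩
    have hNr := (gl_isV_iff h r).1 hVr
    have ep : p.2 = r.2 := by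
      obtain ⟨⟨ph, qh⟩, d1⟩ := fh
      simp only at dh
      subst dh
      rcases hrp with ⟨e1, e2⟩ | ⟨e1, e2⟩ <;> rw [e1, e2] <;> rfl
    have eq' : q.1 = r.1 := by
      obtain ⟨⟨pv, qv⟩, d2⟩ := fv
      simp only at dv
      subst dv
      rcases hrq with ⟨e1, e2⟩ | ⟨e1, e2⟩ <;> rw [e1, e2] <;> rfl
    have bp := nbh_box h (ρ := ρ) (by omega) hp1
    have bq := nbh_box h (ρ := ρ) (by omega) hq1
    unfold Box at bp bq
    rw [if_pos hk1] at bp bq
    cases hk2 : k.2.1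
    · rw [if_neg (by rw [hk2]; simp)] at bp
      exact nVp ((gl_isV_iff h p).2 ⟨gl_win_N h bp.1 (by omega) (by omega), by rw [ep]; exact hNr.2⟩)
    · rw [if_pos hk2] at bq
      exact nVq ((gl_isV_iff h q).2 ⟨by rw [eq']; exact hNr.1, gl_win_N h bq.2 (by omega) (by omega)⟩)

/-- horizontal edge tiles: the cut faces are vertical, and the tiles of the middle columns of one period do not depend on the column -/
theorem gl_m_h (h : Adm c R) {a b : ℕ} {a1 a2 b1 b2 : Fin c.n} (ha : (a1, a2) ∈ core c R (true, true, a, b))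
    (hb : (b1, b2) ∈ core c R (true, true, a, b)) : (b1, a2) ∈ core c R (true, true, a, b) := by
  have h64 := h.d64
  have hp := h.pos
  have Ba := core_box h ha
  have Bb := core_box h hb
  unfold Box at Ba Bb
  rw [if_pos rfl, if_pos rfl] at Ba Bb
  obtain ⟨⟨wa1, wa2, wa3⟩, -⟩ := Ba
  obtain ⟨⟨wb1, wb2, wb3⟩, -⟩ := Bb
  simp only [Nat.add_zero, Nat.sub_zero] at wa1 wa2 wa3 wb1 wb2 wb3
  have hxa : R / 4 ≤ (a1 : ℕ) % R ∧ (a1 : ℕ) % R < 3 * (R / 4) := ⟨wa2, wa3⟩
  have hxb : R / 4 ≤ (b1 : ℕ) % R ∧ (b1 : ℕ) % R < 3 * (R / 4) := ⟨wb2, wb3⟩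
  have hq : (b1 : ℕ) / R = (a1 : ℕ) / R := by rw [← red_div h b1, ← red_div h a1, wa1, wb1]
  have ht : ∀ y, tile c R (b1, y) = tile c R (a1, y) := fun y => by rw [lg_tile_mid h hxb, lg_tile_mid h hxa, hq]
  obtain ⟨f, hf, hk, hjf⟩ := mem_core.1 ha
  obtain ⟨⟨p, q⟩, d⟩ := f
  obtain ⟨hF, hne⟩ := mem_seam.1 hf
  cases d
  · have ep : a1 = p := by
      rcases hjf with e | e
      · exact congrArg Prod.fst e
      · exact congrArg Prod.fst e
    subst ep
    have hne' : tile c R (a1, nx q) ≠ tile c R (a1, q) := hne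
    have hk0 : keyOf (tile c R (a1, q)) (tile c R (a1, nx q)) = (true, true, a, b) := hk
    have hs : ((b1, q), false) ∈ seam c R := mem_seam.2 ⟨hF, by
      show tile c R (b1, nx q) ≠ tile c R (b1, q)
      rw [ht, ht]
      exact hne'⟩
    have hk' : evKey c R ((b1, q), false) = (true, true, a, b) := by
      show keyOf (tile c R (b1, q)) (tile c R (b1, nx q)) = _
      rw [ht, ht]
      exact hk0
    refine mem_core.2 ⟨((b1, q), false), hs, hk', ?_⟩
    rcases hjf with e | e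
    · left
      have e2 : a2 = q := congrArg Prod.snd e
      rw [e2]
    · right
      have e2 : a2 = nx q := congrArg Prod.snd e
      rw [e2]
      rfl
  · exfalso
    have hF' : G.bc = BC.per ∨ (p : ℕ) + 1 < c.n := by simpa [IsFace] using hF
    have s := gl_seam_h h p q hF' hne
    have nN : ¬ glN R a1 := by
      unfold glN
      omega
    have ex : a1 = p ∨ a1 = nx p := by
      rcases hjf with e | e
      · exact Or.inl (congrArg Prod.fst e)
      · exact Or.inr (congrArg Prod.fst e)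
    rcases s with ⟨z, bq⟩ | ⟨z1, z2, -⟩
    · have hV : (evKey c R ((p, q), true)).1 = false := by
        rw [evKey_eq]
        apply lg_key_isV
        rcases z with ⟨z1, -⟩ | ⟨-, z2⟩
        · exact Or.inl ((gl_isV_iff h (p, q)).2 ⟨z1, bq⟩)
        · exact Or.inr ((gl_isV_iff h (nx p, q)).2 ⟨z2, bq⟩)
      rw [hk] at hV
      exact absurd hV (by simp)
    · rcases ex with e | e <;> rw [e] at nN
      · exact nN z1
      · exact nN z2

/-- LEAF L-GL-MIX.  **The core of an edge event is a product set.**  PLAN (horizontal edge tile `(true, true, a, b)`; the other kind by `lg_core_swap`):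
`(x, y) ∈ core ↔ Win c R 0 a (R/4) (3R/4) x ∧ (Win c R (R/2) b (7R/16 - 1) (7R/16 + 1) y ∨ Win c R (R/2) b (9R/16 - 1) (9R/16 + 1) y)`.
(→) `core_box`; the face is vertical (`gl_seam_h`: a horizontal seam face has a cell in a vertex tile or both first coordinates in the band), `lg_tile_mid`: exactly one of the two rows is in the narrow band.
(←) as in `LinkGeo.lg_E1`: `lg_cell_at` (the partner row lies in the same half of the period), `lg_tile_Eh`, `lg_tile_mid`, `lg_core_v`. -/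
theorem gl_mix_E (h : Adm c R) {k : EvId} (hE : k.1 = true) {a1 a2 b1 b2 : Fin c.n} (ha : (a1, a2) ∈ core c R k) (hb : (b1, b2) ∈ core c R k) :
    (b1, a2) ∈ core c R k := by
  obtain ⟨k1, k2, a, b⟩ := k
  simp only at hE
  subst hE
  cases k2
  · have e : swT (true, false, a, b) = (true, true, b, a) := rfl
    have ha' := (lg_core_swap h (true, false, a, b) a1 a2).2 ha
    have hb' := (lg_core_swap h (true, false, a, b) b1 b2).2 hb
    rw [e] at ha' hb'
    have key := gl_m_h h hb' ha'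
    rw [← e] at key
    exact (lg_core_swap h (true, false, a, b) b1 a2).1 key
  · exact gl_m_h h ha hb

/-- the band of a vertex tile, enlarged by `ρ` (chart shifted by `R/2`) -/
def glfV (c : Grid G) (R ρ a : ℕ) (x : Fin c.n) : Prop := Win c R (R / 2) a (R / 4 - ρ) (3 * (R / 4) + ρ) x

/-- the two sides of a ring, enlarged by `ρ` -/
def glfS (c : Grid G) (R ρ a : ℕ) (x : Fin c.n) : Prop :=
  Win c R (R / 2) a (R / 4 - 1 - ρ) (R / 4 + 1 + ρ) x ∨ Win c R (R / 2) a (3 * (R / 4) - 1 - ρ) (3 * (R / 4) + 1 + ρ) x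

theorem gl_f_eqns_cite : True := by
  have := @glfV.eq_1
  have := @glfS.eq_1
  trivial

theorem gl_f_N_iff (h : Adm c R) (x : ℕ) : glN R x ↔ R / 4 ≤ (x + R / 2) % R ∧ (x + R / 2) % R < 3 * (R / 4) := by
  have h64 := h.d64
  have hp := h.pos
  have lx := Nat.mod_lt x hp
  unfold glN
  rcases shift_cases hp x (R / 2) (by omega) with q | q <;> omega

theorem gl_f_step (h : Adm c R) (p : Fin c.n) (hf : G.bc = BC.per ∨ (p : ℕ) + 1 < c.n)
    (hx : glN R p ∧ ¬ glN R (nx p) ∨ ¬ glN R p ∧ glN R (nx p)) :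
    (((p : ℕ) + R / 2) % R = R / 4 - 1 ∨ ((p : ℕ) + R / 2) % R = 3 * (R / 4) - 1) ∧
      ((nx p : ℕ) + R / 2) % R = ((p : ℕ) + R / 2) % R + 1 := by
  have h64 := h.d64
  have hp := h.pos
  rw [gl_f_N_iff h, gl_f_N_iff h] at hx
  rcases nx_cases h p (R / 2) hf with q | q <;> omega

/-- one coordinate of a cell at a face which leaves the band -/
theorem gl_f_side (h : Adm c R) {a : ℕ} (p x : Fin c.n) (hf : G.bc = BC.per ∨ (p : ℕ) + 1 < c.n)
    (hx : glN R p ∧ ¬ glN R (nx p) ∨ ¬ glN R p ∧ glN R (nx p)) (hxp : x = p ∨ x = nx p) (ha : red c R (((x : ℕ) + R / 2) / R) = a) :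
    glfS c R 0 a x := by
  have h64 := h.d64
  have hp := h.pos
  obtain ⟨s1, s2⟩ := gl_f_step h p hf hx
  unfold glfS
  rcases hxp with rfl | rfl
  · rcases s1 with s1 | s1
    · exact Or.inl ⟨ha, by omega, by omega⟩
    · exact Or.inr ⟨ha, by omega, by omega⟩
  · rcases s1 with s1 | s1
    · exact Or.inl ⟨ha, by omega, by omega⟩
    · exact Or.inr ⟨ha, by omega, by omega⟩

theorem gl_f_band (h : Adm c R) {a : ℕ} (x : Fin c.n) (hx : glN R x) (ha : red c R (((x : ℕ) + R / 2) / R) = a) : glfV c R 0 a x := by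
  have := (gl_f_N_iff h x).1 hx
  exact ⟨ha, by omega, by omega⟩

theorem gl_f_core_sub (h : Adm c R) {a b : ℕ} {x y : Fin c.n} (hi : (x, y) ∈ core c R (false, true, a, b)) :
    (glfS c R 0 a x ∧ glfV c R 0 b y) ∨ (glfV c R 0 a x ∧ glfS c R 0 b y) := by
  have hb := core_box h hi
  unfold Box at hb
  rw [if_neg (by simp)] at hb
  obtain ⟨⟨a1, -, -⟩, b1, -, -⟩ := hb
  simp only at a1 b1
  obtain ⟨f, hf, hk, hxy⟩ := mem_core.1 hi
  obtain ⟨hF, hne⟩ := mem_seam.1 hf
  obtain ⟨⟨p, q⟩, d⟩ := f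
  have hVV : (glN R p ∧ glN R q) ∨ (glN R (fnb c ((p, q), d)).1 ∧ glN R (fnb c ((p, q), d)).2) := by
    rcases evKey_mem (R := R) ((p, q), d) with e | e
    · left
      exact (gl_isV_iff h (p, q)).1 (by rw [← e, hk]; exact ⟨rfl, rfl⟩)
    · right
      exact (gl_isV_iff h _).1 (by rw [← e, hk]; exact ⟨rfl, rfl⟩)
  cases d
  · have hF' : G.bc = BC.per ∨ (q : ℕ) + 1 < c.n := by simpa [IsFace] using hF
    have e1 : fnb c ((p, q), false) = (p, nx q) := rfl
    rw [e1] at hne hxy hVV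
    simp only at hne hxy hVV
    have ex : x = p := by rcases hxy with e | e <;> exact congrArg Prod.fst e
    have ey : y = q ∨ y = nx q := by rcases hxy with e | e <;> [exact Or.inl (congrArg Prod.snd e); exact Or.inr (congrArg Prod.snd e)]
    rcases gl_seam_v h p q hF' hne with ⟨z1, z2⟩ | ⟨-, -, z⟩
    · right
      exact ⟨gl_f_band h x (ex ▸ z2) a1, gl_f_side h q y hF' z1 ey b1⟩
    · exact absurd (hVV.elim (fun w => w.1) fun w => w.1) z
  · have hF' : G.bc = BC.per ∨ (p : ℕ) + 1 < c.n := by simpa [IsFace] using hF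
    have e1 : fnb c ((p, q), true) = (nx p, q) := rfl
    rw [e1] at hne hxy hVV
    simp only at hne hxy hVV
    have ey : y = q := by rcases hxy with e | e <;> exact congrArg Prod.snd e
    have ex : x = p ∨ x = nx p := by rcases hxy with e | e <;> [exact Or.inl (congrArg Prod.fst e); exact Or.inr (congrArg Prod.fst e)]
    rcases gl_seam_h h p q hF' hne with ⟨z1, z2⟩ | ⟨-, -, z⟩
    · left
      exact ⟨gl_f_side h p x hF' z1 ex a1, gl_f_band h y (ey ▸ z2) b1⟩
    · exact absurd (hVV.elim (fun w => w.2) fun w => w.2) z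

theorem gl_f_core_h (h : Adm c R) {a b : ℕ} {x y : Fin c.n} (hx : glfS c R 0 a x) (hy : glfV c R 0 b y) :
    (x, y) ∈ core c R (false, true, a, b) := by
  have h64 := h.d64
  have hp := h.pos
  have wy : Win c R (R / 2) b (R / 4) (3 * (R / 4)) y := hy
  have ex := Nat.div_add_mod ((x : ℕ) + R / 2) R
  rcases hx with ⟨w1, w2, w3⟩ | ⟨w1, w2, w3⟩
  · obtain ⟨xo, eo⟩ := lg_cell_at h x (u := R / 4 - 1) (by omega) (by omega)
    obtain ⟨xi, ei⟩ := lg_cell_at h x (u := R / 4) (by omega) (by omega)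
    have d1 := dm_of eo (by omega)
    have d2 := dm_of ei (by omega)
    have so := shift_cases hp (xo : ℕ) (R / 2) (by omega)
    have lo := Nat.mod_lt (xo : ℕ) hp
    have hxo : R / 4 ≤ (xo : ℕ) % R ∧ (xo : ℕ) % R < 3 * (R / 4) := by omega
    have tV : tile c R (xi, y) = (false, true, a, b) := lg_tile_V h ⟨by rw [d2.1]; exact w1, by omega, by omega⟩ wy
    have nV := lg_mid_notV h hxo y
    have hne : tile c R (xi, y) ≠ tile c R (xo, y) := fun e => nV (by rw [← e, tV]; exact ⟨rfl, rfl⟩)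
    have hc := lg_core_h (R := R) (x := xo) (x' := xi) (y := y) (by omega) hne
    rw [(lg_key_V nV (by rw [tV]; exact ⟨rfl, rfl⟩)).1, tV] at hc
    have hxx : x = xo ∨ x = xi := by
      rcases (by omega : ((x : ℕ) + R / 2) % R = R / 4 - 1 ∨ ((x : ℕ) + R / 2) % R = R / 4) with e | e
      · left; apply Fin.ext; omega
      · right; apply Fin.ext; omega
    rcases hxx with rfl | rfl
    · exact hc.1
    · exact hc.2
  · obtain ⟨xo, eo⟩ := lg_cell_at h x (u := 3 * (R / 4)) (by omega) (by omega)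
    obtain ⟨xi, ei⟩ := lg_cell_at h x (u := 3 * (R / 4) - 1) (by omega) (by omega)
    have d1 := dm_of eo (by omega)
    have d2 := dm_of ei (by omega)
    have so := shift_cases hp (xo : ℕ) (R / 2) (by omega)
    have lo := Nat.mod_lt (xo : ℕ) hp
    have hxo : R / 4 ≤ (xo : ℕ) % R ∧ (xo : ℕ) % R < 3 * (R / 4) := by omega
    have tV : tile c R (xi, y) = (false, true, a, b) := lg_tile_V h ⟨by rw [d2.1]; exact w1, by omega, by omega⟩ wy
    have nV := lg_mid_notV h hxo y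
    have hne : tile c R (xo, y) ≠ tile c R (xi, y) := fun e => nV (by rw [e, tV]; exact ⟨rfl, rfl⟩)
    have hc := lg_core_h (R := R) (x := xi) (x' := xo) (y := y) (by omega) hne
    rw [(lg_key_V nV (by rw [tV]; exact ⟨rfl, rfl⟩)).2, tV] at hc
    have hxx : x = xi ∨ x = xo := by
      rcases (by omega : ((x : ℕ) + R / 2) % R = 3 * (R / 4) - 1 ∨ ((x : ℕ) + R / 2) % R = 3 * (R / 4)) with e | e
      · left; apply Fin.ext; omega
      · right; apply Fin.ext; omega
    rcases hxx with rfl | rfl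
    · exact hc.1
    · exact hc.2

theorem gl_f_core_v (h : Adm c R) {a b : ℕ} {x y : Fin c.n} (hx : glfV c R 0 a x) (hy : glfS c R 0 b y) :
    (x, y) ∈ core c R (false, true, a, b) :=
  (lg_core_swap h (false, true, a, b) x y).1 (gl_f_core_h h hy hx)

/-- a cell of an enlarged window is close to a cell of the window -/
theorem gl_f_clamp (h : Adm c R) {a lo hi ρ : ℕ} {x : Fin c.n} (hw : Win c R (R / 2) a (lo - ρ) (hi + ρ) x) (h2 : lo < hi) (h3 : hi + ρ ≤ R)
    (hl : lo < R / 2 ∨ R / 2 + ρ ≤ lo) (hh : R / 2 < hi ∨ hi + ρ ≤ R / 2) :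
    ∃ x₀ : Fin c.n, Win c R (R / 2) a lo hi x₀ ∧ c.idist1 x₀ x ≤ ρ := by
  have h64 := h.d64
  have hp := h.pos
  obtain ⟨w1, w2, w3⟩ := hw
  by_cases q1 : ((x : ℕ) + R / 2) % R < lo
  · obtain ⟨x₀, e⟩ := lg_cell_at h x (u := lo) (by omega) (by omega)
    have d := dm_of e (by omega)
    refine ⟨x₀, ⟨by rw [d.1]; exact w1, by omega, by omega⟩, ?_⟩
    have := idist1_le_of_red h x₀ x (σ := R / 2) (by omega) (by rw [d.1])
    omega
  · by_cases q2 : ((x : ℕ) + R / 2) % R < hi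
    · exact ⟨x, ⟨w1, by omega, q2⟩, by rw [geo_idist1_self]; exact Nat.zero_le _⟩
    · obtain ⟨x₀, e⟩ := lg_cell_at h x (u := hi - 1) (by omega) (by omega)
      have d := dm_of e (by omega)
      refine ⟨x₀, ⟨by rw [d.1]; exact w1, by omega, by omega⟩, ?_⟩
      have := idist1_le_of_red h x₀ x (σ := R / 2) (by omega) (by rw [d.1])
      omega

theorem gl_f_V_clamp (h : Adm c R) {ρ : ℕ} (hρ : ρ ≤ R / 16) {a : ℕ} {x : Fin c.n} (hv : glfV c R ρ a x) :
    ∃ x₀ : Fin c.n, glfV c R 0 a x₀ ∧ c.idist1 x₀ x ≤ ρ := by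
  have h64 := h.d64
  have hp := h.pos
  exact gl_f_clamp h hv (by omega) (by omega) (by omega) (by omega)

theorem gl_f_S_clamp (h : Adm c R) {ρ : ℕ} (hρ : ρ ≤ R / 16) {a : ℕ} {x : Fin c.n} (hs : glfS c R ρ a x) :
    ∃ x₀ : Fin c.n, glfS c R 0 a x₀ ∧ c.idist1 x₀ x ≤ ρ := by
  have h64 := h.d64
  have hp := h.pos
  rcases hs with hs | hs
  · obtain ⟨x₀, w, d⟩ := gl_f_clamp h hs (by omega) (by omega) (by omega) (by omega)
    exact ⟨x₀, Or.inl w, d⟩
  · obtain ⟨x₀, w, d⟩ := gl_f_clamp h hs (by omega) (by omega) (by omega) (by omega)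
    exact ⟨x₀, Or.inr w, d⟩

theorem gl_f_V_nbh (h : Adm c R) {ρ : ℕ} (hρ : ρ ≤ R / 16) {a : ℕ} {x₀ x : Fin c.n} (hv : glfV c R 0 a x₀) (hd : c.idist1 x₀ x ≤ ρ) :
    glfV c R ρ a x := by
  have h64 := h.d64
  have hp := h.pos
  have hv' : Win c R (R / 2) a (R / 4) (3 * (R / 4)) x₀ := hv
  exact hv'.nbh h hd (by omega) (by omega)

theorem gl_f_S_nbh (h : Adm c R) {ρ : ℕ} (hρ : ρ ≤ R / 16) {a : ℕ} {x₀ x : Fin c.n} (hs : glfS c R 0 a x₀) (hd : c.idist1 x₀ x ≤ ρ) :
    glfS c R ρ a x := by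
  have h64 := h.d64
  have hp := h.pos
  rcases hs with hs | hs
  · have hs' : Win c R (R / 2) a (R / 4 - 1) (R / 4 + 1) x₀ := hs
    exact Or.inl (hs'.nbh h hd (by omega) (by omega))
  · have hs' : Win c R (R / 2) a (3 * (R / 4) - 1) (3 * (R / 4) + 1) x₀ := hs
    exact Or.inr (hs'.nbh h hd (by omega) (by omega))

/-- **the neighbourhood of the core of a ring is a frame** -/
theorem gl_f_nbh_iff (h : Adm c R) {ρ : ℕ} (hρ : ρ ≤ R / 16) (a b : ℕ) (x y : Fin c.n) :
    (x, y) ∈ nbh c ρ (core c R (false, true, a, b)) ↔ (glfS c R ρ a x ∧ glfV c R ρ b y) ∨ (glfV c R ρ a x ∧ glfS c R ρ b y) := by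
  constructor
  · intro hi
    obtain ⟨⟨x₀, y₀⟩, h0, hd⟩ := mem_nbh.1 hi
    have d1 : c.idist1 x₀ x ≤ ρ := (idist1_le_left (x₀, y₀) (x, y)).trans hd
    have d2 : c.idist1 y₀ y ≤ ρ := (idist1_le_right (x₀, y₀) (x, y)).trans hd
    rcases gl_f_core_sub h h0 with ⟨s, v⟩ | ⟨v, s⟩
    · exact Or.inl ⟨gl_f_S_nbh h hρ s d1, gl_f_V_nbh h hρ v d2⟩
    · exact Or.inr ⟨gl_f_V_nbh h hρ v d1, gl_f_S_nbh h hρ s d2⟩
  · rintro (⟨s, v⟩ | ⟨v, s⟩)
    · obtain ⟨x₀, s0, d1⟩ := gl_f_S_clamp h hρ s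
      obtain ⟨y₀, v0, d2⟩ := gl_f_V_clamp h hρ v
      exact mem_nbh.2 ⟨(x₀, y₀), gl_f_core_h h s0 v0, max_le d1 d2⟩
    · obtain ⟨x₀, v0, d1⟩ := gl_f_V_clamp h hρ v
      obtain ⟨y₀, s0, d2⟩ := gl_f_S_clamp h hρ s
      exact mem_nbh.2 ⟨(x₀, y₀), gl_f_core_v h v0 s0, max_le d1 d2⟩

theorem gl_f_up (h : Adm c R) {ρ : ℕ} (hρ : ρ ≤ R / 16) {a : ℕ} {x : Fin c.n} (hf : G.bc = BC.per ∨ (x : ℕ) + 1 < c.n)
    (hs : glfS c R ρ a x) (hn : ¬ glfV c R ρ a x) (hv : glfV c R ρ a (nx x)) : glfS c R ρ a (nx x) := by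
  have h64 := h.d64
  have hp := h.pos
  obtain ⟨v1, v2, v3⟩ := hv
  rcases hs with ⟨s1, s2, s3⟩ | ⟨s1, s2, s3⟩
  · have hn' : ¬ (R / 4 - ρ ≤ ((x : ℕ) + R / 2) % R ∧ ((x : ℕ) + R / 2) % R < 3 * (R / 4) + ρ) := fun z => hn ⟨s1, z.1, z.2⟩
    rcases nx_cases h x (R / 2) hf with q | q
    · exact Or.inl ⟨v1, by omega, by omega⟩
    · omega
  · have hn' : ¬ (R / 4 - ρ ≤ ((x : ℕ) + R / 2) % R ∧ ((x : ℕ) + R / 2) % R < 3 * (R / 4) + ρ) := fun z => hn ⟨s1, z.1, z.2⟩
    rcases nx_cases h x (R / 2) hf with q | q <;> omega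

theorem gl_f_down (h : Adm c R) {ρ : ℕ} (hρ : ρ ≤ R / 16) {a : ℕ} {x : Fin c.n} (hf : G.bc = BC.per ∨ (x : ℕ) + 1 < c.n)
    (hs : glfS c R ρ a (nx x)) (hn : ¬ glfV c R ρ a (nx x)) (hv : glfV c R ρ a x) : glfS c R ρ a x := by
  have h64 := h.d64
  have hp := h.pos
  obtain ⟨v1, v2, v3⟩ := hv
  rcases hs with ⟨s1, s2, s3⟩ | ⟨s1, s2, s3⟩
  · have hn' : ¬ (R / 4 - ρ ≤ ((nx x : ℕ) + R / 2) % R ∧ ((nx x : ℕ) + R / 2) % R < 3 * (R / 4) + ρ) := fun z => hn ⟨s1, z.1, z.2⟩
    rcases nx_cases h x (R / 2) hf with q | q <;> omega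
  · have hn' : ¬ (R / 4 - ρ ≤ ((nx x : ℕ) + R / 2) % R ∧ ((nx x : ℕ) + R / 2) % R < 3 * (R / 4) + ρ) := fun z => hn ⟨s1, z.1, z.2⟩
    rcases nx_cases h x (R / 2) hf with q | q
    · exact Or.inr ⟨v1, by omega, by omega⟩
    · omega

/-- LEAF L-GL-FRAME.  **Neighbourhoods of rings have no diagonal contacts.**  PLAN (`k = (false, true, a, b)`, `key_shape`); `V_ρ a x := Win c R (R/2) a (R/4 - ρ) (3R/4 + ρ) x`,
`S_ρ a x := Win c R (R/2) a (R/4 - 1 - ρ) (R/4 + 1 + ρ) x ∨ Win c R (R/2) a (3R/4 - 1 - ρ) (3R/4 + 1 + ρ) x`: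
(1) `(x, y) ∈ core k ↔ (S_0 a x ∧ V_0 b y) ∨ (V_0 a x ∧ S_0 b y)`   ((→) `core_box` + `gl_seam_h`/`gl_seam_v` + `gl_isV_iff`; (←) as `LinkGeo.lg_V1`: `lg_cell_at`, `lg_tile_V`, `lg_mid_notV`, `lg_key_V`, `lg_core_h`, swap);
(2) `(x, y) ∈ nbh ρ (core k) ↔ (S_ρ a x ∧ V_ρ b y) ∨ (V_ρ a x ∧ S_ρ b y)`   ((→) `Win.nbh`; (←) clamp each coordinate: `lg_cell_at` (same half of the period) + `idist1_le_of_red`);
(3) `S_ρ x ∧ ¬ V_ρ x ∧ V_ρ (nx x) → S_ρ (nx x)` and `S_ρ (nx x) ∧ ¬ V_ρ (nx x) ∧ V_ρ x → S_ρ x` (`nx_cases h x (R/2)`, omega); then propositional logic. -/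
theorem gl_frame_ring (h : Adm c R) {k : EvId} (hk : k ∈ events c R) (hV : k.1 = false) {ρ : ℕ} (hρ : ρ ≤ R / 16) (x y : Fin c.n)
    (hf1 : G.bc = BC.per ∨ (x : ℕ) + 1 < c.n) (hf2 : G.bc = BC.per ∨ (y : ℕ) + 1 < c.n) :
    ((x, y) ∈ nbh c ρ (core c R k) → (nx x, nx y) ∈ nbh c ρ (core c R k) → (nx x, y) ∈ nbh c ρ (core c R k) ∨ (x, nx y) ∈ nbh c ρ (core c R k)) ∧
    ((nx x, y) ∈ nbh c ρ (core c R k) → (x, nx y) ∈ nbh c ρ (core c R k) → (x, y) ∈ nbh c ρ (core c R k) ∨ (nx x, nx y) ∈ nbh c ρ (core c R k)) := by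
  have hs := key_shape h hk hV
  obtain ⟨k1, k2, a, b⟩ := k
  simp only at hV hs
  subst hV hs
  simp only [gl_f_nbh_iff h hρ]
  constructor
  · rintro (⟨s, v⟩ | ⟨v, s⟩) (⟨s', v'⟩ | ⟨v', s'⟩)
    · exact Or.inl (Or.inl ⟨s', v⟩)
    · by_cases c1 : glfV c R ρ a x
      · exact Or.inr (Or.inr ⟨c1, s'⟩)
      · exact Or.inl (Or.inl ⟨gl_f_up h hρ hf1 s c1 v', v⟩)
    · by_cases c1 : glfV c R ρ b y
      · exact Or.inl (Or.inl ⟨s', c1⟩)
      · exact Or.inr (Or.inr ⟨v, gl_f_up h hρ hf2 s c1 v'⟩)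
    · exact Or.inl (Or.inr ⟨v', s⟩)
  · rintro (⟨s, v⟩ | ⟨v, s⟩) (⟨s', v'⟩ | ⟨v', s'⟩)
    · exact Or.inl (Or.inl ⟨s', v⟩)
    · by_cases c1 : glfV c R ρ a (nx x)
      · exact Or.inr (Or.inr ⟨c1, s'⟩)
      · exact Or.inl (Or.inl ⟨gl_f_down h hρ hf1 s c1 v', v⟩)
    · by_cases c1 : glfV c R ρ b y
      · exact Or.inl (Or.inl ⟨s', c1⟩)
      · exact Or.inr (Or.inr ⟨v, gl_f_up h hρ hf2 s c1 v'⟩)
    · exact Or.inl (Or.inr ⟨v', s⟩)

theorem gl_mix_nbh (h : Adm c R) {k : EvId} (hE : k.1 = true) {ρ : ℕ} {x y x' y' : Fin c.n} (hp : (x, y) ∈ nbh c ρ (core c R k))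
    (hq : (x', y') ∈ nbh c ρ (core c R k)) : (x', y) ∈ nbh c ρ (core c R k) := by
  obtain ⟨⟨a1, a2⟩, ha, da⟩ := mem_nbh.1 hp
  obtain ⟨⟨b1, b2⟩, hb, db⟩ := mem_nbh.1 hq
  refine mem_nbh.2 ⟨(b1, a2), gl_mix_E h hE ha hb, ?_⟩
  have d1 := (idist1_le_right (c := c) (a1, a2) (x, y)).trans da
  have d2 := (idist1_le_left (c := c) (b1, b2) (x', y')).trans db
  exact max_le d2 d1

theorem gl_pres_aux {k : EvId} {ρ : ℕ} (h1ρ : 1 ≤ ρ) {p q r1 r2 : c.I}
    (hp : p ∈ nbh c ρ (core c R k) ∩ ctl c R k) (hq : q ∈ nbh c ρ (core c R k) ∩ ctl c R k)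
    (A : r1 ∈ nbh c ρ (core c R k) ∨ r2 ∈ nbh c ρ (core c R k))
    (J : tile c R r1 = tile c R p ∨ tile c R r1 = tile c R q ∨ tile c R r2 = tile c R p ∨ tile c R r2 = tile c R q)
    (C1 : tile c R r1 ≠ tile c R p → tile c R r1 ≠ tile c R q → p ∈ core c R k ∨ q ∈ core c R k)
    (C2 : tile c R r2 ≠ tile c R p → tile c R r2 ≠ tile c R q → p ∈ core c R k ∨ q ∈ core c R k)
    (d : c.idist p r1 ≤ 1 ∧ c.idist q r1 ≤ 1 ∧ c.idist p r2 ≤ 1 ∧ c.idist q r2 ≤ 1) :
    (r1 ∈ nbh c ρ (core c R k) ∩ ctl c R k ∧ (tile c R r1 = tile c R p ∨ tile c R r1 = tile c R q)) ∨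
    (r2 ∈ nbh c ρ (core c R k) ∩ ctl c R k ∧ (tile c R r2 = tile c R p ∨ tile c R r2 = tile c R q)) := by
  have hctl : ∀ r : c.I, (tile c R r = tile c R p ∨ tile c R r = tile c R q) → r ∈ ctl c R k := by
    intro r hr
    rcases hr with e | e
    · obtain ⟨j, hj, ej⟩ := lg_mem_ctl.1 (Finset.mem_inter.1 hp).2
      exact lg_mem_ctl.2 ⟨j, hj, by rw [ej, e]⟩
    · obtain ⟨j, hj, ej⟩ := lg_mem_ctl.1 (Finset.mem_inter.1 hq).2
      exact lg_mem_ctl.2 ⟨j, hj, by rw [ej, e]⟩
  have hnear : ∀ r : c.I, c.idist p r ≤ 1 → c.idist q r ≤ 1 → (p ∈ core c R k ∨ q ∈ core c R k) → r ∈ nbh c ρ (core c R k) := by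
    intro r d1 d2 hc
    rcases hc with hc | hc
    · exact mem_nbh.2 ⟨p, hc, d1.trans h1ρ⟩
    · exact mem_nbh.2 ⟨q, hc, d2.trans h1ρ⟩
  by_cases c1 : tile c R r1 = tile c R p ∨ tile c R r1 = tile c R q <;> by_cases c2 : tile c R r2 = tile c R p ∨ tile c R r2 = tile c R q
  · rcases A with a | a
    · exact Or.inl ⟨Finset.mem_inter.2 ⟨a, hctl _ c1⟩, c1⟩
    · exact Or.inr ⟨Finset.mem_inter.2 ⟨a, hctl _ c2⟩, c2⟩
  · rw [not_or] at c2
    exact Or.inl ⟨Finset.mem_inter.2 ⟨hnear _ d.1 d.2.1 (C2 c2.1 c2.2), hctl _ c1⟩, c1⟩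
  · rw [not_or] at c1
    exact Or.inr ⟨Finset.mem_inter.2 ⟨hnear _ d.2.2.1 d.2.2.2 (C1 c1.1 c1.2), hctl _ c2⟩, c2⟩
  · rw [not_or] at c1 c2
    rcases J with e | e | e | e
    · exact absurd e c1.1
    · exact absurd e c1.2
    · exact absurd e c2.1
    · exact absurd e c2.2

/-- patches, testing patches, interiors of guards -/
theorem gl_pres_nbh (h : Adm c R) {k : EvId} (hk : k ∈ events c R) {ρ : ℕ} (h1ρ : 1 ≤ ρ) (hρ : ρ ≤ R / 16) (z : c.I) (h1 : IsFace c (z, true))
    (h2 : IsFace c (z, false)) : Pres c R (nbh c ρ (core c R k) ∩ ctl c R k) z := by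
  obtain ⟨x, y⟩ := z
  have hf1 : G.bc = BC.per ∨ (x : ℕ) + 1 < c.n := by simpa [IsFace] using h1
  have hf2 : G.bc = BC.per ∨ (y : ℕ) + 1 < c.n := by simpa [IsFace] using h2
  have J := gl_junction h (x, y) h1 h2
  have h3 : IsFace c ((nx x, y), false) := by simpa [IsFace] using hf2
  have h4 : IsFace c ((x, nx y), true) := by simpa [IsFace] using hf1
  have e01 : fnb c ((x, y), true) = (nx x, y) := rfl
  have e02 : fnb c ((x, y), false) = (x, nx y) := rfl
  have e13 : fnb c ((nx x, y), false) = (nx x, nx y) := rfl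
  have e23 : fnb c ((x, nx y), true) = (nx x, nx y) := rfl
  have d01 := idist_face h1
  have d02 := idist_face h2
  have d13 := idist_face h3
  have d23 := idist_face h4
  rw [e01] at d01
  rw [e02] at d02
  rw [e13] at d13
  rw [e23] at d23
  simp only at d01 d02 d13 d23
  have A : ((x, y) ∈ nbh c ρ (core c R k) → (nx x, nx y) ∈ nbh c ρ (core c R k) → (nx x, y) ∈ nbh c ρ (core c R k) ∨ (x, nx y) ∈ nbh c ρ (core c R k)) ∧
      ((nx x, y) ∈ nbh c ρ (core c R k) → (x, nx y) ∈ nbh c ρ (core c R k) → (x, y) ∈ nbh c ρ (core c R k) ∨ (nx x, nx y) ∈ nbh c ρ (core c R k)) := by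
    cases hk1 : k.1
    · exact gl_frame_ring h hk hk1 hρ x y hf1 hf2
    · exact ⟨fun p q => Or.inl (gl_mix_nbh h hk1 p q), fun p q => Or.inl (gl_mix_nbh h hk1 p q)⟩
  unfold Pres
  rw [e01, e02, e13] at J ⊢
  constructor
  · intro hp hq
    refine gl_pres_aux h1ρ hp hq (A.1 (Finset.mem_inter.1 hp).1 (Finset.mem_inter.1 hq).1) ?_ ?_ ?_
      ⟨d01, by rw [geo_idist_comm]; exact d13, d02, by rw [geo_idist_comm]; exact d23⟩
    · rcases J with e | e | e | e
      · exact Or.inl e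
      · exact Or.inr (Or.inr (Or.inl e))
      · exact Or.inr (Or.inl e.symm)
      · exact Or.inr (Or.inr (Or.inr e.symm))
    · intro n1 n2
      exact gl_corner h hρ (fh := ((x, y), true)) (fv := ((nx x, y), false)) (mem_seam.2 ⟨h1, n1⟩) (mem_seam.2 ⟨h3, fun e => n2 e.symm⟩) rfl rfl
        (r := (nx x, y)) (Or.inr ⟨rfl, rfl⟩) (Or.inl ⟨rfl, rfl⟩) hp hq
    · intro n1 n2
      exact (gl_corner h hρ (fh := ((x, nx y), true)) (fv := ((x, y), false)) (mem_seam.2 ⟨h4, fun e => n2 e.symm⟩) (mem_seam.2 ⟨h2, n1⟩) rfl rfl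
        (r := (x, nx y)) (Or.inl ⟨rfl, rfl⟩) (Or.inr ⟨rfl, rfl⟩) hq hp).symm
  · intro hp hq
    refine gl_pres_aux h1ρ hp hq (A.2 (Finset.mem_inter.1 hp).1 (Finset.mem_inter.1 hq).1) ?_ ?_ ?_
      ⟨by rw [geo_idist_comm]; exact d01, by rw [geo_idist_comm]; exact d02, d13, d23⟩
    · rcases J with e | e | e | e
      · exact Or.inl e.symm
      · exact Or.inr (Or.inl e.symm)
      · exact Or.inr (Or.inr (Or.inl e))
      · exact Or.inr (Or.inr (Or.inr e))
    · intro n1 n2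
      exact gl_corner h hρ (fh := ((x, y), true)) (fv := ((x, y), false)) (mem_seam.2 ⟨h1, fun e => n1 e.symm⟩) (mem_seam.2 ⟨h2, fun e => n2 e.symm⟩) rfl rfl
        (r := (x, y)) (Or.inl ⟨rfl, rfl⟩) (Or.inl ⟨rfl, rfl⟩) hp hq
    · intro n1 n2
      exact (gl_corner h hρ (fh := ((x, nx y), true)) (fv := ((nx x, y), false)) (mem_seam.2 ⟨h4, n2⟩) (mem_seam.2 ⟨h3, n1⟩) rfl rfl
        (r := (nx x, nx y)) (Or.inr ⟨rfl, rfl⟩) (Or.inr ⟨rfl, rfl⟩) hq hp).symm

end Claimed.Agent.R285.Ent
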