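import Claimed.Agent.R285.Ent.Defs
import Claimed.Agent.R285.Ent.Alg
import Claimed.Agent.R285.Entry.ExpAlg

/-!
# ROW 285, entry engine, layer ISO (post BP-ENT-GEO #13338): the POINTWISE identities of the finite expansion for the geometry of `Ent/Defs.lean`     (owner helper108)
Paper-free.  Everything is pointwise in the complex observation `y`; only `Wt.Str` is used.
* `ent_binary`   (T1a) binary expansion, two colours (`Entry.isoSum_eq` with the order `E < V`);      PROVED
* `Zh_halo_split`(T1b) off the halos all tiles are isolated;                                        PROVED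
* `ent_iso`      (T1)  `Zh full = ∏ prox · ∏ tdiv · ∑_{S valid} halo S ∏_{t ∉ halT S} tfac t`.        PROVED
-/

set_option autoImplicit false

namespace Claimed.Agent.R285.Ent

open scoped BigOperators
open Claimed.Agent.R285 Claimed.Agent.R285.RG Claimed.Agent.R285.F4a Claimed.Agent.R285.Entry

noncomputable section

variable {G : Geom} {c : Grid G}

/-! ## 0. Topologies -/

theorem top_ext {T T' : Top c} (h1 : T.cells = T'.cells) (h2 : T.faces = T'.faces) : T = T' := by
  cases T; cases T'; simp_all

theorem topU_events (R : ℕ) : topU c R (events c R) = Top.full c := by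
  unfold topU Top.cut
  refine top_ext rfl ?_
  have : (seam c R).filter (fun f => evKey c R f ∉ events c R) = ∅ := by
    refine Finset.filter_eq_empty_iff.2 fun f hf h => h ?_
    exact Finset.mem_image_of_mem _ hf
  show (Top.full c).faces \ _ = _
  rw [this, Finset.sdiff_empty]

theorem skp_subset (R : ℕ) (S : Finset EvId) : skp c R S ⊆ events c R :=
  (Finset.filter_subset _ _).trans (Finset.filter_subset _ _)

/-- the order of the events: `E` before `V` -/
def evLex (k : EvId) : Bool ×ₗ (Bool ×ₗ (ℕ ×ₗ ℕ)) := toLex (k.1, toLex (k.2.1, toLex (k.2.2.1, k.2.2.2)))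

theorem evLex_inj : Function.Injective evLex := by
  rintro ⟨a, b, x, y⟩ ⟨a', b', x', y'⟩ h
  have h1 := toLex.injective h
  simp only [Prod.mk.injEq] at h1
  obtain ⟨h1, h2⟩ := h1
  have h2 := toLex.injective h2
  simp only [Prod.mk.injEq] at h2
  obtain ⟨h2, h3⟩ := h2
  have h3 := toLex.injective h3
  simp only [Prod.mk.injEq] at h3
  simp [h1, h2, h3.1, h3.2]

/-- **T1a: the binary expansion** (two colours, marks `S`, open marks `O ⊆ S`). -/
theorem ent_binary (W : Wt c) (R : ℕ) (y : c.I → ℂ) :
    W.Zh (Top.full c) y = ∑ S ∈ @Finset.filter _ (Valid c R) (Classical.decPred _) (events c R).powerset, ∑ O ∈ S.powerset,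
      (-1) ^ (S \ O).card * (∏ k ∈ events c R \ (skp c R S ∪ O), W.prox R k y) * W.Zh (topU c R (skp c R S ∪ O)) y := by
  classical
  let inst : LinearOrder EvId := LinearOrder.lift' evLex evLex_inj
  have hlt : ∀ i j : EvId, i.1 = false → j.1 = true → @LT.lt _ inst.toLT i j := fun i j hi hj => by
    show evLex i < evLex j
    unfold evLex
    rw [hi, hj]
    exact Prod.Lex.toLex_lt_toLex.2 (Or.inl Bool.false_lt_true)
  have h := @isoSum_eq EvId ℂ _ inst (fun P => W.Zh (topU c R (events c R \ P)) y) (fun j _ => W.prox R j y)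
    (fun j M => j ∈ skp c R M) (fun _ _ _ _ => rfl)
    (fun j M M' h => by
      unfold skp
      simp only [Finset.mem_filter]
      constructor
      · rintro ⟨h1, e, h2, h3, h4⟩
        exact ⟨h1, e, (h e (hlt e j h3 (Finset.mem_filter.1 h1).2)).1 h2, h3, h4⟩
      · rintro ⟨h1, e, h2, h3, h4⟩
        exact ⟨h1, e, (h e (hlt e j h3 (Finset.mem_filter.1 h1).2)).2 h2, h3, h4⟩) (events c R)
  simp only [Finset.sdiff_empty, topU_events] at h
  rw [← h]
  unfold isoSum
  have hv : @Finset.filter _ (IsoValid fun j M => j ∈ skp c R M) (Classical.decPred _) (events c R).powerset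
      = @Finset.filter _ (Valid c R) (Classical.decPred _) (events c R).powerset := by
    ext M
    simp only [Finset.mem_filter, Finset.mem_powerset, Valid, IsoValid]
    constructor
    · rintro ⟨h1, h2⟩
      exact ⟨h1, h1, Finset.disjoint_left.2 h2⟩
    · rintro ⟨h1, -, h2⟩
      exact ⟨h1, fun j hj => Finset.disjoint_left.1 h2 hj⟩
  rw [hv]
  refine Finset.sum_congr rfl fun S hS => ?_
  have hS' : S ⊆ events c R := (Finset.mem_powerset.1 (Finset.mem_filter.1 hS).1)
  refine Finset.sum_nbij' (fun O => S \ O) (fun σ => S \ σ) ?_ ?_ ?_ ?_ ?_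
  · intro O _; exact Finset.mem_powerset.2 Finset.sdiff_subset
  · intro O _; exact Finset.mem_powerset.2 Finset.sdiff_subset
  · intro O hO; exact Finset.sdiff_sdiff_eq_self (Finset.mem_powerset.1 hO)
  · intro O hO; exact Finset.sdiff_sdiff_eq_self (Finset.mem_powerset.1 hO)
  · intro σ hσ
    rw [Finset.mem_powerset] at hσ
    have e : isoPerf (fun j M => j ∈ skp c R M) (events c R) S σ = events c R \ (skp c R S ∪ S \ σ) := by
      ext j
      simp only [mem_isoPerf, Finset.mem_sdiff, Finset.mem_union, not_or, not_and, not_not]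
      constructor
      · rintro ⟨h1, h2, h3⟩
        refine ⟨h1, h2, fun hjS => ?_⟩
        rcases h3 with h3 | h3
        · exact absurd hjS h3
        · exact h3
      · rintro ⟨h1, h2, h3⟩
        refine ⟨h1, h2, ?_⟩
        by_cases hj : j ∈ S
        · exact Or.inr (h3 hj)
        · exact Or.inl hj
    have e2 : events c R \ (events c R \ (skp c R S ∪ S \ σ)) = skp c R S ∪ S \ σ :=
      Finset.sdiff_sdiff_eq_self (Finset.union_subset (skp_subset R S) (Finset.sdiff_subset.trans hS'))
    unfold isoTerm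
    simp only []
    rw [e, e2, Finset.sdiff_sdiff_eq_self hσ]

/-! ## 1. Factorisation off the halos -/

theorem restr_restr (T : Top c) (A B : Finset c.I) : (T.restr A).restr B = T.restr (A ∩ B) := by
  classical
  unfold Top.restr
  refine top_ext ?_ ?_
  · show T.cells ∩ A ∩ B = T.cells ∩ (A ∩ B)
    rw [Finset.inter_assoc]
  · ext f
    simp only [Finset.mem_filter, Finset.mem_inter]
    tauto

theorem restr_univ (T : Top c) : T.restr Finset.univ = T := by
  classical
  unfold Top.restr
  refine top_ext ?_ ?_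
  · show T.cells ∩ Finset.univ = T.cells
    rw [Finset.inter_univ]
  · ext f
    simp

theorem mem_cellsOf {R : ℕ} {A : Finset Tile} {i : c.I} : i ∈ cellsOf c R A ↔ tile c R i ∈ A := by
  simp [cellsOf]

theorem mem_seam {R : ℕ} {f : Face c} : f ∈ seam c R ↔ IsFace c f ∧ tile c R (fnb c f) ≠ tile c R f.1 := by
  simp [seam]

theorem mem_full_faces {f : Face c} : f ∈ (Top.full c).faces ↔ IsFace c f := by
  simp [Top.full]

theorem topU_cells (R : ℕ) (U : Finset EvId) : (topU c R U).cells = Finset.univ := rfl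

theorem mem_topU_faces {R : ℕ} {U : Finset EvId} {f : Face c} :
    f ∈ (topU c R U).faces ↔ IsFace c f ∧ (tile c R (fnb c f) = tile c R f.1 ∨ evKey c R f ∈ U) := by
  unfold topU Top.cut
  show f ∈ (Top.full c).faces \ _ ↔ _
  simp only [Finset.mem_sdiff, mem_full_faces, Finset.mem_filter, mem_seam, not_and, not_not]
  constructor
  · rintro ⟨h1, h2⟩
    refine ⟨h1, ?_⟩
    by_cases h : tile c R (fnb c f) = tile c R f.1
    · exact Or.inl h
    · exact Or.inr (h2 ⟨h1, h⟩)
  · rintro ⟨h1, h2⟩
    refine ⟨h1, fun h3 => ?_⟩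
    rcases h2 with h2 | h2
    · exact absurd h2 h3.2
    · exact h2

theorem topU_restr_tile (R : ℕ) (U : Finset EvId) (t : Tile) : (topU c R U).restr (cellsOf c R {t}) = tileTop c R t := by
  classical
  unfold tileTop Top.restr
  refine top_ext rfl ?_
  ext f
  simp only [Finset.mem_filter, mem_topU_faces, mem_full_faces, mem_cellsOf, Finset.mem_singleton]
  constructor
  · rintro ⟨⟨h1, -⟩, h2⟩
    exact ⟨h1, h2⟩
  · rintro ⟨h1, h2, h3⟩
    exact ⟨⟨h1, Or.inl (by rw [h2, h3])⟩, h2, h3⟩

theorem tile_mem_tiles (R : ℕ) (i : c.I) : tile c R i ∈ tiles c R := Finset.mem_image_of_mem _ (Finset.mem_univ i)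

/-- tiles which are not touched by a retained seam face split off -/
theorem Zh_split_tiles {W : Wt c} (hW : W.Str) (R : ℕ) (U : Finset EvId) (A : Finset Tile)
    (hA : ∀ f ∈ (topU c R U).faces, tile c R (fnb c f) ≠ tile c R f.1 → tile c R f.1 ∈ A ∧ tile c R (fnb c f) ∈ A)
    (y : c.I → ℂ) :
    W.Zh (topU c R U) y = W.Zh ((topU c R U).restr (cellsOf c R A)) y * ∏ t ∈ tiles c R \ A, W.Zh (tileTop c R t) y := by
  classical
  have key : ∀ B : Finset Tile, Disjoint A B →
      W.Zh ((topU c R U).restr (cellsOf c R (A ∪ B))) y =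
        W.Zh ((topU c R U).restr (cellsOf c R A)) y * ∏ t ∈ B, W.Zh (tileTop c R t) y := by
    intro B
    induction B using Finset.induction_on with
    | empty => intro _; simp
    | insert t B ht ih =>
      intro hd
      rw [Finset.disjoint_insert_right] at hd
      have hsp : Splits ((topU c R U).restr (cellsOf c R (A ∪ insert t B))) (cellsOf c R (A ∪ B)) (cellsOf c R {t}) := by
        refine ⟨?_, ?_, ?_⟩
        · rw [Finset.disjoint_left]
          intro i h1 h2
          rw [mem_cellsOf] at h1 h2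
          rw [Finset.mem_singleton] at h2
          rw [h2, Finset.mem_union] at h1
          exact h1.elim hd.1 ht
        · intro i hi
          have : i ∈ cellsOf c R (A ∪ insert t B) := (Finset.mem_inter.1 hi).2
          rw [mem_cellsOf, Finset.mem_union, Finset.mem_insert] at this
          rw [Finset.mem_union, mem_cellsOf, mem_cellsOf, Finset.mem_union, Finset.mem_singleton]
          tauto
        · intro f hf
          obtain ⟨hf1, hf2, hf3⟩ := Finset.mem_filter.1 hf
          rw [mem_cellsOf, Finset.mem_union, Finset.mem_insert] at hf2 hf3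
          simp only [mem_cellsOf, Finset.mem_union, Finset.mem_singleton]
          by_cases hsame : tile c R (fnb c f) = tile c R f.1
          · rw [hsame]
            tauto
          · have := hA f hf1 hsame
            exact Or.inl ⟨Or.inl this.1, Or.inl this.2⟩
      rw [hW.Zh_mul _ _ _ hsp y, restr_restr, restr_restr]
      have e1 : cellsOf c R (A ∪ insert t B) ∩ cellsOf c R (A ∪ B) = cellsOf c R (A ∪ B) := by
        ext i
        simp only [Finset.mem_inter, mem_cellsOf, Finset.mem_union, Finset.mem_insert]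
        tauto
      have e2 : cellsOf c R (A ∪ insert t B) ∩ cellsOf c R {t} = cellsOf c R {t} := by
        ext i
        simp only [Finset.mem_inter, mem_cellsOf, Finset.mem_union, Finset.mem_insert, Finset.mem_singleton]
        tauto
      rw [e1, e2, ih hd.2, topU_restr_tile, Finset.prod_insert ht]
      ring
  have h := key (tiles c R \ A) Finset.disjoint_sdiff
  have e : cellsOf c R (A ∪ (tiles c R \ A)) = Finset.univ := by
    ext i
    simp only [mem_cellsOf, Finset.mem_union, Finset.mem_sdiff, Finset.mem_univ, iff_true]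
    by_cases hi : tile c R i ∈ A
    · exact Or.inl hi
    · exact Or.inr ⟨tile_mem_tiles R i, hi⟩
  rw [e, restr_univ] at h
  exact h

theorem mem_core_of_key {R : ℕ} {f : Face c} (hf : f ∈ seam c R) :
    f.1 ∈ core c R (evKey c R f) ∧ fnb c f ∈ core c R (evKey c R f) := by
  have : f ∈ cutF c R (evKey c R f) := Finset.mem_filter.2 ⟨hf, rfl⟩
  unfold core
  exact ⟨Finset.mem_union_left _ (Finset.mem_image_of_mem _ this), Finset.mem_union_right _ (Finset.mem_image_of_mem _ this)⟩

theorem tile_mem_halT {R : ℕ} {S : Finset EvId} {k : EvId} (hk : k ∈ S ∪ skp c R S) {i : c.I} (hi : i ∈ core c R k) :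
    tile c R i ∈ halT c R S :=
  Finset.mem_image_of_mem _ (Finset.mem_biUnion.2 ⟨k, hk, hi⟩)

theorem halT_subset (R : ℕ) (S : Finset EvId) : halT c R S ⊆ tiles c R := by
  intro t ht
  obtain ⟨i, -, rfl⟩ := Finset.mem_image.1 ht
  exact tile_mem_tiles R i

/-- **T1b**: off the halos all tiles are isolated -/
theorem Zh_halo_split {W : Wt c} (hW : W.Str) (R : ℕ) {S O : Finset EvId} (hO : O ⊆ S) (y : c.I → ℂ) :
    W.Zh (topU c R (skp c R S ∪ O)) y = W.Zh (halTop c R S O) y * ∏ t ∈ tiles c R \ halT c R S, W.Zh (tileTop c R t) y := by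
  refine Zh_split_tiles hW R _ (halT c R S) (fun f hf hne => ?_) y
  obtain ⟨h1, h2⟩ := mem_topU_faces.1 hf
  have hk : evKey c R f ∈ S ∪ skp c R S := by
    rcases h2 with h2 | h2
    · exact absurd h2 hne
    · rcases Finset.mem_union.1 h2 with h2 | h2
      · exact Finset.mem_union_right _ h2
      · exact Finset.mem_union_left _ (hO h2)
  have hc := mem_core_of_key (mem_seam.2 ⟨h1, hne⟩)
  exact ⟨tile_mem_halT hk hc.1, tile_mem_halT hk hc.2⟩

theorem prox_ne_zero {W : Wt c} (hW : W.Str) (R : ℕ) (k : EvId) (y : c.I → ℂ) : W.prox R k y ≠ 0 := by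
  unfold Wt.prox
  refine mul_ne_zero ?_ (Complex.exp_ne_zero _)
  exact_mod_cast (div_pos (hW.N_pos _) (hW.N_pos _)).ne'

theorem tdiv_ne_zero {W : Wt c} (hW : W.Str) (R : ℕ) (t : Tile) (y : c.I → ℂ) : W.tdiv R t y ≠ 0 := by
  unfold Wt.tdiv
  refine mul_ne_zero ?_ (Complex.exp_ne_zero _)
  exact_mod_cast (hW.N_pos _).ne'

/-- **T1: the isolation expansion in halo factors** -/
theorem ent_iso {W : Wt c} (hW : W.Str) (R : ℕ) (y : c.I → ℂ) :
    W.Zh (Top.full c) y = ((∏ k ∈ events c R, W.prox R k y) * ∏ t ∈ tiles c R, W.tdiv R t y) *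
      ∑ S ∈ @Finset.filter _ (Valid c R) (Classical.decPred _) (events c R).powerset,
        W.halo R S y * ∏ t ∈ tiles c R \ halT c R S, W.tfac R t y := by
  classical
  rw [ent_binary W R y, Finset.mul_sum]
  refine Finset.sum_congr rfl fun S hS => ?_
  have hS' : S ⊆ events c R := (Finset.mem_powerset.1 (Finset.mem_filter.1 hS).1)
  unfold Wt.halo
  rw [Finset.sum_mul, Finset.mul_sum]
  refine Finset.sum_congr rfl fun O hO => ?_
  rw [Finset.mem_powerset] at hO
  have hA : skp c R S ∪ O ⊆ events c R := Finset.union_subset (skp_subset R S) (hO.trans hS')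
  rw [Zh_halo_split hW R hO y, ← Finset.prod_sdiff hA, ← Finset.prod_sdiff (halT_subset R S)]
  unfold Wt.haloTerm Wt.tfac
  rw [Finset.prod_div_distrib]
  have h1 : ∏ k ∈ skp c R S ∪ O, W.prox R k y ≠ 0 := Finset.prod_ne_zero_iff.2 fun k _ => prox_ne_zero hW R k y
  have h2 : ∏ t ∈ halT c R S, W.tdiv R t y ≠ 0 := Finset.prod_ne_zero_iff.2 fun t _ => tdiv_ne_zero hW R t y
  have h3 : ∏ t ∈ tiles c R \ halT c R S, W.tdiv R t y ≠ 0 := Finset.prod_ne_zero_iff.2 fun t _ => tdiv_ne_zero hW R t y
  field_simp

end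

end Claimed.Agent.R285.Ent
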