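import Claimed.Agent.R285.Ent.Main
import Claimed.Agent.R285.Ent.LocMain
import Claimed.Agent.R285.Ent.Maj
import Claimed.Agent.R285.Ent.Prop
import Claimed.Agent.R285.Ent.Eta
import Claimed.Agent.R285.Ent.GeoU
import Claimed.Agent.R285.Ent.TrExit
import Claimed.Agent.R285.Ent.CxHol
import Claimed.Agent.R285.Ent.CxNorm
import Claimed.Agent.R285.Ent.PhysTop
import Claimed.Agent.R285.Entry.NtXY
import Claimed.Agent.R285.Entry.PhyXY
import Claimed.Agent.R285.Entry.NtGeoS
import Claimed.Agent.R285.Ent.Phys
import Claimed.Agent.R285.Entry.GbDefs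
import Claimed.Agent.R285.Entry.GoodGeo
import Claimed.Agent.R285.Entry.GbSrc
import Claimed.Agent.R285.Ent.TrFin

/-!
# ROW 285, THE ENTRY ENGINE: THE LINK            (owner helper56)
`Read/F4b.lean` proves `F4b.initialization` by `ent_main` applied to the producers of the 14 exit statements.
EVERY exit statement without a producer on main is a sorried theorem `top_*` HERE (so that the debt is counted): its owner replaces the `sorry` by the name of his theorem (and adds the import).
-/

set_option autoImplicit false

namespace Claimed.Agent.R285.Ent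

open scoped BigOperators ENNReal NNReal
open MeasureTheory ProbabilityTheory
open Claimed.Agent.R285 Claimed.Agent.R285.RG Claimed.Agent.R285.B4 Claimed.Agent.R285.F4a Claimed.Agent.R285.F4b

noncomputable section

/-- helper229 (NORM) -/
theorem top_normGen : NormGenStmt := norm_gen

/-- helper30 -/
theorem top_ngeo : NGeoStmt := Entry.ngeo_stmt

theorem top_phyOk : PhyOkStmt := fun _ _ R a b0 b τ hc hb => Entry.xy_phy_ok hc R a b0 b hb τ

/-- OWNERS helper190 + 15, 161, 177, 108 (BP-ENT-GOODGEO #17867): `GoodGeo c R (R ^ 5)` from `GeoOK c R`, `R ^ 5 ≤ c.n` -/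
theorem top_goodGeo : Entry.GoodGeoStmt := Entry.good_geo

/-- helper12 (`Entry/GbSrc.lean`): `GoodGeoU c R (R ^ 5)` on the free square, `2 R ∣ c.n` -/
theorem top_goodGeoU : Entry.GoodGeoUStmt := Entry.gb_geoU

/-- GOOD (helper109, helper94: `eg_boxok0`, `eg_box_reserve`) + PERT (helper221, 47, 118: `epx_boxok`) + the geometry; assembly helper33 (`Entry/GbDefs.lean`) -/
theorem top_boxXY : BoxXYStmt := Entry.box_xy top_goodGeo top_goodGeoU top_ngeo

theorem top_phys : PhysRStmt := physR_of top_normGen top_boxXY Entry.xy_qloc Entry.xy_faceco Entry.xy_src Entry.xy_zone top_ngeo top_phyOk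

/-- helper238 (TRANSPORT) -/
theorem top_copy : CopyStmt := etr_copy

end

end Claimed.Agent.R285.Ent
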