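import Claimed.Agent.R285.Ent.Vol

/-!
# ROW 285, THE ENTRY ENGINE, POST TRANSPORT (`SymStmt`, `CopyStmt`, `GaugeStmt`): DEFINITIONS            (owner helper238)
Nothing is sorried here.

ONE notion: a **morphism** `Φ : Mor N N'` from a volume `(G, c, g, N)` to a volume `(G', c', g', N')`: TOTAL injective maps of cells `φ`, blocks `φg`, sites `ψ`,
a map of directions `δ` (identity or swap), a reversal flag `rv d` for each direction (reflections reverse the faces and bonds of one direction), maps of labels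
`θT`, `θE` (tiles, events), and a DEPTH predicate: `deep ρ i` = "the ball of radius `ρ` around the cell `i` is mapped isometrically ONTO the ball around `φ i`".
* global symmetries (translations of the torus by blocks, reflections, swap of the coordinates), identity: `deep = True`;
* embedding of a free square into a torus `x ↦ π (x + t)` (also the torus of the SAME side, cut along two lines): `deep ρ i` = distance `≥ ρ` from the walls.
`Mor.Ok` collects everything which is used about `Φ` (all fields are elementary arithmetic for the instances).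
Files: `TrLaw.lean` (site level: laws, averages; helper225), `TrGeo.lean` (cell level: tiles … links, patterns), `TrMain.lean` (transport theorem, instances, the three exits).
-/

set_option autoImplicit false

namespace Claimed.Agent.R285.Ent

open scoped BigOperators ENNReal NNReal
open MeasureTheory ProbabilityTheory
open Claimed.Agent.R285 Claimed.Agent.R285.RG Claimed.Agent.R285.F4a

noncomputable section

variable {G G' : Geom}

/-- directional index distance: `d = true` first coordinate, `d = false` second coordinate -/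
def dd (c : Grid G) (d : Bool) (i j : c.I) : ℕ := if d then c.idist1 i.1 j.1 else c.idist1 i.2 j.2

/-- the cross of radius `ρ` at the cell `p` -/
def OnCross (c : Grid G) (ρ : ℕ) (p i : c.I) : Prop :=
  (dd c true i p = 0 ∧ dd c false i p ≤ ρ) ∨ (dd c false i p = 0 ∧ dd c true i p ≤ ρ)

variable {c g : Grid G} {c' g' : Grid G'}

/-- **the data of a morphism of volumes** -/
structure Mor (N : Nest c g) (N' : Nest c' g') where
  /-- cells -/
  φ : c.I → c'.I
  /-- blocks -/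
  φg : g.I → g'.I
  /-- sites -/
  ψ : G.V → G'.V
  /-- directions -/
  δ : Bool → Bool
  /-- the faces and bonds of direction `d` are reversed -/
  rv : Bool → Bool
  /-- labels of tiles -/
  θT : Tile → Tile
  /-- labels of events -/
  θE : EvId → EvId
  /-- depth -/
  deep : ℕ → c.I → Prop

namespace Mor

variable {N : Nest c g} {N' : Nest c' g'} (Φ : Mor N N')

/-- the image of a face -/
def F (f : Face c) : Face c' := (if Φ.rv f.2 then Φ.φ (fnb c f) else Φ.φ f.1, Φ.δ f.2)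

/-- the sign of a face -/
def sg (f : Face c) : ℤ := if Φ.rv f.2 then -1 else 1

/-- the image of a bond -/
def E (e : G.V × Bool) : G'.V × Bool := (if Φ.rv e.2 then Φ.ψ (stp e.1 e.2) else Φ.ψ e.1, Φ.δ e.2)

/-- the image of a topology -/
def top (T : Top c) : Top c' := ⟨T.cells.image Φ.φ, T.faces.image Φ.F⟩

/-- the image of a link -/
def θL (l : Link c) : Link c' := (Φ.F l.1, Φ.F l.2.1, l.2.2)

/-- the image of an item -/
def Θ : Item c → Item c' := Sum.map Φ.θE (Sum.map Φ.θT Φ.θL)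

/-- **everything which is used about a morphism** (`R` = isolation scale) -/
structure Ok (R : ℕ) : Prop where
  -- sizes
  m_eq : c'.m = c.m
  gm_eq : g'.m = g.m
  n_le : c.n ≤ c'.n
  n_ge : ∀ ρ i, Φ.deep ρ i → ρ ≤ c.n ∨ c'.n ≤ c.n
  -- cells, metric
  φ_inj : Function.Injective Φ.φ
  δ_inj : Function.Injective Φ.δ
  deep_mono : ∀ ρ ρ' i, ρ' ≤ ρ → Φ.deep ρ i → Φ.deep ρ' i
  deep_step : ∀ ρ ρ' i j, Φ.deep (ρ + ρ') i → c.idist i j ≤ ρ → Φ.deep ρ' j
  lift : ∀ ρ i j', Φ.deep ρ i → c'.idist (Φ.φ i) j' ≤ ρ → ∃ j, Φ.φ j = j'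
  dd_zero : ∀ d i j, dd c' (Φ.δ d) (Φ.φ i) (Φ.φ j) = 0 ↔ dd c d i j = 0
  dd_le : ∀ d i j, dd c' (Φ.δ d) (Φ.φ i) (Φ.φ j) ≤ dd c d i j
  dd_eq : ∀ ρ d i j, Φ.deep ρ i → c'.idist (Φ.φ i) (Φ.φ j) ≤ ρ → dd c' (Φ.δ d) (Φ.φ i) (Φ.φ j) = dd c d i j
  /-- a cross of deep cells certifies its box (source) -/
  cross : ∀ ρ μ p, 1 ≤ μ → (∀ i, OnCross c ρ p i → Φ.deep μ i) → Φ.deep (ρ + μ) p
  /-- a cross of images of deep cells certifies its box (target) -/
  cross' : ∀ ρ μ p, 1 ≤ μ → (∀ i', OnCross c' ρ (Φ.φ p) i' → ∃ i, Φ.φ i = i' ∧ Φ.deep μ i) → Φ.deep (ρ + μ) p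
  -- faces
  face : ∀ f, IsFace c f → IsFace c' (Φ.F f) ∧ fnb c' (Φ.F f) = if Φ.rv f.2 then Φ.φ f.1 else Φ.φ (fnb c f)
  face_lift : ∀ f' i, IsFace c' f' → Φ.deep 1 i → (f'.1 = Φ.φ i ∨ fnb c' f' = Φ.φ i) → ∃ f, IsFace c f ∧ Φ.F f = f'
  -- labels
  tile : ∀ i, tile c' R (Φ.φ i) = Φ.θT (tile c R i)
  θT_inj : Set.InjOn Φ.θT (tiles c R)
  key : ∀ f ∈ seam c R, evKey c' R (Φ.F f) = Φ.θE (evKey c R f)
  θE_inj : Set.InjOn Φ.θE (events c R)
  θE_fst : ∀ k, (Φ.θE k).1 = k.1
  -- blocks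
  up : ∀ i, N'.up (Φ.φ i) = Φ.φg (N.up i)
  φg_inj : Function.Injective Φ.φg
  up_lift : ∀ u i', N'.up i' = Φ.φg u → ∃ i, Φ.φ i = i'
  gd_le : ∀ u v, g'.idist (Φ.φg u) (Φ.φg v) ≤ g.idist u v
  gd_eq : ∀ ρ i v, Φ.deep ((ρ + 1) * R) i → g'.idist (Φ.φg (N.up i)) (Φ.φg v) ≤ ρ →
    g.idist (N.up i) v = g'.idist (Φ.φg (N.up i)) (Φ.φg v)
  -- sites
  ψ_inj : Function.Injective Φ.ψ
  blk : ∀ v, c'.blk (Φ.ψ v) = Φ.φ (c.blk v)
  blk_lift : ∀ i v', c'.blk v' = Φ.φ i → ∃ v, Φ.ψ v = v'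
  bond : ∀ v d, stp v d ≠ v → if Φ.rv d then stp (Φ.ψ (stp v d)) (Φ.δ d) = Φ.ψ v else stp (Φ.ψ v) (Φ.δ d) = Φ.ψ (stp v d)
  /-- a bond of the target between the images of two sites, in one cell or in the two cells of a face of the source, comes from a bond -/
  bond_lift : ∀ v w d', stp (Φ.ψ v) d' = Φ.ψ w → v ≠ w →
    (c.blk v = c.blk w ∨ ∃ f, IsFace c f ∧ ((f.1 = c.blk v ∧ fnb c f = c.blk w) ∨ (f.1 = c.blk w ∧ fnb c f = c.blk v))) →
    ∃ d, Φ.δ d = d' ∧ if Φ.rv d then stp w d = v else stp v d = w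
  /-- the covariance `C_{<m}` away from the walls (its range is `< 32 m`) -/
  ker : ∀ v w, Φ.deep (40 * R) (c.blk v) → Φ.deep (40 * R) (c.blk w) → Cless G' g'.m (Φ.ψ v) (Φ.ψ w) = Cless G g.m v w

/-- the identity -/
protected def id (N : Nest c g) : Mor N N := ⟨_root_.id, _root_.id, _root_.id, _root_.id, fun _ => false, _root_.id, _root_.id, fun _ _ => True⟩

theorem id_F (N : Nest c g) (f : Face c) : (Mor.id N).F f = f := rfl

theorem id_sg (N : Nest c g) (f : Face c) : (Mor.id N).sg f = 1 := rfl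

theorem id_top (N : Nest c g) (T : Top c) : (Mor.id N).top T = T := by
  have h : (Mor.id N).F = _root_.id := funext fun f => id_F N f
  have h2 : (Mor.id N).φ = _root_.id := rfl
  cases T
  simp only [Mor.top, h, h2, Finset.image_id]

theorem id_Θ (N : Nest c g) (I : Item c) : (Mor.id N).Θ I = I := by
  rcases I with k | t | l <;> rfl

end Mor

/-- the margin (in cells) at which supports are transported: `RR = 156` blocks for connectivity, `40` blocks for the covariance, a few blocks for halos -/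
def etrMu (R : ℕ) : ℕ := 160 * R

variable {N : Nest c g} {N' : Nest c' g'}

/-- the field-independent part of the weights is carried by `Φ` (ALL well-formed topologies) -/
structure QNIso (Φ : Mor N N') (W : Wt c) (W' : Wt c') : Prop where
  Q : ∀ T : Top c, T.Ok → ∀ f f', IsFace c f → IsFace c f' →
    W.Q T f f' = (Φ.sg f : ℝ) * (Φ.sg f' : ℝ) * W'.Q (Φ.top T) (Φ.F f) (Φ.F f')
  N : ∀ T : Top c, T.Ok → W.N T = W'.N (Φ.top T)

/-- the observations `y`, `y'` are related in the region `D` (pointwise form: it also covers gauge transformations, `Φ = id`) -/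
structure YRel (Φ : Mor N N') (W : Wt c) (W' : Wt c') (D : Finset c.I) (y : c.I → ℂ) (y' : c'.I → ℂ) : Prop where
  Zh : ∀ T : Top c, T.Ok → T.cells ⊆ D → W.Zh T y = W'.Zh (Φ.top T) y'
  w : ∀ f, IsFace c f → f.1 ∈ D → fnb c f ∈ D → W.w y f = (Φ.sg f : ℂ) * W'.w y' (Φ.F f)

/-- **the weights are carried by `Φ`** -/
structure WtIso (Φ : Mor N N') (W : Wt c) (W' : Wt c') : Prop extends QNIso Φ W W' where
  Zh : ∀ T : Top c, T.Ok → ∀ (y : c.I → ℂ) (y' : c'.I → ℂ), (∀ i ∈ T.cells, y' (Φ.φ i) = y i) → W.Zh T y = W'.Zh (Φ.top T) y'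
  τ : ∀ f, IsFace c f → W'.τ (Φ.F f) = Φ.sg f * W.τ f

/-- `Φ` is the SHIFT `v ↦ π' (ι v + t)` of a (free) square; cells at distance `≥ ρ` from the walls of the source are `ρ`-deep -/
structure IsShift {𝒱 𝒱' : F4b.Vol} (Φ : Mor (vNest 𝒱) (vNest 𝒱')) (t : ℤ × ℤ) : Prop where
  ψ : ∀ v, Φ.ψ v = 𝒱'.G.π (𝒱.G.ι v + t)
  deep : ∀ (ρ : ℕ) (i : 𝒱.c.I), ρ ≤ (i.1 : ℕ) → (i.1 : ℕ) + ρ < 𝒱.c.n → ρ ≤ (i.2 : ℕ) → (i.2 : ℕ) + ρ < 𝒱.c.n → Φ.deep ρ i
  rv : ∀ d, Φ.rv d = false
  δ : ∀ d, Φ.δ d = d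

end

end Claimed.Agent.R285.Ent
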