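import Claimed.Agent.R285.Ent.TrI8
import Claimed.Agent.R285.Ent.TrExit

/-!
# ROW 285, POST TRANSPORT, INSTANCES, part 9: the shifts of a free square      (helper225)
`eti_shift_exists` = the interface `etr_shift_exists` of `Ent/TrCopy.lean`.
-/

set_option autoImplicit false

namespace Claimed.Agent.R285.Ent

open scoped BigOperators
open Claimed.Agent.R285 Claimed.Agent.R285.RG Claimed.Agent.R285.F4a Claimed.Agent.R285.F4b

noncomputable section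

/-- the number of blocks -/
theorem eti_vol_gn (𝒱 : Vol) : 𝒱.G.M = 𝒱.m * 𝒱.g.n := (Nat.mul_div_cancel' 𝒱.hmM).symm

/-- one coordinate of a shift -/
theorem eti_shift_val (G' : Geom) (m ng' M x : ℕ) (q : ℤ) (hm : 0 < m) (hM' : G'.M = m * ng') (hx : x < M) (hMM : M ≤ G'.M)
    (hfr : G'.bc = BC.free → 0 ≤ q ∧ (m : ℤ) * q + M ≤ G'.M) :
    ((G'.fold ((x : ℤ) + (m : ℤ) * q) : Fin G'.M) : ℕ) = etiA G'.M false (m * (q % (ng' : ℤ)).toNat) x := by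
  have hng : 0 < ng' := by
    rcases Nat.eq_zero_or_pos ng' with h | h
    · have := G'.hM; rw [hM', h] at this; omega
    · exact h
  have h0 : (0 : ℤ) < ng' := by exact_mod_cast hng
  have k1 := Int.emod_nonneg q h0.ne'
  have k2 := Int.emod_lt_of_pos q h0
  obtain ⟨T, hT⟩ : ∃ T : ℕ, q % (ng' : ℤ) = T := ⟨(q % (ng' : ℤ)).toNat, (Int.toNat_of_nonneg k1).symm⟩
  rw [hT, Int.toNat_natCast]
  have hTlt : T < ng' := by omega
  have hmT : m * T + m ≤ G'.M := by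
    rw [hM']
    calc m * T + m = m * (T + 1) := by ring
      _ ≤ m * ng' := Nat.mul_le_mul_left m hTlt
  unfold etiA
  simp only [Bool.false_eq_true, if_false]
  rcases hG : G'.bc with _ | _
  · -- torus
    have hv := fold_per_val hG ((x : ℤ) + (m : ℤ) * q)
    have hq : q = (ng' : ℤ) * (q / ng') + T := by rw [← hT]; exact (Int.mul_ediv_add_emod q ng').symm
    have e1 : ((x : ℤ) + (m : ℤ) * q) % (G'.M : ℤ) = ((x : ℤ) + (m : ℤ) * T) % (G'.M : ℤ) := by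
      have : (x : ℤ) + (m : ℤ) * q = (x : ℤ) + (m : ℤ) * T + (G'.M : ℤ) * (q / ng') := by
        rw [hM']; push_cast
        conv_lhs => rw [hq]
        ring
      rw [this, Int.add_mul_emod_self_left]
    rw [e1] at hv
    split_ifs with hc
    · have : ((x : ℤ) + (m : ℤ) * T) % (G'.M : ℤ) = (x : ℤ) + (m : ℤ) * T :=
        Int.emod_eq_of_lt (by positivity) (by exact_mod_cast hc)
      rw [this] at hv
      exact_mod_cast hv
    · have h3 : ((x : ℤ) + (m : ℤ) * T) % (G'.M : ℤ) = (x : ℤ) + (m : ℤ) * T - G'.M := by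
        rw [← Int.sub_emod_right]
        have a1 : (G'.M : ℤ) ≤ (x : ℤ) + (m : ℤ) * T := by
          have : G'.M ≤ x + m * T := by omega
          exact_mod_cast this
        have a2 : (x : ℤ) + (m : ℤ) * T < 2 * G'.M := by
          have : x + m * T < 2 * G'.M := by omega
          exact_mod_cast this
        exact Int.emod_eq_of_lt (by omega) (by omega)
      rw [h3] at hv
      have : G'.M ≤ x + m * T := by omega
      zify [this]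
      exact hv
  · -- free square
    obtain ⟨q0, q1⟩ := hfr hG
    have hqT : q = T := by
      have : q < ng' := by
        by_contra hc
        have : (m : ℤ) * ng' ≤ (m : ℤ) * q := by
          apply mul_le_mul_of_nonneg_left (by omega) (by positivity)
        have e : ((G'.M : ℕ) : ℤ) = (m : ℤ) * ng' := by rw [hM']; push_cast; ring
        omega
      rw [← hT, Int.emod_eq_of_lt q0 this]
    subst hqT
    have hlt : x + m * T < G'.M := by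
      have : (m : ℤ) * T + M ≤ G'.M := q1
      have : m * T + M ≤ G'.M := by exact_mod_cast this
      omega
    rw [if_pos hlt]
    have := fold_free_pos hG (x + m * T) hlt 0
    simp only [mul_zero, add_zero] at this
    have e : ((x + m * T : ℕ) : ℤ) = (x : ℤ) + (m : ℤ) * (T : ℤ) := by push_cast; ring
    rw [e] at this
    rw [this]

/-- the admissibility of one coordinate of a shift -/
theorem eti_shift_adm (bc' : BC) (m ng ng' : ℕ) (q : ℤ) (hm : 0 < m) (hng : 0 < ng) (hle : ng ≤ ng') (hper : bc' = BC.per → ng < ng')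
    (hfr : bc' = BC.free → 0 ≤ q ∧ q + ng ≤ ng') : EtiAdm BC.free bc' ng ng' false (q % (ng' : ℤ)).toNat := by
  have h0 : (0 : ℤ) < ng' := by omega
  have k1 := Int.emod_nonneg q h0.ne'
  have k2 := Int.emod_lt_of_pos q h0
  refine ⟨by omega, hle, fun h => BC.noConfusion h, fun hb => ?_, fun _ hb => hper hb⟩
  obtain ⟨q0, q1⟩ := hfr hb
  simp only [Bool.false_eq_true, if_false]
  rw [Int.emod_eq_of_lt q0 (by omega)]
  omega

/-- **the shift by `t`** (a multiple of the block side) of a FREE square into a strictly larger torus, or into a free square which contains the shifted square -/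
theorem eti_shift_exists (𝒱 𝒱' : Vol) (hs : 𝒱.s = 𝒱'.s) (hm : 𝒱.m = 𝒱'.m) (hG : GeoOK 𝒱.c (vR 𝒱)) (hG' : GeoOK 𝒱'.c (vR 𝒱))
    (hfree : 𝒱.G.bc = BC.free) (t : ℤ × ℤ) (ht1 : (𝒱.m : ℤ) ∣ t.1) (ht2 : (𝒱.m : ℤ) ∣ t.2)
    (hper : 𝒱'.G.bc = BC.per → 𝒱.G.M + 𝒱.m ≤ 𝒱'.G.M)
    (hfr : 𝒱'.G.bc = BC.free → 0 ≤ t.1 ∧ t.1 + 𝒱.G.M ≤ 𝒱'.G.M ∧ 0 ≤ t.2 ∧ t.2 + 𝒱.G.M ≤ 𝒱'.G.M) :
    ∃ Φ : Mor (vNest 𝒱) (vNest 𝒱'), Φ.Ok (vR 𝒱) ∧ IsShift Φ t := by
  have hR' : vR 𝒱' = vR 𝒱 := by unfold vR; rw [hs, hm]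
  obtain ⟨hs0, hm0, hmR, hgok, hN⟩ := etr_vol 𝒱 hG
  obtain ⟨-, -, -, hgok', hN'⟩ := etr_vol 𝒱' (hR' ▸ hG')
  rw [hR'] at hN'
  obtain ⟨q1, hq1⟩ := ht1
  obtain ⟨q2, hq2⟩ := ht2
  have hM := eti_vol_gn 𝒱
  have hM' := eti_vol_gn 𝒱'
  rw [← hm] at hM'
  have hng : 0 < 𝒱.g.n := eti_pos 𝒱.g
  -- sizes
  have hMM : 𝒱.G.M ≤ 𝒱'.G.M := by
    rcases hb : 𝒱'.G.bc with _ | _
    · have := hper hb; omega
    · have := hfr hb; omega
  have hle : 𝒱.g.n ≤ 𝒱'.g.n := by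
    rw [hM, hM'] at hMM
    exact Nat.le_of_mul_le_mul_left hMM hm0
  have hgap : 𝒱'.G.bc = BC.per → 𝒱.g.n < 𝒱'.g.n := by
    intro hb
    have := hper hb
    rw [hM, hM'] at this
    have e : 𝒱.m * 𝒱.g.n + 𝒱.m = 𝒱.m * (𝒱.g.n + 1) := by ring
    rw [e] at this
    exact Nat.le_of_mul_le_mul_left this hm0
  have hfq : ∀ q : ℤ, 0 ≤ (𝒱.m : ℤ) * q → (𝒱.m : ℤ) * q + 𝒱.G.M ≤ 𝒱'.G.M → 0 ≤ q ∧ q + 𝒱.g.n ≤ 𝒱'.g.n := by
    intro q a1 a2
    have hmz : (0 : ℤ) < 𝒱.m := by exact_mod_cast hm0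
    refine ⟨nonneg_of_mul_nonneg_right a1 hmz, ?_⟩
    have e1 : ((𝒱.G.M : ℕ) : ℤ) = (𝒱.m : ℤ) * 𝒱.g.n := by rw [hM]; push_cast; ring
    have e2 : ((𝒱'.G.M : ℕ) : ℤ) = (𝒱.m : ℤ) * 𝒱'.g.n := by rw [hM']; push_cast; ring
    rw [e1, e2, ← mul_add] at a2
    exact le_of_mul_le_mul_left a2 hmz
  have hOK : EtiOK (vNest 𝒱) (vNest 𝒱') (vR 𝒱) (false, false) ((q1 % (𝒱'.g.n : ℤ)).toNat, (q2 % (𝒱'.g.n : ℤ)).toNat) := by
    refine ⟨etiVol_of hG hgok hN, etiVol_of hG' hgok' hN', hs.symm, ?_, ?_, fun h => by simp at h⟩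
    · rw [hfree]
      exact eti_shift_adm _ 𝒱.m _ _ q1 hm0 hng hle hgap fun hb => hfq q1 (hq1 ▸ (hfr hb).1) (hq1 ▸ (hfr hb).2.1)
    · rw [hfree]
      exact eti_shift_adm _ 𝒱.m _ _ q2 hm0 hng hle hgap fun hb => hfq q2 (hq2 ▸ (hfr hb).2.2.1) (hq2 ▸ (hfr hb).2.2.2)
  refine ⟨_, etiMor_ok hOK, ⟨fun v => ?_, fun ρ i a1 a2 a3 a4 => ⟨Or.inr ⟨a1, a2⟩, Or.inr ⟨a3, a4⟩⟩, fun d => by cases d <;> rfl, fun _ => rfl⟩⟩
  have hsc : ∀ T : ℕ, etiSc 𝒱.c.m false (etiSc (vR 𝒱) false T) = 𝒱.m * T := by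
    intro T
    unfold etiSc
    simp only [Bool.false_eq_true, if_false]
    show 𝒱.s * (vR 𝒱 * T) = 𝒱.m * T
    rw [hmR]; ring
  refine Prod.ext (Fin.ext ?_) (Fin.ext ?_)
  · rw [eti_ψ1 hOK, hsc]
    show _ = ((𝒱'.G.fold (((v.1 : ℕ) : ℤ) + t.1) : Fin 𝒱'.G.M) : ℕ)
    rw [hq1]
    exact (eti_shift_val 𝒱'.G 𝒱.m 𝒱'.g.n 𝒱.G.M v.1 q1 hm0 hM' v.1.2 hMM fun hb =>
      ⟨(hfq q1 (hq1 ▸ (hfr hb).1) (hq1 ▸ (hfr hb).2.1)).1, hq1 ▸ (hfr hb).2.1⟩).symm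
  · rw [eti_ψ2 hOK, hsc]
    show _ = ((𝒱'.G.fold (((v.2 : ℕ) : ℤ) + t.2) : Fin 𝒱'.G.M) : ℕ)
    rw [hq2]
    exact (eti_shift_val 𝒱'.G 𝒱.m 𝒱'.g.n 𝒱.G.M v.2 q2 hm0 hM' v.2.2 hMM fun hb =>
      ⟨(hfq q2 (hq2 ▸ (hfr hb).2.2.1) (hq2 ▸ (hfr hb).2.2.2)).1, hq2 ▸ (hfr hb).2.2.2⟩).symm

end

end Claimed.Agent.R285.Ent
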