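import Claimed.Agent.R285.Ent.TrExit
import Claimed.Agent.R285.Ent.TrI9
import Claimed.Agent.R285.Ent.GeoU

/-!
# ROW 285, POST TRANSPORT: `CopyStmt`            (architect helper238)
Paper-free.  All volumes are `Vol`s with the same `(s, m)`, `R = vR 𝒱 = m / s`.  Grids are `torusGrid`s: `𝒱.g.blk v = (v.1 / m, v.2 / m)`, `𝒱.c.blk v = (v.1 / s, v.2 / s)` (by `rfl`), `(vNest 𝒱).up1 j = j * s / m`.
ROUTE.
* `etr_copy_step`, `etr_copy_stepJ` (PROVED from the transport theorem): if a morphism `Φ : 𝒱 → 𝒱'` is compatible with the charts `x ↦ π (x + o)`, `x ↦ π' (x + o')` near `S` (`ChartOK`), the activities agree.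
* the only morphisms: SHIFTS `ψ v = π' (ι v + t)` of a FREE square into a torus (`M + m ≤ M'`) or into a free square (`IsShift`, `etr_shift_exists` = interface to helper225's instances).
* centred sector: a torus is first cut: free window `B` of side `M - m` around `S` (`etr_window`); every free square is shifted into ONE large torus `𝒲` (`etr_univ`).
* unit sector: the smaller centred square is shifted into the larger one; `tauU`, `entT0`, `entCs`, `Sep`, gauges are carried.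
LEAVES: subtasks `L-ETC-*`.  Prove IN PLACE, statements verbatim, report defects to helper238.
-/

set_option autoImplicit false

namespace Claimed.Agent.R285.Ent

open scoped BigOperators ENNReal NNReal
open MeasureTheory ProbabilityTheory
open Claimed.Agent.R285 Claimed.Agent.R285.RG Claimed.Agent.R285.B4 Claimed.Agent.R285.F4a Claimed.Agent.R285.F4b

noncomputable section

/-! ## 1. Charts -/

/-- `x` is within `r` of `S` -/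
def NearS (S : Finset (ℤ × ℤ)) (r : ℕ) (x : ℤ × ℤ) : Prop := ∃ y ∈ S, max (x.1 - y.1).natAbs (x.2 - y.2).natAbs ≤ r

/-- the point lies in the fundamental box -/
def InBox (G : Geom) (p : ℤ × ℤ) : Prop := 0 ≤ p.1 ∧ p.1 < G.M ∧ 0 ≤ p.2 ∧ p.2 < G.M

/-- one axis of `etr_chart_block` -/
theorem etr_chart_block1 (G : Geom) (m : ℕ) (hm : 0 < m) (x : ℤ) (hx : G.bc = BC.free → 0 ≤ x ∧ x < G.M) (i : Fin G.M)
    (hi : (i : ℕ) / m = ((G.fold x : Fin G.M) : ℕ) / m) : ∃ y : ℤ, G.fold y = i ∧ (y - x).natAbs ≤ m := by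
  have h0 : (0 : ℤ) < G.M := by exact_mod_cast G.hM
  have hi2 := i.2
  have hd : (((i : ℕ) : ℤ) - ((G.fold x : Fin G.M) : ℕ)).natAbs ≤ m := by
    have h1 := Nat.div_add_mod (i : ℕ) m
    have h2 := Nat.div_add_mod ((G.fold x : Fin G.M) : ℕ) m
    have h3 := Nat.mod_lt (i : ℕ) hm
    have h4 := Nat.mod_lt ((G.fold x : Fin G.M) : ℕ) hm
    rw [hi] at h1
    omega
  refine ⟨x + (((i : ℕ) : ℤ) - ((G.fold x : Fin G.M) : ℕ)), ?_, by rw [add_sub_cancel_left]; exact hd⟩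
  rcases Reg.regl_bc G with h | h
  · apply Fin.ext
    have e1 := Reg.regl_fold_per G h x
    have e2 := Reg.regl_fold_per G h (x + (((i : ℕ) : ℤ) - ((G.fold x : Fin G.M) : ℕ)))
    have e3 : (x + (((i : ℕ) : ℤ) - ((G.fold x : Fin G.M) : ℕ))) % G.M = ((i : ℕ) : ℤ) := by
      refine Reg.regl_emod_eq _ _ (x / G.M) _ ?_ (by omega) (by omega)
      rw [e1]
      have := Int.emod_add_mul_ediv x G.M
      linarith
    rw [e3] at e2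
    exact_mod_cast e2
  · have e1 := Reg.regl_fold_in G x (hx h).1 (hx h).2
    rw [e1, add_sub_cancel]
    exact Reg.reg_fold_coe G i

/-- L-ETC-A1: every site of the block of `π p` is `π q` with `q` within `< m` of `p` -/
theorem etr_chart_block (𝒱 : Vol) (hm : 0 < 𝒱.m) (p : ℤ × ℤ) (hp : 𝒱.G.bc = BC.free → InBox 𝒱.G p) (v : 𝒱.G.V)
    (hv : 𝒱.g.blk v = 𝒱.g.blk (𝒱.G.π p)) : ∃ q : ℤ × ℤ, 𝒱.G.π q = v ∧ max (q.1 - p.1).natAbs (q.2 - p.2).natAbs ≤ 𝒱.m := by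
  have h1 : (v.1 : ℕ) / 𝒱.m = ((𝒱.G.fold p.1 : Fin 𝒱.G.M) : ℕ) / 𝒱.m := congrArg (fun b : 𝒱.g.I => (b.1 : ℕ)) hv
  have h2 : (v.2 : ℕ) / 𝒱.m = ((𝒱.G.fold p.2 : Fin 𝒱.G.M) : ℕ) / 𝒱.m := congrArg (fun b : 𝒱.g.I => (b.2 : ℕ)) hv
  obtain ⟨y1, e1, d1⟩ := etr_chart_block1 𝒱.G 𝒱.m hm p.1 (fun hf => ⟨(hp hf).1, (hp hf).2.1⟩) v.1 h1
  obtain ⟨y2, e2, d2⟩ := etr_chart_block1 𝒱.G 𝒱.m hm p.2 (fun hf => ⟨(hp hf).2.2.1, (hp hf).2.2.2⟩) v.2 h2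
  exact ⟨(y1, y2), Prod.ext e1 e2, max_le d1 d2⟩

/-- the morphism `Φ` is compatible with the charts with origins `o`, `o'` near `S`, and the support is deep -/
structure ChartOK (𝒱 𝒱' : Vol) (Φ : Mor (vNest 𝒱) (vNest 𝒱')) (o o' : ℤ × ℤ) (S : Finset (ℤ × ℤ)) : Prop where
  rel : ∀ x, NearS S 𝒱.m x → Φ.ψ (𝒱.G.π (x + o)) = 𝒱'.G.π (x + o')
  deep : ∀ i ∈ under (vNest 𝒱) (𝒱.g.foldS (S.image (· + o))), Φ.deep (etrMu (vR 𝒱)) i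
  rng : 𝒱.G.bc = BC.free → ∀ x ∈ S, InBox 𝒱.G (x + o)

theorem NearS.self {S : Finset (ℤ × ℤ)} {x : ℤ × ℤ} (hx : x ∈ S) (r : ℕ) : NearS S r x := ⟨x, hx, by simp⟩

theorem NearS.mono {S : Finset (ℤ × ℤ)} {x : ℤ × ℤ} {r r' : ℕ} (h : NearS S r x) (hr : r ≤ r') : NearS S r' x := by
  obtain ⟨y, hy, h⟩ := h
  exact ⟨y, hy, h.trans hr⟩

section step

variable {𝒱 𝒱' : Vol} (Φ : Mor (vNest 𝒱) (vNest 𝒱')) (hΦ : Φ.Ok (vR 𝒱)) {o o' : ℤ × ℤ} {S : Finset (ℤ × ℤ)} (hC : ChartOK 𝒱 𝒱' Φ o o' S)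
include hΦ hC

theorem etr_chart_image : (𝒱.g.foldS (S.image (· + o))).image Φ.φg = 𝒱'.g.foldS (S.image (· + o')) := by
  unfold Grid.foldS
  rw [Finset.image_image, Finset.image_image, Finset.image_image]
  refine Finset.image_congr fun y hy => ?_
  simp only [Function.comp]
  rw [← etr_gblk Φ hΦ, hC.rel y (NearS.self hy _)]

theorem etr_chart_field (hm : 0 < 𝒱.m) {z : 𝒱.G.V → ℂ} {z' : 𝒱'.G.V → ℂ} (hz : ∀ x, NearS S 𝒱.m x → z (𝒱.G.π (x + o)) = z' (𝒱'.G.π (x + o'))) :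
    ∀ v ∈ 𝒱.g.sites (𝒱.g.foldS (S.image (· + o))), z' (Φ.ψ v) = z v := by
  intro v hv
  have h1 : 𝒱.g.blk v ∈ 𝒱.g.foldS (S.image (· + o)) := (Finset.mem_filter.1 hv).2
  obtain ⟨p, hp, e⟩ := Finset.mem_image.1 h1
  obtain ⟨y, hy, rfl⟩ := Finset.mem_image.1 hp
  obtain ⟨q, hq, hd⟩ := etr_chart_block 𝒱 hm (y + o) (fun hf => hC.rng hf y hy) v e.symm
  have hn : NearS S 𝒱.m (q - o) := ⟨y, hy, by
    have e1 : (q - o).1 - y.1 = q.1 - (y + o).1 := by simp only [Prod.fst_sub, Prod.fst_add]; ring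
    have e2 : (q - o).2 - y.2 = q.2 - (y + o).2 := by simp only [Prod.snd_sub, Prod.snd_add]; ring
    rw [e1, e2]; exact hd⟩
  have h2 := hC.rel _ hn
  have h3 := hz _ hn
  rw [sub_add_cancel] at h2 h3
  rw [← hq, h2, h3]

variable (hG : GeoOK 𝒱.c (vR 𝒱)) (hG' : GeoOK 𝒱'.c (vR 𝒱)) {W : Wt 𝒱.c} {W' : Wt 𝒱'.c} (hW : W.Str) (hW' : W'.Str) (hI : WtIso Φ W W')
include hG hG' hW hW' hI

/-- **one step of a copy** (W-generic) -/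
theorem etr_copy_step (a : ℝ) {z : 𝒱.G.V → ℂ} {z' : 𝒱'.G.V → ℂ} (hz : ∀ x, NearS S 𝒱.m x → z (𝒱.G.π (x + o)) = z' (𝒱'.G.π (x + o'))) :
    W.Kact a (vNest 𝒱) (vR 𝒱) (𝒱.g.foldS (S.image (· + o))) z = W'.Kact a (vNest 𝒱') (vR 𝒱) (𝒱'.g.foldS (S.image (· + o'))) z' := by
  obtain ⟨-, hm, -, hg, -⟩ := etr_vol 𝒱 hG
  rw [etr_Kact Φ hΦ hG hG' hg hW hW' hI a _ hC.deep z z' (etr_chart_field Φ hΦ hC hm hz), etr_chart_image Φ hΦ hC]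

/-- **one step of a copy, labelled form** -/
theorem etr_copy_stepJ (a : ℝ) (Cs : Finset 𝒱.g.I) {t0 : Tile} (ht0 : ∃ i, tile 𝒱.c (vR 𝒱) i = t0 ∧ Φ.deep (2 * vR 𝒱) i)
    (hD0 : cellsOf 𝒱.c (vR 𝒱) {t0} ⊆ under (vNest 𝒱) (𝒱.g.foldS (S.image (· + o))))
    {z : 𝒱.G.V → ℂ} {z' : 𝒱'.G.V → ℂ} (hz : ∀ x, NearS S 𝒱.m x → z (𝒱.G.π (x + o)) = z' (𝒱'.G.π (x + o'))) :
    W.Jact a (vNest 𝒱) (vR 𝒱) t0 Cs (𝒱.g.foldS (S.image (· + o))) z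
      = W'.Jact a (vNest 𝒱') (vR 𝒱) (Φ.θT t0) (Cs.image Φ.φg) (𝒱'.g.foldS (S.image (· + o'))) z' := by
  obtain ⟨-, hm, -, hg, -⟩ := etr_vol 𝒱 hG
  rw [etr_Jact Φ hΦ hG hG' hg hW hW' hI a _ Cs hC.deep ht0 hD0 z z' (etr_chart_field Φ hΦ hC hm hz), etr_chart_image Φ hΦ hC]

end step

/-! ## 2. The shifts (interface to the instances, `Ent/TrI*.lean`) -/

/-- INTERFACE to the instances: the shift by `t` (a multiple of the block side) of a FREE square into a strictly larger torus, or into a free square which contains the shifted square -/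
theorem etr_shift_exists (𝒱 𝒱' : Vol) (hs : 𝒱.s = 𝒱'.s) (hm : 𝒱.m = 𝒱'.m) (hG : GeoOK 𝒱.c (vR 𝒱)) (hG' : GeoOK 𝒱'.c (vR 𝒱))
    (hfree : 𝒱.G.bc = BC.free) (t : ℤ × ℤ) (ht1 : (𝒱.m : ℤ) ∣ t.1) (ht2 : (𝒱.m : ℤ) ∣ t.2)
    (hper : 𝒱'.G.bc = BC.per → 𝒱.G.M + 𝒱.m ≤ 𝒱'.G.M)
    (hfr : 𝒱'.G.bc = BC.free → 0 ≤ t.1 ∧ t.1 + 𝒱.G.M ≤ 𝒱'.G.M ∧ 0 ≤ t.2 ∧ t.2 + 𝒱.G.M ≤ 𝒱'.G.M) :
    ∃ Φ : Mor (vNest 𝒱) (vNest 𝒱'), Φ.Ok (vR 𝒱) ∧ IsShift Φ t :=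
  eti_shift_exists 𝒱 𝒱' hs hm hG hG' hfree t ht1 ht2 hper hfr

/-- in the fundamental box the chart is the canonical lift -/
theorem etr_iota_pi (G : Geom) (p : ℤ × ℤ) (hp : InBox G p) : G.ι (G.π p) = p := by
  obtain ⟨h1, h2, h3, h4⟩ := hp
  have e1 := Reg.regd_fold_in G p.1 h1 h2
  have e2 := Reg.regd_fold_in G p.2 h3 h4
  refine Prod.ext ?_ ?_
  · show (((G.fold p.1 : Fin G.M) : ℕ) : ℤ) = p.1
    rw [e1]; omega
  · show (((G.fold p.2 : Fin G.M) : ℕ) : ℤ) = p.2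
    rw [e2]; omega

/-- one axis of the depth: the cell `i` lies in the block of the site `x` -/
theorem etr_chart_deep1 (R s m K c1 i : ℕ) (x : ℤ) (hR : 0 < R) (hs : 0 < s) (hm : m = R * s) (hc1 : 162 ≤ c1)
    (h1 : ((c1 * m : ℕ) : ℤ) ≤ x) (h2 : x + (c1 * m : ℕ) < (m * K : ℕ)) (hi : i / R = x.toNat / m) :
    160 * R ≤ i ∧ i + 160 * R < (m * K) / s := by
  have hm0 : 0 < m := by rw [hm]; exact Nat.mul_pos hR hs
  obtain ⟨y, rfl⟩ : ∃ y : ℕ, x = y := ⟨x.toNat, by omega⟩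
  rw [Int.toNat_natCast] at hi
  have h1' : c1 * m ≤ y := by exact_mod_cast h1
  have h2' : y + c1 * m < m * K := by exact_mod_cast h2
  have hn : (m * K) / s = K * R := by
    rw [hm, show R * s * K = K * R * s by ring]
    exact Nat.mul_div_cancel _ hs
  rw [hn]
  set q := y / m with hq
  have q1 : c1 ≤ q := (Nat.le_div_iff_mul_le hm0).2 h1'
  have q2 : q + c1 < K := by
    have a1 : q * m ≤ y := Nat.div_mul_le_self y m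
    have a2 : (q + c1) * m < K * m := by nlinarith
    exact lt_of_mul_lt_mul_right a2 (Nat.zero_le _)
  have i1 : q * R ≤ i := by rw [← hi]; exact Nat.div_mul_le_self i R
  have i2 : i < (q + 1) * R := by
    rw [← hi]
    have := Nat.lt_div_mul_add (a := i) hR
    nlinarith
  constructor
  · nlinarith
  · have : (q + 161) * R < K * R := Nat.mul_lt_mul_of_pos_right (by omega) hR
    nlinarith

/-- L-ETC-A2: the shift by `o' - o` is compatible with the charts `o`, `o'`.  (`rel`: `x + o` is in the box, `ι (π p) = p` there; `deep`: `IsShift.deep`, the cell `i` lies in the block of `y + o`, `i.k / R = (y + o).k / m`, `c.n = R * (M / m)`.) -/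
theorem etr_chart_free {𝒱 𝒱' : Vol} (Φ : Mor (vNest 𝒱) (vNest 𝒱')) (hG : GeoOK 𝒱.c (vR 𝒱)) (hfree : 𝒱.G.bc = BC.free) {o o' : ℤ × ℤ}
    (hsh : IsShift Φ (o' - o)) {S : Finset (ℤ × ℤ)} {c1 : ℕ} (hc1 : 162 ≤ c1) (hfit : Fits 𝒱.G o (c1 * 𝒱.m) S) : ChartOK 𝒱 𝒱' Φ o o' S := by
  obtain ⟨hs0, hm0, hm, -, -, hup⟩ := etr_vol 𝒱 hG
  have hf := hfit.2 hfree
  have hcm : 𝒱.m ≤ c1 * 𝒱.m := Nat.le_mul_of_pos_left _ (by omega)
  have hcmZ : (𝒱.m : ℤ) ≤ (c1 * 𝒱.m : ℕ) := by exact_mod_cast hcm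
  refine ⟨fun x hx => ?_, fun i hi => ?_, fun _ x hx => ?_⟩
  · obtain ⟨y, hy, hd⟩ := hx
    obtain ⟨a1, a2, a3, a4⟩ := hf y hy
    simp only [Prod.fst_add, Prod.snd_add] at a1 a2 a3 a4
    have hb : InBox 𝒱.G (x + o) := by
      unfold InBox
      simp only [Prod.fst_add, Prod.snd_add]
      have d1 := (le_max_left _ _).trans hd
      have d2 := (le_max_right _ _).trans hd
      refine ⟨by omega, by omega, by omega, by omega⟩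
    rw [hsh.ψ, etr_iota_pi _ _ hb]
    congr 1
    abel
  · have h1 : (vNest 𝒱).up i ∈ 𝒱.g.foldS (S.image (· + o)) := (Finset.mem_filter.1 hi).2
    obtain ⟨p, hp, e⟩ := Finset.mem_image.1 h1
    obtain ⟨y, hy, rfl⟩ := Finset.mem_image.1 hp
    obtain ⟨a1, a2, a3, a4⟩ := hf y hy
    obtain ⟨K, hK⟩ := 𝒱.hmM
    have e1 : ((i.1 : ℕ)) / vR 𝒱 = (y + o).1.toNat / 𝒱.m := by
      rw [← hup i.1, ← Reg.regd_fold_in 𝒱.G (y + o).1 (by omega) (by omega)]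
      exact (congrArg (fun b : 𝒱.g.I => (b.1 : ℕ)) e).symm
    have e2 : ((i.2 : ℕ)) / vR 𝒱 = (y + o).2.toNat / 𝒱.m := by
      rw [← hup i.2, ← Reg.regd_fold_in 𝒱.G (y + o).2 (by omega) (by omega)]
      exact (congrArg (fun b : 𝒱.g.I => (b.2 : ℕ)) e).symm
    have hn : 𝒱.c.n = (𝒱.m * K) / 𝒱.s := by show 𝒱.G.M / 𝒱.s = _; rw [hK]
    have k1 := etr_chart_deep1 (vR 𝒱) 𝒱.s 𝒱.m K c1 i.1 (y + o).1 hG.pos hs0 hm hc1 a1 (by rw [← hK]; exact a2) e1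
    have k2 := etr_chart_deep1 (vR 𝒱) 𝒱.s 𝒱.m K c1 i.2 (y + o).2 hG.pos hs0 hm hc1 a3 (by rw [← hK]; exact a4) e2
    exact hsh.deep _ i k1.1 (lt_of_lt_of_eq k1.2 hn.symm) k2.1 (lt_of_lt_of_eq k2.2 hn.symm)
  · obtain ⟨a1, a2, a3, a4⟩ := hf x hx
    exact ⟨by omega, by omega, by omega, by omega⟩

/-- L-ETC-V1: volumes with `k` blocks per side -/
theorem etr_mkvol (𝒱 : Vol) (hG : GeoOK 𝒱.c (vR 𝒱)) (bc : BC) (k : ℕ) (hk : 8 ≤ k) :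
    ∃ B : Vol, B.G.bc = bc ∧ B.G.M = k * 𝒱.m ∧ B.s = 𝒱.s ∧ B.m = 𝒱.m ∧ GeoOK B.c (vR 𝒱) := by
  obtain ⟨hs0, hm0, hm, -, -⟩ := etr_vol 𝒱 hG
  have hn : (k * 𝒱.m) / 𝒱.s = k * vR 𝒱 := by
    conv_lhs => rw [hm, ← mul_assoc]
    exact Nat.mul_div_cancel _ hs0
  have hR := hG.pos
  refine ⟨⟨⟨bc, k * 𝒱.m, Nat.mul_pos (by omega) hm0⟩, 𝒱.s, 𝒱.m, 𝒱.hsm, Dvd.intro_left k rfl⟩, rfl, rfl, rfl, rfl, ?_⟩
  refine ⟨⟨hs0, (B8.torusGrid_ok _ _ _ hs0).mono, B8.torusGrid_card _ _ _ hs0, ?_⟩, hG.r64, hR, ?_, ?_⟩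
  · show 2 ≤ (k * 𝒱.m) / 𝒱.s
    rw [hn]
    nlinarith
  · show vR 𝒱 ∣ (k * 𝒱.m) / 𝒱.s
    rw [hn]
    exact Dvd.intro_left k rfl
  · show 8 * vR 𝒱 ≤ (k * 𝒱.m) / 𝒱.s
    rw [hn]
    exact Nat.mul_le_mul_right _ hk

theorem etr_le_pdiam {S : Finset (ℤ × ℤ)} {x y : ℤ × ℤ} (hx : x ∈ S) (hy : y ∈ S) :
    max (x.1 - y.1).natAbs (x.2 - y.2).natAbs ≤ pdiam S := by
  unfold pdiam
  exact le_trans (Finset.le_sup (f := fun y : ℤ × ℤ => max (x.1 - y.1).natAbs (x.2 - y.2).natAbs) hy)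
    (Finset.le_sup (f := fun x : ℤ × ℤ => S.sup fun y : ℤ × ℤ => max (x.1 - y.1).natAbs (x.2 - y.2).natAbs) hx)

/-- one coordinate of the origin of the window -/
theorem etr_window_aux (m c1 M d : ℕ) (hm : 0 < m) (hc1 : 1 ≤ c1) (hM : d + 2 * (c1 * m) < M) (lo x : ℤ) (h1 : lo ≤ x) (h2 : x - lo ≤ d) :
    (((c1 - 1) * m : ℕ) : ℤ) ≤ x + (((c1 - 1) * m : ℕ) - m * (lo / m)) ∧ x + (((c1 - 1) * m : ℕ) - m * (lo / m)) + ((c1 - 1) * m : ℕ) + m < M := by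
  have hm' : (0 : ℤ) < m := by exact_mod_cast hm
  have e1 := Int.emod_add_mul_ediv lo m
  have e2 := Int.emod_nonneg lo hm'.ne'
  have e3 := Int.emod_lt_of_pos lo hm'
  obtain ⟨c, rfl⟩ : ∃ c, c1 = c + 1 := ⟨c1 - 1, by omega⟩
  have e4 : ((c + 1 - 1) * m : ℕ) = c * m := by simp
  rw [e4]
  have e5 : ((d + 2 * ((c + 1) * m) : ℕ) : ℤ) < M := by exact_mod_cast hM
  push_cast at e5 ⊢
  constructor
  · nlinarith
  · nlinarith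

/-- L-ETC-V2: the free window of a torus: side `M - m`, the set sits in it with one block of padding less.  (`B` from `etr_mkvol`, `k = M / m - 1`; `oB.k = (c1 - 1) m - m ⌊lo_k / m⌋`, `lo_k` = the least `k`-th coordinate of `S`; `S = ∅`: `oB = 0`.) -/
theorem etr_window (𝒱 : Vol) (hG : GeoOK 𝒱.c (vR 𝒱)) (hper : 𝒱.G.bc = BC.per) (c1 : ℕ) (hc1 : 5 ≤ c1) (S : Finset (ℤ × ℤ)) (o : ℤ × ℤ)
    (hfit : Fits 𝒱.G o (c1 * 𝒱.m) S) :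
    ∃ (B : Vol) (oB : ℤ × ℤ), B.G.bc = BC.free ∧ B.G.M + 𝒱.m = 𝒱.G.M ∧ B.s = 𝒱.s ∧ B.m = 𝒱.m ∧ GeoOK B.c (vR 𝒱) ∧
      (𝒱.m : ℤ) ∣ oB.1 ∧ (𝒱.m : ℤ) ∣ oB.2 ∧ Fits B.G oB ((c1 - 1) * 𝒱.m) S := by
  obtain ⟨-, hm0, -, -, -⟩ := etr_vol 𝒱 hG
  have hM := hfit.1 hper
  obtain ⟨K, hK⟩ := 𝒱.hmM
  have hK9 : 9 ≤ K := by
    by_contra h
    have h1 : K ≤ 8 := by omega
    have h2 : 𝒱.m * K ≤ 𝒱.m * 8 := Nat.mul_le_mul_left _ h1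
    have h3 : 5 * 𝒱.m ≤ c1 * 𝒱.m := Nat.mul_le_mul_right _ hc1
    omega
  obtain ⟨B, hBf, hBM, hBs, hBm, hGB⟩ := etr_mkvol 𝒱 hG BC.free (K - 1) (by omega)
  have hBM' : B.G.M + 𝒱.m = 𝒱.G.M := by
    rw [hBM, hK]
    obtain ⟨K', rfl⟩ : ∃ K', K = K' + 1 := ⟨K - 1, by omega⟩
    simp only [Nat.add_sub_cancel]
    ring
  have hnp : B.G.bc = BC.per → False := fun h => by rw [hBf] at h; cases h
  rcases S.eq_empty_or_nonempty with rfl | hne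
  · exact ⟨B, 0, hBf, hBM', hBs, hBm, hGB, dvd_zero _, dvd_zero _, fun h => (hnp h).elim, fun _ x hx => absurd hx (Finset.notMem_empty x)⟩
  obtain ⟨a, ha, hamin⟩ := Finset.exists_min_image S (fun x => x.1) hne
  obtain ⟨b, hb, hbmin⟩ := Finset.exists_min_image S (fun x => x.2) hne
  refine ⟨B, ((((c1 - 1) * 𝒱.m : ℕ) : ℤ) - 𝒱.m * (a.1 / 𝒱.m), (((c1 - 1) * 𝒱.m : ℕ) : ℤ) - 𝒱.m * (b.2 / 𝒱.m)), hBf, hBM', hBs, hBm, hGB, ?_, ?_,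
    fun h => (hnp h).elim, fun _ x hx => ?_⟩
  · exact dvd_sub (by push_cast; exact Dvd.intro_left _ rfl) (Dvd.intro _ rfl)
  · exact dvd_sub (by push_cast; exact Dvd.intro_left _ rfl) (Dvd.intro _ rfl)
  · have d1 := etr_le_pdiam hx ha
    have d2 := etr_le_pdiam hx hb
    have k1 := etr_window_aux 𝒱.m c1 𝒱.G.M (pdiam S) hm0 (by omega) hM a.1 x.1 (hamin x hx) (by omega)
    have k2 := etr_window_aux 𝒱.m c1 𝒱.G.M (pdiam S) hm0 (by omega) hM b.2 x.2 (hbmin x hx) (by omega)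
    have hBZ : (B.G.M : ℤ) + 𝒱.m = 𝒱.G.M := by exact_mod_cast hBM'
    simp only [Prod.fst_add, Prod.snd_add]
    refine ⟨k1.1, by linarith [k1.2], k2.1, by linarith [k2.2]⟩

theorem etr_fits_mono {G : Geom} {o : ℤ × ℤ} {r r' : ℕ} {S : Finset (ℤ × ℤ)} (h : Fits G o r S) (hr : r' ≤ r) : Fits G o r' S := by
  refine ⟨fun hp => by have := h.1 hp; omega, fun hf x hx => ?_⟩
  have := h.2 hf x hx
  omega

/-! ## 3. The centred sector, W-generic -/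

/-- a family of weights on the volumes with the given `(s, m)`, carried by all morphisms -/
structure WFam (s m : ℕ) (W : (𝒱 : Vol) → Wt 𝒱.c) : Prop where
  str : ∀ 𝒱 : Vol, 𝒱.s = s → 𝒱.m = m → GeoOK 𝒱.c (m / s) → (W 𝒱).Str
  iso : ∀ (𝒱 𝒱' : Vol) (Φ : Mor (vNest 𝒱) (vNest 𝒱')), 𝒱.s = s → 𝒱.m = m → 𝒱'.s = s → 𝒱'.m = m → GeoOK 𝒱.c (m / s) → GeoOK 𝒱'.c (m / s) →
    Φ.Ok (m / s) → WtIso Φ (W 𝒱) (W 𝒱')

section fam

variable {s m : ℕ} {W : (𝒱 : Vol) → Wt 𝒱.c} (hW : WFam s m W) (a : ℝ)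
include hW

/-- one shift of a free square -/
theorem etr_copy_shift (A B : Vol) (hAs : A.s = s) (hAm : A.m = m) (hBs : B.s = s) (hBm : B.m = m) (hGA : GeoOK A.c (m / s)) (hGB : GeoOK B.c (m / s))
    (hf : A.G.bc = BC.free) (o o' : ℤ × ℤ) (h1 : (m : ℤ) ∣ o.1) (h2 : (m : ℤ) ∣ o.2) (h1' : (m : ℤ) ∣ o'.1) (h2' : (m : ℤ) ∣ o'.2)
    (hper : B.G.bc = BC.per → A.G.M + m ≤ B.G.M)
    (hfr : B.G.bc = BC.free → 0 ≤ (o' - o).1 ∧ (o' - o).1 + A.G.M ≤ B.G.M ∧ 0 ≤ (o' - o).2 ∧ (o' - o).2 + A.G.M ≤ B.G.M)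
    (S : Finset (ℤ × ℤ)) (hfit : Fits A.G o (162 * m) S) :
    ∃ ψ : A.G.V → B.G.V, Function.Injective ψ ∧ (∀ x, NearS S m x → ψ (A.G.π (x + o)) = B.G.π (x + o')) ∧
      ∀ (z : A.G.V → ℂ) (z' : B.G.V → ℂ), (∀ x, NearS S m x → z (A.G.π (x + o)) = z' (B.G.π (x + o'))) →
        (W A).Kact a (vNest A) (m / s) (A.g.foldS (S.image (· + o))) z = (W B).Kact a (vNest B) (m / s) (B.g.foldS (S.image (· + o'))) z' := by
  have hR : vR A = m / s := by unfold vR; rw [hAs, hAm]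
  subst hAs hAm
  rw [← hR] at hGA hGB
  obtain ⟨Φ, hΦ, hsh⟩ := etr_shift_exists A B hBs.symm hBm.symm hGA hGB hf (o' - o) (dvd_sub h1' h1) (dvd_sub h2' h2) hper hfr
  have hC : ChartOK A B Φ o o' S := etr_chart_free Φ hGA hf hsh le_rfl hfit
  refine ⟨Φ.ψ, hΦ.ψ_inj, hC.rel, fun z z' hz => ?_⟩
  rw [← hR]
  exact etr_copy_step Φ hΦ hC hGA hGB (hW.str A rfl rfl (hR ▸ hGA)) (hW.str B hBs hBm (hR ▸ hGB))
    (hW.iso A B Φ rfl rfl hBs hBm (hR ▸ hGA) (hR ▸ hGB) (hR ▸ hΦ)) a hz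

/-- two free squares, through one large torus -/
theorem etr_copy_ff (A A' : Vol) (hAs : A.s = s) (hAm : A.m = m) (hAs' : A'.s = s) (hAm' : A'.m = m) (hGA : GeoOK A.c (m / s)) (hGA' : GeoOK A'.c (m / s))
    (hf : A.G.bc = BC.free) (hf' : A'.G.bc = BC.free) (o o' : ℤ × ℤ) (h1 : (m : ℤ) ∣ o.1) (h2 : (m : ℤ) ∣ o.2) (h1' : (m : ℤ) ∣ o'.1) (h2' : (m : ℤ) ∣ o'.2)
    (S : Finset (ℤ × ℤ)) (hfit : Fits A.G o (162 * m) S) (hfit' : Fits A'.G o' (162 * m) S)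
    (z : A.G.V → ℂ) (z' : A'.G.V → ℂ) (hz : ∀ x, NearS S m x → z (A.G.π (x + o)) = z' (A'.G.π (x + o'))) :
    (W A).Kact a (vNest A) (m / s) (A.g.foldS (S.image (· + o))) z = (W A').Kact a (vNest A') (m / s) (A'.g.foldS (S.image (· + o'))) z' := by
  have hR : vR A = m / s := by unfold vR; rw [hAs, hAm]
  obtain ⟨k, hk⟩ := A.hmM
  obtain ⟨k', hk'⟩ := A'.hmM
  obtain ⟨𝒲, hWp, hWM, hWs, hWm, hGW⟩ := etr_mkvol A (hR ▸ hGA) BC.per (k + k' + 8) (by omega)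
  rw [hR] at hGW
  rw [hAs] at hWs
  rw [hAm] at hWm hWM hk
  rw [hAm'] at hk'
  have hM1 : A.G.M + m ≤ 𝒲.G.M := by rw [hWM, hk]; nlinarith
  have hM2 : A'.G.M + m ≤ 𝒲.G.M := by rw [hWM, hk']; nlinarith
  have hnf : 𝒲.G.bc = BC.free → False := fun h => by rw [hWp] at h; cases h
  obtain ⟨ψ, hψ, hrel, hK⟩ := etr_copy_shift hW a A 𝒲 hAs hAm hWs hWm hGA hGW hf o 0 h1 h2 (dvd_zero _) (dvd_zero _) (fun _ => hM1)
    (fun h => (hnf h).elim) S hfit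
  obtain ⟨-, -, -, hK'⟩ := etr_copy_shift hW a A' 𝒲 hAs' hAm' hWs hWm hGA' hGW hf' o' 0 h1' h2' (dvd_zero _) (dvd_zero _) (fun _ => hM2)
    (fun h => (hnf h).elim) S hfit'
  have hw : ∀ x, NearS S m x → z (A.G.π (x + o)) = Function.extend ψ z 0 (𝒲.G.π (x + 0)) := fun x hx => by
    rw [← hrel x hx, hψ.extend_apply]
  rw [hK z _ hw, hK' z' (Function.extend ψ z 0) fun x hx => by rw [← hz x hx, hw x hx]]

/-- every volume is replaced by a free square -/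
theorem etr_copy_tofree (𝒱 : Vol) (hs : 𝒱.s = s) (hm : 𝒱.m = m) (hG : GeoOK 𝒱.c (m / s)) (o : ℤ × ℤ) (h1 : (m : ℤ) ∣ o.1) (h2 : (m : ℤ) ∣ o.2)
    (S : Finset (ℤ × ℤ)) (hfit : Fits 𝒱.G o (163 * m) S) (z : 𝒱.G.V → ℂ) :
    ∃ (A : Vol) (oA : ℤ × ℤ) (zA : A.G.V → ℂ), A.s = s ∧ A.m = m ∧ GeoOK A.c (m / s) ∧ A.G.bc = BC.free ∧ (m : ℤ) ∣ oA.1 ∧ (m : ℤ) ∣ oA.2 ∧
      Fits A.G oA (162 * m) S ∧ (∀ x, NearS S m x → zA (A.G.π (x + oA)) = z (𝒱.G.π (x + o))) ∧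
      (W A).Kact a (vNest A) (m / s) (A.g.foldS (S.image (· + oA))) zA = (W 𝒱).Kact a (vNest 𝒱) (m / s) (𝒱.g.foldS (S.image (· + o))) z := by
  have hR : vR 𝒱 = m / s := by unfold vR; rw [hs, hm]
  rcases hbc : 𝒱.G.bc with _ | _
  · obtain ⟨B, oB, hBf, hBM, hBs, hBm, hGB, hB1, hB2, hBfit⟩ := etr_window 𝒱 (hR ▸ hG) hbc 163 (by omega) S o (hm ▸ hfit)
    rw [hR] at hGB
    rw [hs] at hBs
    rw [hm] at hBm hBM hB1 hB2 hBfit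
    obtain ⟨ψ, -, hrel, hK⟩ := etr_copy_shift hW a B 𝒱 hBs hBm hs hm hGB hG hBf oB o hB1 hB2 h1 h2 (fun _ => hBM.le)
      (fun h => by rw [hbc] at h; cases h) S hBfit
    refine ⟨B, oB, fun v => z (ψ v), hBs, hBm, hGB, hBf, hB1, hB2, hBfit, fun x hx => by show z (ψ _) = _; rw [hrel x hx], ?_⟩
    exact hK _ z fun x hx => by show z (ψ _) = _; rw [hrel x hx]
  · exact ⟨𝒱, o, z, hs, hm, hG, hbc, h1, h2, etr_fits_mono hfit (by omega), fun _ _ => rfl, rfl⟩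

/-- **the W-generic core of the centred sector of `CopyStmt`** -/
theorem etr_copy_core (𝒱 𝒱' : Vol) (hs : 𝒱.s = s) (hm : 𝒱.m = m) (hs' : 𝒱'.s = s) (hm' : 𝒱'.m = m) (hG : GeoOK 𝒱.c (m / s)) (hG' : GeoOK 𝒱'.c (m / s))
    (o o' : ℤ × ℤ) (h1 : (m : ℤ) ∣ o.1) (h2 : (m : ℤ) ∣ o.2) (h1' : (m : ℤ) ∣ o'.1) (h2' : (m : ℤ) ∣ o'.2)
    (S : Finset (ℤ × ℤ)) (hfit : Fits 𝒱.G o (163 * m) S) (hfit' : Fits 𝒱'.G o' (163 * m) S)
    (z : 𝒱.G.V → ℂ) (z' : 𝒱'.G.V → ℂ) (hz : ∀ x, NearS S m x → z (𝒱.G.π (x + o)) = z' (𝒱'.G.π (x + o'))) :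
    (W 𝒱).Kact a (vNest 𝒱) (m / s) (𝒱.g.foldS (S.image (· + o))) z = (W 𝒱').Kact a (vNest 𝒱') (m / s) (𝒱'.g.foldS (S.image (· + o'))) z' := by
  obtain ⟨A, oA, zA, hAs, hAm, hGA, hAf, hA1, hA2, hAfit, hAz, hAK⟩ := etr_copy_tofree hW a 𝒱 hs hm hG o h1 h2 S hfit z
  obtain ⟨A', oA', zA', hAs', hAm', hGA', hAf', hA1', hA2', hAfit', hAz', hAK'⟩ := etr_copy_tofree hW a 𝒱' hs' hm' hG' o' h1' h2' S hfit' z'
  rw [← hAK, ← hAK']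
  exact etr_copy_ff hW a A A' hAs hAm hAs' hAm' hGA hGA' hAf hAf' oA oA' hA1 hA2 hA1' hA2' S hAfit hAfit' zA zA'
    fun x hx => by rw [hAz x hx, hAz' x hx, hz x hx]

end fam

end

end Claimed.Agent.R285.Ent
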