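import Claimed.Agent.R285.Ent.Avg
import Claimed.Agent.R285.Entry.CplxH

/-!
# ROW 285, post BP-ENT-CPLX, file `Ent/CxAn`: FROM `AvgStmt` TO `L¹` BOUNDS OF THE INTEGRAND            (owner helper140)
`cxL1 a c m F z` = the `L¹` norm of `(ζ, e) ↦ F (obs (z + ζ, e))` under `μ_{C_{<m}} ⊗ noise`.
* `cx_bd_norm`, `cx_bd_H0`   : `Bd` only sees `‖F‖`; `Bd` with `H ≥ 0` implies `Bd` with `H = 0`.
* `cx_lint_le`               : `AvgStmt` applied to `‖F‖`: the bound of `AvgStmt` holds for `cxL1`.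
* `cx_itg`, `cx_eav_eq`      : integrability from `cxL1 ≠ ⊤`; `eav` is the integral over the product.
* `cx_norm_eav_le`           : `‖eav F z‖ ≤ cxL1 F z`.
-/

set_option autoImplicit false

namespace Claimed.Agent.R285.Ent

open scoped BigOperators ENNReal NNReal
open MeasureTheory ProbabilityTheory
open Claimed.Agent.R285 Claimed.Agent.R285.RG Claimed.Agent.R285.F4a

noncomputable section

variable {G : Geom}

/-- the product measure of the entry average -/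
def cxMu (c : Grid G) (m : ℕ) : Measure ((G.V → ℝ) × (c.I → ℝ)) := (gauss G (Cless G m)).prod (noise c)

/-- the `L¹` norm of the integrand of `eav` at the field `z` -/
def cxL1 (a : ℝ) (c : Grid G) (m : ℕ) (F : (c.I → ℂ) → ℂ) (z : G.V → ℂ) : ℝ≥0∞ :=
  ∫⁻ p, (‖F (obsv a c (z + toC p.1) p.2)‖₊ : ℝ≥0∞) ∂(cxMu c m)

variable {c g : Grid G}

/-- `Bd` only sees the norm -/
theorem cx_bd_norm {a : ℝ} {τ : Face c → ℤ} {R : ℕ} {H θ : ℝ} {D : Finset c.I} {h : ℝ} {F : (c.I → ℂ) → ℂ} {w : ℝ}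
    (hB : Bd a τ R H θ D h F w) : Bd a τ R H θ D h (fun y => ((‖F y‖ : ℝ) : ℂ)) w := by
  obtain ⟨L, h1, h2, h3⟩ := hB
  refine ⟨L, fun y k hk => ?_, h2, h3⟩
  rw [Complex.norm_real, norm_norm]
  exact h1 y k hk

theorem cx_imK_zero_sub (D : Finset c.I) {H : ℝ} (hH : 0 ≤ H) (R : ℕ) : imK c D 0 R ⊆ imK c D H R := by
  intro k hk
  refine ⟨fun i hi => (hk.1 i hi).trans hH, fun f hf h1 h2 => ?_⟩
  have := hk.2 f hf h1 h2
  rw [zero_div] at this
  exact this.trans (div_nonneg hH (Nat.cast_nonneg _))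

/-- real observations are a special case -/
theorem cx_bd_H0 {a : ℝ} {τ : Face c → ℤ} {R : ℕ} {H θ : ℝ} {D : Finset c.I} {h : ℝ} {F : (c.I → ℂ) → ℂ} {w : ℝ} (hH : 0 ≤ H)
    (hB : Bd a τ R H θ D h F w) : Bd a τ R 0 θ D h F w := by
  obtain ⟨L, h1, h2, h3⟩ := hB
  exact ⟨L, fun y k hk => h1 y k (cx_imK_zero_sub D hH R hk), h2, h3⟩

theorem cx_integrand_continuous (a : ℝ) (c : Grid G) (F : (c.I → ℂ) → ℂ) (hF : Continuous F) (z : G.V → ℂ) :
    Continuous fun p : (G.V → ℝ) × (c.I → ℝ) => F (obsv a c (z + toC p.1) p.2) :=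
  hF.comp (av_obsv_continuous a c z)

/-- integrability from a finite `L¹` norm -/
theorem cx_itg (a : ℝ) (c : Grid G) (m : ℕ) (F : (c.I → ℂ) → ℂ) (hF : Continuous F) (z : G.V → ℂ) (h : cxL1 a c m F z ≠ ⊤) :
    Itg a c m F z := by
  refine ⟨(cx_integrand_continuous a c F hF z).aestronglyMeasurable, ?_⟩
  rw [HasFiniteIntegral]
  exact lt_top_iff_ne_top.2 h

/-- `eav` is the integral over the product -/
theorem cx_eav_eq (a : ℝ) (c : Grid G) (m : ℕ) (F : (c.I → ℂ) → ℂ) (z : G.V → ℂ) (h : Itg a c m F z) :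
    eav a c m F z = ∫ p, F (obsv a c (z + toC p.1) p.2) ∂(cxMu c m) := by
  have := av_noise_sfinite c
  have := av_gauss_sfinite (Cless G m)
  unfold cxMu
  rw [integral_prod _ h]
  rfl

theorem cx_norm_eav_le (a : ℝ) (c : Grid G) (m : ℕ) (F : (c.I → ℂ) → ℂ) (hF : Continuous F) (z : G.V → ℂ) :
    (‖eav a c m F z‖₊ : ℝ≥0∞) ≤ cxL1 a c m F z := by
  have := av_noise_sfinite c
  have := av_gauss_sfinite (Cless G m)
  unfold cxL1 cxMu
  rw [lintegral_prod _ (cx_integrand_continuous a c F hF z).measurable.nnnorm.coe_nnreal_ennreal.aemeasurable]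
  unfold eav conv nav
  refine (enorm_integral_le_lintegral_enorm _).trans (lintegral_mono fun ζ => ?_)
  exact enorm_integral_le_lintegral_enorm _

/-- the `L¹` norm as the average of the norm -/
theorem cx_L1_eq (a : ℝ) (c : Grid G) (m : ℕ) (F : (c.I → ℂ) → ℂ) (z : G.V → ℂ)
    (h : Itg a c m (fun y => ((‖F y‖ : ℝ) : ℂ)) z) :
    cxL1 a c m F z = ENNReal.ofReal ‖eav a c m (fun y => ((‖F y‖ : ℝ) : ℂ)) z‖ := by
  rw [cx_eav_eq a c m _ z h]
  have h1 : Integrable (fun p : (G.V → ℝ) × (c.I → ℝ) => ‖F (obsv a c (z + toC p.1) p.2)‖) (cxMu c m) := by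
    have := h.re
    unfold cxMu
    simpa using this
  have h2 : ∫ p, ((‖F (obsv a c (z + toC p.1) p.2)‖ : ℝ) : ℂ) ∂(cxMu c m)
      = ((∫ p, ‖F (obsv a c (z + toC p.1) p.2)‖ ∂(cxMu c m) : ℝ) : ℂ) := integral_ofReal
  rw [h2, Complex.norm_real, Real.norm_of_nonneg (integral_nonneg fun _ => norm_nonneg _),
    ofReal_integral_eq_lintegral_ofReal h1 (Filter.Eventually.of_forall fun _ => norm_nonneg _)]
  unfold cxL1
  refine lintegral_congr fun p => ?_
  rw [ofReal_norm, enorm_eq_nnnorm]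

/-- **`AvgStmt` for the `L¹` norm of the integrand** -/
theorem cx_lint_le (hA : AvgStmt) (a hs p1 h1 h2 : ℝ) (ha : 0 < a) (hp1 : 1 < p1) (hm : p1 * hs < 1) (h10 : 0 < h1) (h12 : h1 < h2)
    (h2s : h2 < hs) :
    ∃ Ct : ℝ, 0 ≤ Ct ∧ ∀ (G : Geom) (c g : Grid G) (N : Nest c g) (R : ℕ), Whole c → g.Ok → NestOK N R → 0 < R →
      ∀ (τ : Face c → ℤ) (X : Finset g.I) (F : (c.I → ℂ) → ℂ) (H w : ℝ), Continuous F →
        Bd a τ R H (thetaOf h1 h2) (under N X) h1 F w →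
        ∀ φ lam v η : G.V → ℝ, (fun i => avg c (fun x => Real.sqrt a * η x) i) ∈ imK c (under N X) H R →
          cxL1 a c g.m F (fld a φ lam v η) ≤ ENNReal.ofReal (w * Real.exp (Vobs a hs p1 c g (Cless G g.m) X φ
            + Ct * openE a c (g.Dm X) (fun i => avg c (fun x => Real.sqrt a * lam x) i) + Ct * etaSq τ v (under N X))) := by
  obtain ⟨Ct, hCt⟩ := hA a hs p1 h1 h2 ha hp1 hm h10 h12 h2s
  refine ⟨max Ct 0, le_max_right _ _, ?_⟩
  intro G c g N R hc hg hN hR τ X F H w hF hB φ lam v η hη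
  obtain ⟨hI, hb⟩ := hCt G c g N R hc hg hN hR τ X (fun y => ((‖F y‖ : ℝ) : ℂ)) H w
    (Complex.continuous_ofReal.comp hF.norm) (cx_bd_norm hB) φ lam v η hη
  rw [cx_L1_eq a c g.m F _ hI]
  refine ENNReal.ofReal_le_ofReal (hb.trans ?_)
  have hw0 : 0 ≤ w := by
    obtain ⟨L, -, -, h3⟩ := hB
    exact (av_Lwt_nonneg _ L).trans h3
  refine mul_le_mul_of_nonneg_left (Real.exp_le_exp.2 ?_) hw0
  have ho := av_openE_nonneg a ha c (g.Dm X) (fun i => avg c (fun x => Real.sqrt a * lam x) i)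
  have he : 0 ≤ etaSq τ v (under N X) := Finset.sum_nonneg fun _ _ => sq_nonneg _
  have m1 := mul_le_mul_of_nonneg_right (le_max_left Ct 0) ho
  have m2 := mul_le_mul_of_nonneg_right (le_max_left Ct 0) he
  linarith

end

end Claimed.Agent.R285.Ent
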