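import Claimed.Agent.R285.Ent.CxEng
import Claimed.Agent.R285.Ent.Exp
import Claimed.Agent.R285.Ent.Geo

/-!
# ROW 285, post BP-ENT-CPLX, file `Ent/CxBd`: `Bd` OF THE FACTOR OF A PATTERN            (owner helper140)
PAPER-FREE.  Input: `CostStmt` (calculus of `Bd`), `Phys` (halo and tile factors), `FaceCF` (two-cell Poincaré inequality, from `Avg.face_poincare`).
* links: `|e^x - 1| ≤ √β exp (√β (|w_f|² + |w_f'|²)/2)`, `β = |b_ℓ| ≤ 1`;  ONE cost for the whole product of the links of a pattern; its load at a cell is the SUM of the loads of the links through the cell (`cxLd`),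
  which is bounded uniformly (`hload`, proved in `Ent/CxNum.lean`).  `CostStmt`'s product rule (loads add up over ALL links) is not used for links.
* `cxWI` = the weight of an item;   `cx_bd_pfac`, `cx_bd_pfacL`: `Bd` of `pfac`, `pfacL` with the weight `∏ cxWI`, load `cb + hl`.
-/

set_option autoImplicit false

namespace Claimed.Agent.R285.Ent

open scoped BigOperators ENNReal NNReal
open MeasureTheory ProbabilityTheory
open Claimed.Agent.R285 Claimed.Agent.R285.RG Claimed.Agent.R285.F4a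

noncomputable section

variable {G : Geom}

/-- the two-cell topology of a face -/
def top2 (c : Grid G) (f : Face c) : Top c := ⟨fcl c f, {f}⟩

/-- the two-cell Poincaré inequality with the constant `CF` -/
def FaceCF (a CF : ℝ) : Prop :=
  ∀ (G : Geom) (c : Grid G), Whole c → ∀ f : Face c, IsFace c f → ∀ (τ : Face c → ℤ) (y : c.I → ℝ),
    wf c τ y f ^ 2 ≤ CF * (top2 c f).Eobs a τ y

variable {c g : Grid G}

theorem top2_ok {f : Face c} (hf : IsFace c f) : (top2 c f).Ok := by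
  intro f' hf'
  have e : f' = f := Finset.mem_singleton.1 hf'
  subst e
  exact ⟨hf, by simp [top2, fcl], by simp [top2, fcl]⟩

theorem cx_faceCF (a : ℝ) (ha : 0 < a) : ∃ CF : ℝ, 0 < CF ∧ FaceCF a CF := by
  obtain ⟨CF, h0, h⟩ := Avg.face_poincare a ha
  refine ⟨CF, h0, fun G c hc f hf τ y => ?_⟩
  have := h G c hc (top2 c f) (top2_ok hf) (fun f => 2 * Real.pi * τ f) y
  simpa [top2, wf, Top.Eobs] using this

/-! ## 1. Links -/

/-- the cost of a link -/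
def cxCostL (W : Wt c) (R : ℕ) (CF H : ℝ) (l : Link c) : Cost c :=
  ⟨Real.log (Real.sqrt |W.lkc R l|) + Real.sqrt |W.lkc R l| * (H / R) ^ 2,
   [(top2 c l.1, CF * Real.sqrt |W.lkc R l|), (top2 c l.2.1, CF * Real.sqrt |W.lkc R l|)]⟩

/-- the weight of a link after averaging -/
def cxWl (W : Wt c) (R : ℕ) (CF θ H : ℝ) (l : Link c) : ℝ :=
  Real.sqrt |W.lkc R l| * Real.exp (Real.sqrt |W.lkc R l| * ((H / R) ^ 2 + 4 * θ * CF))

open Classical in
/-- the load of a link at a cell -/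
def cxLd (W : Wt c) (R : ℕ) (CF : ℝ) (l : Link c) (i : c.I) : ℝ :=
  CF * Real.sqrt |W.lkc R l| * ((if i ∈ fcl c l.1 then 1 else 0) + if i ∈ fcl c l.2.1 then 1 else 0)

/-- **LEAF L-ENT-CX-B1** (pure real/complex analysis).  `x = b w w'`, `β = |b|`, `s = √β ∈ (0, 1]`, `U = s (|w|² + |w'|²)/2`: `|x| ≤ s U`, `‖e^x - 1‖ ≤ e^{|x|} - 1 ≤ e^{s U} - 1 ≤ s (e^U - 1) ≤ s e^U` (convexity of `exp`). -/
theorem cx_exp_sub_one_le (b : ℝ) (hb0 : b ≠ 0) (hb1 : |b| ≤ 1) (w w' : ℂ) :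
    ‖Complex.exp ((b : ℂ) * w * w') - 1‖ ≤ Real.sqrt |b| * Real.exp (Real.sqrt |b| * (‖w‖ ^ 2 + ‖w'‖ ^ 2) / 2) := by
  obtain ⟨s, hs⟩ : ∃ s, s = Real.sqrt |b| := ⟨_, rfl⟩
  have hs0 : 0 ≤ s := hs ▸ Real.sqrt_nonneg _
  have hs1 : s ≤ 1 := by
    rw [hs]
    exact Real.sqrt_le_one.2 hb1
  have hss : s * s = |b| := by
    rw [hs]
    exact Real.mul_self_sqrt (abs_nonneg b)
  obtain ⟨U, hU⟩ : ∃ U, U = s * (‖w‖ ^ 2 + ‖w'‖ ^ 2) / 2 := ⟨_, rfl⟩
  have hx : ‖(b : ℂ) * w * w'‖ ≤ s * U := by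
    rw [norm_mul, norm_mul, Complex.norm_real, Real.norm_eq_abs, ← hss, hU]
    have h1 : ‖w‖ * ‖w'‖ ≤ (‖w‖ ^ 2 + ‖w'‖ ^ 2) / 2 := by nlinarith [sq_nonneg (‖w‖ - ‖w'‖)]
    have h2 : 0 ≤ s * s := mul_nonneg hs0 hs0
    calc s * s * ‖w‖ * ‖w'‖ = s * s * (‖w‖ * ‖w'‖) := by ring
      _ ≤ s * s * ((‖w‖ ^ 2 + ‖w'‖ ^ 2) / 2) := mul_le_mul_of_nonneg_left h1 h2
      _ = s * (s * (‖w‖ ^ 2 + ‖w'‖ ^ 2) / 2) := by ring
  have h1 : ‖Complex.exp ((b : ℂ) * w * w') - 1‖ ≤ Real.exp ‖(b : ℂ) * w * w'‖ - 1 := by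
    have := Complex.norm_exp_sub_sum_le_exp_norm_sub_sum ((b : ℂ) * w * w') 1
    simpa using this
  have h2 : Real.exp (s * U) ≤ s * Real.exp U + (1 - s) := by
    have := convexOn_exp.2 (Set.mem_univ U) (Set.mem_univ (0 : ℝ)) hs0 (sub_nonneg.2 hs1) (by ring)
    simpa using this
  have h3 : Real.exp ‖(b : ℂ) * w * w'‖ ≤ Real.exp (s * U) := Real.exp_le_exp.2 hx
  rw [← hs, ← hU]
  nlinarith [Real.exp_pos U]

/-- **LEAF L-ENT-CX-B2.**  From `cx_exp_sub_one_le`: `W.w (y + i k) f = wf c τ y f + i (k (fnb f) - k f.1)`, `‖·‖² = wf² + δ² ≤ CF E_f + (H/R)²`; `Cost.val`, `Cost.q` of the two-element list unfold by `simp`;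
`exp (log s) = s`. -/
theorem cx_lfac_le {a CF : ℝ} (hCF : FaceCF a CF) (hc : Whole c) (W : Wt c) (R : ℕ) (H : ℝ) (l : Link c)
    (hf : IsFace c l.1) (hf' : IsFace c l.2.1) (hβ0 : W.lkc R l ≠ 0) (hβ1 : |W.lkc R l| ≤ 1) (y k : c.I → ℝ)
    (hk : |k (fnb c l.1) - k l.1.1| ≤ H / R) (hk' : |k (fnb c l.2.1) - k l.2.1.1| ≤ H / R) :
    ‖W.lfac R l (fun i => (y i : ℂ) + (k i : ℂ) * Complex.I)‖ ≤ (cxCostL W R CF H l).val a W.τ y := by
  obtain ⟨b, hb⟩ : ∃ b : ℝ, b = W.lkc R l := ⟨_, rfl⟩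
  obtain ⟨s, hs⟩ : ∃ s : ℝ, s = Real.sqrt |b| := ⟨_, rfl⟩
  rw [← hb] at hβ0 hβ1
  have hs0 : 0 < s := by rw [hs]; exact Real.sqrt_pos.2 (abs_pos.2 hβ0)
  have hw : ∀ f : Face c, ‖W.w (fun i => (y i : ℂ) + (k i : ℂ) * Complex.I) f‖ ^ 2
      = wf c W.τ y f ^ 2 + (k (fnb c f) - k f.1) ^ 2 := by
    intro f
    have e : W.w (fun i => (y i : ℂ) + (k i : ℂ) * Complex.I) f
        = ((wf c W.τ y f : ℝ) : ℂ) + ((k (fnb c f) - k f.1 : ℝ) : ℂ) * Complex.I := by
      simp only [Wt.w, wfC, wf]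
      push_cast
      ring
    rw [e, ← Complex.normSq_eq_norm_sq, Complex.normSq_add_mul_I]
  have hsq : ∀ d : ℝ, |d| ≤ H / R → d ^ 2 ≤ (H / R) ^ 2 := fun d hd => by
    rw [← sq_abs d]
    exact pow_le_pow_left₀ (abs_nonneg d) hd 2
  have h1 := cx_exp_sub_one_le b hβ0 hβ1 (W.w (fun i => (y i : ℂ) + (k i : ℂ) * Complex.I) l.1)
    (W.w (fun i => (y i : ℂ) + (k i : ℂ) * Complex.I) l.2.1)
  rw [hw, hw, ← hs] at h1
  have e1 := hCF G c hc l.1 hf W.τ y
  have e2 := hCF G c hc l.2.1 hf' W.τ y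
  have e3 := hsq _ hk
  have e4 := hsq _ hk'
  have hval : (cxCostL W R CF H l).val a W.τ y = s * Real.exp (s * (H / R) ^ 2 +
      (CF * s * (top2 c l.1).Eobs a W.τ y + CF * s * (top2 c l.2.1).Eobs a W.τ y) / 2) := by
    simp only [Cost.val, Cost.q, cxCostL, List.map_cons, List.map_nil, List.sum_cons, List.sum_nil, add_zero, ← hb, ← hs]
    rw [add_assoc, Real.exp_add, Real.exp_log hs0]
  rw [hval]
  unfold Wt.lfac
  rw [← hb]
  refine h1.trans (mul_le_mul_of_nonneg_left (Real.exp_le_exp.2 ?_) hs0.le)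
  nlinarith

/-- **LEAF L-ENT-CX-B3.**  The elementary data of the cost of a link. -/
theorem cx_costL_data {CF θ : ℝ} (hCF0 : 0 ≤ CF) (hθ : 0 ≤ θ) (W : Wt c) (R : ℕ) (H : ℝ) (l : Link c) (hβ0 : W.lkc R l ≠ 0) :
    (∀ i, (cxCostL W R CF H l).load i = cxLd W R CF l i) ∧ (cxCostL W R CF H l).wt θ ≤ cxWl W R CF θ H l := by
  classical
  obtain ⟨s, hs⟩ : ∃ s, s = Real.sqrt |W.lkc R l| := ⟨_, rfl⟩
  have hs0 : 0 < s := hs ▸ Real.sqrt_pos.2 (abs_pos.2 hβ0)
  constructor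
  · intro i
    unfold cxCostL cxLd Cost.load
    rw [← hs]
    simp only [List.map_cons, List.map_nil, List.sum_cons, List.sum_nil, top2, add_zero]
    split_ifs <;> ring
  · unfold cxCostL cxWl Cost.wt Cost.size
    rw [← hs]
    simp only [List.map_cons, List.map_nil, List.sum_cons, List.sum_nil, top2, add_zero]
    have hcard : ∀ f : Face c, ((fcl c f).card : ℝ) ≤ 2 := by
      intro f
      have : (fcl c f).card ≤ 2 := Finset.card_le_two
      exact_mod_cast this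
    have h1 := hcard l.1
    have h2 := hcard l.2.1
    have hc : 0 ≤ CF * s := mul_nonneg hCF0 hs0.le
    have hsz : CF * s * ((fcl c l.1).card : ℝ) + CF * s * ((fcl c l.2.1).card : ℝ) ≤ 4 * (CF * s) := by
      have a1 := mul_le_mul_of_nonneg_left h1 hc
      have a2 := mul_le_mul_of_nonneg_left h2 hc
      linarith
    have hθs := mul_le_mul_of_nonneg_left hsz hθ
    rw [add_assoc, Real.exp_add, Real.exp_log hs0]
    refine mul_le_mul_of_nonneg_left (Real.exp_le_exp.2 ?_) hs0.le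
    linarith

theorem cx_bd_links_aux {a CF θ H : ℝ} (hCF : FaceCF a CF) (hCF0 : 0 ≤ CF) (hθ : 0 ≤ θ) (hc : Whole c) (W : Wt c) (R : ℕ)
    (D : Finset c.I) (L : Finset (Link c)) :
    (∀ l ∈ L, IsFace c l.1 ∧ IsFace c l.2.1) → (∀ l ∈ L, W.lkc R l ≠ 0) →
    (∀ l ∈ L, |W.lkc R l| ≤ 1) → (∀ l ∈ L, fcl c l.1 ⊆ D ∧ fcl c l.2.1 ⊆ D) →
    ∃ C : Cost c, (∀ y : c.I → ℝ, ∀ k ∈ imK c D H R,
        ‖∏ l ∈ L, W.lfac R l (fun i => (y i : ℂ) + (k i : ℂ) * Complex.I)‖ ≤ C.val a W.τ y) ∧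
      (∀ p ∈ C.B, p.1.Ok ∧ p.1.cells ⊆ D ∧ 0 ≤ p.2) ∧ (∀ i, C.load i = ∑ l ∈ L, cxLd W R CF l i) ∧
      C.wt θ ≤ ∏ l ∈ L, cxWl W R CF θ H l := by
  classical
  induction L using Finset.induction_on with
  | empty =>
    intro _ _ _ _
    refine ⟨⟨0, []⟩, fun y k _ => ?_, fun p hp => ?_, fun i => ?_, ?_⟩
    · simp [Cost.val, Cost.q]
    · simp at hp
    · simp [Cost.load]
    · simp [Cost.wt, Cost.size]
  | insert l L hl ih =>
    intro hlive hβ0 hβ1 hD
    obtain ⟨C, h1, h2, h3, h4⟩ := ih (fun l' h' => hlive l' (Finset.mem_insert_of_mem h'))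
      (fun l' h' => hβ0 l' (Finset.mem_insert_of_mem h')) (fun l' h' => hβ1 l' (Finset.mem_insert_of_mem h'))
      (fun l' h' => hD l' (Finset.mem_insert_of_mem h'))
    have hll := hlive l (Finset.mem_insert_self _ _)
    have hb0 := hβ0 l (Finset.mem_insert_self _ _)
    have hb1 := hβ1 l (Finset.mem_insert_self _ _)
    have hDl := hD l (Finset.mem_insert_self _ _)
    obtain ⟨d1, d2⟩ := cx_costL_data (H := H) hCF0 hθ W R l hb0
    refine ⟨(cxCostL W R CF H l).mul C, fun y k hk => ?_, fun p hp => ?_, fun i => ?_, ?_⟩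
    · rw [Finset.prod_insert hl, norm_mul, av_val_mul]
      have e1 : |k (fnb c l.1) - k l.1.1| ≤ H / R :=
        hk.2 l.1 hll.1 (hDl.1 (by simp [fcl])) (hDl.1 (by simp [fcl]))
      have e2 : |k (fnb c l.2.1) - k l.2.1.1| ≤ H / R :=
        hk.2 l.2.1 hll.2 (hDl.2 (by simp [fcl])) (hDl.2 (by simp [fcl]))
      exact mul_le_mul (cx_lfac_le hCF hc W R H l hll.1 hll.2 hb0 hb1 y k e1 e2) (h1 y k hk) (norm_nonneg _)
        (Real.exp_pos _).le
    · have hp' : p ∈ (cxCostL W R CF H l).B ++ C.B := hp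
      rcases List.mem_append.1 hp' with hp1 | hp1
      · have hs : 0 ≤ CF * Real.sqrt |W.lkc R l| := mul_nonneg hCF0 (Real.sqrt_nonneg _)
        simp only [cxCostL, List.mem_cons, List.not_mem_nil, or_false] at hp1
        rcases hp1 with rfl | rfl
        · exact ⟨top2_ok hll.1, hDl.1, hs⟩
        · exact ⟨top2_ok hll.2, hDl.2, hs⟩
      · exact h2 p hp1
    · rw [av_load_mul, Finset.sum_insert hl, d1, h3]
    · rw [av_wt_mul, Finset.prod_insert hl]
      exact mul_le_mul d2 h4 (Real.exp_pos _).le (mul_nonneg (Real.sqrt_nonneg _) (Real.exp_pos _).le)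

/-- **LEAF L-ENT-CX-B4: the product of the links of a pattern.**  Induction on `L` (`Finset.induction_on`) of the statement: there is ONE cost `C` with `‖∏ lfac‖ ≤ C.val`, every entry of `C.B` is `Ok`, in `D`, with
coefficient `≥ 0`, `C.load i = ∑ cxLd`, `C.wt θ ≤ ∏ cxWl`.   Step: `Cost.mul`, `av_val_mul`, `av_load_mul`, `av_wt_mul` (`Ent/Avg.lean`), `cx_lfac_le`, `cx_costL_data`, `top2_ok`.   Start: `⟨0, []⟩`. -/
theorem cx_bd_links {a CF θ H : ℝ} (hCF : FaceCF a CF) (hCF0 : 0 ≤ CF) (hθ : 0 ≤ θ) (hc : Whole c) (W : Wt c) (R : ℕ)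
    (L : Finset (Link c)) (hlive : ∀ l ∈ L, IsFace c l.1 ∧ IsFace c l.2.1) (hβ0 : ∀ l ∈ L, W.lkc R l ≠ 0)
    (hβ1 : ∀ l ∈ L, |W.lkc R l| ≤ 1) (D : Finset c.I) (hD : ∀ l ∈ L, fcl c l.1 ⊆ D ∧ fcl c l.2.1 ⊆ D) (hl : ℝ)
    (hload : ∀ i, ∑ l ∈ L, cxLd W R CF l i ≤ hl) :
    Bd a W.τ R H θ D hl (fun y => ∏ l ∈ L, W.lfac R l y) (∏ l ∈ L, cxWl W R CF θ H l) := by
  obtain ⟨C, h1, h2, h3, h4⟩ := cx_bd_links_aux (H := H) hCF hCF0 hθ hc W R D L hlive hβ0 hβ1 hD
  refine ⟨[C], fun y k hk => ?_, fun C' hC' => ?_, ?_⟩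
  · simpa [Lval] using h1 y k hk
  · obtain rfl : C' = C := by simpa using hC'
    exact ⟨h2, fun i => (h3 i).le.trans (hload i)⟩
  · simpa [Lwt] using h4

/-! ## 2. Tiles -/

/-- **LEAF L-ENT-CX-B5.**  Induction on `Q`; `CostStmt` clause 1 (constant `1`) and clause 5 (disjoint regions), `cellsOf_union`, `cellsOf_disjoint`. -/
theorem cx_bd_tiles (hC : CostStmt) {a θ H cb : ℝ} (hθ : 0 ≤ θ) (hcb : 0 ≤ cb) (τ : Face c → ℤ) (R : ℕ) (Q : Finset Tile)
    (u : Tile → (c.I → ℂ) → ℂ) (wt : Tile → ℝ) (h : ∀ t ∈ Q, Bd a τ R H θ (cellsOf c R {t}) cb (u t) (wt t)) :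
    Bd a τ R H θ (cellsOf c R Q) cb (fun y => ∏ t ∈ Q, u t y) (∏ t ∈ Q, wt t) := by
  obtain ⟨h1, -, -, -, h5⟩ := hC G c a τ R H θ hθ
  induction Q using Finset.induction_on with
  | empty =>
    have h0 := h1 (cellsOf c R ∅) cb 1 hcb
    simpa using h0
  | insert t Q ht ih =>
    have e : cellsOf c R (insert t Q) = cellsOf c R {t} ∪ cellsOf c R Q := by
      rw [← cellsOf_union, Finset.insert_eq]
    have h2 := h5 (cellsOf c R {t}) (cellsOf c R Q) cb (wt t) (∏ t ∈ Q, wt t) (u t) (fun y => ∏ t ∈ Q, u t y)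
      (cellsOf_disjoint (Finset.disjoint_singleton_left.2 ht)) (h t (Finset.mem_insert_self _ _))
      (ih fun s hs => h s (Finset.mem_insert_of_mem hs))
    rw [e, Finset.prod_insert ht]
    simpa only [Finset.prod_insert ht] using h2

/-! ## 3. Patterns -/

open Classical in
/-- the weight of an item: `gm` off the zone, `big` at the zone -/
def cxWI (W : Wt c) (R : ℕ) (Z : Finset c.I) (CF θ H gm big : ℝ) : Item c → ℝ
  | Sum.inl k => if Disjoint (halC c R {k}) Z then gm else big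
  | Sum.inr (Sum.inl t) => if Disjoint (cellsOf c R {t}) Z then gm else big + 1
  | Sum.inr (Sum.inr l) => cxWl W R CF θ H l

theorem cxWl_nonneg (W : Wt c) (R : ℕ) (CF θ H : ℝ) (l : Link c) : 0 ≤ cxWl W R CF θ H l :=
  mul_nonneg (Real.sqrt_nonneg _) (Real.exp_pos _).le

theorem cxWI_nonneg (W : Wt c) (R : ℕ) (Z : Finset c.I) (CF θ H : ℝ) {gm big : ℝ} (hgm : 0 ≤ gm) (hbig : 1 ≤ big) (I : Item c) :
    0 ≤ cxWI W R Z CF θ H gm big I := by
  rcases I with k | t | l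
  · simp only [cxWI]; split_ifs <;> linarith
  · simp only [cxWI]; split_ifs <;> linarith
  · exact cxWl_nonneg W R CF θ H l

/-- **LEAF L-ENT-CX-B6.**  A product over a pattern is the product over its three parts (`π = image inl (pS π) ∪ ..`; `mem_pS`, `mem_pQ`, `mem_pL`, `Finset.prod_image`, `Finset.prod_union`; or `Finset.prod_preimage`). -/
theorem cx_prod_items (π : Finset (Item c)) (w : Item c → ℝ) :
    ∏ I ∈ π, w I = (∏ k ∈ pS π, w (Sum.inl k)) * (∏ t ∈ pQ π, w (Sum.inr (Sum.inl t))) * ∏ l ∈ pL π, w (Sum.inr (Sum.inr l)) := by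
  classical
  have h : π = mkPat (pS π) (pQ π) (pL π) := by
    ext I
    rcases I with k | t | l
    · simp [mkPat, mem_pS]
    · simp [mkPat, mem_pQ]
    · simp [mkPat, mem_pL]
  conv_lhs => rw [h]
  unfold mkPat
  rw [Finset.prod_union (by
        rw [Finset.disjoint_left]
        intro I h1 h2
        obtain ⟨k, -, rfl⟩ := Finset.mem_image.1 h1
        rcases Finset.mem_union.1 h2 with h2 | h2
        · obtain ⟨t, -, h⟩ := Finset.mem_image.1 h2
          cases h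
        · obtain ⟨t, -, h⟩ := Finset.mem_image.1 h2
          cases h),
      Finset.prod_union (by
        rw [Finset.disjoint_left]
        intro I h1 h2
        obtain ⟨k, -, rfl⟩ := Finset.mem_image.1 h1
        obtain ⟨t, -, h⟩ := Finset.mem_image.1 h2
        cases h),
      Finset.prod_image (fun x _ y _ h => Sum.inl_injective h),
      Finset.prod_image (fun x _ y _ h => (Sum.inr_injective.comp Sum.inl_injective) h),
      Finset.prod_image (fun x _ y _ h => (Sum.inr_injective.comp Sum.inr_injective) h), mul_assoc]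
  rfl

open Classical in
/-- **LEAF L-ENT-CX-B7.**  The weight of a halo is at most the product of the weights of its marks: `Finset.prod_ite`; if `halC S` meets `Z` then `halC {k}` meets `Z` for some `k ∈ S` (`halT_single`, `mem_cellsOf`). -/
theorem cx_halo_weight (R : ℕ) (Z : Finset c.I) {gm big : ℝ} (hgm : 0 ≤ gm) (hbig : 1 ≤ big) (S : Finset EvId) :
    gm ^ (S.filter fun k => Disjoint (halC c R {k}) Z).card * (if Disjoint (halC c R S) Z then 1 else big)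
      ≤ ∏ k ∈ S, if Disjoint (halC c R {k}) Z then gm else big := by
  rw [Finset.prod_ite, Finset.prod_const, Finset.prod_const]
  refine mul_le_mul_of_nonneg_left ?_ (pow_nonneg hgm _)
  split_ifs with h
  · exact one_le_pow₀ hbig
  · obtain ⟨i, hi, hiZ⟩ := Finset.not_disjoint_iff.1 h
    obtain ⟨e, he, ht⟩ := halT_single (mem_cellsOf.1 hi)
    have hne : e ∈ S.filter fun k => ¬ Disjoint (halC c R {k}) Z :=
      Finset.mem_filter.2 ⟨he, Finset.not_disjoint_iff.2 ⟨i, mem_cellsOf.2 ht, hiZ⟩⟩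
    have hcard : 1 ≤ (S.filter fun k => ¬ Disjoint (halC c R {k}) Z).card := Finset.card_pos.2 ⟨e, hne⟩
    calc big = big ^ 1 := (pow_one _).symm
      _ ≤ _ := pow_le_pow_right₀ hbig hcard

/-- the hypotheses on the links which are used for `Bd` -/
structure CxLk (W : Wt c) (R : ℕ) (CF hl : ℝ) : Prop where
  le_one : ∀ l, |W.lkc R l| ≤ 1
  load : ∀ (L : Finset (Link c)) (i : c.I), ∑ l ∈ L, cxLd W R CF l i ≤ hl

/-- **LEAF L-ENT-CX-B8: halo × tiles × links.**  `CostStmt` clause 5 for `halC S`, `cellsOf Q` (disjoint: `cellsOf_disjoint`), clause 4 for the links (loads `cb + hl`), `cx_bd_tiles`, `cx_bd_links`.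
If some link of `L` has coefficient `0` the function vanishes (`Wt.lfac`, `exp 0 - 1 = 0`) and so does the weight: `CostStmt` clause 1 with `z = 0`.  Otherwise all links are live (`lkc_dead`). -/
theorem cx_bd_pat (hC : CostStmt) {a CF cb θ H hl : ℝ} (hCF : FaceCF a CF) (hCF0 : 0 ≤ CF) (hθ : 0 ≤ θ) (hcb : 0 ≤ cb) (hc : Whole c)
    {W : Wt c} (hW : W.Str) {R : ℕ} (hLk : CxLk W R CF hl) (S : Finset EvId) (wS : ℝ)
    (hS : Bd a W.τ R H θ (halC c R S) cb (W.halo R S) wS) (Q : Finset Tile) (hQ : Disjoint Q (halT c R S))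
    (u : Tile → (c.I → ℂ) → ℂ) (wt : Tile → ℝ) (hu : ∀ t ∈ Q, Bd a W.τ R H θ (cellsOf c R {t}) cb (u t) (wt t))
    (L : Finset (Link c)) :
    Bd a W.τ R H θ (halC c R S ∪ cellsOf c R Q ∪ L.biUnion (lcells c R)) (cb + hl)
      (fun y => W.halo R S y * (∏ t ∈ Q, u t y) * ∏ l ∈ L, W.lfac R l y)
      (wS * (∏ t ∈ Q, wt t) * ∏ l ∈ L, cxWl W R CF θ H l) := by
  classical
  by_cases h0 : ∃ l ∈ L, W.lkc R l = 0
  · obtain ⟨l, hlL, hl0⟩ := h0
    have e1 : ∀ y, ∏ l ∈ L, W.lfac R l y = 0 := fun y =>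
      Finset.prod_eq_zero hlL (by simp [Wt.lfac, hl0])
    have e2 : ∏ l ∈ L, cxWl W R CF θ H l = 0 := Finset.prod_eq_zero hlL (by simp [cxWl, hl0])
    refine ⟨[], fun y k _ => ?_, fun C hC' => ?_, ?_⟩
    · simp [e1, Lval]
    · simp at hC'
    · simp [e2, Lwt]
  · push Not at h0
    obtain ⟨-, -, -, c4, c5⟩ := hC G c a W.τ R H θ hθ
    have hT := cx_bd_tiles hC hθ hcb W.τ R Q u wt hu
    have hdis : Disjoint (halC c R S) (cellsOf c R Q) := cellsOf_disjoint hQ.symm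
    have hST := c5 _ _ _ _ _ _ _ hdis hS hT
    have hlive : ∀ l ∈ L, Live c R l := fun l hlL => by
      by_contra hn
      exact h0 l hlL (lkc_dead hW hn)
    have hL := cx_bd_links (H := H) hCF hCF0 hθ hc W R L (fun l hlL => ⟨(hlive l hlL).1, (hlive l hlL).2.1⟩) h0
      (fun l _ => hLk.le_one l) (L.biUnion (lcells c R))
      (fun l hlL => ⟨(fcl_subset_lcells R l).trans (Finset.subset_biUnion_of_mem (lcells c R) hlL),
        (fcl_subset_lcells' R l).trans (Finset.subset_biUnion_of_mem (lcells c R) hlL)⟩) hl (hLk.load L)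
    exact c4 _ _ _ _ _ _ _ _ hST hL

/-- the load of the links is nonnegative -/
theorem cx_hl_nonneg (hc : Whole c) {W : Wt c} {R : ℕ} {CF hl : ℝ} (hLk : CxLk W R CF hl) : 0 ≤ hl := by
  have h0 : 0 < c.n := lt_of_lt_of_le (by norm_num) hc.two
  simpa using hLk.load ∅ (⟨0, h0⟩, ⟨0, h0⟩)

/-- the zero function -/
theorem cx_bd_zero (hC : CostStmt) {a θ H h w : ℝ} (hθ : 0 ≤ θ) (hh : 0 ≤ h) (hw : 0 ≤ w) (τ : Face c → ℤ) (R : ℕ) (D : Finset c.I) :
    Bd a τ R H θ D h (fun _ => 0) w := by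
  have := (hC G c a τ R H θ hθ).1 D h 0 hh
  exact (hC G c a τ R H θ hθ).2.1 _ _ _ _ _ _ _ (Finset.Subset.refl D) le_rfl (by simpa using hw) this

/-- one selected tile -/
theorem cx_bd_tile1 (hC : CostStmt) {a CF cb θ H gm big : ℝ} (hθ : 0 ≤ θ) (hcb : 0 ≤ cb) {W : Wt c} {R : ℕ} {Z : Finset c.I}
    (hP : Phys W R Z a cb θ H gm big) (t : Tile) (ht : t ∈ tiles c R) :
    Bd a W.τ R H θ (cellsOf c R {t}) cb (fun y => W.tfac R t y - 1) (cxWI W R Z CF θ H gm big (Sum.inr (Sum.inl t))) := by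
  classical
  by_cases hd : Disjoint (cellsOf c R {t}) Z
  · have := hP.tile t ht hd
    simpa only [cxWI, if_pos hd] using this
  · have h1 := (hC G c a W.τ R H θ hθ).2.2.1 _ _ _ _ _ _ (hP.tileZ t ht hd) ((hC G c a W.τ R H θ hθ).1 (cellsOf c R {t}) cb (-1) hcb)
    simpa only [cxWI, if_neg hd, norm_neg, norm_one, ← sub_eq_add_neg] using h1

/-- the halo of the marks -/
theorem cx_bd_halo1 (hC : CostStmt) {a CF cb θ H gm big : ℝ} (hθ : 0 ≤ θ) {W : Wt c} {R : ℕ} {Z : Finset c.I}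
    (hP : Phys W R Z a cb θ H gm big) (hgm : 0 ≤ gm) (hbig : 1 ≤ big) (S : Finset EvId) (hS : Valid c R S) :
    Bd a W.τ R H θ (halC c R S) cb (W.halo R S) (∏ k ∈ S, cxWI W R Z CF θ H gm big (Sum.inl k)) :=
  (hC G c a W.τ R H θ hθ).2.1 _ _ _ _ _ _ _ (Finset.Subset.refl _) le_rfl (cx_halo_weight R Z hgm hbig S) (hP.halo S hS)

/-- **LEAF L-ENT-CX-B9: the factor of a pattern.**  `¬ PatOk`: the function is `0`.  Otherwise `cx_bd_pat` with `u t = tfac t - 1`; weights: `Phys.halo` + `cx_halo_weight`; `Phys.tile`; at the zone `Phys.tileZ` + the constant `-1`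
(`CostStmt` clauses 1, 3);  `cx_prod_items`;  regions: `halC_subset_pcells`, `cellsOf_pQ_subset_pcells`, `lcells_subset_pcells`;  monotonicity = `CostStmt` clause 2. -/
theorem cx_bd_pfac (hC : CostStmt) {a CF cb θ H hl gm big : ℝ} (hCF : FaceCF a CF) (hCF0 : 0 ≤ CF) (hθ : 0 ≤ θ) (hcb : 0 ≤ cb)
    (hc : Whole c) {W : Wt c} (hW : W.Str) {R : ℕ} (hLk : CxLk W R CF hl) {Z : Finset c.I} (hP : Phys W R Z a cb θ H gm big)
    (hgm : 0 ≤ gm) (hbig : 1 ≤ big) (π : Finset (Item c)) (hπ : π ⊆ items c R) :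
    Bd a W.τ R H θ (pcells c R π) (cb + hl) (W.pfac R π) (∏ I ∈ π, cxWI W R Z CF θ H gm big I) := by
  classical
  have hl0 := cx_hl_nonneg hc hLk
  by_cases hp : PatOk c R π
  swap
  · have e : W.pfac R π = fun _ => 0 := by
      funext y
      unfold Wt.pfac
      rw [if_neg hp]
    rw [e]
    exact cx_bd_zero hC hθ (add_nonneg hcb hl0) (Finset.prod_nonneg fun I _ => cxWI_nonneg W R Z CF θ H hgm hbig I) W.τ R _
  have e : W.pfac R π = fun y => W.halo R (pS π) y * (∏ t ∈ pQ π, (W.tfac R t y - 1)) * ∏ l ∈ pL π, W.lfac R l y := by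
    funext y
    unfold Wt.pfac
    rw [if_pos hp]
  rw [e, cx_prod_items]
  have h := cx_bd_pat hC hCF hCF0 hθ hcb hc hW hLk (pS π) _ (cx_bd_halo1 (CF := CF) hC hθ hP hgm hbig (pS π) hp.1) (pQ π) hp.2
    (fun t y => W.tfac R t y - 1) (fun t => cxWI W R Z CF θ H gm big (Sum.inr (Sum.inl t)))
    (fun t ht => cx_bd_tile1 hC hθ hcb hP t (pQ_subset hπ ht)) (pL π)
  refine (hC G c a W.τ R H θ hθ).2.1 _ _ _ _ _ _ _ ?_ le_rfl le_rfl h
  refine Finset.union_subset (Finset.union_subset (halC_subset_pcells R π) (cellsOf_pQ_subset_pcells R π)) ?_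
  exact Finset.biUnion_subset.2 fun l hl => lcells_subset_pcells hl

/-- **LEAF L-ENT-CX-B10: the factor of a labelled pattern.**  Three cases of `Wt.pfacL`; in the third one `cx_bd_pat` with `Q = insert t0 (pQ π)`, `u t0 = tfac t0` (`Phys.tileZ`, weight `big`). -/
theorem cx_bd_pfacL (hC : CostStmt) {a CF cb θ H hl gm big : ℝ} (hCF : FaceCF a CF) (hCF0 : 0 ≤ CF) (hθ : 0 ≤ θ) (hcb : 0 ≤ cb)
    (hc : Whole c) {W : Wt c} (hW : W.Str) {R : ℕ} (hLk : CxLk W R CF hl) {Z : Finset c.I} (hP : Phys W R Z a cb θ H gm big)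
    (hgm : 0 ≤ gm) (hbig : 1 ≤ big) (t0 : Tile) (ht0 : t0 ∈ tiles c R) (hZ0 : ¬ Disjoint (cellsOf c R {t0}) Z)
    (π : Finset (Item c)) (hπ : π ⊆ items c R) :
    Bd a W.τ R H θ (cellsOf c R {t0} ∪ pcells c R π) (cb + hl) (W.pfacL R t0 π) (big * ∏ I ∈ π, cxWI W R Z CF θ H gm big I) := by
  classical
  have hl0 := cx_hl_nonneg hc hLk
  have hprod : 0 ≤ ∏ I ∈ π, cxWI W R Z CF θ H gm big I := Finset.prod_nonneg fun I _ => cxWI_nonneg W R Z CF θ H hgm hbig I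
  have hw0 : 0 ≤ big * ∏ I ∈ π, cxWI W R Z CF θ H gm big I := mul_nonneg (by linarith) hprod
  by_cases h1 : t0 ∈ pQ π
  · have e : W.pfacL R t0 π = fun _ => 0 := by
      funext y
      unfold Wt.pfacL
      rw [if_pos h1]
    rw [e]
    exact cx_bd_zero hC hθ (add_nonneg hcb hl0) hw0 W.τ R _
  by_cases h2 : t0 ∈ halT c R (pS π)
  · have e : W.pfacL R t0 π = W.pfac R π := by
      funext y
      unfold Wt.pfacL
      rw [if_neg h1, if_pos h2]
    rw [e]
    exact (hC G c a W.τ R H θ hθ).2.1 _ _ _ _ _ _ _ Finset.subset_union_right le_rfl (le_mul_of_one_le_left hprod hbig)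
      (cx_bd_pfac hC hCF hCF0 hθ hcb hc hW hLk hP hgm hbig π hπ)
  by_cases hp : PatOk c R π
  swap
  · have e : W.pfacL R t0 π = fun _ => 0 := by
      funext y
      unfold Wt.pfacL Wt.pfac
      rw [if_neg h1, if_neg h2, if_neg hp, zero_mul]
    rw [e]
    exact cx_bd_zero hC hθ (add_nonneg hcb hl0) hw0 W.τ R _
  have e : W.pfacL R t0 π = fun y => W.halo R (pS π) y *
      (∏ t ∈ insert t0 (pQ π), (if t = t0 then W.tfac R t0 else fun y => W.tfac R t y - 1) y) * ∏ l ∈ pL π, W.lfac R l y := by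
    funext y
    unfold Wt.pfacL Wt.pfac
    have e1 : ∏ t ∈ pQ π, (if t = t0 then W.tfac R t0 else fun y => W.tfac R t y - 1) y = ∏ t ∈ pQ π, (W.tfac R t y - 1) :=
      Finset.prod_congr rfl fun t ht => by rw [if_neg (fun h : t = t0 => h1 (h ▸ ht))]
    rw [if_neg h1, if_neg h2, if_pos hp, Finset.prod_insert h1, if_pos rfl, e1]
    ring
  have ew : big * ∏ I ∈ π, cxWI W R Z CF θ H gm big I = (∏ k ∈ pS π, cxWI W R Z CF θ H gm big (Sum.inl k)) *
      (∏ t ∈ insert t0 (pQ π), if t = t0 then big else cxWI W R Z CF θ H gm big (Sum.inr (Sum.inl t))) *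
      ∏ l ∈ pL π, cxWl W R CF θ H l := by
    have e1 : ∏ t ∈ pQ π, (if t = t0 then big else cxWI W R Z CF θ H gm big (Sum.inr (Sum.inl t)))
        = ∏ t ∈ pQ π, cxWI W R Z CF θ H gm big (Sum.inr (Sum.inl t)) :=
      Finset.prod_congr rfl fun t ht => by rw [if_neg (fun h : t = t0 => h1 (h ▸ ht))]
    have e2 : ∏ l ∈ pL π, cxWI W R Z CF θ H gm big (Sum.inr (Sum.inr l)) = ∏ l ∈ pL π, cxWl W R CF θ H l := rfl
    rw [cx_prod_items, Finset.prod_insert h1, if_pos rfl, e1, e2]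
    ring
  rw [e, ew]
  have hdis : Disjoint (insert t0 (pQ π)) (halT c R (pS π)) := by
    rw [Finset.disjoint_insert_left]
    exact ⟨h2, hp.2⟩
  have h := cx_bd_pat hC hCF hCF0 hθ hcb hc hW hLk (pS π) _ (cx_bd_halo1 (CF := CF) hC hθ hP hgm hbig (pS π) hp.1) (insert t0 (pQ π)) hdis
    (fun t => if t = t0 then W.tfac R t0 else fun y => W.tfac R t y - 1)
    (fun t => if t = t0 then big else cxWI W R Z CF θ H gm big (Sum.inr (Sum.inl t)))
    (fun t ht => by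
      by_cases htt : t = t0
      · subst htt
        simpa only [if_true] using hP.tileZ t ht0 hZ0
      · simp only [if_neg htt]
        exact cx_bd_tile1 hC hθ hcb hP t (pQ_subset hπ ((Finset.mem_insert.1 ht).resolve_left htt))) (pL π)
  refine (hC G c a W.τ R H θ hθ).2.1 _ _ _ _ _ _ _ ?_ le_rfl le_rfl h
  refine Finset.union_subset (Finset.union_subset ((halC_subset_pcells R π).trans Finset.subset_union_right) ?_) ?_
  · rw [Finset.insert_eq, cellsOf_union]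
    exact Finset.union_subset_union_right (cellsOf_pQ_subset_pcells R π)
  · exact Finset.biUnion_subset.2 fun l hl => (lcells_subset_pcells hl).trans Finset.subset_union_right

/-! ## 4. Packaging for the engine -/

theorem cx_pcells_under (N : Nest c g) (R : ℕ) (π : Finset (Item c)) : pcells c R π ⊆ under N (cover N R π) := by
  intro i hi
  rw [cx_mem_under, cover_eq_cl]
  exact Finset.mem_image_of_mem _ hi

theorem cx_under_mono (N : Nest c g) {X Y : Finset g.I} (h : X ⊆ Y) : under N X ⊆ under N Y := by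
  intro i hi
  rw [cx_mem_under] at hi ⊢
  exact h hi

theorem cx_fn_pfac (hC : CostStmt) {a CF cb θ H hl h1 gm big : ℝ} (hCF : FaceCF a CF) (hCF0 : 0 ≤ CF) (hθ : 0 ≤ θ) (hcb : 0 ≤ cb)
    (hh : cb + hl ≤ h1) (hc : Whole c) {W : Wt c} (hW : W.Str) {R : ℕ} (hgeo : PatchIn c R) (hLk : CxLk W R CF hl) {Z : Finset c.I}
    (hP : Phys W R Z a cb θ H gm big) (hgm : 0 ≤ gm) (hbig : 1 ≤ big) (N : Nest c g) (π : Finset (Item c)) (hπ : π ⊆ items c R) :
    CxFn a N R W.τ θ h1 H (cover N R π) (W.pfac R π) (∏ I ∈ π, cxWI W R Z CF θ H gm big I) := by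
  refine ⟨pfac_hol hW R π, fun y y' h => pfac_loc hW hgeo π fun i hi => h i (cx_pcells_under N R π hi), ?_⟩
  exact (hC G c a W.τ R H θ hθ).2.1 _ _ _ _ _ _ _ (cx_pcells_under N R π) hh le_rfl
    (cx_bd_pfac hC hCF hCF0 hθ hcb hc hW hLk hP hgm hbig π hπ)

theorem cx_fn_pfacL (hC : CostStmt) {a CF cb θ H hl h1 gm big : ℝ} (hCF : FaceCF a CF) (hCF0 : 0 ≤ CF) (hθ : 0 ≤ θ) (hcb : 0 ≤ cb)
    (hh : cb + hl ≤ h1) (hc : Whole c) {W : Wt c} (hW : W.Str) {R : ℕ} (hgeo : PatchIn c R) (hLk : CxLk W R CF hl) {Z : Finset c.I}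
    (hP : Phys W R Z a cb θ H gm big) (hgm : 0 ≤ gm) (hbig : 1 ≤ big) (N : Nest c g) (t0 : Tile) (ht0 : t0 ∈ tiles c R)
    (hZ0 : ¬ Disjoint (cellsOf c R {t0}) Z) (Cs : Finset g.I) (hCs : N.cl (cellsOf c R {t0}) ⊆ Cs) (π : Finset (Item c))
    (hπ : π ⊆ items c R) :
    CxFn a N R W.τ θ h1 H (Cs ∪ cover N R π) (W.pfacL R t0 π) (big * ∏ I ∈ π, cxWI W R Z CF θ H gm big I) := by
  have hsub : cellsOf c R {t0} ∪ pcells c R π ⊆ under N (Cs ∪ cover N R π) := by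
    refine Finset.union_subset (fun i hi => ?_) ((cx_pcells_under N R π).trans (cx_under_mono N Finset.subset_union_right))
    rw [cx_mem_under]
    exact Finset.mem_union_left _ (hCs (Finset.mem_image_of_mem _ hi))
  refine ⟨pfacL_hol hW R t0 π, fun y y' h => pfacL_loc hW hgeo t0 π fun i hi => h i (hsub hi), ?_⟩
  exact (hC G c a W.τ R H θ hθ).2.1 _ _ _ _ _ _ _ hsub hh le_rfl
    (cx_bd_pfacL hC hCF hCF0 hθ hcb hc hW hLk hP hgm hbig t0 ht0 hZ0 π hπ)

end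

end Claimed.Agent.R285.Ent
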