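import Claimed.Agent.R285.Ent.CxLem
import Claimed.Agent.R285.Entry.CplxI
import Claimed.Agent.R285.Entry.CplxK
import Claimed.Agent.R285.Entry.TwoC

/-!
# ROW 285, post BP-ENT-CPLX, file `Ent/CxEng`: THE ANALYTIC ENGINE FOR ONE ENTIRE LOCAL FUNCTION OF THE OBSERVATIONS            (owner helper140)
Input: `LintOK` (= `AvgStmt` in `L¹` form, `Ent/CxAn.lean`), a volume `CxVol N R`, a function `F` with `CxFn` (entire, local in the cells under `X`, `Bd` with `H = 5 √a h₀` and ANY weight `w₁`).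
* `cx_eng_L1`    : `cxL1 F z ≤ w₁ exp (..)` for `‖Im z‖_{m, D_m X} ≤ h₀`, locally uniformly in `z`;   `cx_eng_itg` : integrability.
* `cx_eng_hol`   : `eav F` is holomorphic in the strip.
* `cx_eng_par`   : holomorphy in a parameter.
* `cx_eng_bound` : **complex Cameron-Martin**: if moreover `Bd` with `H = 0` and weight `w₀`:
      `|eav F (φ + lam + v/√a + f)| ≤ w₀ e^{K h₀² |X|} exp (V (X, φ) + 2 C_t E^0 (lam) + C_t ‖η‖²)`,   `K = 450 K₀ + 400 C_t`.
* `cx_two_const` : two constants on the disc `|b - b₀| < r`.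
-/

set_option autoImplicit false

namespace Claimed.Agent.R285.Ent

open scoped BigOperators ENNReal NNReal
open MeasureTheory ProbabilityTheory
open Claimed.Agent.R285 Claimed.Agent.R285.RG Claimed.Agent.R285.F4a Claimed.Agent.R285.Hol

noncomputable section

variable {G : Geom}

/-- the conclusion of `cx_lint_le` with the constant `Ct` -/
def LintOK (a hs p1 h1 h2 Ct : ℝ) : Prop :=
  ∀ (G : Geom) (c g : Grid G) (N : Nest c g) (R : ℕ), Whole c → g.Ok → NestOK N R → 0 < R →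
    ∀ (τ : Face c → ℤ) (X : Finset g.I) (F : (c.I → ℂ) → ℂ) (H w : ℝ), Continuous F →
      Bd a τ R H (thetaOf h1 h2) (under N X) h1 F w →
      ∀ φ lam v η : G.V → ℝ, (fun i => avg c (fun x => Real.sqrt a * η x) i) ∈ imK c (under N X) H R →
        cxL1 a c g.m F (fld a φ lam v η) ≤ ENNReal.ofReal (w * Real.exp (Vobs a hs p1 c g (Cless G g.m) X φ
          + Ct * openE a c (g.Dm X) (fun i => avg c (fun x => Real.sqrt a * lam x) i) + Ct * etaSq τ v (under N X)))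

theorem cx_lintOK (hA : AvgStmt) (a hs p1 h1 h2 : ℝ) (ha : 0 < a) (hp1 : 1 < p1) (hm : p1 * hs < 1) (h10 : 0 < h1) (h12 : h1 < h2)
    (h2s : h2 < hs) : ∃ Ct : ℝ, 0 ≤ Ct ∧ LintOK a hs p1 h1 h2 Ct :=
  cx_lint_le hA a hs p1 h1 h2 ha hp1 hm h10 h12 h2s

variable {c g : Grid G}

/-- what the engine uses of a volume -/
structure CxVol (N : Nest c g) (R : ℕ) : Prop where
  whole : Whole c
  ok : g.Ok
  nest : NestOK N R
  pos : 0 < R
  even : 2 ∣ R

/-- an entire function of the observations in the cells under `X`, bounded in the sense of `Bd` -/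
structure CxFn (a : ℝ) (N : Nest c g) (R : ℕ) (τ : Face c → ℤ) (θ h1 H : ℝ) (X : Finset g.I) (F : (c.I → ℂ) → ℂ) (w : ℝ) : Prop where
  hol : Differentiable ℂ F
  loc : ∀ y y', (∀ i ∈ under N X, y i = y' i) → F y = F y'
  bd : Bd a τ R H θ (under N X) h1 F w

theorem cx_mu_sfinite (c : Grid G) (m : ℕ) : SFinite (cxMu c m) := by
  have := av_noise_sfinite c
  have := av_gauss_sfinite (Cless G m)
  unfold cxMu
  infer_instance

theorem cx_fld_eq (a : ℝ) (z : G.V → ℂ) : fld a 0 (fun v => (z v).re) 0 (fun v => (z v).im) = z := by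
  funext v
  simp only [fld, Pi.zero_apply, zero_div, zero_add, add_zero]
  exact Complex.re_add_im (z v)

/-- the crude bound in the closed strip -/
theorem cx_eng_L1 {a hs p1 h1 h2 Ct : ℝ} (ha : 0 < a) (hCt : 0 ≤ Ct) (hL : LintOK a hs p1 h1 h2 Ct) {N : Nest c g} {R : ℕ}
    (hV : CxVol N R) {τ : Face c → ℤ} {h0 : ℝ≥0} {X : Finset g.I} {F : (c.I → ℂ) → ℂ} {w : ℝ}
    (hF : CxFn a N R τ (thetaOf h1 h2) h1 (5 * Real.sqrt a * h0) X F w) (z : G.V → ℂ)
    (hz : tnorm g X (fun v => (z v).im) ≤ h0) :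
    cxL1 a c g.m F z ≤ ENNReal.ofReal (w * Real.exp (Vobs a hs p1 c g (Cless G g.m) X 0
      + Ct * bondE (g.Dm X) (fun v => (z v).re) + Ct * etaSq τ 0 (under N X))) := by
  have hk := cx_imK hV.whole hV.ok N hV.nest hV.pos a ha X h0 (fun v => (z v).im) hz 1 (by rw [abs_one]; norm_num)
  simp only [one_mul] at hk
  have h1' := hL G c g N R hV.whole hV.ok hV.nest hV.pos τ X F _ w hF.hol.continuous hF.bd 0 (fun v => (z v).re) 0
    (fun v => (z v).im) hk
  rw [cx_fld_eq] at h1'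
  refine h1'.trans (ENNReal.ofReal_le_ofReal ?_)
  have hw0 : 0 ≤ w := by
    obtain ⟨L, -, -, h3⟩ := hF.bd
    exact (av_Lwt_nonneg _ L).trans h3
  refine mul_le_mul_of_nonneg_left (Real.exp_le_exp.2 ?_) hw0
  have := mul_le_mul_of_nonneg_left (Avg.openE_le_bondE a ha c (g.Dm X) (fun v => (z v).re)) hCt
  linarith

theorem cx_eng_itg {a hs p1 h1 h2 Ct : ℝ} (ha : 0 < a) (hCt : 0 ≤ Ct) (hL : LintOK a hs p1 h1 h2 Ct) {N : Nest c g} {R : ℕ}
    (hV : CxVol N R) {τ : Face c → ℤ} {h0 : ℝ≥0} {X : Finset g.I} {F : (c.I → ℂ) → ℂ} {w : ℝ}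
    (hF : CxFn a N R τ (thetaOf h1 h2) h1 (5 * Real.sqrt a * h0) X F w) (z : G.V → ℂ)
    (hz : tnorm g X (fun v => (z v).im) ≤ h0) : Itg a c g.m F z :=
  cx_itg a c g.m F hF.hol.continuous z (ne_top_of_le_ne_top ENNReal.ofReal_ne_top (cx_eng_L1 ha hCt hL hV hF z hz))

theorem cx_bondE_continuous (D : Finset G.V) : Continuous fun z : G.V → ℂ => bondE D (fun v => (z v).re) := by
  unfold bondE dif Geom.lift
  refine continuous_const.mul (continuous_finsetSum _ fun v _ => continuous_finsetSum _ fun e _ => ?_)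
  split_ifs
  · fun_prop
  · exact continuous_const

theorem cx_obsv_differentiable (a : ℝ) (c : Grid G) (ζ : G.V → ℝ) (e : c.I → ℝ) :
    Differentiable ℂ fun z : G.V → ℂ => obsv a c (z + toC ζ) e := by
  rw [differentiable_pi]
  intro i
  simp only [obsv, avgC, Pi.add_apply]
  fun_prop

theorem cx_obsv_continuous2 (a : ℝ) (c : Grid G) :
    Continuous fun q : (G.V → ℂ) × ((G.V → ℝ) × (c.I → ℝ)) => obsv a c (q.1 + toC q.2.1) q.2.2 := by
  refine continuous_pi fun i => ?_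
  simp only [obsv, avgC, toC, Pi.add_apply]
  fun_prop

/-- **holomorphy in the strip** -/
theorem cx_eng_hol {a hs p1 h1 h2 Ct : ℝ} (ha : 0 < a) (hCt : 0 ≤ Ct) (hL : LintOK a hs p1 h1 h2 Ct) {N : Nest c g} {R : ℕ}
    (hV : CxVol N R) {τ : Face c → ℤ} {h0 : ℝ≥0} {X : Finset g.I} {F : (c.I → ℂ) → ℂ} {w : ℝ}
    (hF : CxFn a N R τ (thetaOf h1 h2) h1 (5 * Real.sqrt a * h0) X F w) : Hol h0 g X (eav a c g.m F) := by
  have := cx_mu_sfinite c g.m
  have hw0 : 0 ≤ w := by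
    obtain ⟨L, -, -, h3⟩ := hF.bd
    exact (av_Lwt_nonneg _ L).trans h3
  have h1' : DifferentiableOn ℂ (fun z => ∫ p, F (obsv a c (z + toC p.1) p.2) ∂(cxMu c g.m)) (strip h0 g X) := by
    refine Entry.cx_hol_L1_pi (cxMu c g.m) (strip h0 g X) (strip_isOpen h0 g X)
      (fun z p => F (obsv a c (z + toC p.1) p.2)) (fun p => ?_) ?_ (fun z₀ hz₀ => ?_)
    · exact hF.hol.comp (cx_obsv_differentiable a c p.1 p.2)
    · exact (hF.hol.continuous.comp (cx_obsv_continuous2 a c)).measurable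
    · obtain ⟨ε, hε, hball⟩ := Metric.isOpen_iff.1 (strip_isOpen h0 g X) z₀ hz₀
      obtain ⟨M, hM⟩ := (isCompact_closedBall z₀ (ε / 2)).exists_bound_of_continuousOn
        (cx_bondE_continuous (g.Dm X)).continuousOn
      refine ⟨ε / 2, by linarith, _, ENNReal.ofReal_ne_top (r := w * Real.exp (Vobs a hs p1 c g (Cless G g.m) X 0
        + Ct * M + Ct * etaSq τ 0 (under N X))), fun z hz => ?_⟩
      have hzs : z ∈ strip h0 g X := hball (lt_of_le_of_lt (Metric.mem_closedBall.1 hz) (by linarith))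
      refine (cx_eng_L1 ha hCt hL hV hF z (le_of_lt hzs)).trans (ENNReal.ofReal_le_ofReal ?_)
      refine mul_le_mul_of_nonneg_left (Real.exp_le_exp.2 ?_) hw0
      have h2' := (le_abs_self _).trans (hM z hz)
      have := mul_le_mul_of_nonneg_left h2' hCt
      linarith
  exact h1'.congr fun z hz => cx_eav_eq a c g.m F z (cx_eng_itg ha hCt hL hV hF z (le_of_lt hz))

/-- **holomorphy in a parameter** -/
theorem cx_eng_par {a hs p1 h1 h2 Ct : ℝ} (ha : 0 < a) (hCt : 0 ≤ Ct) (hL : LintOK a hs p1 h1 h2 Ct) {N : Nest c g} {R : ℕ}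
    (hV : CxVol N R) {τ : Face c → ℤ} {h0 : ℝ≥0} {X : Finset g.I} {w : ℝ} (U : Set ℂ) (hU : IsOpen U) (F : ℂ → (c.I → ℂ) → ℂ)
    (hF : ∀ b ∈ U, CxFn a N R τ (thetaOf h1 h2) h1 (5 * Real.sqrt a * h0) X (F b) w)
    (hb : ∀ y, DifferentiableOn ℂ (fun b => F b y) U) (z : G.V → ℂ) (hz : tnorm g X (fun v => (z v).im) ≤ h0) :
    DifferentiableOn ℂ (fun b => eav a c g.m (F b) z) U := by
  have := cx_mu_sfinite c g.m
  have h1' : DifferentiableOn ℂ (fun b => ∫ p, F b (obsv a c (z + toC p.1) p.2) ∂(cxMu c g.m)) U := by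
    refine Entry.cx_hol_L1 (cxMu c g.m) U hU (fun b p => F b (obsv a c (z + toC p.1) p.2)) (fun p => hb _)
      (fun b hbU => (cx_integrand_continuous a c (F b) (hF b hbU).hol.continuous z).measurable) (fun b₀ hb₀ => ?_)
    obtain ⟨ε, hε, hball⟩ := Metric.isOpen_iff.1 hU b₀ hb₀
    refine ⟨ε / 2, by linarith, _, ENNReal.ofReal_ne_top (r := w * Real.exp (Vobs a hs p1 c g (Cless G g.m) X 0
      + Ct * bondE (g.Dm X) (fun v => (z v).re) + Ct * etaSq τ 0 (under N X))), fun b hbb => ?_⟩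
    have hbU : b ∈ U := hball (lt_of_le_of_lt (Metric.mem_closedBall.1 hbb) (by linarith))
    exact ⟨hbU, cx_eng_L1 ha hCt hL hV (hF b hbU) z hz⟩
  exact h1'.congr fun b hbU => cx_eav_eq a c g.m (F b) z (cx_eng_itg ha hCt hL hV (hF b hbU) z hz)

/-- the constant of a complex direction, per block and per `h₀²` -/
def cxKd (Ct : ℝ) : ℝ := 450 * Entry.cxK0 + 400 * Ct

/-- the field with real part `ψ` and imaginary part `k` -/
theorem cx_fld_eq' (a : ℝ) (ψ k : G.V → ℝ) (t : ℝ) :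
    fld a 0 ψ 0 (fun x => t * k x) = toC ψ + ((t : ℂ) * Complex.I) • toC k := by
  funext v
  simp only [fld, toC, Pi.zero_apply, zero_div, zero_add, add_zero, Pi.add_apply, Pi.smul_apply, smul_eq_mul]
  push_cast
  ring

theorem cx_fld_real (a : ℝ) (φ lam v : G.V → ℝ) :
    fld a φ lam v 0 = toC (fun x => φ x + lam x + v x / Real.sqrt a) := by
  funext x
  simp only [fld, toC, Pi.zero_apply]
  push_cast
  ring

theorem cx_zero_imK (a : ℝ) (c : Grid G) (D : Finset c.I) (R : ℕ) :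
    (fun i => avg c (fun x => Real.sqrt a * (0 : G.V → ℝ) x) i) ∈ imK c D 0 R := by
  have h0 : ∀ i, avg c (fun x => Real.sqrt a * (0 : G.V → ℝ) x) i = 0 := by
    intro i
    simp [avg, cellAvg]
  refine ⟨fun i _ => ?_, fun f _ _ _ => ?_⟩
  · simp only [h0]; simp
  · simp only [h0]; simp

theorem cx_obsv_differentiable0 (a : ℝ) (c : Grid G) (e : c.I → ℝ) : Differentiable ℂ fun z : G.V → ℂ => obsv a c z e := by
  rw [differentiable_pi]
  intro i
  simp only [obsv, avgC]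
  fun_prop

theorem cx_obsv_continuous0 (a : ℝ) (c : Grid G) : Continuous fun q : (G.V → ℂ) × (c.I → ℝ) => obsv a c q.1 q.2 := by
  refine continuous_pi fun i => ?_
  simp only [obsv, avgC]
  fun_prop

theorem cx_exp_aux (w0 q A1 K A2 : ℝ) (hw0 : 0 ≤ w0) (hx : q + A1 ≤ K + A2) :
    Real.exp q * (w0 * Real.exp A1) ≤ w0 * Real.exp K * Real.exp A2 := by
  have hy := mul_le_mul_of_nonneg_left (Real.exp_le_exp.2 hx) hw0
  rw [Real.exp_add, Real.exp_add] at hy
  linarith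

/-- **the complex Cameron-Martin bound** -/
theorem cx_eng_bound {a hs p1 h1 h2 Ct : ℝ} (ha : 0 < a) (hCt : 0 ≤ Ct) (hL : LintOK a hs p1 h1 h2 Ct) {N : Nest c g} {R : ℕ}
    (hV : CxVol N R) {τ : Face c → ℤ} {h0 : ℝ≥0} {X : Finset g.I} {F : (c.I → ℂ) → ℂ} {w w0 : ℝ}
    (hF : CxFn a N R τ (thetaOf h1 h2) h1 (5 * Real.sqrt a * h0) X F w)
    (hF0 : Bd a τ R 0 (thetaOf h1 h2) (under N X) h1 F w0) (φ lam v : G.V → ℝ) (f : G.V → ℂ) (hf : tnorm g X f < h0) :
    ‖eav a c g.m F (toC φ + toC lam + toC (fun x => v x / Real.sqrt a) + f)‖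
      ≤ w0 * Real.exp (cxKd Ct * (h0 : ℝ) ^ 2 * X.card) * Real.exp (Vobs a hs p1 c g (Cless G g.m) X φ
          + 2 * Ct * openE a c (g.Dm X) (fun i => avg c (fun x => Real.sqrt a * lam x) i) + Ct * etaSq τ v (under N X)) := by
  have := cx_mu_sfinite c g.m
  have := av_noise_sfinite c
  obtain ⟨f1, hf1⟩ : ∃ f1 : G.V → ℝ, f1 = fun x => (f x).re := ⟨_, rfl⟩
  obtain ⟨f2, hf2⟩ : ∃ f2 : G.V → ℝ, f2 = fun x => (f x).im := ⟨_, rfl⟩
  have ht1 : (tnorm g X f1 : ℝ) ≤ h0 := by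
    rw [hf1]; exact_mod_cast (tnorm_re_le g X f).trans hf.le
  have ht2 : tnorm g X f2 ≤ h0 := by
    rw [hf2]; exact (tnorm_im_le g X f).trans hf.le
  have ht2' : (tnorm g X f2 : ℝ) ≤ h0 := by exact_mod_cast ht2
  obtain ⟨ψ, hψ⟩ : ∃ ψ : G.V → ℝ, ψ = fun x => φ x + (lam x + f1 x) + v x / Real.sqrt a := ⟨_, rfl⟩
  have hw0 : 0 ≤ w0 := by
    obtain ⟨L, -, -, h3⟩ := hF0
    exact (av_Lwt_nonneg _ L).trans h3
  -- cutoff and solve
  obtain ⟨f2', hc1, hc2⟩ := Entry.cx_cutoff g hV.ok X f2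
  obtain ⟨r, hr⟩ := hV.even
  have hm : g.m = 2 * (r * c.m) := by rw [hV.nest.1, hr]; ring
  have hmpos : 0 < g.m := hV.ok.pos
  have htpos : 1 ≤ r * c.m := by omega
  obtain ⟨η, he1, he2⟩ := Entry.cx_low_solve (G := G) (r * c.m) htpos f2'
  rw [← hm] at he1 he2
  have hΓ : (Cless G g.m).PosSemidef := Ker.low_psd G Fam.entry Ker.entry_adm g.m hV.ok.pos
  have hzz : ∀ t : ℂ, ∀ x ∈ g.sites X, (toC ψ + t • toC ((Cless G g.m).mulVec η)) x = (toC ψ + t • toC f2) x := by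
    intro t x hx
    rw [he1]
    simp only [Pi.add_apply, Pi.smul_apply, toC, hc1 x hx]
  have hz1 : toC φ + toC lam + toC (fun x => v x / Real.sqrt a) + f = toC ψ + Complex.I • toC f2 := by
    funext x
    rw [hψ, hf1, hf2]
    simp only [Pi.add_apply, Pi.smul_apply, toC, smul_eq_mul]
    conv_lhs => rw [← Complex.re_add_im (f x)]
    push_cast
    ring
  -- the tube
  obtain ⟨B, hB⟩ : ∃ B : ℝ≥0∞, B = ENNReal.ofReal (w * Real.exp (Vobs a hs p1 c g (Cless G g.m) X 0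
      + Ct * openE a c (g.Dm X) (fun i => avg c (fun x => Real.sqrt a * ψ x) i) + Ct * etaSq τ 0 (under N X))) := ⟨_, rfl⟩
  have hBt : B ≠ ⊤ := by rw [hB]; exact ENNReal.ofReal_ne_top
  have htube : ∀ t : ℝ, |t| ≤ 5 / 4 →
      cxL1 a c g.m F (toC ψ + ((t : ℂ) * Complex.I) • toC ((Cless G g.m).mulVec η)) ≤ B := by
    intro t ht
    rw [cx_L1_congr a N g.m X F hF.loc (hzz _), ← cx_fld_eq' a ψ f2 t, hB]
    exact hL G c g N R hV.whole hV.ok hV.nest hV.pos τ X F _ w hF.hol.continuous hF.bd 0 ψ 0 (fun x => t * f2 x)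
      (cx_imK hV.whole hV.ok N hV.nest hV.pos a ha X h0 f2 ht2 t (by linarith))
  have hcm := Entry.cx_cm_le (noise c) (Cless G g.m) hΓ (fun z e => F (obsv a c z e))
    (fun e => hF.hol.comp (cx_obsv_differentiable0 a c e)) (hF.hol.continuous.comp (cx_obsv_continuous0 a c)).measurable
    η ψ B hBt htube
  -- the left side
  have hI1 : ((1 : ℝ) : ℂ) * Complex.I = Complex.I := by simp
  have hL1' : cxL1 a c g.m F (toC ψ + Complex.I • toC ((Cless G g.m).mulVec η)) ≤ B := by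
    have := htube 1 (by rw [abs_one]; norm_num)
    rwa [hI1] at this
  have hitg : Itg a c g.m F (toC ψ + Complex.I • toC ((Cless G g.m).mulVec η)) :=
    cx_itg a c g.m F hF.hol.continuous _ (ne_top_of_le_ne_top hBt hL1')
  have hleft : eav a c g.m F (toC φ + toC lam + toC (fun x => v x / Real.sqrt a) + f)
      = ∫ p, F (obsv a c (toC ψ + Complex.I • toC ((Cless G g.m).mulVec η) + toC p.1) p.2) ∂(cxMu c g.m) := by
    rw [hz1, ← cx_eav_congr a N g.m X F hF.loc (hzz Complex.I), cx_eav_eq a c g.m F _ hitg]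
  -- the real bound
  have hreal : cxL1 a c g.m F (toC ψ) ≤ ENNReal.ofReal (w0 * Real.exp (Vobs a hs p1 c g (Cless G g.m) X φ
      + Ct * openE a c (g.Dm X) (fun i => avg c (fun x => Real.sqrt a * (lam x + f1 x)) i) + Ct * etaSq τ v (under N X))) := by
    have := hL G c g N R hV.whole hV.ok hV.nest hV.pos τ X F 0 w0 hF.hol.continuous hF0 φ (fun x => lam x + f1 x) v 0
      (cx_zero_imK a c _ R)
    rwa [cx_fld_real, ← hψ] at this
  -- energies
  have hE1 : openE a c (g.Dm X) (fun i => avg c (fun x => Real.sqrt a * (lam x + f1 x)) i)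
      ≤ 2 * openE a c (g.Dm X) (fun i => avg c (fun x => Real.sqrt a * lam x) i) + 400 * (h0 : ℝ) ^ 2 * X.card := by
    have e : (fun i => avg c (fun x => Real.sqrt a * (lam x + f1 x)) i)
        = fun i => avg c (fun x => Real.sqrt a * lam x) i + avg c (fun x => Real.sqrt a * f1 x) i := by
      funext i
      rw [← cx_K2_cellAvg_add]
      congr 1
      funext x
      ring
    rw [e]
    have h1 := cx_openE_add a ha c (g.Dm X) (fun i => avg c (fun x => Real.sqrt a * lam x) i)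
      (fun i => avg c (fun x => Real.sqrt a * f1 x) i)
    have h2 := Avg.openE_le_bondE a ha c (g.Dm X) f1
    have h3 := cx_bondE_le hV.ok X f1
    have h4 : (tnorm g X f1 : ℝ) ^ 2 ≤ (h0 : ℝ) ^ 2 := pow_le_pow_left₀ (NNReal.coe_nonneg _) ht1 2
    have h5 : 200 * (tnorm g X f1 : ℝ) ^ 2 * X.card ≤ 200 * (h0 : ℝ) ^ 2 * X.card := by gcongr
    linarith
  have hE2 : (η ⬝ᵥ (Cless G g.m).mulVec η) / 2 ≤ 450 * Entry.cxK0 * (h0 : ℝ) ^ 2 * X.card := by
    have hK : 0 ≤ Entry.cxK0 := by linarith [Entry.cxK0_ge]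
    have h4 : (tnorm g X f2 : ℝ) ^ 2 ≤ (h0 : ℝ) ^ 2 := pow_le_pow_left₀ (NNReal.coe_nonneg _) ht2' 2
    have h5 : 900 * (tnorm g X f2 : ℝ) ^ 2 * X.card ≤ 900 * (h0 : ℝ) ^ 2 * X.card := by gcongr
    have h6 := mul_le_mul_of_nonneg_left (hc2.trans h5) hK
    have h7 := he2.trans h6
    linarith
  -- conclusion
  rw [hleft]
  have hfin := hcm.trans (mul_le_mul_right hreal _)
  rw [← ENNReal.ofReal_mul (Real.exp_pos _).le, ← enorm_eq_nnnorm, ← ofReal_norm,
    ENNReal.ofReal_le_ofReal_iff (by positivity)] at hfin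
  refine hfin.trans ?_
  have hx : (η ⬝ᵥ (Cless G g.m).mulVec η) / 2 + (Vobs a hs p1 c g (Cless G g.m) X φ
      + Ct * openE a c (g.Dm X) (fun i => avg c (fun x => Real.sqrt a * (lam x + f1 x)) i) + Ct * etaSq τ v (under N X))
      ≤ cxKd Ct * (h0 : ℝ) ^ 2 * X.card + (Vobs a hs p1 c g (Cless G g.m) X φ
          + 2 * Ct * openE a c (g.Dm X) (fun i => avg c (fun x => Real.sqrt a * lam x) i) + Ct * etaSq τ v (under N X)) := by
    have h8 := mul_le_mul_of_nonneg_left hE1 hCt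
    unfold cxKd
    nlinarith
  exact cx_exp_aux _ _ _ _ _ hw0 hx

/-- **two constants on a disc with real centre** -/
theorem cx_two_const (θ : ℝ) (hθ : 0 < θ) : ∃ ρ : ℝ, 0 < ρ ∧ ρ < 1 ∧ ∀ (u : ℂ → ℂ) (b0 r M0 M1 : ℝ), 0 < r → 0 < M0 → M0 ≤ M1 →
    DifferentiableOn ℂ u (Metric.ball (b0 : ℂ) r) → (∀ b ∈ Metric.ball (b0 : ℂ) r, ‖u b‖ ≤ M1) →
    (∀ b : ℝ, |b - b0| < r → ‖u b‖ ≤ M0) → ∀ b ∈ Metric.ball (b0 : ℂ) (ρ * r), ‖u b‖ ≤ M0 ^ (1 - θ) * M1 ^ θ := by
  obtain ⟨ρ, hρ0, hρ1, H⟩ := Entry.two_constants θ hθ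
  refine ⟨ρ, hρ0, hρ1, ?_⟩
  intro u b0 r M0 M1 hr hM0 hM hhol hdisc hreal b hb
  set Ψ : ℂ → ℂ := fun v => u ((b0 : ℂ) + (r : ℂ) * v) with hΨ
  have hmap : ∀ v ∈ Metric.ball (0 : ℂ) 1, (b0 : ℂ) + (r : ℂ) * v ∈ Metric.ball (b0 : ℂ) r := by
    intro v hv
    rw [mem_ball_zero_iff] at hv
    rw [Metric.mem_ball, dist_eq_norm, add_sub_cancel_left, norm_mul, Complex.norm_real, Real.norm_of_nonneg hr.le]
    nlinarith
  have hΨd : DifferentiableOn ℂ Ψ (Metric.ball 0 1) := by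
    have h1 : DifferentiableOn ℂ (fun v : ℂ => (b0 : ℂ) + (r : ℂ) * v) (Metric.ball 0 1) :=
      ((differentiable_id.const_mul (r : ℂ)).const_add (b0 : ℂ)).differentiableOn
    exact hhol.comp h1 hmap
  have key := H Ψ M0 M1 hM0 hM hΨd (fun v hv => hdisc _ (hmap v hv))
    (fun x hx => by
      have h1 : (b0 : ℂ) + (r : ℂ) * (x : ℂ) = ((b0 + r * x : ℝ) : ℂ) := by push_cast; ring
      simp only [hΨ]
      rw [h1]
      refine hreal _ ?_
      rw [add_sub_cancel_left, abs_mul, abs_of_pos hr]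
      nlinarith)
    ((b - b0) / r) (by
      rw [norm_div, Complex.norm_real, Real.norm_of_nonneg hr.le, div_le_iff₀ hr]
      rw [Metric.mem_ball, dist_eq_norm] at hb
      exact hb.le)
  have e1 : Ψ ((b - b0) / r) = u b := by
    simp only [hΨ]
    congr 1
    have : (r : ℂ) ≠ 0 := by exact_mod_cast hr.ne'
    field_simp
    ring
  rwa [e1] at key

end

end Claimed.Agent.R285.Ent
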