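import Claimed.Agent.R285.Ent.CxAn
import Claimed.Agent.R285.Entry.CplxG
import Claimed.Agent.R285.Obs.VReg

/-!
# ROW 285, post BP-ENT-CPLX, file `Ent/CxLem`: small PAPER-FREE lemmas about cells, blocks and the open energy            (owner helper140)
* `cx_sites_under`, `cx_obsv_congr`, `cx_eav_congr`, `cx_L1_congr` : a function of the observations in the cells under `X` only sees the field on the sites of `X`.
* `cx_imK`        (LEAF L-ENT-CX-K1): cell averages of a direction with `‖u‖_{m, D_m (X)} ≤ h₀` are admissible imaginary parts.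
* `cx_openE_add`  (LEAF L-ENT-CX-K2): `E_D^0 (y + y') ≤ 2 E_D^0 (y) + 2 E_D^0 (y')`.
* `cx_bondE_le`   (LEAF L-ENT-CX-K3): `bondE (D_m X) u ≤ 200 ‖u‖² |X|`.
-/

set_option autoImplicit false

namespace Claimed.Agent.R285.Ent

open scoped BigOperators ENNReal NNReal
open MeasureTheory ProbabilityTheory
open Claimed.Agent.R285 Claimed.Agent.R285.RG Claimed.Agent.R285.F4a

noncomputable section

variable {G : Geom} {c g : Grid G}

theorem cx_mem_under (N : Nest c g) (X : Finset g.I) (i : c.I) : i ∈ under N X ↔ N.up i ∈ X := by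
  simp [under]

theorem cx_blk_up (N : Nest c g) (v : G.V) : g.blk v = N.up (c.blk v) := by
  unfold Grid.blk Nest.up
  rw [N.comm, N.comm]

/-- the sites of a cell under `X` are sites of `X` -/
theorem cx_sites_under (N : Nest c g) (X : Finset g.I) {i : c.I} (hi : i ∈ under N X) : c.sites {i} ⊆ g.sites X := by
  intro v hv
  rw [Reg.reg_mem_sites, Finset.mem_singleton] at hv
  rw [Reg.reg_mem_sites, cx_blk_up N, hv]
  exact (cx_mem_under N X i).1 hi

theorem cx_obsv_congr (a : ℝ) (N : Nest c g) (X : Finset g.I) {z z' : G.V → ℂ} (h : ∀ v ∈ g.sites X, z v = z' v) (e : c.I → ℝ)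
    {i : c.I} (hi : i ∈ under N X) : obsv a c z e i = obsv a c z' e i := by
  unfold obsv avgC
  congr 2
  refine Finset.sum_congr rfl fun v hv => ?_
  simp only [h v (cx_sites_under N X hi hv)]

theorem cx_F_congr (a : ℝ) (N : Nest c g) (X : Finset g.I) (F : (c.I → ℂ) → ℂ)
    (hloc : ∀ y y', (∀ i ∈ under N X, y i = y' i) → F y = F y') {z z' : G.V → ℂ} (h : ∀ v ∈ g.sites X, z v = z' v)
    (ζ : G.V → ℝ) (e : c.I → ℝ) : F (obsv a c (z + toC ζ) e) = F (obsv a c (z' + toC ζ) e) := by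
  refine hloc _ _ fun i hi => cx_obsv_congr a N X (fun v hv => ?_) e hi
  simp only [Pi.add_apply, h v hv]

theorem cx_eav_congr (a : ℝ) (N : Nest c g) (m : ℕ) (X : Finset g.I) (F : (c.I → ℂ) → ℂ)
    (hloc : ∀ y y', (∀ i ∈ under N X, y i = y' i) → F y = F y') {z z' : G.V → ℂ} (h : ∀ v ∈ g.sites X, z v = z' v) :
    eav a c m F z = eav a c m F z' := by
  unfold eav conv nav
  simp only [cx_F_congr a N X F hloc h]

theorem cx_L1_congr (a : ℝ) (N : Nest c g) (m : ℕ) (X : Finset g.I) (F : (c.I → ℂ) → ℂ)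
    (hloc : ∀ y y', (∀ i ∈ under N X, y i = y' i) → F y = F y') {z z' : G.V → ℂ} (h : ∀ v ∈ g.sites X, z v = z' v) :
    cxL1 a c m F z = cxL1 a c m F z' := by
  unfold cxL1
  simp only [cx_F_congr a N X F hloc h]

theorem cx_k1_stp (x : G.V) (d : Bool) : ∃ e : Fin 4, stp x d = Reg.regNb G x e := by
  cases d
  · exact ⟨2, rfl⟩
  · exact ⟨0, rfl⟩

/-- the average over a cell is bounded by the supremum over the cell -/
theorem cx_k1_avg_le (hc : Whole c) (v : G.V → ℝ) (i : c.I) (B : ℝ) (hB : ∀ x ∈ c.sites {i}, |v x| ≤ B) : |avg c v i| ≤ B := by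
  show |cellAvg c v i| ≤ B
  unfold cellAvg
  have hcard : (0 : ℝ) < ((c.sites {i}).card : ℝ) := by
    rw [whole_sites_card hc]
    have := hc.pos
    positivity
  rw [abs_div, abs_of_pos hcard, div_le_iff₀ hcard]
  refine (Finset.abs_sum_le_sum_abs _ _).trans ?_
  refine (Finset.sum_le_card_nsmul _ _ _ hB).trans ?_
  rw [nsmul_eq_mul, mul_comm]

/-- the difference of the averages over the two cells of a face, by the explicit cell flow -/
theorem cx_k1_flow (hc : Whole c) (f : Face c) (hf : IsFace c f) (v : G.V → ℝ) :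
    avg c v (fnb c f) - avg c v f.1 = ∑ x : G.V, cflW c f (x, f.2) * (v (stp x f.2) - v x) := by
  obtain ⟨b, b', hfe, hface⟩ := cfl_face_repr f
  have h3 := cfl_core hc f.2 b b' (hface hf) v (fun _ => 0)
  rw [← cfl_fnb, ← hfe] at h3
  have hf1 : f.1 = cflMkI c f.2 b b' := by
    conv_lhs => rw [hfe]
  rw [← hf1] at h3
  simp only [ite_self, add_zero] at h3
  exact h3.symm

theorem cx_k1_grad (hc : Whole c) (f : Face c) (hf : IsFace c f) (v : G.V → ℝ) (B : ℝ) (hB0 : 0 ≤ B)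
    (hB : ∀ x : G.V, (c.blk x = f.1 ∨ c.blk x = fnb c f) → |v (stp x f.2) - v x| ≤ B) :
    |avg c v (fnb c f) - avg c v f.1| ≤ 2 * (c.m : ℝ) * B := by
  have hs : (0 : ℝ) < c.m := by exact_mod_cast hc.pos
  rw [cx_k1_flow hc f hf v]
  refine (Finset.abs_sum_le_sum_abs _ _).trans ?_
  have h1 : ∀ x : G.V, |cflW c f (x, f.2) * (v (stp x f.2) - v x)| ≤
      (if c.blk x = f.1 then 1 / (c.m : ℝ) * B else 0) + (if c.blk x = fnb c f then 1 / (c.m : ℝ) * B else 0) := by
    intro x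
    have h3 : (0 : ℝ) ≤ 1 / (c.m : ℝ) * B := by positivity
    by_cases h0 : cflW c f (x, f.2) = 0
    · rw [h0, zero_mul, abs_zero]
      split_ifs <;> linarith
    · have h4 := (cfl_supp h0).2
      simp only at h4
      have h2 : |cflW c f (x, f.2) * (v (stp x f.2) - v x)| ≤ 1 / (c.m : ℝ) * B := by
        rw [abs_mul, abs_of_nonneg (cfl_nonneg hc f _)]
        exact mul_le_mul (cfl_le hc f _) (hB x h4) (abs_nonneg _) (by positivity)
      rcases h4 with h4 | h4
      · rw [if_pos h4]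
        split_ifs <;> linarith
      · rw [if_pos h4]
        split_ifs <;> linarith
  refine (Finset.sum_le_sum fun x _ => h1 x).trans ?_
  rw [Finset.sum_add_distrib, cfl_cell_const hc, cfl_cell_const hc]
  have : (c.m : ℝ) ^ 2 * (1 / (c.m : ℝ) * B) = (c.m : ℝ) * B := by field_simp
  rw [this]
  linarith

/-- **LEAF L-ENT-CX-K1.**  Plan: `|avg| ≤ sup` on the sites of the cell (`cx_sites_under`, `Hol.sites_subset_Dm`, `Entry.cx_abs_le_tnorm`).   Gradient: `F4a.cfl_identity` on the two-cell topology `⟨{f.1, fnb f}, {f}⟩`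
(or `cfl_core`) with `w = 0`: `avg (fnb f) - avg (f.1) = ∑ cflW * (u (stp x d) - u x)`, `0 ≤ cflW ≤ 1 / s` (`cfl_nonneg`, `cfl_le`), supported in the two cells (`cfl_supp`, `cfl_cell_const`): `ℓ¹` norm `≤ 2 s`;
`|u (stp x d) - u x| ≤ ‖u‖ / m` for `x ∈ D_m (X)` (`Entry.cx_abs_dif_le_tnorm`, `stp x true = regNb x 0`, `stp x false = regNb x 2`), `m = R s`.   Total `≤ 2 ‖u‖ / R`, and `|t| ≤ 5/2`. -/
theorem cx_imK (hc : Whole c) (hg : g.Ok) (N : Nest c g) {R : ℕ} (hN : NestOK N R) (hR : 0 < R) (a : ℝ) (ha : 0 < a) (X : Finset g.I)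
    (h0 : ℝ≥0) (u : G.V → ℝ) (hu : tnorm g X u ≤ h0) (t : ℝ) (ht : |t| ≤ 5 / 2) :
    (fun i => avg c (fun x => Real.sqrt a * (t * u x)) i) ∈ imK c (under N X) (5 * Real.sqrt a * h0) R := by
  have hsa : 0 ≤ Real.sqrt a := Real.sqrt_nonneg a
  have hh0 : (0 : ℝ) ≤ (h0 : ℝ) := h0.2
  have hu' : (tnorm g X u : ℝ) ≤ (h0 : ℝ) := by exact_mod_cast hu
  have ht0 : 0 ≤ |t| := abs_nonneg t
  have hs : (0 : ℝ) < c.m := by exact_mod_cast hc.pos
  have hRR : (0 : ℝ) < (R : ℝ) := by exact_mod_cast hR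
  have hgm : (g.m : ℝ) = (R : ℝ) * (c.m : ℝ) := by exact_mod_cast hN.1
  have hDm : ∀ (i : c.I), i ∈ under N X → ∀ x : G.V, c.blk x = i → x ∈ g.Dm X := by
    intro i hi x hx
    apply Hol.sites_subset_Dm g X
    apply cx_sites_under N X hi
    rw [Reg.reg_mem_sites, Finset.mem_singleton]
    exact hx
  constructor
  · intro i hi
    apply cx_k1_avg_le hc
    intro x hx
    rw [Reg.reg_mem_sites, Finset.mem_singleton] at hx
    have h1 := Entry.cx_abs_le_tnorm g X u x (hDm i hi x hx)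
    rw [abs_mul, abs_mul, abs_of_nonneg hsa]
    have h2 : |t| * |u x| ≤ 5 / 2 * (h0 : ℝ) := mul_le_mul ht (h1.trans hu') (abs_nonneg _) (by norm_num)
    calc Real.sqrt a * (|t| * |u x|) ≤ Real.sqrt a * (5 / 2 * (h0 : ℝ)) := mul_le_mul_of_nonneg_left h2 hsa
      _ ≤ 5 * Real.sqrt a * (h0 : ℝ) := by
        have : 0 ≤ Real.sqrt a * (h0 : ℝ) := mul_nonneg hsa hh0
        linarith
  · intro f hf h1 h2
    have hB0 : 0 ≤ Real.sqrt a * (5 / 2 * ((h0 : ℝ) / (g.m : ℝ))) := by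
      rw [hgm]
      positivity
    refine (cx_k1_grad hc f hf _ (Real.sqrt a * (5 / 2 * ((h0 : ℝ) / (g.m : ℝ)))) hB0 ?_).trans ?_
    · intro x hx
      have hxD : x ∈ g.Dm X := by
        rcases hx with hx | hx
        · exact hDm _ h1 x hx
        · exact hDm _ h2 x hx
      obtain ⟨e, he⟩ := cx_k1_stp x f.2
      have h3 := Entry.cx_abs_dif_le_tnorm g hg X u x hxD e
      rw [← he] at h3
      have e1 : Real.sqrt a * (t * u (stp x f.2)) - Real.sqrt a * (t * u x) = Real.sqrt a * (t * (u (stp x f.2) - u x)) := by ring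
      rw [e1, abs_mul, abs_mul, abs_of_nonneg hsa]
      have h4 : (tnorm g X u : ℝ) / (g.m : ℝ) ≤ (h0 : ℝ) / (g.m : ℝ) := by
        rw [hgm]
        exact div_le_div_of_nonneg_right hu' (by positivity)
      have h5 : |t| * |u (stp x f.2) - u x| ≤ 5 / 2 * ((h0 : ℝ) / (g.m : ℝ)) :=
        mul_le_mul ht (h3.trans h4) (abs_nonneg _) (by norm_num)
      exact mul_le_mul_of_nonneg_left h5 hsa
    · rw [hgm]
      apply le_of_eq
      field_simp

/-- helpers of `cx_openE_add` (only `Base/RG` definitions) -/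
theorem cx_K2_bondE_nonneg (D : Finset G.V) (u : G.V → ℝ) : 0 ≤ bondE D u := by
  unfold bondE
  refine mul_nonneg (by norm_num) (Finset.sum_nonneg fun v _ => Finset.sum_nonneg fun e _ => ?_)
  split_ifs
  · exact sq_nonneg _
  · exact le_rfl

theorem cx_K2_bondE_add (D : Finset G.V) (u u' : G.V → ℝ) :
    bondE D (fun v => u v + u' v) ≤ 2 * bondE D u + 2 * bondE D u' := by
  unfold bondE
  have key : ∑ v ∈ D, ∑ e : Fin 4, (if G.π (G.ι v + dir e) ∈ D then dif (dir e) (G.lift fun v => u v + u' v) (G.ι v) ^ 2 else 0)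
      ≤ 2 * (∑ v ∈ D, ∑ e : Fin 4, if G.π (G.ι v + dir e) ∈ D then dif (dir e) (G.lift u) (G.ι v) ^ 2 else 0)
        + 2 * ∑ v ∈ D, ∑ e : Fin 4, if G.π (G.ι v + dir e) ∈ D then dif (dir e) (G.lift u') (G.ι v) ^ 2 else 0 := by
    rw [Finset.mul_sum, Finset.mul_sum, ← Finset.sum_add_distrib]
    refine Finset.sum_le_sum fun v _ => ?_
    rw [Finset.mul_sum, Finset.mul_sum, ← Finset.sum_add_distrib]
    refine Finset.sum_le_sum fun e _ => ?_
    split_ifs
    · have h : dif (dir e) (G.lift fun v => u v + u' v) (G.ι v)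
          = dif (dir e) (G.lift u) (G.ι v) + dif (dir e) (G.lift u') (G.ι v) := by
        simp only [dif, Geom.lift]
        ring
      rw [h]
      nlinarith [sq_nonneg (dif (dir e) (G.lift u) (G.ι v) - dif (dir e) (G.lift u') (G.ι v))]
    · norm_num
  linarith

theorem cx_K2_cellAvg_add (c : Grid G) (u u' : G.V → ℝ) (i : c.I) :
    cellAvg c (fun v => u v + u' v) i = cellAvg c u i + cellAvg c u' i := by
  unfold cellAvg
  rw [Finset.sum_add_distrib, add_div]

theorem cx_K2_le (a : ℝ) (ha : 0 < a) (c : Grid G) (D : Finset G.V) (y : c.I → ℝ) (u : G.V → ℝ) :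
    openE a c D y ≤ a⁻¹ * bondE D u + ∑ i ∈ cellsIn c D, (cellAvg c u i - y i) ^ 2 := by
  unfold openE
  refine ciInf_le (f := fun u : G.V → ℝ => a⁻¹ * bondE D u + ∑ i ∈ cellsIn c D, (cellAvg c u i - y i) ^ 2) ⟨0, ?_⟩ u
  rintro _ ⟨w, rfl⟩
  exact add_nonneg (mul_nonneg (inv_pos.2 ha).le (cx_K2_bondE_nonneg D w)) (Finset.sum_nonneg fun _ _ => sq_nonneg _)

/-- **LEAF L-ENT-CX-K2.**  Plan: `Obs.ovVal a c D (y + y') (u + u') ≤ 2 ovVal y u + 2 ovVal y' u'` termwise (`(p + q)² ≤ 2 p² + 2 q²`, `Obs.ov_bondE_eq`, `cellAvg` additive), `Obs.ov_openE_le`, then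
`le_ciInf` twice (or `exists_lt_of_ciInf_lt` with `ε`). -/
theorem cx_openE_add (a : ℝ) (ha : 0 < a) (c : Grid G) (D : Finset G.V) (y y' : c.I → ℝ) :
    openE a c D (fun i => y i + y' i) ≤ 2 * openE a c D y + 2 * openE a c D y' := by
  have key : ∀ u u' : G.V → ℝ, openE a c D (fun i => y i + y' i)
      ≤ 2 * (a⁻¹ * bondE D u + ∑ i ∈ cellsIn c D, (cellAvg c u i - y i) ^ 2)
        + 2 * (a⁻¹ * bondE D u' + ∑ i ∈ cellsIn c D, (cellAvg c u' i - y' i) ^ 2) := by
    intro u u'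
    refine (cx_K2_le a ha c D _ (fun v => u v + u' v)).trans ?_
    have h1 : a⁻¹ * bondE D (fun v => u v + u' v) ≤ a⁻¹ * (2 * bondE D u + 2 * bondE D u') :=
      mul_le_mul_of_nonneg_left (cx_K2_bondE_add D u u') (inv_pos.2 ha).le
    have h2 : ∑ i ∈ cellsIn c D, (cellAvg c (fun v => u v + u' v) i - (y i + y' i)) ^ 2
        ≤ 2 * (∑ i ∈ cellsIn c D, (cellAvg c u i - y i) ^ 2) + 2 * ∑ i ∈ cellsIn c D, (cellAvg c u' i - y' i) ^ 2 := by
      rw [Finset.mul_sum, Finset.mul_sum, ← Finset.sum_add_distrib]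
      refine Finset.sum_le_sum fun i _ => ?_
      rw [cx_K2_cellAvg_add]
      nlinarith [sq_nonneg ((cellAvg c u i - y i) - (cellAvg c u' i - y' i))]
    linarith
  have h1 : ∀ u' : G.V → ℝ, (openE a c D (fun i => y i + y' i)
      - 2 * (a⁻¹ * bondE D u' + ∑ i ∈ cellsIn c D, (cellAvg c u' i - y' i) ^ 2)) / 2 ≤ openE a c D y := by
    intro u'
    refine le_ciInf fun u => ?_
    have := key u u'
    linarith
  have h2 : (openE a c D (fun i => y i + y' i) - 2 * openE a c D y) / 2 ≤ openE a c D y' := by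
    refine le_ciInf fun u' => ?_
    have := h1 u'
    linarith
  linarith

theorem cx_bondE_le (hg : g.Ok) (X : Finset g.I) (u : G.V → ℝ) : bondE (g.Dm X) u ≤ 200 * (tnorm g X u : ℝ) ^ 2 * X.card := by
  have hm : (0 : ℝ) < g.m := by exact_mod_cast hg.pos
  set T : ℝ := (tnorm g X u : ℝ) with hT
  have hT0 : 0 ≤ T := NNReal.coe_nonneg _
  rw [Obs.ov_bondE_eq]
  have h1 : ∀ v ∈ g.Dm X, (∑ e : Fin 4, if Reg.regNb G v e ∈ g.Dm X then (u (Reg.regNb G v e) - u v) ^ 2 else 0) ≤ 4 * (T / g.m) ^ 2 := by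
    intro v hv
    have h2 : ∀ e ∈ (Finset.univ : Finset (Fin 4)), (if Reg.regNb G v e ∈ g.Dm X then (u (Reg.regNb G v e) - u v) ^ 2 else 0) ≤ (T / g.m) ^ 2 := by
      intro e _
      split_ifs
      · have := Entry.cx_abs_dif_le_tnorm g hg X u v hv e
        rw [← sq_abs]
        exact pow_le_pow_left₀ (abs_nonneg _) this 2
      · positivity
    have := Finset.sum_le_sum h2
    simpa using this
  have h3 := Finset.sum_le_sum h1
  rw [Finset.sum_const, nsmul_eq_mul] at h3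
  have h4 : ((g.Dm X).card : ℝ) ≤ 100 * (g.m : ℝ) ^ 2 * X.card := by exact_mod_cast Reg.reg_Dm_card g hg X
  have h5 : ((g.Dm X).card : ℝ) * (4 * (T / g.m) ^ 2) ≤ (100 * (g.m : ℝ) ^ 2 * X.card) * (4 * (T / g.m) ^ 2) :=
    mul_le_mul_of_nonneg_right h4 (by positivity)
  have h6 : (100 * (g.m : ℝ) ^ 2 * X.card) * (4 * (T / g.m) ^ 2) = 400 * T ^ 2 * X.card := by
    field_simp
    ring
  linarith

end

end Claimed.Agent.R285.Ent
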