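import Claimed.Agent.R285.Ent.CxBd

/-!
# ROW 285, post BP-ENT-CPLX, file `Ent/CxSum`: SUMS OVER PATTERNS, COUNTING, NUMERICS            (owner helper140)
PAPER-FREE.  NO TREE BOUND IS NEEDED: the exits ask for the sum over the patterns with a GIVEN occupied cover `X`, all their items have covers inside `X`, so
    `∑_π ∏_{I ∈ π} w I ≤ ∏_{I : cov I ⊆ X} (1 + w I) ≤ exp (∑_{B ∈ X} ∑_{I ∋ B} w I) ≤ e^{η |X|}`,   and a factor `4^{-|X|}` is kept in reserve.
* s1 abstract sums `cx_sum_zone`, `cx_sum_eq`.      * s2 numerics `cx_num`, `cx_interp`, `cx_small`.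
* s3 `CxGeo N R n0` = ALL the geometry which CPLX uses; `cx_geo` = its instance from `Ent/Geo.lean` (helper108).   TO BE RE-INSTANTIATED AFTER GEOMETRY v2: nothing else in `Ent/Cx*.lean` sees the shapes of tiles and events.
* s4 sums over links `cx_links_sum`, the load `cx_lk`, the placement sum `cx_place`, the zone `cx_zone_prod`.
-/

set_option autoImplicit false

namespace Claimed.Agent.R285.Ent

open scoped BigOperators ENNReal NNReal
open MeasureTheory ProbabilityTheory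
open Claimed.Agent.R285 Claimed.Agent.R285.RG Claimed.Agent.R285.F4a

noncomputable section

/-! ## 1. Abstract sums -/

/-- **LEAF L-ENT-CX-S1.**  `∑_{π ⊆ It_X} ∏ w = ∏_{I ∈ It_X} (1 + w I)` (`Finset.prod_one_add` / `Finset.prod_add_one`), `It_X = It.filter (cov I ⊆ X)`; split `It_X` by `zn`; `1 + x ≤ e^x`;
`∑_{I ∈ It_X, ¬ zn} w I ≤ ∑_{B ∈ X} ∑_{I ∋ B, ¬ zn} w I` (every `I` with `w I ≠ 0` has a block `B ∈ cov I ⊆ X`). -/
theorem cx_sum_zone {ι β : Type} [DecidableEq ι] [DecidableEq β] (It : Finset ι) (cov : ι → Finset β) (w : ι → ℝ) (hw : ∀ I, 0 ≤ w I)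
    (zn : ι → Prop) [DecidablePred zn] (η M : ℝ) (hne : ∀ I ∈ It, w I ≠ 0 → (cov I).Nonempty)
    (hpl : ∀ B, ∑ I ∈ It.filter (fun I => B ∈ cov I ∧ ¬ zn I), w I ≤ η) (hM : ∏ I ∈ It.filter zn, (1 + w I) ≤ M) (X : Finset β) :
    ∑ π ∈ It.powerset.filter (fun π => π.biUnion cov ⊆ X), ∏ I ∈ π, w I ≤ M * Real.exp (η * X.card) := by
  obtain ⟨ItX, hItX⟩ : ∃ ItX : Finset ι, ItX = It.filter (fun I => cov I ⊆ X) := ⟨_, rfl⟩
  have hpow : It.powerset.filter (fun π => π.biUnion cov ⊆ X) = ItX.powerset := by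
    ext π
    rw [Finset.mem_filter, Finset.mem_powerset, Finset.mem_powerset, Finset.biUnion_subset, hItX]
    constructor
    · rintro ⟨h1, h2⟩ I hI
      exact Finset.mem_filter.2 ⟨h1 hI, h2 I hI⟩
    · intro h
      exact ⟨fun I hI => (Finset.mem_filter.1 (h hI)).1, fun I hI => (Finset.mem_filter.1 (h hI)).2⟩
  rw [hpow, ← Finset.prod_one_add, ← Finset.prod_filter_mul_prod_filter_not ItX zn]
  have h1 : ∀ I, 1 ≤ 1 + w I := fun I => by linarith [hw I]
  have h0 : ∀ I, 0 ≤ 1 + w I := fun I => by linarith [hw I]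
  -- the zone
  have hA : ∏ I ∈ ItX.filter zn, (1 + w I) ≤ M := by
    refine le_trans ?_ hM
    refine Finset.prod_le_prod_of_subset_of_one_le ?_ (fun I _ => h0 I) (fun I _ _ => h1 I)
    rw [hItX]
    intro I hI
    rw [Finset.mem_filter, Finset.mem_filter] at hI
    exact Finset.mem_filter.2 ⟨hI.1.1, hI.2⟩
  have hM0 : 0 ≤ M := le_trans (Finset.prod_nonneg fun I _ => h0 I) hM
  -- the rest
  have hS : ∑ I ∈ ItX.filter (fun I => ¬ zn I), w I ≤ η * X.card := by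
    have s1 : ∀ I ∈ ItX.filter (fun I => ¬ zn I), w I ≤ ∑ B ∈ X, if B ∈ cov I then w I else 0 := by
      intro I hI
      rw [Finset.mem_filter, hItX, Finset.mem_filter] at hI
      by_cases hz : w I = 0
      · rw [hz]
        exact Finset.sum_nonneg fun B _ => by split_ifs <;> exact le_rfl
      · obtain ⟨B, hB⟩ := hne I hI.1.1 hz
        have h2 := Finset.single_le_sum (f := fun B => if B ∈ cov I then w I else 0)
          (fun B _ => by
            show 0 ≤ if B ∈ cov I then w I else 0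
            split_ifs
            · exact hw I
            · exact le_rfl) (hI.1.2 hB)
        simpa [hB] using h2
    refine (Finset.sum_le_sum s1).trans ?_
    rw [Finset.sum_comm]
    have s2 : ∀ B ∈ X, ∑ I ∈ ItX.filter (fun I => ¬ zn I), (if B ∈ cov I then w I else 0) ≤ η := by
      intro B _
      refine le_trans ?_ (hpl B)
      rw [← Finset.sum_filter]
      refine Finset.sum_le_sum_of_subset_of_nonneg ?_ fun I _ _ => hw I
      intro I hI
      rw [Finset.mem_filter, Finset.mem_filter, hItX, Finset.mem_filter] at hI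
      exact Finset.mem_filter.2 ⟨hI.1.1.1, hI.2, hI.1.2⟩
    refine (Finset.sum_le_sum s2).trans ?_
    rw [Finset.sum_const, nsmul_eq_mul, mul_comm]
  have hB : ∏ I ∈ ItX.filter (fun I => ¬ zn I), (1 + w I) ≤ Real.exp (η * X.card) := by
    refine le_trans ?_ (Real.exp_le_exp.2 hS)
    rw [Real.exp_sum]
    refine Finset.prod_le_prod (fun I _ => h0 I) fun I _ => ?_
    rw [add_comm]
    exact Real.add_one_le_exp _
  exact mul_le_mul hA hB (Finset.prod_nonneg fun I _ => h0 I) hM0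

/-- **LEAF L-ENT-CX-S2.**  From `cx_sum_zone` (`zn = False`, `M = 1`): the empty pattern contributes `1` to the sum over `biUnion ⊆ X` and does not occur on the left. -/
theorem cx_sum_eq {ι β : Type} [DecidableEq ι] [DecidableEq β] (It : Finset ι) (cov : ι → Finset β) (w : ι → ℝ) (hw : ∀ I, 0 ≤ w I)
    (η : ℝ) (hne : ∀ I ∈ It, w I ≠ 0 → (cov I).Nonempty) (hpl : ∀ B, ∑ I ∈ It.filter (fun I => B ∈ cov I), w I ≤ η)
    (X : Finset β) (hX : X.Nonempty) :
    ∑ π ∈ It.powerset.filter (fun π => π.biUnion cov = X), ∏ I ∈ π, w I ≤ Real.exp (η * X.card) - 1 := by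
  have hz := cx_sum_zone It cov w hw (fun _ => False) η 1 hne
    (fun B => by simpa using hpl B) (by simp) X
  rw [one_mul] at hz
  have hnot : (∅ : Finset ι) ∉ It.powerset.filter (fun π => π.biUnion cov = X) := by
    intro h
    have h2 := (Finset.mem_filter.1 h).2
    rw [Finset.biUnion_empty] at h2
    exact hX.ne_empty h2.symm
  have hsub : insert (∅ : Finset ι) (It.powerset.filter (fun π => π.biUnion cov = X))
      ⊆ It.powerset.filter (fun π => π.biUnion cov ⊆ X) := by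
    intro π hπ
    rcases Finset.mem_insert.1 hπ with rfl | hπ
    · simp
    · rw [Finset.mem_filter] at hπ ⊢
      exact ⟨hπ.1, hπ.2.subset⟩
  have hle := Finset.sum_le_sum_of_subset_of_nonneg (f := fun π : Finset ι => ∏ I ∈ π, w I) hsub
    (fun π _ _ => Finset.prod_nonneg (fun I _ => hw I))
  rw [Finset.sum_insert hnot, Finset.prod_empty] at hle
  linarith

/-- **LEAF L-ENT-CX-S3.**  `e^{η n} - 1 ≤ η n e^{η n}`, `n ≤ 2^n`, `e^{η n} ≤ 2^n` for `η ≤ 1/2`. -/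
theorem cx_exp_sub_one_le_four (η : ℝ) (h0 : 0 ≤ η) (h1 : η ≤ 1 / 2) (n : ℕ) :
    Real.exp (η * n) - 1 ≤ η * 4 ^ n ∧ Real.exp (η * n) ≤ 4 ^ n := by
  have hn0 : (0 : ℝ) ≤ n := Nat.cast_nonneg n
  have he2 : Real.exp (η * n) ≤ 2 ^ n := by
    have h2 : Real.exp (1 / 2) ≤ 2 := by
      have h3 : Real.exp (1 / 2) ^ 2 = Real.exp 1 := by
        rw [← Real.exp_nat_mul]; norm_num
      have h4 := Real.exp_one_lt_d9
      have h5 := Real.exp_pos (1 / 2)
      nlinarith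
    calc Real.exp (η * n) ≤ Real.exp ((n : ℝ) * (1 / 2)) := by
          apply Real.exp_le_exp.2; nlinarith
      _ = Real.exp (1 / 2) ^ n := by rw [Real.exp_nat_mul]
      _ ≤ 2 ^ n := pow_le_pow_left₀ (Real.exp_pos _).le h2 n
  have hn2 : (n : ℝ) ≤ 2 ^ n := by exact_mod_cast (Nat.lt_two_pow_self (n := n)).le
  have h44 : (4 : ℝ) ^ n = 2 ^ n * 2 ^ n := by rw [← mul_pow]; norm_num
  have hp : (0 : ℝ) < 2 ^ n := by positivity
  have h1p : (1 : ℝ) ≤ 2 ^ n := one_le_pow₀ (by norm_num)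
  refine ⟨?_, ?_⟩
  · have hx : 1 - η * n ≤ Real.exp (-(η * n)) := by
      have := Real.add_one_le_exp (-(η * n)); linarith
    have hpos := Real.exp_pos (η * n)
    have hmul : Real.exp (η * n) * Real.exp (-(η * n)) = 1 := by
      rw [← Real.exp_add]; simp
    have h6 : Real.exp (η * n) - 1 ≤ η * n * Real.exp (η * n) := by
      nlinarith [mul_le_mul_of_nonneg_left hx hpos.le]
    calc Real.exp (η * n) - 1 ≤ η * n * Real.exp (η * n) := h6
      _ ≤ η * 2 ^ n * 2 ^ n := by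
          apply mul_le_mul _ he2 hpos.le (by positivity)
          exact mul_le_mul_of_nonneg_left hn2 h0
      _ = η * 4 ^ n := by rw [h44]; ring
  · rw [h44]; nlinarith

/-- `A^{|X|} ≤ A^{|S|} ∏ A^{|cov I|}` when `X ⊆ S ∪ ⋃ cov` -/
theorem cx_pow_card_le {ι β : Type} [DecidableEq β] (A : ℝ) (hA : 1 ≤ A) (cov : ι → Finset β) (S X : Finset β) (π : Finset ι)
    (h : X ⊆ S ∪ π.biUnion cov) : A ^ X.card ≤ A ^ S.card * ∏ I ∈ π, A ^ (cov I).card := by
  rw [Finset.prod_pow_eq_pow_sum, ← pow_add]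
  refine pow_le_pow_right₀ hA ?_
  calc X.card ≤ (S ∪ π.biUnion cov).card := Finset.card_le_card h
    _ ≤ S.card + (π.biUnion cov).card := Finset.card_union_le _ _
    _ ≤ S.card + ∑ I ∈ π, (cov I).card := Nat.add_le_add_left Finset.card_biUnion_le _

/-! ## 2. Numerics -/

theorem cx_num_geom (q : ℝ) (h0 : 0 ≤ q) (h1 : q ≤ 1 / 2) (n : ℕ) : ∑ j ∈ Finset.range n, q ^ j ≤ 2 - 2 * q ^ n := by
  induction n with
  | zero => simp
  | succ n ih =>
    rw [Finset.sum_range_succ, pow_succ]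
    have : 0 ≤ q ^ n := pow_nonneg h0 n
    nlinarith

/-- **LEAF L-ENT-CX-N1.**  `x_j = 2^j R`.  For `R` large: `A4^{n0 2^j} = exp (n0 log A4 · x_j / R) ≤ e^{cl x_j / 8}`, `n0 x⁴ ≤ e^{cl x / 8}` for `x ≥ R`, so the `j`-th term is `≤ M e^{-cl x_j / 4}`;
`x_j ≥ (j + 1) R`: geometric series `≤ 2 M e^{-cl R / 4} ≤ M e^{-cl R / 8}`. -/
theorem cx_num (cl : ℝ) (hcl : 0 < cl) (A4 : ℝ) (hA4 : 1 ≤ A4) (n0 : ℕ) : ∃ k1 : ℕ, ∀ kR ≥ k1, ∀ (M : ℝ), 0 ≤ M → ∀ n : ℕ,
    ∑ j ∈ Finset.range n, (n0 : ℝ) * ((2 : ℝ) ^ j * 2 ^ kR) ^ 4 * (M * Real.exp (-cl * ((2 : ℝ) ^ j * 2 ^ kR) / 2)) * A4 ^ (n0 * 2 ^ j)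
      ≤ M * Real.exp (-cl * 2 ^ kR / 8) := by
  have hlog : 0 ≤ Real.log A4 := Real.log_nonneg hA4
  set T : ℝ := max (8 * (n0 * Real.log A4) / cl) (max ((n0 : ℝ) * (8 ^ 5 * 120) / cl ^ 5) (8 / cl)) with hT
  refine ⟨⌈T⌉₊, fun kR hk M hM n => ?_⟩
  set R : ℝ := 2 ^ kR with hR
  have hRT : T ≤ R := by
    calc T ≤ (⌈T⌉₊ : ℝ) := Nat.le_ceil T
      _ ≤ (kR : ℝ) := by exact_mod_cast hk
      _ ≤ R := by
        have : kR < 2 ^ kR := Nat.lt_two_pow_self
        rw [hR]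
        exact_mod_cast this.le
  have h1 : 8 * (n0 * Real.log A4) / cl ≤ R := (le_max_left _ _).trans hRT
  have h2 : (n0 : ℝ) * (8 ^ 5 * 120) / cl ^ 5 ≤ R := ((le_max_left _ _).trans (le_max_right _ _)).trans hRT
  have h3 : 8 / cl ≤ R := ((le_max_right _ _).trans (le_max_right _ _)).trans hRT
  have hRpos : 0 < R := by positivity
  rw [div_le_iff₀ hcl] at h1 h3
  rw [div_le_iff₀ (by positivity)] at h2
  set r : ℝ := Real.exp (-cl * R / 8) with hr
  have hr0 : 0 < r := Real.exp_pos _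
  have hr2 : r ≤ 1 / 2 := by
    have h4 : r ≤ Real.exp (-1) := Real.exp_le_exp.2 (by linarith)
    have h5 : Real.exp (-1) ≤ 1 / 2 := by
      rw [Real.exp_neg, one_div]
      exact inv_anti₀ (by norm_num) (by have := Real.add_one_le_exp (1 : ℝ); linarith)
    linarith
  have key : ∀ j : ℕ, (n0 : ℝ) * ((2 : ℝ) ^ j * R) ^ 4 * (M * Real.exp (-cl * ((2 : ℝ) ^ j * R) / 2)) * A4 ^ (n0 * 2 ^ j)
      ≤ M * (r ^ 2) * (r ^ 2) ^ j := by
    intro j
    have hj1 : (1 : ℝ) ≤ 2 ^ j := one_le_pow₀ (by norm_num)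
    have hjj : (j : ℝ) + 1 ≤ 2 ^ j := by
      have := Nat.lt_two_pow_self (n := j)
      exact_mod_cast this
    set x : ℝ := (2 : ℝ) ^ j * R with hx
    have hxR : R ≤ x := by rw [hx]; nlinarith
    have hxpos : 0 < x := lt_of_lt_of_le hRpos hxR
    have hjx : ((j : ℝ) + 1) * R ≤ x := by
      rw [hx]; exact mul_le_mul_of_nonneg_right hjj hRpos.le
    have ha : A4 ^ (n0 * 2 ^ j) ≤ Real.exp (cl * x / 8) := by
      have hA0 : 0 < A4 := by linarith
      conv_lhs => rw [← Real.exp_log hA0, ← Real.exp_nat_mul]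
      apply Real.exp_le_exp.2
      push_cast
      rw [hx]
      have : (2 : ℝ) ^ j * (8 * (n0 * Real.log A4)) ≤ (2 : ℝ) ^ j * (R * cl) := mul_le_mul_of_nonneg_left h1 (by positivity)
      nlinarith
    have hb : (n0 : ℝ) * x ^ 4 ≤ Real.exp (cl * x / 8) := by
      have h5 := Real.pow_div_factorial_le_exp (cl * x / 8) (by positivity) 5
      refine le_trans ?_ h5
      have h120 : ((Nat.factorial 5 : ℕ) : ℝ) = 120 := by norm_num [Nat.factorial]
      rw [h120, le_div_iff₀ (by norm_num)]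
      have h6 : (n0 : ℝ) * (8 ^ 5 * 120) ≤ x * cl ^ 5 := h2.trans (mul_le_mul_of_nonneg_right hxR (by positivity))
      calc (n0 : ℝ) * x ^ 4 * 120 = ((n0 : ℝ) * (8 ^ 5 * 120)) * x ^ 4 / 8 ^ 5 := by ring
        _ ≤ (x * cl ^ 5) * x ^ 4 / 8 ^ 5 := by gcongr
        _ = (cl * x / 8) ^ 5 := by ring
    have hc : Real.exp (cl * x / 8) * Real.exp (-cl * x / 2) * Real.exp (cl * x / 8) ≤ (r ^ 2) * (r ^ 2) ^ j := by
      rw [← Real.exp_add, ← Real.exp_add, ← pow_succ', ← pow_mul, hr, ← Real.exp_nat_mul]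
      apply Real.exp_le_exp.2
      push_cast
      nlinarith
    calc (n0 : ℝ) * x ^ 4 * (M * Real.exp (-cl * x / 2)) * A4 ^ (n0 * 2 ^ j)
        = M * (((n0 : ℝ) * x ^ 4) * Real.exp (-cl * x / 2) * A4 ^ (n0 * 2 ^ j)) := by ring
      _ ≤ M * (Real.exp (cl * x / 8) * Real.exp (-cl * x / 2) * Real.exp (cl * x / 8)) := by gcongr
      _ ≤ M * ((r ^ 2) * (r ^ 2) ^ j) := by gcongr
      _ = M * (r ^ 2) * (r ^ 2) ^ j := by ring
  calc _ ≤ ∑ j ∈ Finset.range n, M * (r ^ 2) * (r ^ 2) ^ j := Finset.sum_le_sum fun j _ => key j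
    _ = M * r ^ 2 * ∑ j ∈ Finset.range n, (r ^ 2) ^ j := by rw [Finset.mul_sum]
    _ ≤ M * r ^ 2 * 2 := by
        gcongr
        have := cx_num_geom (r ^ 2) (by positivity) (by nlinarith) n
        have h7 : 0 ≤ (r ^ 2) ^ n := by positivity
        linarith
    _ ≤ M * r := by
        have h8 : r ^ 2 * 2 ≤ r := by nlinarith
        calc M * r ^ 2 * 2 = M * (r ^ 2 * 2) := by ring
          _ ≤ M * r := mul_le_mul_of_nonneg_left h8 hM

/-- **LEAF L-ENT-CX-N2.**  `θ = min (1/2) (log 2 / log (CR + 2))`: `CR^θ ≤ 2`, `gm^{1-θ} ≤ gm^{1/2}`. -/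
theorem cx_interp (CR : ℝ) (hCR : 1 ≤ CR) : ∃ θ : ℝ, 0 < θ ∧ θ ≤ 1 / 2 ∧ ∀ gm : ℝ, 0 < gm → gm ≤ 1 →
    gm ^ (1 - θ) * CR ^ θ ≤ 2 * Real.sqrt gm := by
  have hL : 0 < Real.log (CR + 2) := Real.log_pos (by linarith)
  have h2 : 0 < Real.log 2 := Real.log_pos (by norm_num)
  have hq : 0 < Real.log 2 / Real.log (CR + 2) := div_pos h2 hL
  refine ⟨min (1 / 2) (Real.log 2 / Real.log (CR + 2)), lt_min (by norm_num) hq, min_le_left _ _,
    fun gm h0 h1 => ?_⟩
  set θ := min (1 / 2) (Real.log 2 / Real.log (CR + 2)) with hθ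
  have t0 : 0 < θ := lt_min (by norm_num) hq
  have t1 : θ ≤ 1 / 2 := min_le_left _ _
  have t2 : θ ≤ Real.log 2 / Real.log (CR + 2) := min_le_right _ _
  have a1 : gm ^ (1 - θ) ≤ Real.sqrt gm := by
    rw [Real.sqrt_eq_rpow]
    exact Real.rpow_le_rpow_of_exponent_ge h0 h1 (by linarith)
  have a2 : CR ^ θ ≤ 2 := by
    calc CR ^ θ ≤ (CR + 2) ^ θ := Real.rpow_le_rpow (by linarith) (by linarith) t0.le
      _ ≤ (CR + 2) ^ (Real.log 2 / Real.log (CR + 2)) :=
          Real.rpow_le_rpow_of_exponent_le (by linarith) t2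
      _ = 2 := by
          rw [Real.rpow_def_of_pos (by linarith), mul_div_cancel₀ _ hL.ne', Real.exp_log (by norm_num)]
  calc gm ^ (1 - θ) * CR ^ θ ≤ Real.sqrt gm * 2 :=
        mul_le_mul a1 a2 (Real.rpow_nonneg (by linarith) _) (Real.sqrt_nonneg _)
    _ = 2 * Real.sqrt gm := mul_comm _ _

/-- **LEAF L-ENT-CX-N3.**  Exponentially small quantities are eventually below any threshold. -/
theorem cx_small (C c ε : ℝ) (hc : 0 < c) (hε : 0 < ε) : ∃ k1 : ℕ, ∀ kR ≥ k1, C * Real.exp (-c * 2 ^ kR) ≤ ε := by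
  obtain ⟨k1, hk1⟩ := exists_nat_ge (C / (c * ε))
  refine ⟨k1, fun kR hk => ?_⟩
  rcases le_or_gt C 0 with hC | hC
  · exact (mul_nonpos_of_nonpos_of_nonneg hC (Real.exp_pos _).le).trans hε.le
  have h1 : (kR : ℝ) ≤ 2 ^ kR := by exact_mod_cast (Nat.lt_two_pow_self (n := kR)).le
  have h2 : (k1 : ℝ) ≤ kR := by exact_mod_cast hk
  have h3 : C / (c * ε) ≤ 2 ^ kR := hk1.trans (h2.trans h1)
  have h4 : C ≤ 2 ^ kR * (c * ε) := (div_le_iff₀ (mul_pos hc hε)).1 h3
  have hx : 0 < c * 2 ^ kR := by positivity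
  have h5 : c * 2 ^ kR + 1 ≤ Real.exp (c * 2 ^ kR) := Real.add_one_le_exp _
  have h6 : Real.exp (-c * 2 ^ kR) = (Real.exp (c * 2 ^ kR))⁻¹ := by
    rw [← Real.exp_neg]; congr 1; ring
  rw [h6, ← div_eq_mul_inv, div_le_iff₀ (Real.exp_pos _)]
  nlinarith

/-! ## 3. The geometry used by CPLX -/

variable {G : Geom} {c g : Grid G}

open Classical in
/-- **ALL the geometry which the post CPLX uses**, with one constant `n0` -/
structure CxGeo (N : Nest c g) (R n0 : ℕ) : Prop where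
  patch : PatchIn c R
  ne_mark : ∀ k ∈ events c R, (cov N R (Sum.inl k)).Nonempty
  ne_tile : ∀ t ∈ tiles c R, (cov N R (Sum.inr (Sum.inl t))).Nonempty
  cov_mark : ∀ k, (cov N R (Sum.inl k)).card ≤ n0
  cov_tile : ∀ t, (cov N R (Sum.inr (Sum.inl t))).card ≤ n0
  marks_at : ∀ b, ((events c R).filter fun k => b ∈ cov N R (Sum.inl k)).card ≤ n0
  tiles_at : ∀ b, ((tiles c R).filter fun t => b ∈ cov N R (Sum.inr (Sum.inl t))).card ≤ n0
  cov_link : ∀ l, Live c R l → (cov N R (Sum.inr (Sum.inr l))).card ≤ n0 * 2 ^ l.2.2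
  links_at : ∀ b j, (Finset.univ.filter fun q : Face c × Face c =>
    Live c R (q.1, q.2, j) ∧ b ∈ cov N R (Sum.inr (Sum.inr (q.1, q.2, j)))).card ≤ n0 * (2 ^ j * R) ^ 4

/-- **LEAF L-ENT-CX-G1.**  Instance from `Ent/Geo.lean`: `patch_subset_tiles`, `cov_mark_card` (49), `cov_tile_card` (9), `marks_at` (392), `tiles_at` (8), `cov_link_card` (`32·2^j + 48 ≤ 80·2^j`),
`links_at` (`4 (2 (x + R + 1) + 1)² (2 (2 x + R + 2) + 1)² ≤ 4·49·121 x⁴`, `x = 2^j R ≥ R ≥ 1`);  nonempty covers: `core_nonempty` + `mem_halC`-type lemmas, `tiles = image tile`. -/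
theorem cx_geo {N : Nest c g} {R : ℕ} (h : GeoOK c R) (hg : g.Ok) (hN : NestOK N R) : CxGeo N R 24000 := by
  have hA := admN_of h hg hN
  have hR : 1 ≤ R := h.pos
  refine ⟨fun k _ => patch_subset_tiles h.adm k, fun k hk => cov_mark_ne hk, fun t ht => cov_tile_ne ht,
    fun k => (cov_mark_card hA k).trans (by norm_num), fun t => (cov_tile_card hA t).trans (by norm_num),
    fun b => (marks_at hA b).trans (by norm_num), fun b => (tiles_at hA b).trans (by norm_num), ?_, ?_⟩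
  · intro l hl
    refine (cov_link_card hA hl).trans ?_
    have : 1 ≤ 2 ^ l.2.2 := Nat.one_le_two_pow
    omega
  · intro b j
    refine (links_at hA b j).trans ?_
    have hxR : R ≤ 2 ^ j * R := Nat.le_mul_of_pos_left R (by positivity)
    generalize 2 ^ j * R = x at hxR ⊢
    have h1 : 2 * (x + R + 1) + 1 ≤ 7 * x := by omega
    have h2 : 2 * (2 * x + R + 2) + 1 ≤ 11 * x := by omega
    calc 4 * (2 * (x + R + 1) + 1) ^ 2 * (2 * (2 * x + R + 2) + 1) ^ 2 ≤ 4 * (7 * x) ^ 2 * (11 * x) ^ 2 := by gcongr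
      _ = 23716 * x ^ 4 := by ring
      _ ≤ 24000 * x ^ 4 := Nat.mul_le_mul_right _ (by norm_num)

theorem cx_vol {N : Nest c g} {R : ℕ} (h : GeoOK c R) (hg : g.Ok) (hN : NestOK N R) : CxVol N R :=
  ⟨h.whole, hg, hN, h.pos, Dvd.dvd.trans (by norm_num) h.r64⟩

/-! ## 4. Links: counting, load, placement -/

open Classical in
/-- **LEAF L-ENT-CX-C1: a sum over live links at a block, by scales.**  Group `L` by `j = l.2.2` (`Finset.sum_fiberwise_of_maps_to` into `range n`, `n = L.sup (·.2.2) + 1`); the fibre injects into the set counted by `links_at`. -/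
theorem cx_links_sum {N : Nest c g} {R n0 : ℕ} (hG : CxGeo N R n0) (σ : ℕ → ℝ) (hσ : ∀ j, 0 ≤ σ j) (S : ℝ)
    (hS : ∀ n, ∑ j ∈ Finset.range n, (n0 : ℝ) * ((2 : ℝ) ^ j * R) ^ 4 * σ j ≤ S) (L : Finset (Link c)) (b : g.I) :
    ∑ l ∈ L.filter (fun l => Live c R l ∧ b ∈ cov N R (Sum.inr (Sum.inr l))), σ l.2.2 ≤ S := by
  set F := L.filter (fun l => Live c R l ∧ b ∈ cov N R (Sum.inr (Sum.inr l))) with hF
  set n := F.sup (fun l => l.2.2) + 1 with hn
  have hmap : ∀ l ∈ F, l.2.2 ∈ Finset.range n := by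
    intro l hl
    rw [Finset.mem_range]
    exact Nat.lt_succ_of_le (Finset.le_sup (f := fun l : Link c => l.2.2) hl)
  rw [← Finset.sum_fiberwise_of_maps_to hmap]
  refine le_trans (Finset.sum_le_sum fun j _ => ?_) (hS n)
  have h1 : ∑ l ∈ F.filter (fun l => l.2.2 = j), σ l.2.2
      = ((F.filter (fun l => l.2.2 = j)).card : ℝ) * σ j := by
    rw [Finset.sum_congr rfl (fun l hl => by rw [(Finset.mem_filter.1 hl).2]), Finset.sum_const,
      nsmul_eq_mul]
  rw [h1]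
  refine mul_le_mul_of_nonneg_right ?_ (hσ j)
  have h2 : (F.filter (fun l => l.2.2 = j)).card ≤ (Finset.univ.filter fun q : Face c × Face c =>
      Live c R (q.1, q.2, j) ∧ b ∈ cov N R (Sum.inr (Sum.inr (q.1, q.2, j)))).card := by
    refine Finset.card_le_card_of_injOn (fun l => (l.1, l.2.1)) ?_ ?_
    · intro l hl
      have hl' := Finset.mem_filter.1 (Finset.mem_coe.1 hl)
      have hl2 := (Finset.mem_filter.1 hl'.1).2
      obtain ⟨f1, f2, j'⟩ := l
      have hj : j' = j := hl'.2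
      subst hj
      simpa using hl2
    · intro l hl l' hl' he
      have e1 := (Finset.mem_filter.1 (Finset.mem_coe.1 hl)).2
      have e2 := (Finset.mem_filter.1 (Finset.mem_coe.1 hl')).2
      obtain ⟨f1, f2, j1⟩ := l
      obtain ⟨f1', f2', j2⟩ := l'
      simp only [Prod.mk.injEq] at he ⊢
      exact ⟨he.1, he.2, e1.trans e2.symm⟩
  have h3 := hG.links_at b j
  calc ((F.filter (fun l => l.2.2 = j)).card : ℝ) ≤ ((n0 * (2 ^ j * R) ^ 4 : ℕ) : ℝ) := by
        exact_mod_cast h2.trans h3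
    _ = (n0 : ℝ) * ((2 : ℝ) ^ j * R) ^ 4 := by push_cast; ring

/-- `√|b_ℓ| ≤ √Cl e^{-cl 2^j R / 2}` -/
theorem cx_sqrt_lkc_le {W : Wt c} {R : ℕ} {Cl cl : ℝ} (hcl : 0 < cl) (hCl : 0 ≤ Cl) (hL : LinkOK W R Cl cl) (l : Link c) :
    Real.sqrt |W.lkc R l| ≤ Real.sqrt Cl * Real.exp (-cl * ((2 : ℝ) ^ l.2.2 * R) / 2) := by
  have h1 : |W.lkc R l| ≤ Cl * Real.exp (-cl * ((2 : ℝ) ^ l.2.2 * R)) := by
    refine (hL l).trans (mul_le_mul_of_nonneg_left (Real.exp_le_exp.2 ?_) hCl)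
    unfold llen
    have : (0 : ℝ) ≤ (c.idist l.1.1 l.2.1.1 : ℝ) := Nat.cast_nonneg _
    nlinarith
  calc Real.sqrt |W.lkc R l| ≤ Real.sqrt (Cl * Real.exp (-cl * ((2 : ℝ) ^ l.2.2 * R))) := Real.sqrt_le_sqrt h1
    _ = Real.sqrt Cl * Real.exp (-cl * ((2 : ℝ) ^ l.2.2 * R) / 2) := by
        rw [Real.sqrt_mul hCl, Real.exp_half]

/-- **LEAF L-ENT-CX-C2: the hypotheses `CxLk` on the links**, for `R` large.   `|b_ℓ| ≤ Cl e^{-cl R} ≤ 1` (`cx_small`).   Load: `cxLd l i = 0` for dead links (`lkc_dead`); for live ones `cxLd l i ≤ 2 CF √|b_ℓ|` and it vanishes unless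
`i ∈ fcl ⊆ lcells l`, i.e. unless `N.up i ∈ cov l`;  `cx_sqrt_lkc_le`, `cx_links_sum` with `σ j = 2 CF √Cl e^{-cl 2^j R/2}`, `cx_num` with `A4 = 1`, `M = 2 CF √Cl`, `cx_small`. -/
theorem cx_lk (CF Cl cl hl : ℝ) (hCF0 : 0 ≤ CF) (hCl : 0 ≤ Cl) (hcl : 0 < cl) (hhl : 0 < hl) (n0 : ℕ) : ∃ k1 : ℕ, ∀ kR ≥ k1,
    ∀ (G : Geom) (c g : Grid G) (N : Nest c g), CxGeo N (2 ^ kR) n0 → ∀ W : Wt c, W.Str → LinkOK W (2 ^ kR) Cl cl →
      CxLk W (2 ^ kR) CF hl := by
  obtain ⟨ka, Ha⟩ := cx_small Cl cl 1 hcl one_pos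
  obtain ⟨kb, Hb⟩ := cx_num cl hcl 1 le_rfl n0
  obtain ⟨kc, Hc⟩ := cx_small (2 * CF * Real.sqrt Cl) (cl / 8) hl (by positivity) hhl
  refine ⟨max ka (max kb kc), fun kR hk G c g N hG W hW hL => ?_⟩
  have hka : ka ≤ kR := le_trans (le_max_left _ _) hk
  have hkb : kb ≤ kR := le_trans (le_trans (le_max_left _ _) (le_max_right _ _)) hk
  have hkc : kc ≤ kR := le_trans (le_trans (le_max_right _ _) (le_max_right _ _)) hk
  have hRc : (((2 ^ kR : ℕ)) : ℝ) = (2 : ℝ) ^ kR := by push_cast; rfl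
  refine ⟨fun l => ?_, fun L i => ?_⟩
  · refine (hL l).trans (le_trans ?_ (Ha kR hka))
    refine mul_le_mul_of_nonneg_left (Real.exp_le_exp.2 ?_) hCl
    unfold llen
    rw [hRc]
    have h1 : (0 : ℝ) ≤ (c.idist l.1.1 l.2.1.1 : ℝ) := Nat.cast_nonneg _
    have h2 : (1 : ℝ) ≤ 2 ^ l.2.2 := one_le_pow₀ (by norm_num)
    have h3 : (0 : ℝ) < 2 ^ kR := by positivity
    have h4 : (1 : ℝ) * 2 ^ kR ≤ 2 ^ l.2.2 * 2 ^ kR := mul_le_mul_of_nonneg_right h2 h3.le
    have h5 : cl * (2 : ℝ) ^ kR ≤ cl * (2 ^ l.2.2 * 2 ^ kR + (c.idist l.1.1 l.2.1.1 : ℝ)) :=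
      mul_le_mul_of_nonneg_left (by linarith) hcl.le
    linarith
  · obtain ⟨M, hM⟩ : ∃ M, M = 2 * CF * Real.sqrt Cl := ⟨_, rfl⟩
    have hM0 : 0 ≤ M := by rw [hM]; positivity
    have hsum := cx_links_sum hG (fun j => M * Real.exp (-cl * ((2 : ℝ) ^ j * ((2 ^ kR : ℕ) : ℝ)) / 2)) (fun j => by positivity)
      (M * Real.exp (-cl * 2 ^ kR / 8)) (fun n => by
        have h := Hb kR hkb M hM0 n
        simp only [one_pow, mul_one] at h
        rw [hRc]
        exact h) L (N.up i)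
    rw [Finset.sum_filter] at hsum
    have hfin : M * Real.exp (-cl * 2 ^ kR / 8) ≤ hl := by
      have h := Hc kR hkc
      rw [← hM] at h
      have e : -(cl / 8) * (2 : ℝ) ^ kR = -cl * 2 ^ kR / 8 := by ring
      rwa [e] at h
    refine le_trans (Finset.sum_le_sum fun l _ => ?_) (hsum.trans hfin)
    have hσ0 : 0 ≤ M * Real.exp (-cl * ((2 : ℝ) ^ l.2.2 * ((2 ^ kR : ℕ) : ℝ)) / 2) := by positivity
    by_cases hlive : Live c (2 ^ kR) l
    · by_cases hi : i ∈ fcl c l.1 ∪ fcl c l.2.1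
      · have hcov : N.up i ∈ cov N (2 ^ kR) (Sum.inr (Sum.inr l)) :=
          mem_cl.2 ⟨i, fcl2_subset_lcells l hi, rfl⟩
        rw [if_pos ⟨hlive, hcov⟩]
        have h1 := cx_sqrt_lkc_le hcl hCl hL l
        unfold cxLd
        have h2 : ((if i ∈ fcl c l.1 then (1 : ℝ) else 0) + if i ∈ fcl c l.2.1 then 1 else 0) ≤ 2 := by
          split_ifs <;> norm_num
        have h3 : 0 ≤ CF * Real.sqrt |W.lkc (2 ^ kR) l| := by positivity
        calc CF * Real.sqrt |W.lkc (2 ^ kR) l| * ((if i ∈ fcl c l.1 then (1 : ℝ) else 0) + if i ∈ fcl c l.2.1 then 1 else 0)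
            ≤ CF * Real.sqrt |W.lkc (2 ^ kR) l| * 2 := mul_le_mul_of_nonneg_left h2 h3
          _ ≤ CF * (Real.sqrt Cl * Real.exp (-cl * ((2 : ℝ) ^ l.2.2 * ((2 ^ kR : ℕ) : ℝ)) / 2)) * 2 :=
              mul_le_mul_of_nonneg_right (mul_le_mul_of_nonneg_left h1 hCF0) (by norm_num)
          _ = M * Real.exp (-cl * ((2 : ℝ) ^ l.2.2 * ((2 ^ kR : ℕ) : ℝ)) / 2) := by rw [hM]; ring
      · have h0 : cxLd W (2 ^ kR) CF l i = 0 := by
          rw [Finset.mem_union, not_or] at hi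
          unfold cxLd
          rw [if_neg hi.1, if_neg hi.2]
          ring
        rw [h0]
        split_ifs
        · exact hσ0
        · exact le_rfl
    · have h0 : cxLd W (2 ^ kR) CF l i = 0 := by
        unfold cxLd
        rw [lkc_dead hW hlive]
        simp
      rw [h0]
      split_ifs
      · exact hσ0
      · exact le_rfl

open Classical in
/-- **LEAF L-ENT-CX-C3: the placement sum** (weights off the zone, `Z = ∅`).   `items = marks ∪ tiles ∪ links`;  marks and tiles: `≤ n0` items at a block, each `≤ gm A4^{n0}`;  links: dead links have weight `0`;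
live ones `cxWl l ≤ √Cl e^{E} e^{-cl 2^j R / 2}` if `√|b_ℓ| ≤ 1`, `E = H² + 4 θ CF` (`(H / R)² ≤ H²`), `A4^{|cov l|} ≤ A4^{n0 2^j}`;  `cx_links_sum`, `cx_num`. -/
theorem cx_place (CF θ H Cl cl A4 : ℝ) (hCF0 : 0 ≤ CF) (hθ : 0 ≤ θ) (hCl : 0 ≤ Cl) (hcl : 0 < cl) (hA4 : 1 ≤ A4) (n0 : ℕ) :
    ∃ k1 : ℕ, ∀ kR ≥ k1, ∀ (G : Geom) (c g : Grid G) (N : Nest c g), CxGeo N (2 ^ kR) n0 → ∀ W : Wt c, W.Str →
      LinkOK W (2 ^ kR) Cl cl → ∀ gm : ℝ, 0 ≤ gm → ∀ B : g.I,
      ∑ I ∈ (items c (2 ^ kR)).filter (fun I => B ∈ cov N (2 ^ kR) I),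
          cxWI W (2 ^ kR) ∅ CF θ H gm 1 I * A4 ^ (cov N (2 ^ kR) I).card
        ≤ 2 * n0 * A4 ^ n0 * gm + Real.sqrt Cl * Real.exp (H ^ 2 + 4 * θ * CF) * Real.exp (-cl * 2 ^ kR / 8) := by
  obtain ⟨k1, hk1⟩ := cx_num cl hcl A4 hA4 n0
  obtain ⟨k2, hk2⟩ := cx_small (Real.sqrt Cl) (cl / 2) 1 (by positivity) one_pos
  refine ⟨max k1 k2, fun kR hkR G c g N hG W hW hL gm hgm B => ?_⟩
  have hkR1 : k1 ≤ kR := le_trans (le_max_left _ _) hkR
  have hkR2 : k2 ≤ kR := le_trans (le_max_right _ _) hkR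
  have hA0 : (0 : ℝ) ≤ A4 := le_trans zero_le_one hA4
  have hR1 : (1 : ℝ) ≤ ((2 ^ kR : ℕ) : ℝ) := by
    have : 1 ≤ 2 ^ kR := Nat.one_le_two_pow
    exact_mod_cast this
  -- the three parts
  have hsplit : ∑ I ∈ (items c (2 ^ kR)).filter (fun I => B ∈ cov N (2 ^ kR) I),
      cxWI W (2 ^ kR) ∅ CF θ H gm 1 I * A4 ^ (cov N (2 ^ kR) I).card
      = ∑ k ∈ (events c (2 ^ kR)).filter (fun k => B ∈ cov N (2 ^ kR) (Sum.inl k)),
          cxWI W (2 ^ kR) ∅ CF θ H gm 1 (Sum.inl k) * A4 ^ (cov N (2 ^ kR) (Sum.inl k)).card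
        + (∑ t ∈ (tiles c (2 ^ kR)).filter (fun t => B ∈ cov N (2 ^ kR) (Sum.inr (Sum.inl t))),
          cxWI W (2 ^ kR) ∅ CF θ H gm 1 (Sum.inr (Sum.inl t)) * A4 ^ (cov N (2 ^ kR) (Sum.inr (Sum.inl t))).card
        + ∑ l ∈ (links c (2 ^ kR)).filter (fun l => B ∈ cov N (2 ^ kR) (Sum.inr (Sum.inr l))),
          cxWI W (2 ^ kR) ∅ CF θ H gm 1 (Sum.inr (Sum.inr l)) * A4 ^ (cov N (2 ^ kR) (Sum.inr (Sum.inr l))).card) := by
    unfold items
    rw [Finset.filter_union, Finset.filter_union, Finset.sum_union, Finset.sum_union,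
      Finset.filter_image, Finset.filter_image, Finset.filter_image,
      Finset.sum_image (fun _ _ _ _ h => Sum.inl_injective h),
      Finset.sum_image (fun _ _ _ _ h => (Sum.inr_injective.comp Sum.inl_injective) h),
      Finset.sum_image (fun _ _ _ _ h => (Sum.inr_injective.comp Sum.inr_injective) h)]
    · rfl
    · rw [Finset.disjoint_left]
      intro I h1 h2
      simp only [Finset.mem_filter, Finset.mem_image, Function.comp] at h1 h2
      obtain ⟨⟨a, -, rfl⟩, -⟩ := h1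
      obtain ⟨⟨b, -, hb⟩, -⟩ := h2
      simp at hb
    · rw [Finset.disjoint_left]
      intro I h1 h2
      simp only [Finset.mem_filter, Finset.mem_image, Finset.mem_union, Function.comp] at h1 h2
      obtain ⟨⟨a, -, rfl⟩, -⟩ := h1
      rcases h2 with ⟨⟨b, -, hb⟩, -⟩ | ⟨⟨b, -, hb⟩, -⟩ <;> simp at hb
  rw [hsplit]
  -- marks
  have hm : ∑ k ∈ (events c (2 ^ kR)).filter (fun k => B ∈ cov N (2 ^ kR) (Sum.inl k)),
      cxWI W (2 ^ kR) ∅ CF θ H gm 1 (Sum.inl k) * A4 ^ (cov N (2 ^ kR) (Sum.inl k)).card ≤ n0 * (gm * A4 ^ n0) := by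
    calc _ ≤ ∑ _k ∈ (events c (2 ^ kR)).filter (fun k => B ∈ cov N (2 ^ kR) (Sum.inl k)), gm * A4 ^ n0 := by
          refine Finset.sum_le_sum fun k _ => ?_
          have : cxWI W (2 ^ kR) ∅ CF θ H gm 1 (Sum.inl k) = gm := by simp [cxWI]
          rw [this]
          exact mul_le_mul_of_nonneg_left (pow_le_pow_right₀ hA4 (hG.cov_mark k)) hgm
      _ = (((events c (2 ^ kR)).filter (fun k => B ∈ cov N (2 ^ kR) (Sum.inl k))).card : ℝ) * (gm * A4 ^ n0) := by
          rw [Finset.sum_const, nsmul_eq_mul]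
      _ ≤ n0 * (gm * A4 ^ n0) := by
          refine mul_le_mul_of_nonneg_right ?_ (by positivity)
          have := hG.marks_at B
          exact_mod_cast (le_of_eq_of_le (by congr) this)
  have ht : ∑ t ∈ (tiles c (2 ^ kR)).filter (fun t => B ∈ cov N (2 ^ kR) (Sum.inr (Sum.inl t))),
      cxWI W (2 ^ kR) ∅ CF θ H gm 1 (Sum.inr (Sum.inl t)) * A4 ^ (cov N (2 ^ kR) (Sum.inr (Sum.inl t))).card
        ≤ n0 * (gm * A4 ^ n0) := by
    calc _ ≤ ∑ _t ∈ (tiles c (2 ^ kR)).filter (fun t => B ∈ cov N (2 ^ kR) (Sum.inr (Sum.inl t))), gm * A4 ^ n0 := by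
          refine Finset.sum_le_sum fun t _ => ?_
          have : cxWI W (2 ^ kR) ∅ CF θ H gm 1 (Sum.inr (Sum.inl t)) = gm := by simp [cxWI]
          rw [this]
          exact mul_le_mul_of_nonneg_left (pow_le_pow_right₀ hA4 (hG.cov_tile t)) hgm
      _ = (((tiles c (2 ^ kR)).filter (fun t => B ∈ cov N (2 ^ kR) (Sum.inr (Sum.inl t)))).card : ℝ) * (gm * A4 ^ n0) := by
          rw [Finset.sum_const, nsmul_eq_mul]
      _ ≤ n0 * (gm * A4 ^ n0) := by
          refine mul_le_mul_of_nonneg_right ?_ (by positivity)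
          have := hG.tiles_at B
          exact_mod_cast (le_of_eq_of_le (by congr) this)
  -- links
  have hE0 : 0 ≤ Real.sqrt Cl * Real.exp (H ^ 2 + 4 * θ * CF) := by positivity
  have hl : ∑ l ∈ (links c (2 ^ kR)).filter (fun l => B ∈ cov N (2 ^ kR) (Sum.inr (Sum.inr l))),
      cxWI W (2 ^ kR) ∅ CF θ H gm 1 (Sum.inr (Sum.inr l)) * A4 ^ (cov N (2 ^ kR) (Sum.inr (Sum.inr l))).card
        ≤ Real.sqrt Cl * Real.exp (H ^ 2 + 4 * θ * CF) * Real.exp (-cl * 2 ^ kR / 8) := by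
    have hsum := cx_links_sum hG
      (fun j => (Real.sqrt Cl * Real.exp (H ^ 2 + 4 * θ * CF)) * Real.exp (-cl * ((2 : ℝ) ^ j * 2 ^ kR) / 2) * A4 ^ (n0 * 2 ^ j))
      (fun j => by positivity) (Real.sqrt Cl * Real.exp (H ^ 2 + 4 * θ * CF) * Real.exp (-cl * 2 ^ kR / 8))
      (fun n => by
        refine le_trans (le_of_eq ?_) (hk1 kR hkR1 _ hE0 n)
        refine Finset.sum_congr rfl fun j _ => ?_
        push_cast
        ring) (links c (2 ^ kR)) B
    refine le_trans ?_ hsum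
    have hfe : (links c (2 ^ kR)).filter (fun l => B ∈ cov N (2 ^ kR) (Sum.inr (Sum.inr l)))
        = (links c (2 ^ kR)).filter (fun l => Live c (2 ^ kR) l ∧ B ∈ cov N (2 ^ kR) (Sum.inr (Sum.inr l))) := by
      ext l
      simp only [Finset.mem_filter, links]
      tauto
    rw [hfe]
    refine Finset.sum_le_sum fun l hl => ?_
    have hlive : Live c (2 ^ kR) l := (Finset.mem_filter.1 hl).2.1
    have hs := cx_sqrt_lkc_le hcl hCl hL l
    have hcast : (((2 ^ kR : ℕ) : ℝ)) = (2 : ℝ) ^ kR := by push_cast; rfl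
    rw [hcast] at hs
    have h2j : (1 : ℝ) ≤ (2 : ℝ) ^ l.2.2 := one_le_pow₀ (by norm_num)
    have h2k : (0 : ℝ) < (2 : ℝ) ^ kR := by positivity
    have hs1 : Real.sqrt |W.lkc (2 ^ kR) l| ≤ 1 := by
      refine hs.trans (le_trans ?_ (hk2 kR hkR2))
      refine mul_le_mul_of_nonneg_left (Real.exp_le_exp.2 ?_) (Real.sqrt_nonneg _)
      nlinarith [mul_le_mul_of_nonneg_right h2j h2k.le]
    have hs0 : 0 ≤ Real.sqrt |W.lkc (2 ^ kR) l| := Real.sqrt_nonneg _
    have hHR : (H / ((2 ^ kR : ℕ) : ℝ)) ^ 2 ≤ H ^ 2 := by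
      rw [div_pow]
      refine div_le_self (sq_nonneg _) ?_
      exact one_le_pow₀ hR1
    have hexp : Real.exp (Real.sqrt |W.lkc (2 ^ kR) l| * ((H / ((2 ^ kR : ℕ) : ℝ)) ^ 2 + 4 * θ * CF))
        ≤ Real.exp (H ^ 2 + 4 * θ * CF) := by
      refine Real.exp_le_exp.2 ?_
      have h4 : 0 ≤ 4 * θ * CF := by positivity
      have h5 : 0 ≤ (H / ((2 ^ kR : ℕ) : ℝ)) ^ 2 + 4 * θ * CF := by positivity
      calc _ ≤ 1 * ((H / ((2 ^ kR : ℕ) : ℝ)) ^ 2 + 4 * θ * CF) := mul_le_mul_of_nonneg_right hs1 h5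
        _ ≤ _ := by linarith
    have hw : cxWI W (2 ^ kR) ∅ CF θ H gm 1 (Sum.inr (Sum.inr l))
        ≤ (Real.sqrt Cl * Real.exp (H ^ 2 + 4 * θ * CF)) * Real.exp (-cl * ((2 : ℝ) ^ l.2.2 * 2 ^ kR) / 2) := by
      show cxWl W (2 ^ kR) CF θ H l ≤ _
      unfold cxWl
      calc _ ≤ (Real.sqrt Cl * Real.exp (-cl * ((2 : ℝ) ^ l.2.2 * 2 ^ kR) / 2)) * Real.exp (H ^ 2 + 4 * θ * CF) :=
            mul_le_mul hs hexp (Real.exp_pos _).le (by positivity)
        _ = _ := by ring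
    exact mul_le_mul hw (pow_le_pow_right₀ hA4 (hG.cov_link l hlive)) (by positivity) (by positivity)
  have : (2 : ℝ) * n0 * A4 ^ n0 * gm = n0 * (gm * A4 ^ n0) + n0 * (gm * A4 ^ n0) := by ring
  linarith

/-- items whose weight does not vanish have a non-empty cover -/
theorem cx_cov_ne {N : Nest c g} {R n0 : ℕ} (hG : CxGeo N R n0) {W : Wt c} (hW : W.Str) (Z : Finset c.I) (CF θ H gm big : ℝ)
    (I : Item c) (hI : I ∈ items c R) (h : cxWI W R Z CF θ H gm big I ≠ 0) : (cov N R I).Nonempty := by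
  rcases I with k | t | l
  · refine hG.ne_mark k ?_
    simp only [items, Finset.mem_union, Finset.mem_image, Function.comp] at hI
    rcases hI with ⟨k', hk', e⟩ | ⟨t', _, e⟩ | ⟨l', _, e⟩
    · exact Sum.inl.inj e ▸ hk'
    · exact absurd e (by simp)
    · exact absurd e (by simp)
  · refine hG.ne_tile t ?_
    simp only [items, Finset.mem_union, Finset.mem_image, Function.comp] at hI
    rcases hI with ⟨k', _, e⟩ | ⟨t', ht', e⟩ | ⟨l', _, e⟩
    · exact absurd e (by simp)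
    · exact Sum.inl.inj (Sum.inr.inj e) ▸ ht'
    · exact absurd e (by simp)
  · exact ⟨N.up l.1.1, mem_cl.2 ⟨l.1.1, fcl2_subset_lcells l (Finset.mem_union_left _ (fcl_ne l.1)), rfl⟩⟩

open Classical in
/-- items at the zone -/
def cxZn (c : Grid G) (R : ℕ) (Z : Finset c.I) : Item c → Prop
  | Sum.inl k => ¬ Disjoint (halC c R {k}) Z
  | Sum.inr (Sum.inl t) => ¬ Disjoint (cellsOf c R {t}) Z
  | Sum.inr (Sum.inr _) => False

/-- off the zone the weights do not see the zone -/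
theorem cxWI_off (W : Wt c) (R : ℕ) (Z : Finset c.I) (CF θ H gm big : ℝ) (I : Item c) (h : ¬ cxZn c R Z I) :
    cxWI W R Z CF θ H gm big I = cxWI W R ∅ CF θ H gm 1 I := by
  rcases I with k | t | l
  · simp only [cxZn, not_not] at h
    simp [cxWI, h]
  · simp only [cxZn, not_not] at h
    simp [cxWI, h]
  · rfl

open Classical in
/-- **LEAF L-ENT-CX-C4: the items at the zone.**  A zone item has a cell in `Z ⊆ under N Cs`, hence a block of `Cs` in its cover: at most `2 n0 |Cs|` zone items (`marks_at`, `tiles_at`), each factor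
`1 + w A4^{|cov|} ≤ 1 + (big + 1) A4^{n0} ≤ 3 big A4^{n0}`. -/
theorem cx_zone_prod {N : Nest c g} {R n0 : ℕ} (hG : CxGeo N R n0) (W : Wt c) (Z : Finset c.I) (Cs : Finset g.I) (hZ : Z ⊆ under N Cs)
    (nC : ℕ) (hCs : Cs.card ≤ nC) (CF θ H gm big A4 : ℝ) (hbig : 1 ≤ big) (hA4 : 1 ≤ A4) :
    ∏ I ∈ (items c R).filter (cxZn c R Z), (1 + cxWI W R Z CF θ H gm big I * A4 ^ (cov N R I).card)
      ≤ (3 * A4 ^ n0) ^ (2 * n0 * nC) * big ^ (2 * n0 * nC) := by
  have hA0 : (1 : ℝ) ≤ A4 ^ n0 := one_le_pow₀ hA4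
  have hbA : 1 ≤ big * A4 ^ n0 := by nlinarith
  have hbase : 1 ≤ 3 * A4 ^ n0 * big := by nlinarith
  -- every factor
  have hfac : ∀ I ∈ (items c R).filter (cxZn c R Z),
      0 ≤ 1 + cxWI W R Z CF θ H gm big I * A4 ^ (cov N R I).card ∧
      1 + cxWI W R Z CF θ H gm big I * A4 ^ (cov N R I).card ≤ 3 * A4 ^ n0 * big := by
    intro I hI
    have hz := (Finset.mem_filter.1 hI).2
    rcases I with k | t | l
    · have h1 : cxWI W R Z CF θ H gm big (Sum.inl k) = big := by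
        simp only [cxZn] at hz
        simp [cxWI, hz]
      have h2 : A4 ^ (cov N R (Sum.inl k)).card ≤ A4 ^ n0 := pow_le_pow_right₀ hA4 (hG.cov_mark k)
      have h3 : (0 : ℝ) < A4 ^ (cov N R (Sum.inl k)).card := by positivity
      rw [h1]
      constructor
      · nlinarith
      · nlinarith
    · have h1 : cxWI W R Z CF θ H gm big (Sum.inr (Sum.inl t)) = big + 1 := by
        simp only [cxZn] at hz
        simp [cxWI, hz]
      have h2 : A4 ^ (cov N R (Sum.inr (Sum.inl t))).card ≤ A4 ^ n0 := pow_le_pow_right₀ hA4 (hG.cov_tile t)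
      have h3 : (0 : ℝ) < A4 ^ (cov N R (Sum.inr (Sum.inl t))).card := by positivity
      rw [h1]
      constructor
      · nlinarith
      · nlinarith
    · exact absurd hz (by simp [cxZn])
  -- the number of factors
  have hsub : (items c R).filter (cxZn c R Z) ⊆ Cs.biUnion fun b =>
      ((events c R).filter fun k => b ∈ cov N R (Sum.inl k)).image Sum.inl ∪
      ((tiles c R).filter fun t => b ∈ cov N R (Sum.inr (Sum.inl t))).image (Sum.inr ∘ Sum.inl) := by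
    intro I hI
    obtain ⟨hI1, hz⟩ := Finset.mem_filter.1 hI
    rcases I with k | t | l
    · simp only [cxZn, Finset.not_disjoint_iff] at hz
      obtain ⟨i, hi1, hi2⟩ := hz
      have hk : k ∈ events c R := by
        simpa [items] using hI1
      have hb : N.up i ∈ Cs := (Finset.mem_filter.1 (hZ hi2)).2
      refine Finset.mem_biUnion.2 ⟨N.up i, hb, Finset.mem_union_left _ (Finset.mem_image.2 ⟨k, ?_, rfl⟩)⟩
      exact Finset.mem_filter.2 ⟨hk, Finset.mem_image.2 ⟨i, hi1, rfl⟩⟩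
    · simp only [cxZn, Finset.not_disjoint_iff] at hz
      obtain ⟨i, hi1, hi2⟩ := hz
      have hk : t ∈ tiles c R := by
        simpa [items] using hI1
      have hb : N.up i ∈ Cs := (Finset.mem_filter.1 (hZ hi2)).2
      refine Finset.mem_biUnion.2 ⟨N.up i, hb, Finset.mem_union_right _ (Finset.mem_image.2 ⟨t, ?_, rfl⟩)⟩
      exact Finset.mem_filter.2 ⟨hk, Finset.mem_image.2 ⟨i, hi1, rfl⟩⟩
    · exact absurd hz (by simp [cxZn])
  have hcard : ((items c R).filter (cxZn c R Z)).card ≤ 2 * n0 * nC := by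
    calc ((items c R).filter (cxZn c R Z)).card ≤ _ := Finset.card_le_card hsub
      _ ≤ ∑ b ∈ Cs, (n0 + n0) := by
          refine Finset.card_biUnion_le.trans (Finset.sum_le_sum fun b _ => ?_)
          refine (Finset.card_union_le _ _).trans (Nat.add_le_add ?_ ?_)
          · exact Finset.card_image_le.trans (hG.marks_at b)
          · exact Finset.card_image_le.trans (hG.tiles_at b)
      _ = Cs.card * (n0 + n0) := by rw [Finset.sum_const, smul_eq_mul]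
      _ ≤ nC * (n0 + n0) := Nat.mul_le_mul_right _ hCs
      _ = 2 * n0 * nC := by ring
  calc ∏ I ∈ (items c R).filter (cxZn c R Z), (1 + cxWI W R Z CF θ H gm big I * A4 ^ (cov N R I).card)
      ≤ ∏ _I ∈ (items c R).filter (cxZn c R Z), (3 * A4 ^ n0 * big) :=
        Finset.prod_le_prod (fun I hI => (hfac I hI).1) (fun I hI => (hfac I hI).2)
    _ = (3 * A4 ^ n0 * big) ^ ((items c R).filter (cxZn c R Z)).card := by rw [Finset.prod_const]
    _ ≤ (3 * A4 ^ n0 * big) ^ (2 * n0 * nC) := pow_le_pow_right₀ hbase hcard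
    _ = (3 * A4 ^ n0) ^ (2 * n0 * nC) * big ^ (2 * n0 * nC) := by rw [mul_pow]

end

end Claimed.Agent.R285.Ent
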