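import Claimed.Agent.R285.Ent.If
import Claimed.Agent.R285.Ent.Iso
import Claimed.Agent.R285.F4a.Face

/-!
# ROW 285, THE ENTRY ENGINE, post LOC, exit 2: the link coefficients (ent:link-bound)            (owner helper273)
`link_of : (∀ c R, GeoOK c R → 128 ≤ R → LinkGeo c R a) → LinkStmt`-type theorem.  Inputs: `F4a.face_localization`, `F4a.guarded_face_error` (both PROVED, `R285/Face`).

## The proof
`Q_T = H_T + D_s J_T`, `J_T (f, f') = ∑_{z ∈ V4 (T)} σ_z (f) σ_z (f')`.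
* (A) `Q4`: the four-graph difference `(Q_{G0} - Q_{G1}) - (Q_{G0|O} - Q_{G1|O})` is `≤ C e^{-κ r - κ d (f, f') - κ D}` (`guarded_face_error` for `H`; the junction terms cancel EXACTLY, `lk_J4`, if `r ≥ 4`);
      `Q2`: `|Q_T - Q_T'| (f, f') ≤ C e^{-κ ρ - κ d (f, f')}` if `disc T T'` has distance `≥ ρ ≥ 3` from `f` (`FaceLoc`, second line, with `D = ρ - d (f, f')`; junction terms: `F4a.sigsum_local`).
* (B) `cutS S` = the topology in which exactly the events of `S` are cut.  One step (`lk_step`), telescoping over a set of events (`lk_tel`).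
* (C) bound A: `|Mbox O (f, f')| ≤ C e^{-κ R/32 - κ d (f, f')}` for EVERY box `O` (two colours; the cores of one colour are disjoint, `F4a.sum_exp_idist`).
* (D) bound B: `|Mbox O_j - Mbox O_{j-1}| (f, f') ≤ C e^{-κ (2^{j-1} R - 2 R) - κ d (f, f')}` for `j ≥ 3` (the new events do not see `f`; three two-graph differences).
* (E) `j ≤ 2`: bound A twice;  `j ≥ 3`: bound B.
The geometry of the events enters only through the structure `LinkGeo` (5 clauses).
-/

set_option autoImplicit false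

namespace Claimed.Agent.R285.Ent

open scoped BigOperators ENNReal NNReal
open Claimed.Agent.R285 Claimed.Agent.R285.RG Claimed.Agent.R285.F4a

noncomputable section

variable {G : Geom}

/-! ## (A) the two estimates of `Qmat` -/

/-- four graphs -/
def Q4 (a C κ : ℝ) (n1 : ℕ) : Prop :=
  ∀ (G : Geom) (c : Grid G), Whole c → n1 ≤ c.n → ∀ G0 G1 : Top c, G0.Ok → G1.Ok →
    ∀ (O : Finset c.I) (r : ℕ), 4 ≤ r → (∀ i ∈ G0.disc G1, ∀ j, j ∉ O → r ≤ c.idist i j) →
    ∀ (f f' : Face c) (D : ℕ), (∀ i ∈ G0.disc G1, D ≤ c.idist i f.1 ∧ D ≤ c.idist i f'.1) →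
      |(G0.Qmat a f f' - G1.Qmat a f f') - ((G0.restr O).Qmat a f f' - (G1.restr O).Qmat a f f')|
        ≤ C * Real.exp (-κ * r - κ * c.idist f.1 f'.1 - κ * D)

/-- two graphs -/
def Q2 (a C κ : ℝ) (n1 : ℕ) : Prop :=
  ∀ (G : Geom) (c : Grid G), Whole c → n1 ≤ c.n → ∀ T T' : Top c, T.Ok → T'.Ok →
    ∀ (f f' : Face c) (ρ : ℕ), 3 ≤ ρ → (∀ i ∈ T.disc T', ρ ≤ c.idist i f.1) →
      |T.Qmat a f f' - T'.Qmat a f f'| ≤ C * Real.exp (-κ * ρ - κ * c.idist f.1 f'.1)

open Classical in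
/-- the junction matrix -/
def Jm {c : Grid G} (T : Top c) (f f' : Face c) : ℝ := ∑ z ∈ T.V4, sig c z (Pi.single f 1) * sig c z (Pi.single f' 1)

theorem lk_Qmat_eq {c : Grid G} (T : Top c) (a Ds : ℝ) (f f' : Face c) : T.Qmat a f f' = T.Hm a Ds f f' + Ds * Jm T f f' := by
  unfold Top.Hm Jm
  ring

theorem lk_mem_V4 {c : Grid G} (T : Top c) (z : c.I) : z ∈ T.V4 ↔ ((z, true) ∈ T.faces ∧ (fnb c (z, true), false) ∈ T.faces ∧
    (fnb c (z, false), true) ∈ T.faces ∧ (z, false) ∈ T.faces) := by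
  classical
  simp only [Top.V4, Finset.mem_filter, Finset.mem_univ, true_and]

theorem lk_mem_restr_faces {c : Grid G} (T : Top c) (O : Finset c.I) (f : Face c) :
    f ∈ (T.restr O).faces ↔ f ∈ T.faces ∧ f.1 ∈ O ∧ fnb c f ∈ O := by
  classical
  simp only [Top.restr, Finset.mem_filter]

/-- a junction of an `Ok` topology all of whose cells lie in `O` survives the restriction -/
theorem lk_V4_restr {c : Grid G} (T : Top c) (hT : T.Ok) (O : Finset c.I) (z i : c.I) (hi : c.idist i z ≤ 1)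
    (h : ∀ j, j ∉ O → 4 ≤ c.idist i j) : z ∈ (T.restr O).V4 ↔ z ∈ T.V4 := by
  have hO : ∀ j, c.idist i j ≤ 3 → j ∈ O := fun j hj => by
    by_contra hn
    have := h j hn
    omega
  rw [lk_mem_V4, lk_mem_V4]
  simp only [lk_mem_restr_faces]
  constructor
  · rintro ⟨h1, h2, h3, h4⟩
    exact ⟨h1.1, h2.1, h3.1, h4.1⟩
  · rintro ⟨h1, h2, h3, h4⟩
    have d1 := idist_fnb _ (hT _ h1).1
    have d2 := idist_fnb _ (hT _ h2).1
    have d3 := idist_fnb _ (hT _ h3).1
    have d4 := idist_fnb _ (hT _ h4).1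
    simp only at d1 d2 d3 d4
    have e1 : c.idist z (fnb c (z, true)) ≤ 1 := by rw [Alg.idist_comm]; exact d1
    have e4 : c.idist z (fnb c (z, false)) ≤ 1 := by rw [Alg.idist_comm]; exact d4
    have e2 : c.idist (fnb c (z, true)) (fnb c (fnb c (z, true), false)) ≤ 1 := by rw [Alg.idist_comm]; exact d2
    have e3 : c.idist (fnb c (z, false)) (fnb c (fnb c (z, false), true)) ≤ 1 := by rw [Alg.idist_comm]; exact d3
    have t1 := Alg.idist_triangle c i z (fnb c (z, true))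
    have t4 := Alg.idist_triangle c i z (fnb c (z, false))
    have t2 := Alg.idist_triangle c i (fnb c (z, true)) (fnb c (fnb c (z, true), false))
    have t3 := Alg.idist_triangle c i (fnb c (z, false)) (fnb c (fnb c (z, false), true))
    have z0 : z ∈ O := hO z (by omega)
    have z1 : fnb c (z, true) ∈ O := hO _ (by omega)
    have z4 : fnb c (z, false) ∈ O := hO _ (by omega)
    have z2 : fnb c (fnb c (z, true), false) ∈ O := hO _ (by omega)
    have z3 : fnb c (fnb c (z, false), true) ∈ O := hO _ (by omega)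
    exact ⟨⟨h1, z0, z1⟩, ⟨h2, z1, z2⟩, ⟨h3, z4, z3⟩, ⟨h4, z0, z4⟩⟩

/-- LEAF L-ENT-LK-A1.  Junctions near the discrepancy lie inside `O`; the others do not change. -/
theorem lk_V4_four {c : Grid G} (G0 G1 : Top c) (h0 : G0.Ok) (h1 : G1.Ok) (O : Finset c.I)
    (h : ∀ i ∈ G0.disc G1, ∀ j, j ∉ O → 4 ≤ c.idist i j) (z : c.I) :
    ((z ∈ G0.V4 ↔ z ∈ G1.V4) ∧ (z ∈ (G0.restr O).V4 ↔ z ∈ (G1.restr O).V4)) ∨
      ((z ∈ (G0.restr O).V4 ↔ z ∈ G0.V4) ∧ (z ∈ (G1.restr O).V4 ↔ z ∈ G1.V4)) := by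
  by_cases hz : ∀ i ∈ G0.disc G1, 2 ≤ c.idist i z
  · left
    exact ⟨V4_local G0 G1 h0 h1 z hz,
      V4_local _ _ (restr_ok G0 h0 O) (restr_ok G1 h1 O) z fun i hi => hz i (disc_restr G0 G1 O hi)⟩
  · right
    simp only [not_forall, not_le] at hz
    obtain ⟨i, hi, hiz⟩ := hz
    exact ⟨lk_V4_restr G0 h0 O z i (by omega) (h i hi), lk_V4_restr G1 h1 O z i (by omega) (h i hi)⟩

theorem lk_Jm_eq {c : Grid G} (T : Top c) (f f' : Face c) :
    Jm T f f' = ∑ z, if z ∈ T.V4 then sig c z (Pi.single f 1) * sig c z (Pi.single f' 1) else 0 := by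
  unfold Jm
  rw [Finset.sum_ite_mem, Finset.univ_inter]

/-- LEAF L-ENT-LK-A1.  **exact cancellation of the junction terms** -/
theorem lk_J4 {c : Grid G} (G0 G1 : Top c) (h0 : G0.Ok) (h1 : G1.Ok) (O : Finset c.I)
    (h : ∀ i ∈ G0.disc G1, ∀ j, j ∉ O → 4 ≤ c.idist i j) (f f' : Face c) :
    Jm G0 f f' - Jm G1 f f' = Jm (G0.restr O) f f' - Jm (G1.restr O) f f' := by
  classical
  rw [lk_Jm_eq, lk_Jm_eq, lk_Jm_eq, lk_Jm_eq, ← Finset.sum_sub_distrib, ← Finset.sum_sub_distrib]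
  refine Finset.sum_congr rfl fun z _ => ?_
  rcases lk_V4_four G0 G1 h0 h1 O h z with ⟨a1, a2⟩ | ⟨a1, a2⟩
  · simp only [a1, a2, sub_self]
  · simp only [a1, a2]

/-- `4 max (d, ρ - d) ≥ ρ + d` -/
theorem lk_max_ge (ρ d : ℕ) : (ρ : ℝ) + d ≤ 4 * max (d : ℝ) ((ρ - d : ℕ) : ℝ) := by
  have h : ρ + d ≤ 4 * max d (ρ - d) := by omega
  have h' : ((ρ + d : ℕ) : ℝ) ≤ ((4 * max d (ρ - d) : ℕ) : ℝ) := by exact_mod_cast h
  push_cast at h'
  exact h'

/-- LEAF L-ENT-LK-A2.  From `face_localization`, `guarded_face_error`, `lk_J4`, `sigsum_local`. -/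
theorem lk_face (a : ℝ) (ha : 0 < a) : ∃ (C κ : ℝ) (n1 : ℕ), 0 ≤ C ∧ 0 < κ ∧ Q4 a C κ n1 ∧ Q2 a C κ n1 := by
  obtain ⟨C0, cc, n1, Ds, hcc, hFL⟩ := face_localization a ha
  obtain ⟨C', cc', hcc', hG⟩ := guarded_face_error a C0 cc n1 Ds hcc hFL
  have hκ1 : min cc' (cc / 4) ≤ cc' := min_le_left _ _
  have hκ2 : min cc' (cc / 4) ≤ cc / 4 := min_le_right _ _
  have hC1 : C' ≤ max (max C' C0) 0 := (le_max_left _ _).trans (le_max_left _ _)
  have hC2 : C0 ≤ max (max C' C0) 0 := (le_max_right _ _).trans (le_max_left _ _)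
  have hC0 : 0 ≤ max (max C' C0) 0 := le_max_right _ _
  refine ⟨max (max C' C0) 0, min cc' (cc / 4), n1, hC0, lt_min hcc' (by positivity), ?_, ?_⟩
  · intro G c hc hn G0 G1 h0 h1 O r hr hO f f' D hD
    have hJ := lk_J4 G0 G1 h0 h1 O (fun i hi j hj => hr.trans (hO i hi j hj)) f f'
    have hH := hG G c hc hn G0 G1 h0 h1 O r hO f f' D hD
    have e : (G0.Qmat a f f' - G1.Qmat a f f') - ((G0.restr O).Qmat a f f' - (G1.restr O).Qmat a f f')
        = (G0.Hm a (Ds c.m) f f' - G1.Hm a (Ds c.m) f f') - ((G0.restr O).Hm a (Ds c.m) f f' - (G1.restr O).Hm a (Ds c.m) f f') := by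
      rw [lk_Qmat_eq G0 a (Ds c.m), lk_Qmat_eq G1 a (Ds c.m), lk_Qmat_eq (G0.restr O) a (Ds c.m), lk_Qmat_eq (G1.restr O) a (Ds c.m)]
      linear_combination (Ds c.m) * hJ
    rw [e]
    refine hH.trans ?_
    refine (mul_le_mul_of_nonneg_right hC1 (Real.exp_pos _).le).trans (mul_le_mul_of_nonneg_left (Real.exp_le_exp.2 ?_) hC0)
    have p1 : (0 : ℝ) ≤ r := Nat.cast_nonneg _
    have p2 : (0 : ℝ) ≤ c.idist f.1 f'.1 := Nat.cast_nonneg _
    have p3 : (0 : ℝ) ≤ D := Nat.cast_nonneg _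
    have q1 := mul_le_mul_of_nonneg_right hκ1 p1
    have q2 := mul_le_mul_of_nonneg_right hκ1 p2
    have q3 := mul_le_mul_of_nonneg_right hκ1 p3
    linarith
  · intro G c hc hn T T' hT hT' f f' ρ hρ hd
    have hJ : Jm T f f' = Jm T' f f' := sigsum_local hc.two T T' hT hT' f f' fun i hi => hρ.trans (hd i hi)
    have h3 := ((hFL c.m hc.pos).2.2 G c hc rfl hn T hT).2.2 T' hT' f f' (ρ - c.idist f.1 f'.1) (fun i hi => by
      have t1 := hd i hi
      have t2 := Alg.idist_triangle c i f'.1 f.1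
      have t3 := Alg.idist_comm c f'.1 f.1
      constructor <;> omega)
    have e : T.Qmat a f f' - T'.Qmat a f f' = T.Hm a (Ds c.m) f f' - T'.Hm a (Ds c.m) f f' := by
      rw [lk_Qmat_eq T a (Ds c.m), lk_Qmat_eq T' a (Ds c.m), hJ]
      ring
    rw [e]
    refine h3.trans ?_
    have hmin : min (Real.exp (-cc * c.idist f.1 f'.1)) (Real.exp (-cc * ((ρ - c.idist f.1 f'.1 : ℕ) : ℝ)))
        ≤ Real.exp (-min cc' (cc / 4) * ρ - min cc' (cc / 4) * c.idist f.1 f'.1) := by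
      have hm := lk_max_ge ρ (c.idist f.1 f'.1)
      have p1 : (0 : ℝ) ≤ (ρ : ℝ) + c.idist f.1 f'.1 := by positivity
      have q1 := mul_le_mul_of_nonneg_right hκ2 p1
      rcases le_total ((c.idist f.1 f'.1 : ℕ) : ℝ) ((ρ - c.idist f.1 f'.1 : ℕ) : ℝ) with hle | hle
      · rw [max_eq_right hle] at hm
        refine (min_le_right _ _).trans (Real.exp_le_exp.2 ?_)
        nlinarith
      · rw [max_eq_left hle] at hm
        refine (min_le_left _ _).trans (Real.exp_le_exp.2 ?_)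
        nlinarith
    have hpos : 0 ≤ min (Real.exp (-cc * c.idist f.1 f'.1)) (Real.exp (-cc * ((ρ - c.idist f.1 f'.1 : ℕ) : ℝ))) :=
      le_min (Real.exp_pos _).le (Real.exp_pos _).le
    exact (mul_le_mul_of_nonneg_right hC2 hpos).trans (mul_le_mul_of_nonneg_left hmin hC0)

/-! ## (B) steps -/

/-- the topology in which exactly the events of `S` are cut -/
def cutS (c : Grid G) (R : ℕ) (S : Finset EvId) : Top c := topU c R (events c R \ S)

/-- the difference of the two patch matrices of an event -/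
def Xk (c : Grid G) (R : ℕ) (a : ℝ) (k : EvId) (f f' : Face c) : ℝ := (topO c R k).Qmat a f f' - (topC c R k).Qmat a f f'

/-- **the event `k` can be performed after the events of `S` inside the box `O`, with guard distance `r`** -/
def Step (c : Grid G) (R : ℕ) (a : ℝ) (O : Finset c.I) (r : ℕ) (S : Finset EvId) (k : EvId) : Prop :=
  ∃ O' : Finset c.I, O' ⊆ O ∧ (∀ i ∈ core c R k, ∀ j, j ∉ O' → r ≤ c.idist i j) ∧
    ∀ f f', ((cutS c R S).restr O').Qmat a f f' - ((cutS c R (insert k S)).restr O').Qmat a f f' = Xk c R a k f f'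

/-- the weight of a cell seen from two faces -/
def gw (c : Grid G) (κ : ℝ) (f f' : Face c) (i : c.I) : ℝ := Real.exp (-κ * c.idist i f.1) + Real.exp (-κ * c.idist i f'.1)

variable {c : Grid G}

theorem lk_cutS_ok (R : ℕ) (S : Finset EvId) : (cutS c R S).Ok := by
  intro f hf
  exact ⟨(mem_topU_faces.1 hf).1, Finset.mem_univ _, Finset.mem_univ _⟩

theorem lk_cutS_empty (R : ℕ) : cutS c R ∅ = Top.full c := by
  unfold cutS
  rw [Finset.sdiff_empty, topU_events]

/-- LEAF L-ENT-LK-B1 -/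
theorem lk_disc_cutS (R : ℕ) (S S' : Finset EvId) (hS : S ⊆ S') : (cutS c R S).disc (cutS c R S') ⊆ (S' \ S).biUnion (core c R) := by
  classical
  intro i hi
  unfold Top.disc at hi
  rcases (Finset.mem_filter.1 hi).2 with h | ⟨f, hfi, hf⟩
  · exact absurd (Iff.intro (fun _ => Finset.mem_univ _) (fun _ => Finset.mem_univ _)) h
  · unfold cutS at hf
    rw [mem_topU_faces, mem_topU_faces] at hf
    have hF : IsFace c f := by
      by_contra hF
      exact hf (by simp [hF])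
    have hne : tile c R (fnb c f) ≠ tile c R f.1 := by
      intro he
      exact hf (by simp [hF, he])
    have hseam : f ∈ seam c R := mem_seam.2 ⟨hF, hne⟩
    have hev : evKey c R f ∈ events c R := Finset.mem_image_of_mem _ hseam
    have hk : evKey c R f ∈ S' \ S := by
      rw [Finset.mem_sdiff]
      by_cases h1 : evKey c R f ∈ S
      · exact absurd (by simp [hF, hne, hev, h1, hS h1]) hf
      · by_cases h2 : evKey c R f ∈ S'
        · exact ⟨h2, h1⟩
        · exact absurd (by simp [hF, hne, hev, h1, h2]) hf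
    obtain ⟨c1, c2⟩ := mem_core_of_key hseam
    refine Finset.mem_biUnion.2 ⟨_, hk, ?_⟩
    rcases hfi with rfl | rfl
    · exact c1
    · exact c2

/-- LEAF L-ENT-LK-B2.  One step. -/
theorem lk_step {a C κ : ℝ} {n1 : ℕ} (hC : 0 ≤ C) (h4 : Q4 a C κ n1) (hc : Whole c) (hn : n1 ≤ c.n) {R r : ℕ} {O : Finset c.I}
    {S : Finset EvId} {k : EvId} (hr : 4 ≤ r) (hk : k ∈ events c R) (hs : Step c R a O r S k) (f f' : Face c) :
    |(((cutS c R S).restr O).Qmat a f f' - ((cutS c R (insert k S)).restr O).Qmat a f f') - Xk c R a k f f'|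
      ≤ C * Real.exp (-κ * r - κ * c.idist f.1 f'.1) * ∑ i ∈ core c R k, gw c κ f f' i := by
  classical
  obtain ⟨O', hO', hg, hX⟩ := hs
  -- the core is nonempty
  have hne : (core c R k).Nonempty := by
    obtain ⟨g, hg1, hg2⟩ := Finset.mem_image.1 hk
    exact ⟨g.1, hg2 ▸ (mem_core_of_key hg1).1⟩
  obtain ⟨i₀, hi₀, hmin⟩ := Finset.exists_min_image (core c R k)
    (fun i => min (c.idist i f.1) (c.idist i f'.1)) hne
  have hdisc : ((cutS c R S).restr O).disc ((cutS c R (insert k S)).restr O) ⊆ core c R k := by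
    refine (disc_restr _ _ O).trans ((lk_disc_cutS R S (insert k S) (Finset.subset_insert _ _)).trans ?_)
    intro i hi
    obtain ⟨k', hk', hi'⟩ := Finset.mem_biUnion.1 hi
    obtain ⟨h1, h2⟩ := Finset.mem_sdiff.1 hk'
    rcases Finset.mem_insert.1 h1 with rfl | h1
    · exact hi'
    · exact absurd h1 h2
  have key := h4 G c hc hn ((cutS c R S).restr O) ((cutS c R (insert k S)).restr O)
    (restr_ok _ (lk_cutS_ok R S) O) (restr_ok _ (lk_cutS_ok R (insert k S)) O) O' r hr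
    (fun i hi j hj => hg i (hdisc hi) j hj) f f' (min (c.idist i₀ f.1) (c.idist i₀ f'.1))
    (fun i hi => ⟨(hmin i (hdisc hi)).trans (min_le_left _ _), (hmin i (hdisc hi)).trans (min_le_right _ _)⟩)
  rw [restr_restr, restr_restr, Finset.inter_eq_right.2 hO', hX] at key
  refine key.trans ?_
  have e : Real.exp (-κ * r - κ * c.idist f.1 f'.1 - κ * (min (c.idist i₀ f.1) (c.idist i₀ f'.1) : ℕ))
      = Real.exp (-κ * r - κ * c.idist f.1 f'.1) * Real.exp (-κ * (min (c.idist i₀ f.1) (c.idist i₀ f'.1) : ℕ)) := by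
    rw [← Real.exp_add]
    congr 1
    ring
  rw [e, mul_assoc]
  refine mul_le_mul_of_nonneg_left (mul_le_mul_of_nonneg_left ?_ (Real.exp_pos _).le) hC
  have h1 : Real.exp (-κ * (min (c.idist i₀ f.1) (c.idist i₀ f'.1) : ℕ)) ≤ gw c κ f f' i₀ := by
    unfold gw
    rcases min_choice (c.idist i₀ f.1) (c.idist i₀ f'.1) with h | h
    · rw [h]
      linarith [Real.exp_pos (-κ * (c.idist i₀ f'.1 : ℝ))]
    · rw [h]
      linarith [Real.exp_pos (-κ * (c.idist i₀ f.1 : ℝ))]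
  refine h1.trans (Finset.single_le_sum (f := fun i => gw c κ f f' i) (fun i _ => ?_) hi₀)
  unfold gw
  positivity

/-- LEAF L-ENT-LK-B3.  Telescoping. -/
theorem lk_tel {a C κ : ℝ} {n1 : ℕ} (hC : 0 ≤ C) (h4 : Q4 a C κ n1) (hc : Whole c) (hn : n1 ≤ c.n) {R r : ℕ} {O : Finset c.I} (hr : 4 ≤ r)
    (S0 P : Finset EvId) (hP : P ⊆ events c R) (hs : ∀ S ⊆ P, ∀ k ∈ P, k ∉ S → Step c R a O r (S0 ∪ S) k) (f f' : Face c) :
    |((cutS c R S0).restr O).Qmat a f f' - ((cutS c R (S0 ∪ P)).restr O).Qmat a f f' - ∑ k ∈ P, Xk c R a k f f'|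
      ≤ C * Real.exp (-κ * r - κ * c.idist f.1 f'.1) * ∑ k ∈ P, ∑ i ∈ core c R k, gw c κ f f' i := by
  classical
  induction P using Finset.induction_on with
  | empty => simp
  | insert k P hk ih =>
    have ih' := ih ((Finset.subset_insert _ _).trans hP)
      (fun S hS k' hk' hn' => hs S (hS.trans (Finset.subset_insert _ _)) k' (Finset.mem_insert_of_mem hk') hn')
    have st := lk_step hC h4 hc hn hr (hP (Finset.mem_insert_self _ _))
      (hs P (Finset.subset_insert _ _) k (Finset.mem_insert_self _ _) hk) f f'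
    rw [Finset.union_insert, Finset.sum_insert hk, Finset.sum_insert hk, mul_add]
    have tri := abs_add_le
      (((cutS c R S0).restr O).Qmat a f f' - ((cutS c R (S0 ∪ P)).restr O).Qmat a f f' - ∑ k ∈ P, Xk c R a k f f')
      ((((cutS c R (S0 ∪ P)).restr O).Qmat a f f' - ((cutS c R (insert k (S0 ∪ P))).restr O).Qmat a f f') - Xk c R a k f f')
    have e : ((cutS c R S0).restr O).Qmat a f f' - ((cutS c R (insert k (S0 ∪ P))).restr O).Qmat a f f'
          - (Xk c R a k f f' + ∑ k ∈ P, Xk c R a k f f')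
        = (((cutS c R S0).restr O).Qmat a f f' - ((cutS c R (S0 ∪ P)).restr O).Qmat a f f' - ∑ k ∈ P, Xk c R a k f f')
          + ((((cutS c R (S0 ∪ P)).restr O).Qmat a f f' - ((cutS c R (insert k (S0 ∪ P))).restr O).Qmat a f f')
            - Xk c R a k f f') := by ring
    rw [e]
    linarith

/-! ## The geometric input -/

/-- **everything `LinkStmt` uses about the geometry of the events** -/
structure LinkGeo (c : Grid G) (R : ℕ) (a : ℝ) : Prop where
  /-- the cores of one colour are disjoint -/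
  disj : ∀ k ∈ events c R, ∀ k' ∈ events c R, k.1 = k'.1 → k ≠ k' → Disjoint (core c R k) (core c R k')
  /-- diameter of a core -/
  diam : ∀ k ∈ events c R, ∀ i ∈ core c R k, ∀ i' ∈ core c R k, c.idist i i' ≤ R
  /-- the patch is near the core -/
  patch : ∀ k ∈ events c R, patch c R k ⊆ nbh c (R / 32) (core c R k)
  /-- first colour, in any order -/
  step1 : ∀ (O : Finset c.I) (S : Finset EvId) (k : EvId), S ⊆ (Wt.perf (c := c) R O).filter (fun k => k.1 = false) →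
    k ∈ Wt.perf (c := c) R O → k.1 = false → k ∉ S → Step c R a O (R / 32) S k
  /-- second colour, after the first colour, in any order -/
  step2 : ∀ (O : Finset c.I) (S : Finset EvId) (k : EvId), S ⊆ (Wt.perf (c := c) R O).filter (fun k => k.1 = true) →
    k ∈ Wt.perf (c := c) R O → k.1 = true → k ∉ S → Step c R a O (R / 32) ((Wt.perf (c := c) R O).filter (fun k => k.1 = false) ∪ S) k

/-! ## (C) bound A -/

/-- the lattice sum -/
def Slat (κ : ℝ) : ℝ := (2 / (1 - Real.exp (-κ / 2))) ^ 2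

/-- LEAF L-ENT-LK-C1 -/
theorem lk_core_sum {R : ℕ} {a κ : ℝ} (hκ : 0 < κ) (hg : LinkGeo c R a) (P : Finset EvId) (hP : P ⊆ events c R) (b : Bool) (hb : ∀ k ∈ P, k.1 = b)
    (f f' : Face c) : ∑ k ∈ P, ∑ i ∈ core c R k, gw c κ f f' i ≤ 2 * Slat κ := by
  classical
  have hdis : (P : Set EvId).PairwiseDisjoint (core c R) := by
    intro k hk k' hk' hne
    exact hg.disj k (hP hk) k' (hP hk') ((hb k hk).trans (hb k' hk').symm) hne
  rw [← Finset.sum_biUnion hdis]
  have h0 : ∀ i, 0 ≤ gw c κ f f' i := fun i => add_nonneg (Real.exp_pos _).le (Real.exp_pos _).le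
  refine (Finset.sum_le_sum_of_subset_of_nonneg (Finset.subset_univ _) fun i _ _ => h0 i).trans ?_
  unfold gw
  rw [Finset.sum_add_distrib]
  have h1 := sum_exp_idist κ hκ c f.1
  have h2 := sum_exp_idist κ hκ c f'.1
  have e1 : ∑ i : c.I, Real.exp (-κ * c.idist i f.1) = ∑ i : c.I, Real.exp (-κ * c.idist f.1 i) :=
    Finset.sum_congr rfl fun i _ => by rw [Alg.idist_comm]
  have e2 : ∑ i : c.I, Real.exp (-κ * c.idist i f'.1) = ∑ i : c.I, Real.exp (-κ * c.idist f'.1 i) :=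
    Finset.sum_congr rfl fun i _ => by rw [Alg.idist_comm]
  rw [e1, e2]
  unfold Slat
  linarith

/-- LEAF L-ENT-LK-C2.  **Bound A**, every box. -/
theorem lk_boundA {a C κ : ℝ} {n1 : ℕ} (hC : 0 ≤ C) (hκ : 0 < κ) (h4 : Q4 a C κ n1) (hc : Whole c) (hn : n1 ≤ c.n) {R : ℕ} (hR : 128 ≤ R)
    (hg : LinkGeo c R a) (W : Wt c) (hW : ∀ T, W.Q T = T.Qmat a) (O : Finset c.I) (f f' : Face c) :
    |W.Mbox R O f f'| ≤ 4 * C * Slat κ * Real.exp (-κ * (R / 32 : ℕ) - κ * c.idist f.1 f'.1) := by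
  classical
  have hr : 4 ≤ R / 32 := by omega
  obtain ⟨P, hPdef⟩ : ∃ P : Finset EvId, P = Wt.perf (c := c) R O := ⟨_, rfl⟩
  obtain ⟨P1, hP1⟩ : ∃ P1 : Finset EvId, P1 = P.filter (fun k => k.1 = false) := ⟨_, rfl⟩
  obtain ⟨P2, hP2⟩ : ∃ P2 : Finset EvId, P2 = P.filter (fun k => k.1 = true) := ⟨_, rfl⟩
  have hPev : P ⊆ events c R := by
    rw [hPdef]
    exact Finset.filter_subset _ _
  have hP1ev : P1 ⊆ events c R := by rw [hP1]; exact (Finset.filter_subset _ _).trans hPev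
  have hP2ev : P2 ⊆ events c R := by rw [hP2]; exact (Finset.filter_subset _ _).trans hPev
  have hun : P1 ∪ P2 = P := by
    rw [hP1, hP2]
    ext k
    simp only [Finset.mem_union, Finset.mem_filter]
    constructor
    · rintro (h | h) <;> exact h.1
    · intro h
      cases hk : k.1
      · exact Or.inl ⟨h, rfl⟩
      · exact Or.inr ⟨h, rfl⟩
  have hdj : Disjoint P1 P2 := by
    rw [hP1, hP2, Finset.disjoint_left]
    intro k h1 h2
    rw [Finset.mem_filter] at h1 h2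
    rw [h1.2] at h2
    exact Bool.false_ne_true h2.2
  have t1 := lk_tel hC h4 hc hn (R := R) (r := R / 32) (O := O) hr ∅ P1 hP1ev (fun S hS k hk hkS => by
    rw [Finset.empty_union]
    rw [hP1, hPdef] at hS
    rw [hP1, hPdef, Finset.mem_filter] at hk
    exact hg.step1 O S k hS hk.1 hk.2 hkS) f f'
  have t2 := lk_tel hC h4 hc hn (R := R) (r := R / 32) (O := O) hr P1 P2 hP2ev (fun S hS k hk hkS => by
    rw [hP2, hPdef] at hS
    rw [hP2, hPdef, Finset.mem_filter] at hk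
    rw [hP1, hPdef]
    exact hg.step2 O S k hS hk.1 hk.2 hkS) f f'
  rw [Finset.empty_union, lk_cutS_empty] at t1
  rw [hun] at t2
  have s1 := lk_core_sum hκ hg P1 hP1ev false (fun k hk => by rw [hP1, Finset.mem_filter] at hk; exact hk.2) f f'
  have s2 := lk_core_sum hκ hg P2 hP2ev true (fun k hk => by rw [hP2, Finset.mem_filter] at hk; exact hk.2) f f'
  obtain ⟨E, hE⟩ : ∃ E : ℝ, E = C * Real.exp (-κ * (R / 32 : ℕ) - κ * c.idist f.1 f'.1) := ⟨_, rfl⟩
  have hE0 : 0 ≤ E := by rw [hE]; exact mul_nonneg hC (Real.exp_pos _).le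
  rw [← hE] at t1 t2
  have t1' := t1.trans (mul_le_mul_of_nonneg_left s1 hE0)
  have t2' := t2.trans (mul_le_mul_of_nonneg_left s2 hE0)
  have hM : W.Mbox R O f f' =
      ((((Top.full c).restr O).Qmat a f f' - ((cutS c R P1).restr O).Qmat a f f') - ∑ k ∈ P1, Xk c R a k f f')
      + ((((cutS c R P1).restr O).Qmat a f f' - ((cutS c R P).restr O).Qmat a f f') - ∑ k ∈ P2, Xk c R a k f f') := by
    have hs : ∑ k ∈ P, Xk c R a k f f' = ∑ k ∈ P1, Xk c R a k f f' + ∑ k ∈ P2, Xk c R a k f f' := by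
      rw [← hun, Finset.sum_union hdj]
    have hM0 : W.Mbox R O f f' = ((Top.full c).restr O).Qmat a f f' - ((cutS c R P).restr O).Qmat a f f' - ∑ k ∈ P, Xk c R a k f f' := by
      unfold Wt.Mbox cutS Xk
      simp only [hW, hPdef]
    rw [hM0, hs]
    ring
  rw [hM]
  refine (abs_add_le _ _).trans ?_
  have : 4 * C * Slat κ * Real.exp (-κ * (R / 32 : ℕ) - κ * c.idist f.1 f'.1) = E * (2 * Slat κ) + E * (2 * Slat κ) := by
    rw [hE]; ring
  rw [this]
  exact add_le_add t1' t2'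

/-! ## (D) bound B -/

theorem lk_mem_nbh {r : ℕ} {A : Finset c.I} {i : c.I} : i ∈ nbh c r A ↔ ∃ a ∈ A, c.idist a i ≤ r := by
  classical
  simp [nbh]

theorem lk_mem_perf {R : ℕ} {O : Finset c.I} {k : EvId} :
    k ∈ Wt.perf (c := c) R O ↔ k ∈ events c R ∧ (if k.1 then nbh c R (core c R k) ⊆ O else patch c R k ⊆ O) := by
  classical
  simp [Wt.perf]

theorem lk_perf_mono {R : ℕ} {O O' : Finset c.I} (h : O' ⊆ O) : Wt.perf (c := c) R O' ⊆ Wt.perf (c := c) R O := by
  intro k hk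
  rw [lk_mem_perf] at hk ⊢
  refine ⟨hk.1, ?_⟩
  have h2 := hk.2
  split_ifs at h2 ⊢
  · exact h2.trans h
  · exact h2.trans h

theorem lk_nbh_mono {r r' : ℕ} (h : r ≤ r') (A : Finset c.I) : nbh c r A ⊆ nbh c r' A := by
  intro i hi
  rw [lk_mem_nbh] at hi ⊢
  obtain ⟨a, ha, h1⟩ := hi
  exact ⟨a, ha, h1.trans h⟩

/-- LEAF L-ENT-LK-D1.  An event whose patch contains `f` is performed in every box of radius `≥ 3 R` around `f`. -/
theorem lk_see {R : ℕ} {a : ℝ} (hg : LinkGeo c R a) {k : EvId} (hk : k ∈ events c R) {f : Face c} (hf : f ∈ (topO c R k).faces) {ρ : ℕ} (hρ : 3 * R ≤ ρ) :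
    k ∈ Wt.perf (c := c) R (nbh c ρ (fcl c f)) := by
  classical
  have hf1 : f.1 ∈ patch c R k := by
    unfold topO Top.restr at hf
    exact (Finset.mem_filter.1 hf).2.1
  obtain ⟨a0, ha0, h0⟩ := lk_mem_nbh.1 (hg.patch k hk hf1)
  have key : nbh c R (core c R k) ⊆ nbh c ρ (fcl c f) := by
    intro x hx
    obtain ⟨a1, ha1, h1⟩ := lk_mem_nbh.1 hx
    refine lk_mem_nbh.2 ⟨f.1, by simp [fcl], ?_⟩
    have t1 := Alg.idist_triangle c f.1 a0 x
    have t2 := Alg.idist_triangle c a0 a1 x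
    have t3 := hg.diam k hk a0 ha0 a1 ha1
    rw [Alg.idist_comm c f.1 a0] at t1
    have : R / 32 ≤ R := Nat.div_le_self _ _
    omega
  rw [lk_mem_perf]
  refine ⟨hk, ?_⟩
  split_ifs
  · exact key
  · exact ((hg.patch k hk).trans (lk_nbh_mono (Nat.div_le_self _ _) _)).trans key

/-- LEAF L-ENT-LK-D1.  An event which is not performed in a box is far from its centre. -/
theorem lk_far {R : ℕ} {a : ℝ} (hg : LinkGeo c R a) {k : EvId} (hk : k ∈ events c R) {A : Finset c.I} {ρ : ℕ} (hn : k ∉ Wt.perf (c := c) R (nbh c ρ A)) :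
    ∀ i ∈ core c R k, ∀ x ∈ A, ρ ≤ c.idist i x + 2 * R := by
  classical
  intro i hi x hx
  have h1 : ¬ nbh c R (core c R k) ⊆ nbh c ρ A := by
    intro h
    apply hn
    rw [lk_mem_perf]
    refine ⟨hk, ?_⟩
    split_ifs
    · exact h
    · exact ((hg.patch k hk).trans (lk_nbh_mono (Nat.div_le_self _ _) _)).trans h
  obtain ⟨y, hy, hy'⟩ := Finset.not_subset.1 h1
  obtain ⟨a1, ha1, h2⟩ := lk_mem_nbh.1 hy
  have h3 : ρ < c.idist x y := by
    by_contra h
    exact hy' (lk_mem_nbh.2 ⟨x, hx, not_lt.1 h⟩)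
  have t1 := Alg.idist_triangle c x i y
  have t2 := Alg.idist_triangle c i a1 y
  have t3 := hg.diam k hk i hi a1 ha1
  rw [Alg.idist_comm c x i] at t1
  omega

theorem lk_full_ok : (Top.full c).Ok := by
  rw [← lk_cutS_empty (c := c) 0]
  exact lk_cutS_ok 0 ∅

theorem lk_topC_faces (R : ℕ) (k : EvId) : (topC c R k).faces ⊆ (topO c R k).faces := by
  classical
  intro f hf
  unfold topC Top.restr at hf
  unfold topO Top.restr
  obtain ⟨h1, h2⟩ := Finset.mem_filter.1 hf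
  refine Finset.mem_filter.2 ⟨?_, h2⟩
  rw [mem_topU_faces] at h1 ⊢
  refine ⟨h1.1, h1.2.imp id fun h => (Finset.mem_sdiff.1 h).1⟩

/-- LEAF L-ENT-LK-D2.  **Bound B.** -/
theorem lk_boundB {a C κ : ℝ} {n1 : ℕ} (hC : 0 ≤ C) (hκ : 0 < κ) (h2 : Q2 a C κ n1) (ha : 0 < a) (hc : Whole c) (hn : n1 ≤ c.n) {R : ℕ} (hR : 128 ≤ R)
    (hg : LinkGeo c R a) (W : Wt c) (hW : ∀ T, W.Q T = T.Qmat a) (f f' : Face c) (j : ℕ) (hj : 3 ≤ j) :
    |W.Mbox R (lbox c R f j) f f' - W.Mbox R (lbox c R f (j - 1)) f f'|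
      ≤ 3 * C * Real.exp (-κ * (2 ^ (j - 2) * R : ℕ) - κ * c.idist f.1 f'.1) := by
  classical
  obtain ⟨m, rfl⟩ : ∃ m, j = m + 3 := ⟨j - 3, by omega⟩
  have e1 : m + 3 - 1 = m + 2 := by omega
  have e2 : m + 3 - 2 = m + 1 := by omega
  rw [e1, e2]
  set O := lbox c R f (m + 3) with hO
  set O' := lbox c R f (m + 2) with hO'
  set ρ : ℕ := 2 ^ (m + 1) * R with hρ
  have hpow : 1 ≤ 2 ^ m := Nat.one_le_two_pow
  have hρ2 : 2 ^ (m + 2) * R = 2 * ρ := by rw [hρ]; ring
  have hρR : 2 * R ≤ ρ := by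
    rw [hρ, pow_succ]
    nlinarith
  have hρ3 : 3 ≤ ρ := by omega
  have hOO : O' ⊆ O := by
    rw [hO, hO']
    unfold lbox
    refine lk_nbh_mono ?_ _
    exact Nat.mul_le_mul_right _ (Nat.pow_le_pow_right (by norm_num) (by omega))
  have hinter : O ∩ O' = O' := Finset.inter_eq_right.2 hOO
  set P := Wt.perf (c := c) R O with hP
  set P' := Wt.perf (c := c) R O' with hP'
  have hPP : P' ⊆ P := lk_perf_mono hOO
  have hPev : P ⊆ events c R := fun k hk => (lk_mem_perf.1 hk).1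
  -- (i) the new events do not see `f`
  have hX : ∀ k ∈ P \ P', (topO c R k).Qmat a f f' - (topC c R k).Qmat a f f' = 0 := by
    intro k hk
    obtain ⟨hk1, hk2⟩ := Finset.mem_sdiff.1 hk
    have hf : f ∉ (topO c R k).faces := by
      intro hf
      apply hk2
      rw [hP', hO']
      unfold lbox
      refine lk_see hg (hPev hk1) hf ?_
      rw [hρ2]
      omega
    have hf' : f ∉ (topC c R k).faces := fun h => hf (lk_topC_faces R k h)
    rw [(Qf_quadratic (topO c R k) a ha 0).2 f f' (Or.inl hf), (Qf_quadratic (topC c R k) a ha 0).2 f f' (Or.inl hf'), sub_zero]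
  have hsum : ∑ k ∈ P, ((topO c R k).Qmat a f f' - (topC c R k).Qmat a f f')
      = ∑ k ∈ P', ((topO c R k).Qmat a f f' - (topC c R k).Qmat a f f') := by
    rw [← Finset.sum_sdiff hPP, Finset.sum_eq_zero hX, zero_add]
  -- far from the complement of `O'`
  have hout : ∀ T : Top c, T.Ok → ∀ i ∈ (T.restr O).disc (T.restr O'), ρ ≤ c.idist i f.1 := by
    intro T hT i hi
    have hi' : i ∈ (T.restr O).disc ((T.restr O).restr O') := by rwa [restr_restr, hinter]
    obtain ⟨y, hy, hy1⟩ := disc_restr_self (T.restr O) (restr_ok T hT O) O' i hi'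
    have h3 : 2 * ρ < c.idist f.1 y := by
      by_contra h
      apply hy
      rw [hO']
      unfold lbox
      rw [hρ2]
      exact lk_mem_nbh.2 ⟨f.1, by simp [fcl], not_lt.1 h⟩
    have t1 := Alg.idist_triangle c f.1 i y
    rw [Alg.idist_comm c f.1 i] at t1
    omega
  have hB : ∀ T : Top c, T.Ok → |(T.restr O).Qmat a f f' - (T.restr O').Qmat a f f'|
      ≤ C * Real.exp (-κ * ρ - κ * c.idist f.1 f'.1) := fun T hT =>
    h2 G c hc hn (T.restr O) (T.restr O') (restr_ok T hT O) (restr_ok T hT O') f f' ρ hρ3 (hout T hT)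
  have hB1 := hB (Top.full c) lk_full_ok
  have hB2 := hB (cutS c R P) (lk_cutS_ok R P)
  have hB3 : |((cutS c R P').restr O').Qmat a f f' - ((cutS c R P).restr O').Qmat a f f'|
      ≤ C * Real.exp (-κ * ρ - κ * c.idist f.1 f'.1) := by
    refine h2 G c hc hn _ _ (restr_ok _ (lk_cutS_ok R P') O') (restr_ok _ (lk_cutS_ok R P) O') f f' ρ hρ3 ?_
    intro i hi
    have h3 := lk_disc_cutS (c := c) R P' P hPP (disc_restr _ _ O' hi)
    obtain ⟨k, hk, hik⟩ := Finset.mem_biUnion.1 h3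
    obtain ⟨hk1, hk2⟩ := Finset.mem_sdiff.1 hk
    have h4 := lk_far hg (hPev hk1) (A := fcl c f) (ρ := 2 ^ (m + 2) * R) hk2 i hik f.1 (by simp [fcl])
    rw [hρ2] at h4
    omega
  have hM : W.Mbox R O f f' - W.Mbox R O' f f'
      = (((Top.full c).restr O).Qmat a f f' - ((Top.full c).restr O').Qmat a f f')
        - (((cutS c R P).restr O).Qmat a f f' - ((cutS c R P).restr O').Qmat a f f')
        + (((cutS c R P').restr O').Qmat a f f' - ((cutS c R P).restr O').Qmat a f f') := by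
    unfold Wt.Mbox
    simp only [hW]
    rw [← hP, ← hP', hsum]
    unfold cutS
    ring
  rw [hM]
  set E := C * Real.exp (-κ * ρ - κ * c.idist f.1 f'.1) with hE
  have hfin : 3 * C * Real.exp (-κ * (ρ : ℕ) - κ * c.idist f.1 f'.1) = E + E + E := by
    rw [hE]; ring
  rw [hfin]
  refine (abs_add_le _ _).trans (add_le_add ((abs_sub _ _).trans (add_le_add hB1 hB2)) hB3)

/-! ## (E) the exit -/

/-- the geometric input of `LinkStmt` (post GEO) -/
def LinkGeoStmt : Prop := ∀ (a : ℝ), 0 < a → ∀ (G : Geom) (c : Grid G) (R : ℕ), GeoOK c R → 128 ≤ R → LinkGeo c R a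

/-- LEAF L-ENT-LK-E.  **POST LOC, exit 2** -/
theorem link_of (hgeo : LinkGeoStmt) : LinkStmt := by
  intro a ha
  obtain ⟨C, κ, n1, hC, hκ, h4, h2⟩ := lk_face a ha
  have hS : 0 ≤ Slat κ := by unfold Slat; positivity
  refine ⟨4 * C * Slat κ + 3 * C, κ / 256, max 7 n1, by positivity, ?_⟩
  intro G c R hG hR W hW
  have hR128 : 128 ≤ R := by
    have h1 : 2 ^ 7 ≤ 2 ^ (max 7 n1) := Nat.pow_le_pow_right (by norm_num) (le_max_left _ _)
    have : (2 : ℕ) ^ 7 = 128 := by norm_num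
    omega
  have hn : n1 ≤ c.n := by
    have h1 : 2 ^ n1 ≤ 2 ^ (max 7 n1) := Nat.pow_le_pow_right (by norm_num) (le_max_right _ _)
    have h3 : n1 < 2 ^ n1 := Nat.lt_two_pow_self
    have h5 := hG.big
    omega
  have hg := hgeo a ha G c R hG hR128
  have hA := fun O f f' => lk_boundA hC hκ h4 hG.whole hn hR128 hg W hW O f f'
  rintro ⟨f, f', j⟩
  unfold Wt.lkc llen
  simp only
  set d : ℝ := (c.idist f.1 f'.1 : ℝ) with hd
  have hd0 : 0 ≤ d := Nat.cast_nonneg _
  have hRr : (128 : ℝ) ≤ (R : ℝ) := by exact_mod_cast hR128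
  have hCS : 0 ≤ 4 * C * Slat κ := by positivity
  by_cases hj : j ≤ 2
  · -- bound A twice
    have hdiv : (R : ℝ) / 64 ≤ ((R / 32 : ℕ) : ℝ) := by
      have h1 : R ≤ 32 * (R / 32) + 31 := by omega
      have h2 : (R : ℝ) ≤ 32 * ((R / 32 : ℕ) : ℝ) + 31 := by exact_mod_cast h1
      linarith
    have hpow : (2 : ℝ) ^ j ≤ 4 := by
      have : (2 : ℝ) ^ j ≤ 2 ^ 2 := pow_le_pow_right₀ (by norm_num) hj
      linarith
    have hexp : Real.exp (-κ * ((R / 32 : ℕ) : ℝ) - κ * d) ≤ Real.exp (-(κ / 256) * (2 ^ j * (R : ℝ) + d)) := by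
      apply Real.exp_le_exp.2
      have h1 : κ * ((R : ℝ) / 64) ≤ κ * ((R / 32 : ℕ) : ℝ) := mul_le_mul_of_nonneg_left hdiv hκ.le
      have h2 : (2 : ℝ) ^ j * (R : ℝ) ≤ 4 * R := mul_le_mul_of_nonneg_right hpow (by linarith)
      have h3 : κ * ((2 : ℝ) ^ j * (R : ℝ)) ≤ κ * (4 * R) := mul_le_mul_of_nonneg_left h2 hκ.le
      have h4 : 0 ≤ κ * d := by positivity
      nlinarith
    have hb1 := hA (lbox c R f j) f f'
    have hb2 : |if j = 0 then 0 else W.Mbox R (lbox c R f (j - 1)) f f'|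
        ≤ 4 * C * Slat κ * Real.exp (-κ * ((R / 32 : ℕ) : ℝ) - κ * d) := by
      split_ifs
      · rw [abs_zero]; positivity
      · exact hA _ f f'
    rw [abs_mul, abs_of_pos (by norm_num : (0 : ℝ) < 1 / 2)]
    have h5 := (abs_sub (W.Mbox R (lbox c R f j) f f') (if j = 0 then 0 else W.Mbox R (lbox c R f (j - 1)) f f')).trans
      (add_le_add hb1 hb2)
    have h6 : 4 * C * Slat κ * Real.exp (-κ * ((R / 32 : ℕ) : ℝ) - κ * d)
        ≤ (4 * C * Slat κ + 3 * C) * Real.exp (-(κ / 256) * (2 ^ j * (R : ℝ) + d)) :=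
      mul_le_mul (by linarith) hexp (Real.exp_pos _).le (by positivity)
    linarith
  · have hj3 : 3 ≤ j := by omega
    have hj0 : j ≠ 0 := by omega
    rw [if_neg hj0]
    have hB := lk_boundB hC hκ h2 ha hG.whole hn hR128 hg W hW f f' j hj3
    rw [abs_mul, abs_of_pos (by norm_num : (0 : ℝ) < 1 / 2)]
    have hcast : ((2 ^ (j - 2) * R : ℕ) : ℝ) = 2 ^ j * (R : ℝ) / 4 := by
      obtain ⟨m, rfl⟩ : ∃ m, j = m + 2 := ⟨j - 2, by omega⟩
      rw [Nat.add_sub_cancel]
      push_cast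
      ring
    rw [hcast] at hB
    have hexp : Real.exp (-κ * (2 ^ j * (R : ℝ) / 4) - κ * d) ≤ Real.exp (-(κ / 256) * (2 ^ j * (R : ℝ) + d)) := by
      apply Real.exp_le_exp.2
      have h1 : 0 ≤ κ * (2 ^ j * (R : ℝ)) := by positivity
      have h4 : 0 ≤ κ * d := by positivity
      nlinarith
    have h6 : 3 * C * Real.exp (-κ * (2 ^ j * (R : ℝ) / 4) - κ * d)
        ≤ (4 * C * Slat κ + 3 * C) * Real.exp (-(κ / 256) * (2 ^ j * (R : ℝ) + d)) :=
      mul_le_mul (by linarith) hexp (Real.exp_pos _).le (by positivity)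
    have h7 : 0 ≤ |W.Mbox R (lbox c R f j) f f' - W.Mbox R (lbox c R f (j - 1)) f f'| := abs_nonneg _
    linarith

end

end Claimed.Agent.R285.Ent
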