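import Claimed.Agent.R285.Ent.Vol
import Claimed.Agent.R285.Map.Defs
import Claimed.Agent.R285.Reg.En
import Claimed.Agent.R285.Reg.Lat

/-!
# ROW 285, THE ENTRY ENGINE: ASSEMBLY.  `F4b.initialization` from the exit statements of the posts            (owner helper56)
-/

set_option autoImplicit false

namespace Claimed.Agent.R285.Ent

open scoped BigOperators ENNReal NNReal
open MeasureTheory ProbabilityTheory
open Claimed.Agent.R285 Claimed.Agent.R285.RG Claimed.Agent.R285.B4 Claimed.Agent.R285.F4a Claimed.Agent.R285.F4b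

noncomputable section

variable {G : Geom}

/-! ## 1. From pointwise bounds to the norm -/

theorem main_norm_of_bound {g : Grid G} (p : Par) (V : Extra g) (K : Act g) (ε : ℝ) (hδ : 0 ≤ p.δ) (hκ : 0 ≤ p.κ) (hA : 0 < p.A)
    (h : ∀ X φ f, tnorm g X f < p.h0 → ‖K X (toC φ + f)‖ ≤ ε * (p.A ^ X.card)⁻¹ * Real.exp (V.V X φ)) :
    actNorm p g V K ≤ ENNReal.ofReal ε := by
  unfold actNorm
  refine iSup_le fun X => ?_
  have hAX : 0 < p.A ^ X.card := pow_pos hA _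
  have key : fnSize p g V X (K X) ≤ ENNReal.ofReal (ε * (p.A ^ X.card)⁻¹) := by
    unfold fnSize
    refine iSup_le fun φ => ?_
    have hW : Real.exp (V.V X φ) ≤ RG.Wt g p.δ p.κ V X φ := by
      unfold RG.Wt
      refine Real.exp_le_exp.2 ?_
      have := mul_nonneg hκ (Reg.reg_U_nonneg g hδ X φ)
      linarith
    have hWpos : 0 < RG.Wt g p.δ p.κ V X φ := Real.exp_pos _
    rw [ENNReal.div_le_iff (by simpa using hWpos) ENNReal.ofReal_ne_top]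
    unfold ptNorm
    refine iSup_le fun f => ?_
    have h1 := h X φ f.1 f.2
    have hε' : 0 ≤ ε * (p.A ^ X.card)⁻¹ := by
      by_contra hneg
      rw [not_le] at hneg
      have : ε * (p.A ^ X.card)⁻¹ * Real.exp (V.V X φ) < 0 := mul_neg_of_neg_of_pos hneg (Real.exp_pos _)
      linarith [norm_nonneg (K X (toC φ + f.1))]
    rw [← ENNReal.ofReal_mul hε', ← ENNReal.ofReal_coe_nnreal, coe_nnnorm]
    exact ENNReal.ofReal_le_ofReal (h1.trans (mul_le_mul_of_nonneg_left hW hε'))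
  calc ENNReal.ofReal (p.A ^ X.card) * fnSize p g V X (K X)
      ≤ ENNReal.ofReal (p.A ^ X.card) * ENNReal.ofReal (ε * (p.A ^ X.card)⁻¹) := by gcongr
    _ = ENNReal.ofReal ε := by
        rw [← ENNReal.ofReal_mul hAX.le]
        congr 1
        field_simp

/-! ## 2. The geometry of an admissible volume -/

theorem main_vol (𝒱 : Vol) (kR ks : ℕ) (hkR : 6 ≤ kR) (h : 𝒱.Adm (2 ^ 0) (2 ^ kR) (2 ^ ks)) :
    vR 𝒱 = 2 ^ kR ∧ 𝒱.c.m = 2 ^ ks ∧ GeoOK 𝒱.c (2 ^ kR) ∧ 𝒱.g.Ok ∧ NestOK (vNest 𝒱) (2 ^ kR) ∧ (2 ^ kR) ^ 5 ≤ 𝒱.c.n := by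
  have hs : 𝒱.s = 2 ^ ks := h.hs
  have hm : 𝒱.m = 2 ^ kR * 2 ^ ks := by rw [h.hm]; ring
  have hs0 : 0 < 𝒱.s := by rw [hs]; positivity
  have hm0 : 0 < 𝒱.m := by rw [hm]; positivity
  have hR0 : 0 < 2 ^ kR := by positivity
  have hR64 : 64 ≤ 2 ^ kR := by
    calc 64 = 2 ^ 6 := by norm_num
      _ ≤ 2 ^ kR := Nat.pow_le_pow_right (by norm_num) hkR
  have hn : 𝒱.c.n = 𝒱.G.M / 𝒱.s := rfl
  have h5 : (2 ^ kR) ^ 5 ≤ 𝒱.c.n := by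
    rw [hn, Nat.le_div_iff_mul_le hs0, mul_comm, hs]
    exact h.side
  have h8 : 8 * 2 ^ kR ≤ (2 ^ kR) ^ 5 := by
    have : 8 ≤ (2 ^ kR) ^ 4 := by
      calc 8 ≤ 64 ^ 4 := by norm_num
        _ ≤ (2 ^ kR) ^ 4 := Nat.pow_le_pow_left hR64 4
    calc 8 * 2 ^ kR ≤ (2 ^ kR) ^ 4 * 2 ^ kR := Nat.mul_le_mul_right _ this
      _ = (2 ^ kR) ^ 5 := by ring
  have hvR : vR 𝒱 = 2 ^ kR := by
    unfold vR
    rw [hm, hs]
    exact Nat.mul_div_cancel _ (by positivity)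
  refine ⟨hvR, hs, ⟨⟨hs0, (B8.torusGrid_ok 𝒱.G 𝒱.s _ hs0).mono, B8.torusGrid_card 𝒱.G 𝒱.s _ hs0, ?_⟩, ?_, hR0, ?_, h8.trans h5⟩,
    B8.torusGrid_ok 𝒱.G 𝒱.m _ hm0, ⟨?_, fun i => ?_⟩, h5⟩
  · have : 2 ≤ 8 * 2 ^ kR := by omega
    exact this.trans (h8.trans h5)
  · calc 64 = 2 ^ 6 := by norm_num
      _ ∣ 2 ^ kR := pow_dvd_pow 2 hkR
  · obtain ⟨k, hk⟩ := 𝒱.hmM
    refine ⟨k, ?_⟩
    rw [hn, hk, hm, hs, mul_assoc, mul_comm (2 ^ kR), mul_assoc]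
    rw [Nat.mul_div_cancel_left _ (by positivity)]
    ring
  · show 𝒱.m = 2 ^ kR * 𝒱.s
    rw [hm, hs]
  · show ((i : ℕ) * 𝒱.s) / 𝒱.m = (i : ℕ) / 2 ^ kR
    rw [hm, hs]
    exact Nat.mul_div_mul_right _ _ (by positivity)

/-! ## 3. The centred sector in one volume -/

theorem main_Kact_norm_le {c g : Grid G} (W : Wt c) (a : ℝ) (N : Nest c g) (R : ℕ) (X : Finset g.I) (z : G.V → ℂ) :
    ‖W.Kact a N R X z‖ ≤ ∑ π ∈ (items c R).powerset.filter (fun π => cover N R π = X), ‖W.EF a g.m R π z‖ := by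
  unfold Wt.Kact
  split_ifs with h
  · rw [Finset.sum_apply]
    exact norm_sum_le _ _
  · simp only [Pi.zero_apply, norm_zero]
    exact Finset.sum_nonneg fun _ _ => norm_nonneg _

theorem main_openE_zero (a : ℝ) (ha : 0 < a) (c : Grid G) (D : Finset G.V) : openE a c D (fun i => avg c (fun x => Real.sqrt a * (0 : G.V → ℝ) x) i) ≤ 0 := by
  unfold openE
  have hbdd : BddBelow (Set.range fun u : G.V → ℝ => a⁻¹ * bondE D u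
      + ∑ c' ∈ cellsIn c D, (cellAvg c u c' - avg c (fun x => Real.sqrt a * (0 : G.V → ℝ) x) c') ^ 2) := by
    refine ⟨0, ?_⟩
    rintro _ ⟨u, rfl⟩
    have h1 : 0 ≤ bondE D u := by
      unfold bondE
      refine mul_nonneg (by norm_num) (Finset.sum_nonneg fun v _ => Finset.sum_nonneg fun e _ => ?_)
      split_ifs
      · positivity
      · exact le_rfl
    have h2 : 0 ≤ a⁻¹ := (inv_pos.2 ha).le
    have h3 : 0 ≤ ∑ c' ∈ cellsIn c D, (cellAvg c u c' - avg c (fun x => Real.sqrt a * (0 : G.V → ℝ) x) c') ^ 2 :=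
      Finset.sum_nonneg fun _ _ => by positivity
    have := mul_nonneg h2 h1
    show 0 ≤ a⁻¹ * bondE D u + _
    linarith
  refine (ciInf_le hbdd 0).trans (le_of_eq ?_)
  simp [bondE, cellAvg, dif, Geom.lift]

/-- the conclusion of `HolStmt` in one volume -/
def HolAt (a b0 : ℝ) (h0 : ℝ≥0) (r : ℝ) (𝒱 : Vol) : Prop :=
  ∀ π ⊆ items 𝒱.c (vR 𝒱),
    (∀ b ∈ Metric.ball (b0 : ℂ) r, Hol h0 𝒱.g (cover (vNest 𝒱) (vR 𝒱) π) ((vW a b0 𝒱 b 0).EF a 𝒱.g.m (vR 𝒱) π)) ∧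
    (∀ z ∈ strip h0 𝒱.g (cover (vNest 𝒱) (vR 𝒱) π),
      DifferentiableOn ℂ (fun b => (vW a b0 𝒱 b 0).EF a 𝒱.g.m (vR 𝒱) π z) (Metric.ball (b0 : ℂ) r)) ∧
    (∀ b ∈ Metric.ball (b0 : ℂ) r, ∀ z : 𝒱.G.V → ℂ, tnorm 𝒱.g (cover (vNest 𝒱) (vR 𝒱) π) (fun v => (z v).im) ≤ h0 →
      Itg a 𝒱.c 𝒱.g.m ((vW a b0 𝒱 b 0).pfac (vR 𝒱) π) z)

/-- the conclusion of `NormStmt` in one volume -/
def NormAt (a b0 hs p1 : ℝ) (h0 : ℝ≥0) (r ε A Ct : ℝ) (𝒱 : Vol) : Prop :=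
  ∀ b ∈ Metric.ball (b0 : ℂ) r, ∀ X : Finset 𝒱.g.I, X.Nonempty → ∀ (φ lam : 𝒱.G.V → ℝ) (f : 𝒱.G.V → ℂ), tnorm 𝒱.g X f < h0 →
    ∑ π ∈ (items 𝒱.c (vR 𝒱)).powerset.filter (fun π => cover (vNest 𝒱) (vR 𝒱) π = X),
        ‖(vW a b0 𝒱 b 0).EF a 𝒱.g.m (vR 𝒱) π (toC φ + toC lam + f)‖
      ≤ ε * (A ^ X.card)⁻¹ * Real.exp (Vobs a hs p1 𝒱.c 𝒱.g (Cless 𝒱.G 𝒱.g.m) X φ
          + Ct * openE a 𝒱.c (𝒱.g.Dm X) (fun i => avg 𝒱.c (fun x => Real.sqrt a * lam x) i))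

theorem main_K0_bound {a b0 hs p1 : ℝ} {h0 : ℝ≥0} {r ε A Ct : ℝ} {𝒱 : Vol} (hε : 0 ≤ ε) (hA : 0 < A)
    (hN : NormAt a b0 hs p1 h0 r ε A Ct 𝒱) (b : ℂ) (hb : b ∈ Metric.ball (b0 : ℂ) r) (X : Finset 𝒱.g.I) (φ lam : 𝒱.G.V → ℝ) (f : 𝒱.G.V → ℂ)
    (hf : tnorm 𝒱.g X f < h0) :
    ‖entK0 a b0 𝒱 b X (toC φ + toC lam + f)‖ ≤ ε * (A ^ X.card)⁻¹ * Real.exp (Vobs a hs p1 𝒱.c 𝒱.g (Cless 𝒱.G 𝒱.g.m) X φ
          + Ct * openE a 𝒱.c (𝒱.g.Dm X) (fun i => avg 𝒱.c (fun x => Real.sqrt a * lam x) i)) := by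
  rcases X.eq_empty_or_nonempty with rfl | hX
  · have : entK0 a b0 𝒱 b ∅ = 0 := by
      unfold entK0 Wt.Kact
      rw [if_neg]
      exact fun h => by simpa using h.1
    rw [this]
    simp only [Pi.zero_apply, norm_zero]
    positivity
  · exact (main_Kact_norm_le _ _ _ _ _ _).trans (hN b hb X hX φ lam f hf)

theorem main_bulk (hProp : PropStmt) (hSym : SymStmt) (hId : IdentStmt) (a b0 : ℝ) (ha : 0 < a) (hb0 : 0 < b0) (o : ObsPar) (hoa : o.a = a)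
    (δ κ : ℝ) (hδ : 0 < δ) (hκ : 0 < κ) (h0 : ℝ≥0) (A A' : ℝ) (hA : 1 ≤ A) (hAA : A ≤ A')
    (𝒱 : Vol) (hgeo : GeoOK 𝒱.c (vR 𝒱)) (hg : 𝒱.g.Ok) (hnest : NestOK (vNest 𝒱) (vR 𝒱))
    (r r' ε Ct : ℝ) (hε : 0 ≤ ε) (hCt : 0 ≤ Ct) (hr' : r' ≤ r) (hrb : r' ≤ b0) (hHol : HolAt a b0 h0 r 𝒱) (hNorm : NormAt a b0 o.hstar o.p1 h0 r' ε A' Ct 𝒱) :
    BulkOK (entData a b0) b0 a ⟨δ, κ, h0, A, 2 * Real.pi / Real.sqrt a⟩ o r' ε 𝒱 := by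
  have hball : Metric.ball (b0 : ℂ) r' ⊆ Metric.ball (b0 : ℂ) r := Metric.ball_subset_ball hr'
  have hP := fun b : ℂ => hProp 𝒱.G 𝒱.c 𝒱.g (vNest 𝒱) (vR 𝒱) a b0 b 0 hgeo hg hnest ha hb0
  have hA0 : 0 < A := by linarith
  have hA'0 : 0 < A' := by linarith
  refine ⟨fun b hb => ⟨fun X => ⟨?_, ?_, ?_⟩, fun X hX => ?_⟩, fun X z hz => ?_, fun b hb => ?_, fun b hb X z _ => ?_, fun hper b hb => ?_,
    fun b hb V hV => ?_, fun b hb => ?_⟩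
  · -- holomorphy in the field
    show Hol h0 𝒱.g X ((vW a b0 𝒱 b 0).Kact a (vNest 𝒱) (vR 𝒱) X)
    unfold Wt.Kact
    split_ifs with hc
    · refine DifferentiableOn.sum fun π hπ => ?_
      obtain ⟨h1, h2⟩ := Finset.mem_filter.1 hπ
      have := ((hHol π (Finset.mem_powerset.1 h1)).1 b (hball hb))
      rw [h2] at this
      exact this
    · exact differentiableOn_const _
  · intro z _ z' _ h
    exact (hP b).2.1 X z z' fun v hv => h v ⟨v, hv, by rw [Reg.reg_dist_self]⟩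
  · intro z _
    exact (hP b).2.2.1 X z
  · show (vW a b0 𝒱 b 0).Kact a (vNest 𝒱) (vR 𝒱) X = 0
    unfold Wt.Kact
    rw [if_neg hX]
  · -- holomorphy in the parameter
    show DifferentiableOn ℂ (fun b => (vW a b0 𝒱 b 0).Kact a (vNest 𝒱) (vR 𝒱) X z) (Metric.ball (b0 : ℂ) r')
    unfold Wt.Kact
    split_ifs with hc
    · simp only [Finset.sum_apply]
      refine DifferentiableOn.fun_sum fun π hπ => ?_
      obtain ⟨h1, h2⟩ := Finset.mem_filter.1 hπ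
      exact ((hHol π (Finset.mem_powerset.1 h1)).2.1 z (by rw [h2]; exact hz)).mono hball
    · exact differentiableOn_const _
  · exact ((hP (b : ℂ)).2.2.2.2.2.1 (by simp)).1
  · exact (hP b).2.2.2.2.2.2.1 rfl X z
  · exact hSym 𝒱.G 𝒱.c 𝒱.g (vNest 𝒱) (vR 𝒱) a b0 b h0 hper hgeo hg hnest ha hb0
  · -- the norm
    refine main_norm_of_bound _ V _ ε hδ.le hκ.le hA0 fun X φ f hf => ?_
    have h1 := main_K0_bound hε hA'0 hNorm b hb X φ 0 f hf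
    have h2 : toC φ + toC (0 : 𝒱.G.V → ℝ) + f = toC φ + f := by
      funext v; simp [toC]
    rw [h2] at h1
    refine h1.trans ?_
    have h3 : V.V X φ = Vobs a o.hstar o.p1 𝒱.c 𝒱.g (Cless 𝒱.G 𝒱.g.m) X φ := by rw [hV X φ, hoa]
    have h4 := main_openE_zero a ha 𝒱.c (𝒱.g.Dm X)
    have h5 : (A' ^ X.card)⁻¹ ≤ (A ^ X.card)⁻¹ := by
      gcongr
    show _ ≤ ε * (A ^ X.card)⁻¹ * Real.exp (V.V X φ)
    rw [h3]
    have h6 : Ct * openE a 𝒱.c (𝒱.g.Dm X) (fun i => avg 𝒱.c (fun x => Real.sqrt a * (0 : 𝒱.G.V → ℝ) x) i) ≤ 0 :=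
      mul_nonpos_of_nonneg_of_nonpos hCt h4
    gcongr
    linarith
  · -- the identity
    have hbpos : 0 < b := by
      have := abs_lt.1 hb
      linarith
    refine (hId 𝒱.G 𝒱.c 𝒱.g (vNest 𝒱) (vR 𝒱) a b0 b hgeo hg hnest ha hb0 hbpos).1 fun π hπ ψ => ?_
    refine (hHol π hπ).2.2 (b : ℂ) (hball ?_) (toC ψ) ?_
    · rw [Metric.mem_ball, Complex.dist_eq, ← Complex.ofReal_sub, Complex.norm_real]
      exact hb
    · have : (fun v => (toC ψ v).im) = (0 : 𝒱.G.V → ℝ) := by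
        funext v; simp [toC]
      rw [this, Hol.tnorm_zero]
      exact zero_le

/-! ## 4. The unit sector in one volume -/

/-- the conclusion of `HolUStmt` in one volume -/
def HolUAt (a b0 : ℝ) (h0 : ℝ≥0) (𝒱 : Vol) : Prop :=
  ∀ π ⊆ items 𝒱.c (vR 𝒱),
    Hol h0 𝒱.g (cover (vNest 𝒱) (vR 𝒱) π) ((vW a b0 𝒱 b0 (tauU 𝒱.c)).EF a 𝒱.g.m (vR 𝒱) π) ∧
    Hol h0 𝒱.g (entCs 𝒱 ∪ cover (vNest 𝒱) (vR 𝒱) π) (eav a 𝒱.c 𝒱.g.m ((vW a b0 𝒱 b0 (tauU 𝒱.c)).pfacL (vR 𝒱) (entT0 𝒱) π)) ∧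
    ∀ ψ : 𝒱.G.V → ℝ, Itg a 𝒱.c 𝒱.g.m ((vW a b0 𝒱 b0 (tauU 𝒱.c)).pfac (vR 𝒱) π) (toC ψ) ∧
      Itg a 𝒱.c 𝒱.g.m ((vW a b0 𝒱 b0 (tauU 𝒱.c)).pfacL (vR 𝒱) (entT0 𝒱) π) (toC ψ)

/-- the conclusion of `NormUStmt` in one volume -/
def NormUAt (a b0 hs p1 : ℝ) (h0 : ℝ≥0) (ε εJ A : ℝ) (𝒱 : Vol) : Prop :=
  ∀ v : 𝒱.G.V → ℝ, (Top.full 𝒱.c).CoClosed ((Top.full 𝒱.c).eta (tauU 𝒱.c) v) →
    ∀ X : Finset 𝒱.g.I, X.Nonempty → ∀ (φ : 𝒱.G.V → ℝ) (f : 𝒱.G.V → ℂ), tnorm 𝒱.g X f < h0 →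
      (𝒱.g.Sep RR (entCs 𝒱) X →
        ∑ π ∈ (items 𝒱.c (vR 𝒱)).powerset.filter (fun π => cover (vNest 𝒱) (vR 𝒱) π = X),
            ‖(vW a b0 𝒱 b0 (tauU 𝒱.c)).EF a 𝒱.g.m (vR 𝒱) π (toC φ + toC (fun x => v x / Real.sqrt a) + f)‖
          ≤ ε * (A ^ X.card)⁻¹ * Real.exp (Vobs a hs p1 𝒱.c 𝒱.g (Cless 𝒱.G 𝒱.g.m) X φ)) ∧
      (∑ π ∈ (items 𝒱.c (vR 𝒱)).powerset.filter (fun π => entCs 𝒱 ∪ cover (vNest 𝒱) (vR 𝒱) π = X),
            ‖eav a 𝒱.c 𝒱.g.m ((vW a b0 𝒱 b0 (tauU 𝒱.c)).pfacL (vR 𝒱) (entT0 𝒱) π) (toC φ + toC (fun x => v x / Real.sqrt a) + f)‖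
          ≤ εJ * (A ^ X.card)⁻¹ * Real.exp (Vobs a hs p1 𝒱.c 𝒱.g (Cless 𝒱.G 𝒱.g.m) X φ))

theorem main_Jact_norm_le {c g : Grid G} (W : Wt c) (a : ℝ) (N : Nest c g) (R : ℕ) (t0 : Tile) (Cs X : Finset g.I) (z : G.V → ℂ) :
    ‖W.Jact a N R t0 Cs X z‖ ≤ ∑ π ∈ (items c R).powerset.filter (fun π => Cs ∪ cover N R π = X), ‖eav a c g.m (W.pfacL R t0 π) z‖ := by
  unfold Wt.Jact
  split_ifs with h
  · rw [Finset.sum_apply]
    exact norm_sum_le _ _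
  · simp only [Pi.zero_apply, norm_zero]
    exact Finset.sum_nonneg fun _ _ => norm_nonneg _

theorem main_strip_add {g : Grid G} {h0 : ℝ≥0} {X : Finset g.I} {z : G.V → ℂ} (hz : z ∈ strip h0 g X) (lam : G.V → ℝ) :
    z + toC lam ∈ strip h0 g X := by
  have : (fun v => ((z + toC lam) v).im) = fun v => (z v).im := by
    funext v; simp [toC]
  show tnorm g X (fun v => ((z + toC lam) v).im) < h0
  rw [this]
  exact hz

theorem main_hol_shift {g : Grid G} {h0 : ℝ≥0} {X : Finset g.I} {F : Fn G} (hF : Hol h0 g X F) (lam : G.V → ℝ) :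
    Hol h0 g X (fun z => F (z + toC lam)) := by
  have h1 : DifferentiableOn ℂ (fun z : G.V → ℂ => z + toC lam) (strip h0 g X) :=
    (differentiable_id.add_const _).differentiableOn
  exact DifferentiableOn.comp hF h1 fun z hz => main_strip_add hz lam

theorem main_local_shift {g : Grid G} {p : Par} {X : Finset g.I} {F : Fn G} (hF : LocalFn p 0 g X F) (lam : G.V → ℝ) :
    LocalFn p 0 g X (fun z => F (z + toC lam)) := by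
  refine ⟨main_hol_shift hF.hol lam, fun z hz z' hz' h => ?_, fun z hz => ?_⟩
  · refine hF.loc _ (main_strip_add hz lam) _ (main_strip_add hz' lam) fun v hv => ?_
    show z v + toC lam v = z' v + toC lam v
    rw [h v hv]
  · have := hF.per _ (main_strip_add hz lam)
    rw [← this]
    congr 1
    funext v
    show z v + (p.ω : ℂ) + toC lam v = z v + toC lam v + (p.ω : ℂ)
    ring

theorem entKT_sep {a b0 : ℝ} {𝒱 : Vol} {X : Finset 𝒱.g.I} (h : 𝒱.g.Sep RR (entCs 𝒱) X) :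
    entKT a b0 𝒱 X = (vW a b0 𝒱 b0 (tauU 𝒱.c)).Kact a (vNest 𝒱) (vR 𝒱) X := by
  funext z
  unfold entKT
  rw [if_pos h]

theorem entKT_gauge {a b0 : ℝ} {𝒱 : Vol} {X : Finset 𝒱.g.I} (h : ¬ 𝒱.g.Sep RR (entCs 𝒱) X) (hk : ∃ κ, IsGauge 𝒱 X κ) :
    entKT a b0 𝒱 X = fun z => entK0 a b0 𝒱 b0 X (z + toC fun x => 2 * Real.pi / Real.sqrt a * (hk.choose x : ℝ)) := by
  funext z
  unfold entKT
  rw [if_neg h, dif_pos hk]

theorem entKT_zero {a b0 : ℝ} {𝒱 : Vol} {X : Finset 𝒱.g.I} (h : ¬ 𝒱.g.Sep RR (entCs 𝒱) X) (hk : ¬ ∃ κ, IsGauge 𝒱 X κ) :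
    entKT a b0 𝒱 X = 0 := by
  funext z
  unfold entKT
  rw [if_neg h, dif_neg hk]
  rfl

theorem main_unit (hProp : PropStmt) (hId : IdentStmt) (hGauge : GaugeStmt) (a b0 : ℝ) (ha : 0 < a) (hb0 : 0 < b0) (o : ObsPar) (hoa : o.a = a)
    (δ κ : ℝ) (hδ : 0 < δ) (hκ : 0 < κ) (h0 : ℝ≥0) (A : ℝ) (hA : 1 ≤ A)
    (𝒱 : Vol) (hfree : 𝒱.G.bc = BC.free) (hcen : 2 * 𝒱.m ∣ 𝒱.G.M) (hgeo : GeoOK 𝒱.c (vR 𝒱)) (hg : 𝒱.g.Ok) (hnest : NestOK (vNest 𝒱) (vR 𝒱))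
    (hT0 : entT0 𝒱 ∈ tiles 𝒱.c (vR 𝒱)) (hCl : (vNest 𝒱).cl (cellsOf 𝒱.c (vR 𝒱) {entT0 𝒱}) ⊆ entCs 𝒱) (hConn : 𝒱.g.Conn RR (entCs 𝒱))
    (r ε ε' εJ Ct Ce : ℝ) (hr : 0 < r) (hε : 0 ≤ ε) (hεJ : 0 ≤ εJ)
    (hBulk : BulkOK (entData a b0) b0 a ⟨δ, κ, h0, A, 2 * Real.pi / Real.sqrt a⟩ o r ε' 𝒱)
    (hNorm : NormAt a b0 o.hstar o.p1 h0 r ε (A * Real.exp (Ct * (Ce / a))) Ct 𝒱) (hCt : 0 ≤ Ct)
    (hHolU : HolUAt a b0 h0 𝒱) (hNU : NormUAt a b0 o.hstar o.p1 h0 ε εJ A 𝒱)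
    (hEta : ∀ v : 𝒱.G.V → ℝ, (Top.full 𝒱.c).CoClosed ((Top.full 𝒱.c).eta (tauU 𝒱.c) v) → ∀ (X : Finset 𝒱.g.I) (κ : 𝒱.G.V → ℤ), IsGauge 𝒱 X κ →
      ∃ u : 𝒱.G.V → ℝ, (∀ x ∈ 𝒱.g.sites X, u x = v x + 2 * Real.pi * (κ x : ℝ)) ∧
        openE a 𝒱.c (𝒱.g.Dm X) (fun i => avg 𝒱.c u i) ≤ Ce / a * X.card) :
    UnitOK (entData a b0) b0 a ⟨δ, κ, h0, A, 2 * Real.pi / Real.sqrt a⟩ o ε εJ 𝒱 := by
  have hP := hProp 𝒱.G 𝒱.c 𝒱.g (vNest 𝒱) (vR 𝒱) a b0 b0 (tauU 𝒱.c) hgeo hg hnest ha hb0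
  have hA0 : 0 < A := by linarith
  have hb0mem : (b0 : ℂ) ∈ Metric.ball (b0 : ℂ) r := Metric.mem_ball_self hr
  have hK0ok := hBulk.ok b0 hb0mem
  have hsa : 0 < Real.sqrt a := Real.sqrt_pos.2 ha
  refine ⟨⟨fun X => ?_, fun X hX => ?_⟩, ⟨fun X => ⟨?_, ?_, ?_⟩, fun X hX => ?_⟩, fun X φ => ?_, ?_, ?_, fun v hv V hV => ?_, fun v hv V hV => ?_,
    fun X hX => ?_, fun X κ' hκ' z hz => ?_⟩
  · -- `KT` is local
    show LocalFn _ 0 𝒱.g X (entKT a b0 𝒱 X)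
    by_cases hs : 𝒱.g.Sep RR (entCs 𝒱) X
    · rw [entKT_sep hs]
      refine ⟨?_, fun z _ z' _ h => hP.2.1 X z z' fun v hv => h v ⟨v, hv, by rw [Reg.reg_dist_self]⟩, fun z _ => hP.2.2.1 X z⟩
      show Hol h0 𝒱.g X _
      unfold Wt.Kact
      split_ifs with hc
      · refine DifferentiableOn.sum fun π hπ => ?_
        obtain ⟨h1, h2⟩ := Finset.mem_filter.1 hπ
        have := (hHolU π (Finset.mem_powerset.1 h1)).1
        rw [h2] at this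
        exact this
      · exact differentiableOn_const _
    · by_cases hk : ∃ κ, IsGauge 𝒱 X κ
      · rw [entKT_gauge hs hk]
        exact main_local_shift (hK0ok.fn X) _
      · rw [entKT_zero hs hk]
        exact ⟨differentiableOn_const _, fun _ _ _ _ _ => rfl, fun _ _ => rfl⟩
  · show entKT a b0 𝒱 X = 0
    by_cases hs : 𝒱.g.Sep RR (entCs 𝒱) X
    · rw [entKT_sep hs]
      unfold Wt.Kact
      rw [if_neg hX]
    · by_cases hk : ∃ κ, IsGauge 𝒱 X κ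
      · rw [entKT_gauge hs hk]
        have : entK0 a b0 𝒱 b0 X = 0 := hK0ok.poly X hX
        rw [this]
        rfl
      · exact entKT_zero hs hk
  · show Hol h0 𝒱.g X ((vW a b0 𝒱 b0 (tauU 𝒱.c)).Jact a (vNest 𝒱) (vR 𝒱) (entT0 𝒱) (entCs 𝒱) X)
    unfold Wt.Jact
    split_ifs with hc
    · refine DifferentiableOn.sum fun π hπ => ?_
      obtain ⟨h1, h2⟩ := Finset.mem_filter.1 hπ
      have := (hHolU π (Finset.mem_powerset.1 h1)).2.1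
      rw [h2] at this
      exact this
    · exact differentiableOn_const _
  · intro z _ z' _ h
    exact hP.2.2.2.1 _ _ X z z' hCl fun v hv => h v ⟨v, hv, by rw [Reg.reg_dist_self]⟩
  · intro z _
    exact hP.2.2.2.2.1 _ _ X z
  · show (vW a b0 𝒱 b0 (tauU 𝒱.c)).Jact a (vNest 𝒱) (vR 𝒱) (entT0 𝒱) (entCs 𝒱) X = 0
    unfold Wt.Jact
    rw [if_neg hX]
  · -- reality of `KT`
    show (entKT a b0 𝒱 X (toC φ)).im = 0
    by_cases hs : 𝒱.g.Sep RR (entCs 𝒱) X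
    · rw [entKT_sep hs]
      exact (hP.2.2.2.2.2.1 (by simp)).1 X φ
    · by_cases hk : ∃ κ, IsGauge 𝒱 X κ
      · rw [entKT_gauge hs hk]
        have h1 := hBulk.real b0 (by simpa using hr) X (φ + fun x => 2 * Real.pi / Real.sqrt a * (hk.choose x : ℝ))
        have h2 : toC (φ + fun x => 2 * Real.pi / Real.sqrt a * (hk.choose x : ℝ))
            = toC φ + toC fun x => 2 * Real.pi / Real.sqrt a * (hk.choose x : ℝ) := by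
          funext v; simp [toC]
        rw [h2] at h1
        exact h1
      · rw [entKT_zero hs hk]
        rfl
  · exact (hP.2.2.2.2.2.1 (by simp)).2 _ _
  · -- the identity
    exact (hId 𝒱.G 𝒱.c 𝒱.g (vNest 𝒱) (vR 𝒱) a b0 b0 hgeo hg hnest ha hb0 hb0).2 (entT0 𝒱) (entCs 𝒱) (entKT a b0 𝒱) hT0 hCl hConn
      (fun X hX => entKT_sep hX) (fun π hπ ψ => (hHolU π hπ).2.2 ψ)
  · -- the norm of `KT`
    refine main_norm_of_bound _ V _ ε hδ.le hκ.le hA0 fun X φ f hf => ?_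
    have h3 : V.V X φ = Vobs a o.hstar o.p1 𝒱.c 𝒱.g (Cless 𝒱.G 𝒱.g.m) X φ := by rw [hV X φ, hoa]
    show ‖entKT a b0 𝒱 X (toC φ + f + toC fun x => v x / Real.sqrt a)‖ ≤ ε * (A ^ X.card)⁻¹ * Real.exp (V.V X φ)
    rw [h3]
    have hpos : 0 ≤ ε * (A ^ X.card)⁻¹ * Real.exp (Vobs a o.hstar o.p1 𝒱.c 𝒱.g (Cless 𝒱.G 𝒱.g.m) X φ) := by positivity
    by_cases hs : 𝒱.g.Sep RR (entCs 𝒱) X
    · rw [entKT_sep hs]
      rcases X.eq_empty_or_nonempty with rfl | hXne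
      · have : (vW a b0 𝒱 b0 (tauU 𝒱.c)).Kact a (vNest 𝒱) (vR 𝒱) ∅ = 0 := by
          unfold Wt.Kact
          rw [if_neg]
          exact fun h => by simpa using h.1
        rw [this]
        simpa using hpos
      · have e : toC φ + f + (toC fun x => v x / Real.sqrt a) = toC φ + (toC fun x => v x / Real.sqrt a) + f := by abel
        rw [e]
        exact (main_Kact_norm_le _ _ _ _ _ _).trans ((hNU v hv X hXne φ f hf).1 hs)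
    · by_cases hk : ∃ κ, IsGauge 𝒱 X κ
      · rw [entKT_gauge hs hk]
        have hA'0 : 0 < A * Real.exp (Ct * (Ce / a)) := by positivity
        obtain ⟨u, hu1, h4⟩ := hEta v hv X hk.choose hk.choose_spec
        have h1 := main_K0_bound hε hA'0 hNorm b0 hb0mem X φ (fun x => u x / Real.sqrt a) f hf
        have e : entK0 a b0 𝒱 b0 X (toC φ + f + (toC fun x => v x / Real.sqrt a) + (toC fun x => 2 * Real.pi / Real.sqrt a * (hk.choose x : ℝ)))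
            = entK0 a b0 𝒱 b0 X (toC φ + (toC fun x => u x / Real.sqrt a) + f) := by
          refine (hProp 𝒱.G 𝒱.c 𝒱.g (vNest 𝒱) (vR 𝒱) a b0 b0 0 hgeo hg hnest ha hb0).2.1 X _ _ fun x hx => ?_
          simp only [Pi.add_apply, toC]
          rw [hu1 x hx]
          push_cast
          ring
        show ‖entK0 a b0 𝒱 b0 X (toC φ + f + (toC fun x => v x / Real.sqrt a)
          + (toC fun x => 2 * Real.pi / Real.sqrt a * (hk.choose x : ℝ)))‖ ≤ _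
        rw [e]
        refine h1.trans ?_
        have e2 : (fun i => avg 𝒱.c (fun x => Real.sqrt a * (u x / Real.sqrt a)) i) = fun i => avg 𝒱.c u i := by
          funext i
          congr 1
          funext x
          field_simp
        rw [e2]
        have h5 : Ct * openE a 𝒱.c (𝒱.g.Dm X) (fun i => avg 𝒱.c u i) ≤ Ct * (Ce / a) * X.card := by
          rw [mul_assoc]
          exact mul_le_mul_of_nonneg_left h4 hCt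
        rw [Real.exp_add, mul_pow, ← Real.exp_nat_mul, mul_inv]
        have h6 : Real.exp (Ct * openE a 𝒱.c (𝒱.g.Dm X) (fun i => avg 𝒱.c u i))
            ≤ Real.exp (X.card * (Ct * (Ce / a))) := Real.exp_le_exp.2 (by linarith)
        have h7 : 0 < Real.exp (X.card * (Ct * (Ce / a))) := Real.exp_pos _
        calc ε * ((A ^ X.card)⁻¹ * (Real.exp (X.card * (Ct * (Ce / a))))⁻¹) * (Real.exp (Vobs a o.hstar o.p1 𝒱.c 𝒱.g (Cless 𝒱.G 𝒱.g.m) X φ)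
              * Real.exp (Ct * openE a 𝒱.c (𝒱.g.Dm X) (fun i => avg 𝒱.c u i)))
            ≤ ε * ((A ^ X.card)⁻¹ * (Real.exp (X.card * (Ct * (Ce / a))))⁻¹) * (Real.exp (Vobs a o.hstar o.p1 𝒱.c 𝒱.g (Cless 𝒱.G 𝒱.g.m) X φ)
              * Real.exp (X.card * (Ct * (Ce / a)))) := by gcongr
          _ = ε * (A ^ X.card)⁻¹ * Real.exp (Vobs a o.hstar o.p1 𝒱.c 𝒱.g (Cless 𝒱.G 𝒱.g.m) X φ) := by
              field_simp
      · rw [entKT_zero hs hk]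
        simpa using hpos
  · -- the norm of `JT`
    refine main_norm_of_bound _ V _ εJ hδ.le hκ.le hA0 fun X φ f hf => ?_
    have h3 : V.V X φ = Vobs a o.hstar o.p1 𝒱.c 𝒱.g (Cless 𝒱.G 𝒱.g.m) X φ := by rw [hV X φ, hoa]
    show ‖entJT a b0 𝒱 X (toC φ + f + toC fun x => v x / Real.sqrt a)‖ ≤ εJ * (A ^ X.card)⁻¹ * Real.exp (V.V X φ)
    rw [h3]
    have hpos : 0 ≤ εJ * (A ^ X.card)⁻¹ * Real.exp (Vobs a o.hstar o.p1 𝒱.c 𝒱.g (Cless 𝒱.G 𝒱.g.m) X φ) := by positivity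
    rcases X.eq_empty_or_nonempty with rfl | hXne
    · have : entJT a b0 𝒱 ∅ = 0 := by
        unfold entJT Wt.Jact
        rw [if_neg]
        exact fun h => by simpa using h.1
      rw [this]
      simpa using hpos
    · have e : toC φ + f + (toC fun x => v x / Real.sqrt a) = toC φ + (toC fun x => v x / Real.sqrt a) + f := by abel
      rw [e]
      exact (main_Jact_norm_le _ _ _ _ _ _ _ _).trans (hNU v hv X hXne φ f hf).2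
  · -- the support of `JT`
    show (vW a b0 𝒱 b0 (tauU 𝒱.c)).Jact a (vNest 𝒱) (vR 𝒱) (entT0 𝒱) (entCs 𝒱) X = 0
    unfold Wt.Jact
    split_ifs with hc
    · refine Finset.sum_eq_zero fun π hπ => ?_
      exact absurd ((Finset.mem_filter.1 hπ).2 ▸ Finset.subset_union_left) hX
    · rfl
  · -- translated copies
    show entKT a b0 𝒱 X z = entK0 a b0 𝒱 b0 X (z + toC fun x => 2 * Real.pi / Real.sqrt a * (κ' x : ℝ))
    have hG := hGauge a b0 𝒱 ha hb0 hfree hcen hgeo X κ' hκ' z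
    by_cases hs : 𝒱.g.Sep RR (entCs 𝒱) X
    · rw [entKT_sep hs]
      exact hG.1
    · have hk : ∃ κ, IsGauge 𝒱 X κ := ⟨κ', hκ'⟩
      rw [entKT_gauge hs hk]
      exact hG.2 _ hk.choose_spec

/-! ## 5. Small lemmas for the choice of the constants -/

theorem main_phys_empty {c : Grid G} {W : Wt c} {R : ℕ} {a cb θ H gm big : ℝ} (big' : ℝ) (h : Phys W R ∅ a cb θ H gm big) :
    Phys W R ∅ a cb θ H gm big' := by
  refine ⟨fun S hS => ?_, h.tile, fun t _ ht => absurd (Finset.disjoint_empty_right _) ht⟩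
  have := h.halo S hS
  rw [if_pos (Finset.disjoint_empty_right _)] at this ⊢
  exact this

theorem NormAt.mono {a b0 hs p1 : ℝ} {h0 : ℝ≥0} {r r' ε ε' A Ct : ℝ} {𝒱 : Vol} (h : NormAt a b0 hs p1 h0 r ε A Ct 𝒱) (hr : r' ≤ r) (hε : ε ≤ ε')
    (hA : 0 < A) : NormAt a b0 hs p1 h0 r' ε' A Ct 𝒱 := by
  intro b hb X hX φ lam f hf
  refine (h b (Metric.ball_subset_ball hr hb) X hX φ lam f hf).trans ?_
  gcongr

theorem main_exp_mono {C1 c1 Cf cf x : ℝ} (hC : C1 ≤ Cf) (hCf : 0 ≤ Cf) (hc : cf ≤ c1) (hx : 0 ≤ x) :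
    C1 * Real.exp (-c1 * x) ≤ Cf * Real.exp (-cf * x) := by
  calc C1 * Real.exp (-c1 * x) ≤ Cf * Real.exp (-c1 * x) := by gcongr
    _ ≤ Cf * Real.exp (-cf * x) := by
        gcongr

theorem entCst_eq (s m : ℕ) : entCst s m = entCst 1 (m / s) := by
  unfold entCst
  rw [Nat.div_one]

theorem entCst_central (s m : ℕ) : ({(0, 0), (-1, 0), (0, -1), (-1, -1)} : Finset (ℤ × ℤ)) ⊆ entCst s m := by
  have h : (0 : ℤ) ≤ 2 * ((m / s : ℕ) : ℤ) ^ 4 := by positivity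
  intro x hx
  simp only [Finset.mem_insert, Finset.mem_singleton] at hx
  unfold entCst
  rw [Finset.mem_product, Finset.mem_Icc, Finset.mem_Icc]
  rcases hx with rfl | rfl | rfl | rfl <;> refine ⟨⟨?_, ?_⟩, ⟨?_, ?_⟩⟩ <;> simp only [] <;> linarith

/-- the arithmetic of `ε_J` -/
theorem main_epsJ (CJ CR Ce Rr s : ℝ) (nJ : ℕ) (hCJ : 0 ≤ CJ) (hCR : 1 ≤ CR) (hCe : 0 ≤ Ce) (hR : 1 ≤ Rr) (hs : 1 ≤ s) (CRf : ℝ)
    (h1 : CJ * CR ^ nJ * (3 * Rr) ^ (CJ * Ce) ≤ CRf) (h2 : CR * nJ + CJ * Ce ≤ CRf) :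
    CJ * (CR * s ^ CR) ^ nJ * Real.exp (CJ * (Ce * Real.log (2 + Rr * s))) ≤ CRf * s ^ CRf := by
  have hs0 : 0 < s := by linarith
  have hR0 : 0 < Rr := by linarith
  have hE : 0 ≤ CJ * Ce := mul_nonneg hCJ hCe
  have hpos : 0 < 2 + Rr * s := by positivity
  have e1 : Real.exp (CJ * (Ce * Real.log (2 + Rr * s))) = (2 + Rr * s) ^ (CJ * Ce) := by
    rw [Real.rpow_def_of_pos hpos]
    congr 1
    ring
  have e2 : (CR * s ^ CR) ^ nJ = CR ^ nJ * s ^ (CR * nJ) := by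
    rw [mul_pow, Real.rpow_mul_natCast hs0.le]
  have h3 : 2 + Rr * s ≤ 3 * Rr * s := by nlinarith
  have h4 : (2 + Rr * s) ^ (CJ * Ce) ≤ (3 * Rr) ^ (CJ * Ce) * s ^ (CJ * Ce) := by
    rw [← Real.mul_rpow (by positivity) hs0.le]
    exact Real.rpow_le_rpow hpos.le h3 hE
  rw [e1, e2]
  have h5 : 0 ≤ CJ * (CR ^ nJ * s ^ (CR * nJ)) := by positivity
  calc CJ * (CR ^ nJ * s ^ (CR * nJ)) * (2 + Rr * s) ^ (CJ * Ce)
      ≤ CJ * (CR ^ nJ * s ^ (CR * nJ)) * ((3 * Rr) ^ (CJ * Ce) * s ^ (CJ * Ce)) := by gcongr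
    _ = (CJ * CR ^ nJ * (3 * Rr) ^ (CJ * Ce)) * s ^ (CR * nJ + CJ * Ce) := by
        rw [Real.rpow_add hs0]
        ring
    _ ≤ CRf * s ^ CRf := by
        have h6 : s ^ (CR * nJ + CJ * Ce) ≤ s ^ CRf := Real.rpow_le_rpow_of_exponent_le hs h2
        have h7 : 0 ≤ CJ * CR ^ nJ * (3 * Rr) ^ (CJ * Ce) := by positivity
        have h8 : 0 ≤ s ^ CRf := by positivity
        exact mul_le_mul h1 h6 (by positivity) (h7.trans h1)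

/-! ## 6. The family of weights of a volume -/

theorem main_fam (hProp : PropStmt) {a b0 : ℝ} (ha : 0 < a) (hb0 : 0 < b0) {c g : Grid G} (N : Nest c g) {R : ℕ} (hgeo : GeoOK c R) (hg : g.Ok)
    (hnest : NestOK N R) {cb θ H gm CR CM Cl cl cRP : ℝ} (hlink : LinkOK (xyWt c a b0 b0 0) R Cl cl)
    (hreal : ∀ b : ℝ, |b - b0| < cRP / (c.m : ℝ) ^ 2 → Phys (xyWt c a b0 b 0) R ∅ a cb θ 0 gm 1 ∧ PhysPos (xyWt c a b0 b 0) R ∅ a cb θ CR 1)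
    (hmaj : ∀ b : ℂ, ‖b - b0‖ < min b0 1 / (c.m : ℝ) ^ 2 → PhysPos (xyWt c a b0 ‖b‖ 0) R ∅ a cb θ CR 1 →
      Phys (xyWt c a b0 b 0) R ∅ a cb θ H (CM * CR) (CM * 1)) :
    FamOK (fun b => xyWt c a b0 b 0) R b0 (min cRP (min b0 1) / (c.m : ℝ) ^ 2) a cb θ H gm (CM * CR) Cl cl := by
  have hm : (0 : ℝ) < (c.m : ℝ) ^ 2 := by
    have : 0 < c.m := hgeo.whole.pos
    positivity
  have h1 : min cRP (min b0 1) / (c.m : ℝ) ^ 2 ≤ cRP / (c.m : ℝ) ^ 2 :=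
    div_le_div_of_nonneg_right (min_le_left _ _) hm.le
  have h2 : min cRP (min b0 1) / (c.m : ℝ) ^ 2 ≤ min b0 1 / (c.m : ℝ) ^ 2 :=
    div_le_div_of_nonneg_right (min_le_right _ _) hm.le
  refine ⟨fun b _ => (hProp G c g N R a b0 b 0 hgeo hg hnest ha hb0).1, fun _ => rfl, fun _ => rfl, fun _ => rfl,
    fun T y => ((hProp G c g N R a b0 b0 0 hgeo hg hnest ha hb0).2.2.2.2.2.2.2 T y).differentiableOn, hlink,
    fun b hb => (hreal b (hb.trans_le h1)).1, fun b hb => ?_⟩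
  have hb' : ‖b - b0‖ < min cRP (min b0 1) / (c.m : ℝ) ^ 2 := by
    rw [Metric.mem_ball, Complex.dist_eq] at hb
    exact hb
  have h3 : |‖b‖ - b0| ≤ ‖b - b0‖ := by
    have := abs_norm_sub_norm_le b (b0 : ℂ)
    rwa [Complex.norm_real, Real.norm_of_nonneg hb0.le] at this
  exact main_phys_empty 1 (hmaj b (hb'.trans_le h2) (hreal ‖b‖ (h3.trans_lt (hb'.trans_le h1))).2)

/-! ## 7. The theorem -/

theorem NormUAt.mono {a b0 hs p1 : ℝ} {h0 : ℝ≥0} {ε ε' εJ εJ' A : ℝ} {𝒱 : Vol} (h : NormUAt a b0 hs p1 h0 ε εJ A 𝒱) (hε : ε ≤ ε') (hεJ : εJ ≤ εJ')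
    (hA : 0 < A) : NormUAt a b0 hs p1 h0 ε' εJ' A 𝒱 := by
  intro v hv X hX φ f hf
  obtain ⟨h1, h2⟩ := h v hv X hX φ f hf
  refine ⟨fun hs => (h1 hs).trans ?_, h2.trans ?_⟩
  · gcongr
  · gcongr

/-- **`F4b.initialization` from the exit statements of the posts.** -/
theorem ent_main (hPhys : PhysRStmt) (hMaj : MajStmt) (hLink : LinkStmt) (hId : IdentStmt) (hNorm : NormStmt) (hHol : HolStmt) (hProp : PropStmt)
    (hSym : SymStmt) (hCopy : CopyStmt) (hGauge : GaugeStmt) (hEta : EtaStmt) (hNormU : NormUStmt) (hHolU : HolUStmt) (hGeoU : GeoUStmt)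
    (b0 a : ℝ) (hb0 : 0 < b0) (ha : 0 < a) (hab : aLim b0 = a) :
    ∃ (cstar δ0 : ℝ) (kq cmk c0 : ℕ) (D : EntryData), 0 < cstar ∧ cstar < 1 ∧ 0 < δ0 ∧
    ∀ o : ObsPar, o.a = a → 1 - cstar < o.hstar → ∀ δ ∈ Set.Ioc 0 δ0, ∃ κ0 > (0 : ℝ), ∀ κ ∈ Set.Ioc 0 κ0,
    ∀ (h0 : ℝ≥0) (A : ℝ), 1 ≤ A →
    ∃ (C c : ℝ) (k1 : ℕ), 0 < c ∧ ∀ kR ≥ k1, ∃ (CR cR : ℝ) (k0 : ℕ), 0 < cR ∧ ∀ ks ≥ k0,
      ((D.Cst (2 ^ ks) (2 ^ kq * 2 ^ kR * 2 ^ ks)).card ≤ CR ∧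
        {(0, 0), (-1, 0), (0, -1), (-1, -1)} ⊆ D.Cst (2 ^ ks) (2 ^ kq * 2 ^ kR * 2 ^ ks)) ∧
      ∀ 𝒱 : Vol, 𝒱.Adm (2 ^ kq) (2 ^ kR) (2 ^ ks) →
        BulkOK D b0 a ⟨δ, κ, h0, A, 2 * Real.pi / Real.sqrt a⟩ o (cR / ((2 : ℝ) ^ ks) ^ 2) (C * Real.exp (-c * 2 ^ kR)) 𝒱 ∧
        (𝒱.G.bc = BC.free → cmk * (2 ^ ks * (2 ^ kR) ^ 5) ≤ 𝒱.G.M →
          UnitOK D b0 a ⟨δ, κ, h0, A, 2 * Real.pi / Real.sqrt a⟩ o (C * Real.exp (-c * 2 ^ kR)) (CR * ((2 : ℝ) ^ ks) ^ CR) 𝒱) ∧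
        ∀ 𝒱' : Vol, 𝒱'.Adm (2 ^ kq) (2 ^ kR) (2 ^ ks) →
          CopyOK D b0 h0 c0 (cR / ((2 : ℝ) ^ ks) ^ 2) (cmk * (2 ^ ks * (2 ^ kR) ^ 5)) 𝒱 𝒱' := by
  obtain ⟨cstar, hc0, hc1, hPh⟩ := hPhys b0 a hb0 ha hab
  obtain ⟨c0, hCp⟩ := hCopy
  obtain ⟨Ce, hCe, hEt⟩ := hEta
  obtain ⟨Cl, cl, kL, hcl, hLk⟩ := hLink a ha
  refine ⟨cstar, 1, 0, 8, c0, entData a b0, hc0, hc1, one_pos, fun o hoa hhs δ hδ => ⟨1, one_pos, fun κ hκ h0 A hA => ?_⟩⟩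
  -- the loads
  obtain ⟨cb, h1, h2, hcbs, hcb0, hcb1, h12, h2s⟩ : ∃ cb h1 h2 : ℝ, 1 - cstar < cb ∧ 0 < cb ∧ cb < h1 ∧ h1 < h2 ∧ h2 < o.hstar :=
    ⟨1 - cstar + (o.hstar - (1 - cstar)) / 4, 1 - cstar + (o.hstar - (1 - cstar)) / 2, 1 - cstar + 3 * (o.hstar - (1 - cstar)) / 4,
      by linarith, by linarith, by linarith, by linarith, by linarith⟩
  have hp2 : 0 < o.p2 := by linarith [o.one_lt, o.p_lt]
  have hp : o.p1 * o.hstar < 1 := by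
    calc o.p1 * o.hstar < o.p2 * (1 / o.p2) := mul_lt_mul'' o.p_lt o.h_lt (by linarith [o.one_lt]) o.h_pos.le
      _ = 1 := by field_simp
  have hs1 : o.hstar < 1 := by
    have h3 : 1 / o.p2 < 1 := by
      rw [div_lt_one hp2]
      linarith [o.one_lt, o.p_lt]
    linarith [o.h_lt]
  have hθ : 0 ≤ thetaOf h1 h2 := by
    unfold thetaOf
    have : 0 < 1 - h2 := by linarith
    have : 0 < h1 := by linarith
    have : 0 < h2 := by linarith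
    positivity
  have hH : 0 ≤ 5 * Real.sqrt a * h0 := by positivity
  obtain ⟨Ct, hCt, hNm⟩ := hNorm a o.hstar o.p1 cb h1 h2 ha o.one_lt hp hcb0 hcb1 h12 h2s
  obtain ⟨C, cg, kP, hcg, hPh2⟩ := hPh cb (thetaOf h1 h2) hcbs hθ
  have hexp1 : 1 ≤ Real.exp (Ct * (Ce / a)) := Real.one_le_exp (by positivity)
  have hAA' : A ≤ A * Real.exp (Ct * (Ce / a)) := le_mul_of_one_le_right (by linarith) hexp1
  have hA' : 1 ≤ A * Real.exp (Ct * (Ce / a)) := hA.trans hAA'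
  obtain ⟨C1, c1, kN, hc1', hNm2⟩ := hNm h0 (A * Real.exp (Ct * (Ce / a))) hA' C cg Cl cl hcg hcl
  obtain ⟨kH, hHl⟩ := hHol a o.hstar o.p1 cb h1 h2 ha o.one_lt hp hcb0 hcb1 h12 h2s h0 Cl cl hcl
  obtain ⟨C2, c2, kU, hc2, hNU2⟩ := hNormU a o.hstar o.p1 cb h1 h2 ha o.one_lt hp hcb0 hcb1 h12 h2s h0 A hA C cg Cl cl Ce hcg hcl
  obtain ⟨kHU, hHU⟩ := hHolU a o.hstar o.p1 cb h1 h2 ha o.one_lt hp hcb0 hcb1 h12 h2s h0 Cl cl hcl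
  refine ⟨max (max C1 C2) 0, min c1 c2, max 6 (max kP (max kL (max kN (max kH (max kU kHU))))), lt_min hc1' hc2, fun kR hkR => ?_⟩
  simp only [ge_iff_le, max_le_iff] at hkR
  obtain ⟨hk6, hkP, hkL, hkN, hkH, hkU, hkHU⟩ := hkR
  obtain ⟨CR, cRP, k0, hCR, hcRP, hPh3⟩ := hPh2 kR hkP
  obtain ⟨CM0, hCM0, hMj0⟩ := hMaj a b0 (5 * Real.sqrt a * h0) (2 ^ kR) 0 ha hb0 hH (by positivity)
  obtain ⟨CMz, hCMz, hMjz⟩ := hMaj a b0 (5 * Real.sqrt a * h0) (2 ^ kR) (3 * (4 * (2 ^ kR) ^ 4 + 8) ^ 2) ha hb0 hH (by positivity)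
  obtain ⟨ρ, hρ0, hρ1, hNm3⟩ := hNm2 kR hkN (CM0 * CR)
  obtain ⟨CJ, nJ, hCJ, hNU3⟩ := hNU2 kR hkU (entCst 1 (2 ^ kR)).card (CMz * CR)
  have hmin : 0 < min cRP (min b0 1) := lt_min hcRP (lt_min hb0 one_pos)
  refine ⟨max ((entCst 1 (2 ^ kR)).card : ℝ) (max (CJ * CR ^ nJ * (3 * (2 : ℝ) ^ kR) ^ (CJ * Ce)) (CR * nJ + CJ * Ce)), ρ * min cRP (min b0 1), k0,
    mul_pos hρ0 hmin, fun ks hks => ⟨⟨?_, entCst_central _ _⟩, fun 𝒱 hV => ?_⟩⟩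
  · show ((entCst (2 ^ ks) (2 ^ 0 * 2 ^ kR * 2 ^ ks)).card : ℝ) ≤ _
    have e : 2 ^ 0 * 2 ^ kR * 2 ^ ks / 2 ^ ks = 2 ^ kR := by
      rw [pow_zero, one_mul]
      exact Nat.mul_div_cancel _ (by positivity)
    rw [entCst_eq, e]
    exact le_max_left _ _
  -- one volume
  obtain ⟨hvR, hcm, hgeo, hg, hnest, h5⟩ := main_vol 𝒱 kR ks hk6 hV
  have hgeo' : GeoOK 𝒱.c (vR 𝒱) := by rw [hvR]; exact hgeo
  have hnest' : NestOK (vNest 𝒱) (vR 𝒱) := by rw [hvR]; exact hnest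
  have hcmR : (𝒱.c.m : ℝ) = (2 : ℝ) ^ ks := by rw [hcm]; push_cast; rfl
  have hs1' : (1 : ℝ) ≤ (2 : ℝ) ^ ks := one_le_pow₀ (by norm_num)
  have hs2 : (1 : ℝ) ≤ ((2 : ℝ) ^ ks) ^ 2 := one_le_pow₀ hs1'
  have hPV := hPh3 ks hks 𝒱.G 𝒱.c hgeo hcm h5
  have hkLR : 2 ^ kL ≤ 2 ^ kR := Nat.pow_le_pow_right (by norm_num) hkL
  have hlink : LinkOK (xyWt 𝒱.c a b0 b0 0) (2 ^ kR) Cl cl := hLk 𝒱.G 𝒱.c (2 ^ kR) hgeo hkLR _ (fun T => rfl)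
  have hfam := main_fam hProp ha hb0 (vNest 𝒱) hgeo hg hnest hlink (cRP := cRP) (CM := CM0) (H := 5 * Real.sqrt a * h0)
    (by rw [hcmR]; exact hPV.1)
    (fun b hb hpp => hMj0 𝒱.G 𝒱.c 0 ∅ cb (thetaOf h1 h2) CR 1 b hgeo hθ hCR le_rfl (by simp) hb hpp)
  rw [hcmR] at hfam
  have hr : 0 < min cRP (min b0 1) / ((2 : ℝ) ^ ks) ^ 2 := by positivity
  have hrr : ρ * min cRP (min b0 1) / ((2 : ℝ) ^ ks) ^ 2 = ρ * (min cRP (min b0 1) / ((2 : ℝ) ^ ks) ^ 2) := by ring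
  have hr'r : ρ * (min cRP (min b0 1) / ((2 : ℝ) ^ ks) ^ 2) ≤ min cRP (min b0 1) / ((2 : ℝ) ^ ks) ^ 2 := by nlinarith
  have hrb : ρ * (min cRP (min b0 1) / ((2 : ℝ) ^ ks) ^ 2) ≤ b0 := by
    refine hr'r.trans ((div_le_self hmin.le hs2).trans ?_)
    exact (min_le_right _ _).trans (min_le_left _ _)
  have hx0 : (0 : ℝ) ≤ 2 ^ kR := by positivity
  have hCf0 : (0 : ℝ) ≤ max (max C1 C2) 0 := le_max_right _ _
  have hε0 : 0 ≤ max (max C1 C2) 0 * Real.exp (-min c1 c2 * 2 ^ kR) := by positivity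
  have hA0 : 0 < A := by linarith
  have hA'0 : 0 < A * Real.exp (Ct * (Ce / a)) := by linarith
  have hHolAt : HolAt a b0 h0 (min cRP (min b0 1) / ((2 : ℝ) ^ ks) ^ 2) 𝒱 := by
    unfold HolAt
    rw [hvR]
    exact hHl kR hkH 𝒱.G 𝒱.c 𝒱.g (vNest 𝒱) hgeo hg hnest b0 _ _ _ _ hr hfam
  have hNormAt : NormAt a b0 o.hstar o.p1 h0 (ρ * (min cRP (min b0 1) / ((2 : ℝ) ^ ks) ^ 2))
      (max (max C1 C2) 0 * Real.exp (-min c1 c2 * 2 ^ kR)) (A * Real.exp (Ct * (Ce / a))) Ct 𝒱 := by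
    have h : NormAt a b0 o.hstar o.p1 h0 (ρ * (min cRP (min b0 1) / ((2 : ℝ) ^ ks) ^ 2))
        (C1 * Real.exp (-c1 * 2 ^ kR)) (A * Real.exp (Ct * (Ce / a))) Ct 𝒱 := by
      unfold NormAt
      rw [hvR]
      exact hNm3 𝒱.G 𝒱.c 𝒱.g (vNest 𝒱) hgeo hg hnest b0 _ _ hr hfam
    exact h.mono le_rfl (main_exp_mono ((le_max_left _ _).trans (le_max_left _ _)) hCf0 (min_le_left _ _) hx0) hA'0
  have hBulk := main_bulk hProp hSym hId a b0 ha hb0 o hoa δ κ hδ.1 hκ.1 h0 A _ hA hAA' 𝒱 hgeo' hg hnest' _ _ _ Ct hε0 hCt hr'r hrb hHolAt hNormAt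
  rw [hrr]
  refine ⟨hBulk, fun hfree hbig => ?_, fun 𝒱' hV' => ?_⟩
  · -- the unit sector
    have hcen := hV.centred hfree
    have hsV : 𝒱.s = 2 ^ ks := hV.hs
    have hmV : 𝒱.m = 2 ^ kR * 2 ^ ks := by rw [hV.hm]; ring
    have hs0 : 0 < 𝒱.s := by rw [hsV]; positivity
    have hm0 : 0 < 𝒱.m := by rw [hmV]; positivity
    have hbig' : 8 * (𝒱.s * vR 𝒱 ^ 5) ≤ 𝒱.G.M := by rw [hsV, hvR]; exact hbig
    obtain ⟨hT0, hT0Z, hZCs, hConn, hcnt⟩ := hGeoU 𝒱 hfree hcen hgeo' hnest' hbig'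
    have hCl : (vNest 𝒱).cl (cellsOf 𝒱.c (vR 𝒱) {entT0 𝒱}) ⊆ entCs 𝒱 := by
      intro B hB
      obtain ⟨i, hi, rfl⟩ := Finset.mem_image.1 hB
      exact (Finset.mem_filter.1 (hZCs (hT0Z hi))).2
    rw [hvR] at hT0Z hZCs hcnt
    have hT0' : entT0 𝒱 ∈ tiles 𝒱.c (2 ^ kR) := by rw [← hvR]; exact hT0
    have hCl' : (vNest 𝒱).cl (cellsOf 𝒱.c (2 ^ kR) {entT0 𝒱}) ⊆ entCs 𝒱 := by rw [← hvR]; exact hCl
    have hdv : 2 * 2 ^ kR ∣ 𝒱.c.n := by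
      obtain ⟨k, hk⟩ := hcen
      refine ⟨k, ?_⟩
      show 𝒱.G.M / 𝒱.s = 2 * 2 ^ kR * k
      refine Nat.div_eq_of_eq_mul_left hs0 ?_
      rw [hk, hmV, hsV]
      ring
    have h8 : 8 * (2 ^ kR) ^ 5 ≤ 𝒱.c.n := by
      show 8 * (2 ^ kR) ^ 5 ≤ 𝒱.G.M / 𝒱.s
      rw [Nat.le_div_iff_mul_le hs0, hsV]
      calc 8 * (2 ^ kR) ^ 5 * 2 ^ ks = 8 * (2 ^ ks * (2 ^ kR) ^ 5) := by ring
        _ ≤ 𝒱.G.M := hbig
    obtain ⟨hPU, hPUpos⟩ := hPV.2 hfree hdv h8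
    have hbigR : 1 ≤ CR * ((2 : ℝ) ^ ks) ^ CR := one_le_mul_of_one_le_of_one_le hCR (Real.one_le_rpow hs1' (by linarith))
    have enorm : ‖(b0 : ℂ)‖ = b0 := by rw [Complex.norm_real, Real.norm_of_nonneg hb0.le]
    have hcrude : Phys (xyWt 𝒱.c a b0 b0 (tauU 𝒱.c)) (2 ^ kR) (zone 𝒱.c (2 * (2 ^ kR) ^ 5)) a cb (thetaOf h1 h2) (5 * Real.sqrt a * h0)
        (CMz * CR) (CMz * (CR * ((2 : ℝ) ^ ks) ^ CR)) :=
      hMjz 𝒱.G 𝒱.c (tauU 𝒱.c) _ cb (thetaOf h1 h2) CR _ (b0 : ℂ) hgeo hθ hCR hbigR hcnt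
        (by rw [sub_self, norm_zero, hcmR]; exact div_pos (lt_min hb0 one_pos) (by positivity)) (by rw [enorm]; exact hPUpos)
    have hStr := (hProp 𝒱.G 𝒱.c 𝒱.g (vNest 𝒱) (2 ^ kR) a b0 b0 (tauU 𝒱.c) hgeo hg hnest ha hb0).1
    have hlinkU : LinkOK (xyWt 𝒱.c a b0 b0 (tauU 𝒱.c)) (2 ^ kR) Cl cl := hLk 𝒱.G 𝒱.c (2 ^ kR) hgeo hkLR _ (fun T => rfl)
    have hHolUAt : HolUAt a b0 h0 𝒱 := by
      unfold HolUAt
      rw [hvR]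
      exact hHU kR hkHU 𝒱.G 𝒱.c 𝒱.g (vNest 𝒱) hgeo hg hnest _ _ (entCs 𝒱) (entT0 𝒱) _ _ hStr hlinkU hcrude hT0' hCl'
    have hcard : (entCs 𝒱).card ≤ (entCst 1 (2 ^ kR)).card := by
      refine Finset.card_image_le.trans (le_of_eq ?_)
      rw [entCst_eq]
      show (entCst 1 (vR 𝒱)).card = _
      rw [hvR]
    have hmR : (𝒱.m : ℝ) = (2 : ℝ) ^ kR * (2 : ℝ) ^ ks := by rw [hmV]; push_cast; rfl
    have hlg : 0 ≤ Ce * Real.log (2 + (𝒱.m : ℝ)) := by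
      refine mul_nonneg hCe (Real.log_nonneg ?_)
      have : (0 : ℝ) ≤ (𝒱.m : ℝ) := Nat.cast_nonneg _
      linarith
    have hNUAt0 : NormUAt a b0 o.hstar o.p1 h0 (C2 * Real.exp (-c2 * 2 ^ kR))
        (CJ * (CR * ((2 : ℝ) ^ ks) ^ CR) ^ nJ * Real.exp (CJ * (Ce * Real.log (2 + (𝒱.m : ℝ))))) A 𝒱 := by
      intro v hv
      obtain ⟨e1, e2, _⟩ := hEt 𝒱 hfree hcen hs0 hm0 v hv
      have := hNU3 𝒱.G 𝒱.c 𝒱.g (vNest 𝒱) hgeo hg hnest (xyWt 𝒱.c a b0 b0 (tauU 𝒱.c)) (zone 𝒱.c (2 * (2 ^ kR) ^ 5)) (entCs 𝒱) (entT0 𝒱)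
        (CR * ((2 : ℝ) ^ ks) ^ CR) (CMz * (CR * ((2 : ℝ) ^ ks) ^ CR)) (Ce * Real.log (2 + (𝒱.m : ℝ))) v hStr hlinkU hbigR hlg hPU hcrude
        hZCs hcard hT0' hT0Z e1
        (fun X hX => e2 X fun p hp q hq => (Nat.zero_le _).trans_lt (hX p (Finset.image_subset_image (entCst_central _ _) hp) q hq))
      rw [hvR]
      exact this
    have hNUAt : NormUAt a b0 o.hstar o.p1 h0 (max (max C1 C2) 0 * Real.exp (-min c1 c2 * 2 ^ kR))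
        (max ((entCst 1 (2 ^ kR)).card : ℝ) (max (CJ * CR ^ nJ * (3 * (2 : ℝ) ^ kR) ^ (CJ * Ce)) (CR * nJ + CJ * Ce))
          * ((2 : ℝ) ^ ks) ^ (max ((entCst 1 (2 ^ kR)).card : ℝ) (max (CJ * CR ^ nJ * (3 * (2 : ℝ) ^ kR) ^ (CJ * Ce)) (CR * nJ + CJ * Ce)))) A 𝒱 :=
      hNUAt0.mono (main_exp_mono ((le_max_right _ _).trans (le_max_left _ _)) hCf0 (min_le_right _ _) hx0)
      (by
        rw [hmR]
        exact main_epsJ CJ CR Ce ((2 : ℝ) ^ kR) ((2 : ℝ) ^ ks) nJ hCJ hCR hCe (one_le_pow₀ (by norm_num)) hs1' _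
          ((le_max_left _ _).trans (le_max_right _ _)) ((le_max_right _ _).trans (le_max_right _ _))) hA0
    have hCRf0 : 0 ≤ max ((entCst 1 (2 ^ kR)).card : ℝ) (max (CJ * CR ^ nJ * (3 * (2 : ℝ) ^ kR) ^ (CJ * Ce)) (CR * nJ + CJ * Ce)) :=
      (Nat.cast_nonneg _).trans (le_max_left _ _)
    refine main_unit hProp hId hGauge a b0 ha hb0 o hoa δ κ hδ.1 hκ.1 h0 A hA 𝒱 hfree hcen hgeo' hg hnest' hT0 hCl hConn _ _ _ _ Ct Ce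
      (mul_pos hρ0 hr) hε0 (by positivity) hBulk hNormAt hCt hHolUAt hNUAt fun v hv X κ' hκ' => ?_
    obtain ⟨_, _, e3⟩ := hEt 𝒱 hfree hcen hs0 hm0 v hv
    obtain ⟨u, hu1, _, hu3⟩ := e3 X κ' hκ'
    exact ⟨u, hu1, hu3 a ha⟩
  · -- copies
    obtain ⟨hvR', _, hgeoV', _, _, _⟩ := main_vol 𝒱' kR ks hk6 hV'
    have hC := hCp a b0 h0 𝒱 𝒱' ha hb0 (hV.hs.trans hV'.hs.symm) (hV.hm.trans hV'.hm.symm) hgeo' (by rw [hvR']; exact hgeoV')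
    refine ⟨fun b _ o o' e1 e2 e3 e4 => hC.1 b o o' e1 e2 e3 e4, fun f f' g1 g2 => ?_, fun f f' g1 g2 => ?_⟩
    · exact (hC.2 f f' (hV.centred f) (hV'.centred f') (by rw [hV.hs, hvR]; exact g1) (by rw [hV.hs, hvR]; exact g2)).1
    · exact (hC.2 f f' (hV.centred f) (hV'.centred f') (by rw [hV.hs, hvR]; exact g1) (by rw [hV.hs, hvR]; exact g2)).2

end

end Claimed.Agent.R285.Ent
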