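import Claimed.Agent.R285.Ent.Defs
import Claimed.Agent.R285.Sp.ConvCopy

/-!
# ROW 285, THE ENTRY ENGINE, POST TRANSPORT (#16188), SITE LEVEL, part B: transport of the averaging `eav`      (architect helper225; cell level: helper238)
PAPER-FREE.  `EtlLoc c c' D` = a bijection of the cells `D` and of their sites onto cells and sites of a second volume.
`etl_eav_loc`: if `F y = F' y'` for corresponding observations on `D`, the fields correspond on the sites of `D` and the covariances agree there, then the averages agree.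
NO measurability of `F` is assumed (`RG.sp_aesm_of_comp`).  All names: prefix `etl`.
-/

set_option autoImplicit false

namespace Claimed.Agent.R285.Ent

open scoped BigOperators ENNReal NNReal
open MeasureTheory ProbabilityTheory
open Claimed.Agent.R285 Claimed.Agent.R285.RG Claimed.Agent.R285.F4a

noncomputable section

/-! ## 1. Measure theory -/

/-- two integrals of the same function of a common marginal -/
theorem etl_transfer {X X' W : Type*} [MeasurableSpace X] [MeasurableSpace X'] [MeasurableSpace W]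
    [StandardBorelSpace X] [StandardBorelSpace X'] [StandardBorelSpace W] [Nonempty X] [Nonempty X']
    (μ : Measure X) (μ' : Measure X') [IsFiniteMeasure μ] [IsFiniteMeasure μ'] (R : X → W) (R' : X' → W)
    (hR : Measurable R) (hR' : Measurable R') (hν : μ.map R = μ'.map R') (H : W → ℂ) :
    ∫ x, H (R x) ∂μ = ∫ x, H (R' x) ∂μ' := by
  by_cases hm : AEStronglyMeasurable H (μ.map R)
  · rw [← integral_map hR.aemeasurable hm, hν, integral_map hR'.aemeasurable (hν ▸ hm)]
  · rw [integral_non_aestronglyMeasurable, integral_non_aestronglyMeasurable]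
    · intro h
      exact hm (hν ▸ sp_aesm_of_comp _ R' hR' H h)
    · intro h
      exact hm (sp_aesm_of_comp _ R hR H h)

/-- marginals of a product of copies of a probability measure -/
theorem etl_pi_marginal {ι κ : Type} [Fintype ι] [Fintype κ] (e : κ → ι) (he : Function.Injective e) (μ : Measure ℝ)
    [IsProbabilityMeasure μ] :
    (Measure.pi fun _ : ι => μ).map (fun (x : ι → ℝ) (k : κ) => x (e k)) = Measure.pi fun _ : κ => μ := by
  classical
  symm
  apply Measure.pi_eq
  intro s hs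
  have hm : Measurable (fun (x : ι → ℝ) (k : κ) => x (e k)) := by fun_prop
  rw [Measure.map_apply hm (MeasurableSet.univ_pi hs)]
  let t : ι → Set ℝ := fun i => if h : ∃ k, e k = i then s h.choose else Set.univ
  have ht : ∀ k, t (e k) = s k := by
    intro k
    have h : ∃ k', e k' = e k := ⟨k, rfl⟩
    show dite _ _ _ = _
    rw [dif_pos h, he h.choose_spec]
  have hpre : (fun (x : ι → ℝ) (k : κ) => x (e k)) ⁻¹' Set.pi Set.univ s = Set.pi Set.univ t := by
    ext x
    simp only [Set.mem_preimage, Set.mem_pi, Set.mem_univ, true_implies]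
    constructor
    · intro h i
      by_cases hi : ∃ k, e k = i
      · obtain ⟨k, rfl⟩ := hi
        rw [ht]
        exact h k
      · show x i ∈ dite _ _ _
        rw [dif_neg hi]
        trivial
    · intro h k
      rw [← ht]
      exact h (e k)
  rw [hpre, Measure.pi_pi, ← Finset.prod_subset (Finset.subset_univ (Finset.univ.image e)), Finset.prod_image he.injOn]
  · exact Finset.prod_congr rfl fun k _ => by rw [ht]
  · intro i _ hi
    have hi' : ¬ ∃ k, e k = i := fun ⟨k, hk⟩ => hi (Finset.mem_image.2 ⟨k, Finset.mem_univ _, hk⟩)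
    show μ (dite _ _ _) = 1
    rw [dif_neg hi']
    exact measure_univ

/-- marginals of `gauss` along any map of index sets -/
theorem etl_gauss_marginal {G : Geom} {κ : Type} [Fintype κ] [DecidableEq κ] (Γ : Matrix G.V G.V ℝ) (hΓ : Γ.PosSemidef) (e : κ → G.V) :
    (gauss G Γ).map (fun (ζ : G.V → ℝ) (x : κ) => ζ (e x))
      = (multivariateGaussian 0 (Γ.submatrix e e)).map (MeasurableEquiv.toLp 2 (κ → ℝ)).symm := by
  rw [← sp_mvg_map e Γ hΓ]
  unfold gauss
  rw [Measure.map_map (by fun_prop) (by fun_prop), Measure.map_map (by fun_prop) (by fun_prop)]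
  rfl

instance etl_noise_prob {G : Geom} (c : Grid G) : IsProbabilityMeasure (noise c) := by
  unfold noise; infer_instance

/-! ## 2. Local isomorphisms at the level of sites -/

variable {G G' : Geom}

/-- a bijection of the cells `D` and of their sites onto cells and sites of a second volume -/
structure EtlLoc (c : Grid G) (c' : Grid G') (D : Finset c.I) where
  φ : c.I → c'.I
  ψ : G.V → G'.V
  φ_inj : Set.InjOn φ D
  ψ_inj : Set.InjOn ψ (c.sites D)
  img : ∀ i ∈ D, c'.sites {φ i} = (c.sites {i}).image ψ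

variable {c : Grid G} {c' : Grid G'} {D : Finset c.I}

theorem etl_sites_sub {i : c.I} (hi : i ∈ D) : c.sites {i} ⊆ c.sites D := by
  intro v hv
  simp only [Grid.sites, Finset.mem_filter, Finset.mem_univ, true_and, Finset.mem_singleton] at hv ⊢
  exact hv ▸ hi

theorem etl_avgC (L : EtlLoc c c' D) {i : c.I} (hi : i ∈ D) (u : G.V → ℂ) (u' : G'.V → ℂ) (h : ∀ v ∈ c.sites D, u' (L.ψ v) = u v) :
    avgC c' u' (L.φ i) = avgC c u i := by
  classical
  have hinj : Set.InjOn L.ψ (c.sites {i}) := L.ψ_inj.mono (by exact_mod_cast etl_sites_sub hi)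
  unfold avgC
  rw [L.img i hi, Finset.sum_image hinj, Finset.card_image_of_injOn hinj]
  congr 1
  exact Finset.sum_congr rfl fun v hv => h v (etl_sites_sub hi hv)

open Classical in
/-- **transport of the averaging** -/
theorem etl_conv_nav (L : EtlLoc c c' D) (a : ℝ) (Γ : Matrix G.V G.V ℝ) (Γ' : Matrix G'.V G'.V ℝ) (hΓ : Γ.PosSemidef) (hΓ' : Γ'.PosSemidef)
    (hcov : ∀ v ∈ c.sites D, ∀ w ∈ c.sites D, Γ' (L.ψ v) (L.ψ w) = Γ v w)
    (F : (c.I → ℂ) → ℂ) (F' : (c'.I → ℂ) → ℂ) (hF : ∀ y y', (∀ i ∈ D, y' (L.φ i) = y i) → F' y' = F y)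
    (z : G.V → ℂ) (z' : G'.V → ℂ) (hz : ∀ v ∈ c.sites D, z' (L.ψ v) = z v) :
    conv Γ' (nav a c' F') z' = conv Γ (nav a c F) z := by
  -- index types
  let Rc : (c.I → ℝ) → ({i // i ∈ D} → ℝ) := fun e i => e i.1
  let Rc' : (c'.I → ℝ) → ({i // i ∈ D} → ℝ) := fun e i => e (L.φ i.1)
  let Rs : (G.V → ℝ) → ({v // v ∈ c.sites D} → ℝ) := fun ζ v => ζ v.1
  let Rs' : (G'.V → ℝ) → ({v // v ∈ c.sites D} → ℝ) := fun ζ v => ζ (L.ψ v.1)
  let xc : ({i // i ∈ D} → ℝ) → (c.I → ℝ) := fun t i => if h : i ∈ D then t ⟨i, h⟩ else 0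
  let xs : ({v // v ∈ c.sites D} → ℝ) → (G.V → ℝ) := fun s v => if h : v ∈ c.sites D then s ⟨v, h⟩ else 0
  let H : ({v // v ∈ c.sites D} → ℝ) → ({i // i ∈ D} → ℝ) → ℂ := fun s t => F (obsv a c (z + toC (xs s)) (xc t))
  have hxc : ∀ t (i : c.I) (h : i ∈ D), xc t i = t ⟨i, h⟩ := fun t i h => dif_pos h
  have hxs : ∀ s (v : G.V) (h : v ∈ c.sites D), xs s v = s ⟨v, h⟩ := fun s v h => dif_pos h
  -- the second volume
  have h2 : ∀ ζ' e', F' (obsv a c' (z' + toC ζ') e') = H (Rs' ζ') (Rc' e') := by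
    intro ζ' e'
    refine hF _ _ fun i hi => ?_
    unfold obsv
    rw [hxc _ i hi]
    congr 1
    refine etl_avgC L hi _ _ fun v hv => ?_
    simp only [Pi.add_apply, toC]
    rw [hz v hv, hxs _ v hv]
  -- the first volume: compare with an auxiliary configuration of the second volume
  have h1 : ∀ ζ e, F (obsv a c (z + toC ζ) e) = H (Rs ζ) (Rc e) := by
    intro ζ e
    let y' : c'.I → ℂ := fun j => if h : ∃ i ∈ D, L.φ i = j then obsv a c (z + toC ζ) e h.choose else 0
    have hy' : ∀ i ∈ D, y' (L.φ i) = obsv a c (z + toC ζ) e i := by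
      intro i hi
      have h : ∃ k ∈ D, L.φ k = L.φ i := ⟨i, hi, rfl⟩
      show dite _ _ _ = _
      rw [dif_pos h, L.φ_inj h.choose_spec.1 hi h.choose_spec.2]
    rw [← hF _ y' hy']
    refine hF _ _ fun i hi => ?_
    rw [hy' i hi]
    unfold obsv
    rw [hxc _ i hi]
    congr 1
    unfold avgC
    congr 1
    refine Finset.sum_congr rfl fun v hv => ?_
    simp only [Pi.add_apply, toC]
    rw [hxs _ v (etl_sites_sub hi hv)]
  have hRc : Measurable Rc := by fun_prop
  have hRc' : Measurable Rc' := by fun_prop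
  have hRs : Measurable Rs := by fun_prop
  have hRs' : Measurable Rs' := by fun_prop
  have hνc : (noise c).map Rc = (noise c').map Rc' := by
    unfold noise
    rw [etl_pi_marginal (fun i : {i // i ∈ D} => i.1) Subtype.val_injective,
      etl_pi_marginal (fun i : {i // i ∈ D} => L.φ i.1) (fun i j h => Subtype.ext (L.φ_inj i.2 j.2 h))]
  have hνs : (gauss G Γ).map Rs = (gauss G' Γ').map Rs' := by
    rw [etl_gauss_marginal Γ hΓ (fun v : {v // v ∈ c.sites D} => v.1),
      etl_gauss_marginal Γ' hΓ' (fun v : {v // v ∈ c.sites D} => L.ψ v.1)]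
    congr 2
    ext v w
    exact (hcov v.1 v.2 w.1 w.2).symm
  unfold conv nav
  simp only [h1, h2]
  have hin : ∀ s, ∫ e, H s (Rc' e) ∂(noise c') = ∫ e, H s (Rc e) ∂(noise c) := fun s =>
    (etl_transfer (noise c) (noise c') Rc Rc' hRc hRc' hνc (H s)).symm
  simp only [hin]
  exact (etl_transfer (gauss G Γ) (gauss G' Γ') Rs Rs' hRs hRs' hνs (fun s => ∫ e, H s (Rc e) ∂(noise c))).symm

/-- **transport of `eav`** -/
theorem etl_eav_loc (L : EtlLoc c c' D) (a : ℝ) (m : ℕ) (hΓ : (Cless G m).PosSemidef) (hΓ' : (Cless G' m).PosSemidef)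
    (hcov : ∀ v ∈ c.sites D, ∀ w ∈ c.sites D, Cless G' m (L.ψ v) (L.ψ w) = Cless G m v w)
    (F : (c.I → ℂ) → ℂ) (F' : (c'.I → ℂ) → ℂ) (hF : ∀ y y', (∀ i ∈ D, y' (L.φ i) = y i) → F' y' = F y)
    (z : G.V → ℂ) (z' : G'.V → ℂ) (hz : ∀ v ∈ c.sites D, z' (L.ψ v) = z v) :
    eav a c' m F' z' = eav a c m F z :=
  etl_conv_nav L a _ _ hΓ hΓ' hcov F F' hF z z' hz

end

end Claimed.Agent.R285.Ent
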