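import Claimed.Agent.R285.Ent.PropLaw
import Claimed.Agent.R285.F4a.EnA

/-!
# ROW 285, THE ENTRY ENGINE, POST TRANSPORT (#16188), SITE LEVEL, part A: transport of the laws under an isomorphism of cut topologies      (architect helper225; cell level: helper238)
PAPER-FREE.  `EtlIso T T'` = an isomorphism of the retained primary graphs of two cut topologies (possibly in two different volumes), which may REVERSE bonds and faces
(reflections, rotations).  Exits: `etl_ZobsC`, `etl_ZhatC`, `etl_Zobs`, `etl_En`, `etl_Qf`, `etl_Qmat`.  All names: prefix `etl`.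
-/

set_option autoImplicit false

namespace Claimed.Agent.R285.Ent

open scoped BigOperators
open Claimed.Agent.R285 Claimed.Agent.R285.RG Claimed.Agent.R285.F4a

noncomputable section

variable {G G' : Geom} {c : Grid G} {c' : Grid G'}

/-- `x` or `-x` -/
def etlN {α : Type} [Neg α] (r : Bool) (x : α) : α := if r then -x else x

/-- **an isomorphism of cut topologies** -/
structure EtlIso (T : Top c) (T' : Top c') where
  /-- cells -/
  φ : c.I → c'.I
  /-- retained sites -/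
  eV : T.graph.V ≃ T'.graph.V
  /-- retained bonds -/
  eE : T.graph.E ≃ T'.graph.E
  /-- faces -/
  Ff : Face c → Face c'
  /-- reversed faces -/
  sg : Face c → Bool
  /-- reversed bonds -/
  rv : T.graph.E → Bool
  m_eq : c'.m = c.m
  φ_inj : Set.InjOn φ T.cells
  cells : T'.cells = T.cells.image φ
  blk : ∀ v : T.graph.V, c'.blk (eV v).1 = φ (c.blk v.1)
  src : ∀ e, T'.graph.src (eE e) = eV (if rv e then T.graph.tgt e else T.graph.src e)
  tgt : ∀ e, T'.graph.tgt (eE e) = eV (if rv e then T.graph.src e else T.graph.tgt e)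
  Ff_inj : Set.InjOn Ff T.faces
  faces : T'.faces = T.faces.image Ff
  f_src : ∀ f ∈ T.faces, (Ff f).1 = φ (if sg f then fnb c f else f.1)
  f_tgt : ∀ f ∈ T.faces, fnb c' (Ff f) = φ (if sg f then f.1 else fnb c f)
  cross : ∀ e : T.graph.E, c.blk (stp e.1.1 e.1.2) ≠ c.blk e.1.1 →
    (c'.blk (eE e).1.1, (eE e).1.2) = Ff (c.blk e.1.1, e.1.2) ∧ rv e = sg (c.blk e.1.1, e.1.2)

namespace EtlIso

variable {T : Top c} {T' : Top c'} (Φ : EtlIso T T')

/-- face data which correspond to each other -/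
def FRel {α : Type} [Neg α] (w : Face c → α) (w' : Face c' → α) : Prop := ∀ f ∈ T.faces, w' (Φ.Ff f) = etlN (Φ.sg f) (w f)

/-- cell data which correspond to each other -/
def CRel {α : Type} (y : c.I → α) (y' : c'.I → α) : Prop := ∀ i ∈ T.cells, y' (Φ.φ i) = y i

/-- site data which correspond to each other -/
def VRel {α : Type} (u : G.V → α) (u' : G'.V → α) : Prop := ∀ v : T.graph.V, u' (Φ.eV v).1 = u v.1

end EtlIso

variable {T : Top c} {T' : Top c'}

theorem etl_inner_iff (Φ : EtlIso T T') (e : T.graph.E) :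
    c'.blk (stp (Φ.eE e).1.1 (Φ.eE e).1.2) = c'.blk (Φ.eE e).1.1 ↔ c.blk (stp e.1.1 e.1.2) = c.blk e.1.1 := by
  have h1 : c'.blk (stp (Φ.eE e).1.1 (Φ.eE e).1.2) = c'.blk (T'.graph.tgt (Φ.eE e)).1 := rfl
  have h2 : c'.blk (Φ.eE e).1.1 = c'.blk (T'.graph.src (Φ.eE e)).1 := rfl
  have hs : c.blk (T.graph.src e).1 = c.blk e.1.1 := rfl
  have ht : c.blk (T.graph.tgt e).1 = c.blk (stp e.1.1 e.1.2) := rfl
  have a1 : c.blk e.1.1 ∈ T.cells := e.2.2.1
  have a2 : c.blk (stp e.1.1 e.1.2) ∈ T.cells := e.2.2.2.1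
  rw [h1, h2, Φ.src, Φ.tgt, Φ.blk, Φ.blk]
  cases Φ.rv e
  · simp only [Bool.false_eq_true, if_false, hs, ht]
    exact ⟨fun h => Φ.φ_inj a2 a1 h, fun h => by rw [h]⟩
  · simp only [if_true, hs, ht]
    exact ⟨fun h => (Φ.φ_inj a1 a2 h).symm, fun h => by rw [h]⟩

theorem etl_econn {α : Type} [SubtractionMonoid α] (Φ : EtlIso T T') (w : Face c → α) (w' : Face c' → α) (hw : Φ.FRel w w') (e : T.graph.E) :
    T'.econn w' (Φ.eE e) = etlN (Φ.rv e) (T.econn w e) := by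
  unfold Top.econn
  by_cases hin : c.blk (stp e.1.1 e.1.2) = c.blk e.1.1
  · rw [if_pos hin, if_pos ((etl_inner_iff Φ e).2 hin)]
    unfold etlN; split_ifs <;> simp
  · rw [if_neg hin, if_neg fun h => hin ((etl_inner_iff Φ e).1 h)]
    obtain ⟨k1, k2⟩ := Φ.cross e hin
    rw [k1, k2]
    exact hw _ (e.2.2.2.2.resolve_left hin)

/-- sums over the sites of a present cell, as sums over the retained sites -/
theorem etl_sum_cell {β : Type} [AddCommMonoid β] (T : Top c) {i : c.I} (hi : i ∈ T.cells) (p : G.V → β) :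
    ∑ v ∈ c.sites {i}, p v = ∑ v : T.graph.V, if c.blk v.1 = i then p v.1 else 0 := by
  classical
  have h1 : ∑ v : T.graph.V, (if c.blk v.1 = i then p v.1 else 0)
      = ∑ v : {v : G.V // c.blk v ∈ T.cells}, (if c.blk v.1 = i then p v.1 else 0) := by
    refine Finset.sum_congr ?_ fun _ _ => rfl
    ext v
    exact iff_of_true (Finset.mem_univ _) (Finset.mem_univ _)
  rw [h1, ← Finset.sum_subtype (Finset.univ.filter fun v : G.V => c.blk v ∈ T.cells) (by simp)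
    (fun v => if c.blk v = i then p v else 0), Finset.sum_ite, Finset.sum_const_zero, add_zero]
  refine Finset.sum_congr ?_ fun _ _ => rfl
  ext v
  simp only [Grid.sites, Finset.mem_filter, Finset.mem_univ, true_and, Finset.mem_singleton]
  exact ⟨fun h => ⟨h ▸ hi, h⟩, fun h => h.2⟩

theorem etl_sum_graph {β : Type} [AddCommMonoid β] (Φ : EtlIso T T') {i : c.I} (hi : i ∈ T.cells) (p : T.graph.V → β) :
    ∑ v' : T'.graph.V, (if c'.blk v'.1 = Φ.φ i then p (Φ.eV.symm v') else 0) = ∑ v : T.graph.V, if c.blk v.1 = i then p v else 0 := by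
  rw [← Φ.eV.sum_comp]
  refine Finset.sum_congr rfl fun v _ => ?_
  rw [Φ.blk, Equiv.symm_apply_apply]
  by_cases h : c.blk v.1 = i
  · rw [if_pos h, if_pos (by rw [h])]
  · rw [if_neg h, if_neg fun h' => h (Φ.φ_inj v.2 hi h')]

theorem etl_mem_cells (Φ : EtlIso T T') {i : c.I} (hi : i ∈ T.cells) : Φ.φ i ∈ T'.cells := by
  rw [Φ.cells]
  exact Finset.mem_image_of_mem _ hi

theorem etl_sum_sites {β : Type} [AddCommMonoid β] (Φ : EtlIso T T') {i : c.I} (hi : i ∈ T.cells) (p : G.V → β) (p' : G'.V → β)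
    (h : Φ.VRel p p') : ∑ v' ∈ c'.sites {Φ.φ i}, p' v' = ∑ v ∈ c.sites {i}, p v := by
  rw [etl_sum_cell T hi, etl_sum_cell T' (etl_mem_cells Φ hi), ← etl_sum_graph Φ hi]
  refine Finset.sum_congr rfl fun v' _ => ?_
  have := h (Φ.eV.symm v')
  rw [Equiv.apply_symm_apply] at this
  rw [this]

theorem etl_card (Φ : EtlIso T T') {i : c.I} (hi : i ∈ T.cells) : (c'.sites {Φ.φ i}).card = (c.sites {i}).card := by
  rw [Finset.card_eq_sum_ones, Finset.card_eq_sum_ones]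
  exact etl_sum_sites Φ hi (fun _ => 1) (fun _ => 1) fun _ => rfl

/-- **transport of `ZobsC`** -/
theorem etl_ZobsC (Φ : EtlIso T T') (b : ℂ) (τ : Face c → ℤ) (τ' : Face c' → ℤ) (hτ : Φ.FRel τ τ') (y : c.I → ℂ) (y' : c'.I → ℂ)
    (hy : Φ.CRel y y') : ZobsC T' b τ' y' = ZobsC T b τ y := by
  unfold ZobsC
  rw [← (Equiv.arrowCongr Φ.eV (Equiv.refl ℤ)).tsum_eq]
  refine tsum_congr fun h => ?_
  have hap : ∀ v', (Equiv.arrowCongr Φ.eV (Equiv.refl ℤ)) h v' = h (Φ.eV.symm v') := fun v' => rfl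
  congr 1
  · rw [← Φ.eE.prod_comp]
    refine Finset.prod_congr rfl fun e _ => ?_
    rw [hap, hap, Φ.src, Φ.tgt, Equiv.symm_apply_apply, Equiv.symm_apply_apply, etl_econn Φ τ τ' hτ e]
    cases Φ.rv e
    · simp [etlN]
    · simp only [etlN, if_true]
      rw [← pr_besC_neg]
      congr 1
      ring
  · have hsum : ∀ Fn : c'.I → ℂ, ∑ i ∈ T'.cells, Fn i = ∑ i ∈ T.cells, Fn (Φ.φ i) := fun Fn => by
      rw [Φ.cells, Finset.sum_image Φ.φ_inj]
    rw [hsum]
    congr 3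
    refine Finset.sum_congr rfl fun i hi => ?_
    rw [hy i hi, etl_card Φ hi]
    simp only [hap]
    rw [etl_sum_graph Φ hi (fun v => (2 * Real.pi * (h v : ℝ) : ℂ))]

theorem etl_wfC (Φ : EtlIso T T') (hT : T.Ok) (τ : Face c → ℤ) (τ' : Face c' → ℤ) (hτ : Φ.FRel τ τ') (y : c.I → ℂ) (y' : c'.I → ℂ)
    (hy : Φ.CRel y y') {f : Face c} (hf : f ∈ T.faces) : wfC c' τ' y' (Φ.Ff f) = etlN (Φ.sg f) (wfC c τ y f) := by
  obtain ⟨-, h1, h2⟩ := hT f hf
  unfold wfC
  rw [Φ.f_src f hf, Φ.f_tgt f hf, hτ f hf]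
  cases Φ.sg f
  · simp [etlN, hy _ h1, hy _ h2]
  · simp only [etlN, if_true, hy _ h1, hy _ h2]
    push_cast
    ring

/-- **transport of `ZhatC`** -/
theorem etl_ZhatC (Φ : EtlIso T T') (hT : T.Ok) (b : ℂ) (τ : Face c → ℤ) (τ' : Face c' → ℤ) (hτ : Φ.FRel τ τ') (y : c.I → ℂ) (y' : c'.I → ℂ)
    (hy : Φ.CRel y y') : ZhatC T' b τ' y' = ZhatC T b τ y := by
  unfold ZhatC
  rw [etl_ZobsC Φ b τ τ' hτ y y' hy, Φ.faces, Finset.prod_image Φ.Ff_inj]
  congr 1
  refine Finset.prod_congr rfl fun f hf => ?_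
  rw [etl_wfC Φ hT τ τ' hτ y y' hy hf, Φ.m_eq]
  cases Φ.sg f
  · rfl
  · exact pr_chiC_neg _ _

/-- **transport of `Zobs`** -/
theorem etl_Zobs (Φ : EtlIso T T') (b : ℝ) (τ : Face c → ℤ) (τ' : Face c' → ℤ) (hτ : Φ.FRel τ τ') (y : c.I → ℝ) (y' : c'.I → ℝ)
    (hy : Φ.CRel y y') : T'.Zobs b τ' y' = T.Zobs b τ y := by
  have h := etl_ZobsC Φ b τ τ' hτ (fun i => (y i : ℂ)) (fun i => (y' i : ℂ)) (fun i hi => by show ((y' (Φ.φ i) : ℝ) : ℂ) = _; rw [hy i hi])
  rw [pr_ZobsC_real, pr_ZobsC_real] at h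
  exact_mod_cast h

theorem etl_FRel_zero {α : Type} [SubtractionMonoid α] (Φ : EtlIso T T') : Φ.FRel (0 : Face c → α) (0 : Face c' → α) := by
  intro f _
  unfold etlN
  split_ifs <;> simp

/-- the normalisers -/
theorem etl_N (Φ : EtlIso T T') (b : ℝ) : T'.Zobs b 0 0 = T.Zobs b 0 0 :=
  etl_Zobs Φ b 0 0 (etl_FRel_zero Φ) 0 0 fun _ _ => rfl

/-! ## The Gaussian energies -/

theorem etl_quad (Φ : EtlIso T T') (a : ℝ) (w : Face c → ℝ) (w' : Face c' → ℝ) (hw : Φ.FRel w w') (y : c.I → ℝ) (y' : c'.I → ℝ)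
    (hy : Φ.CRel y y') (u : G.V → ℝ) (u' : G'.V → ℝ) (hu : Φ.VRel u u') : T'.quad a w' y' u' = T.quad a w y u := by
  unfold Top.quad
  congr 1
  · congr 1
    rw [← Φ.eE.sum_comp]
    refine Finset.sum_congr rfl fun e _ => ?_
    have h1 : u' (stp (Φ.eE e).1.1 (Φ.eE e).1.2) = u' (T'.graph.tgt (Φ.eE e)).1 := rfl
    have h2 : u' (Φ.eE e).1.1 = u' (T'.graph.src (Φ.eE e)).1 := rfl
    have hs : u (T.graph.src e).1 = u e.1.1 := rfl
    have ht : u (T.graph.tgt e).1 = u (stp e.1.1 e.1.2) := rfl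
    rw [h1, h2, Φ.src, Φ.tgt, hu, hu, etl_econn Φ w w' hw e]
    cases Φ.rv e
    · simp [etlN, hs, ht]
    · simp only [etlN, if_true, hs, ht]
      ring
  · rw [Φ.cells, Finset.sum_image Φ.φ_inj]
    refine Finset.sum_congr rfl fun i hi => ?_
    rw [hy i hi]
    unfold avg cellAvg
    rw [etl_sum_sites Φ hi u u' hu, etl_card Φ hi]

open Classical in
/-- **transport of the minimal energy** -/
theorem etl_En (Φ : EtlIso T T') (a : ℝ) (w : Face c → ℝ) (w' : Face c' → ℝ) (hw : Φ.FRel w w') (y : c.I → ℝ) (y' : c'.I → ℝ)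
    (hy : Φ.CRel y y') : T'.En a w' y' = T.En a w y := by
  unfold Top.En iInf
  congr 1
  ext x
  constructor
  · rintro ⟨u', rfl⟩
    refine ⟨fun v => if h : c.blk v ∈ T.cells then u' (Φ.eV ⟨v, h⟩).1 else 0, ?_⟩
    refine (etl_quad Φ a w w' hw y y' hy _ u' fun v => ?_).symm
    show _ = dite _ _ _
    rw [dif_pos v.2]
    rfl
  · rintro ⟨u, rfl⟩
    refine ⟨fun v' => if h : c'.blk v' ∈ T'.cells then u (Φ.eV.symm ⟨v', h⟩).1 else 0, ?_⟩
    refine etl_quad Φ a w w' hw y y' hy u _ fun v => ?_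
    show dite _ _ _ = _
    rw [dif_pos (Φ.eV v).2]
    have : (⟨(Φ.eV v).1, (Φ.eV v).2⟩ : T'.graph.V) = Φ.eV v := rfl
    rw [this, Equiv.symm_apply_apply]

theorem etl_Eobs (Φ : EtlIso T T') (a : ℝ) (τ : Face c → ℤ) (τ' : Face c' → ℤ) (hτ : Φ.FRel τ τ') (y : c.I → ℝ) (y' : c'.I → ℝ)
    (hy : Φ.CRel y y') : T'.Eobs a τ' y' = T.Eobs a τ y := by
  unfold Top.Eobs
  refine etl_En Φ a _ _ (fun f hf => ?_) y y' hy
  rw [hτ f hf]
  unfold etlN
  split_ifs <;> push_cast <;> ring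

theorem etl_Qf (Φ : EtlIso T T') (a : ℝ) (w : Face c → ℝ) (w' : Face c' → ℝ) (hw : Φ.FRel w w') : T'.Qf a w' = T.Qf a w :=
  etl_En Φ a w w' hw 0 0 fun _ _ => rfl

/-- the sign of a reversal, as a real number -/
def etlSg (r : Bool) : ℝ := if r then -1 else 1

theorem etlSg_mul_self (r : Bool) : etlSg r * etlSg r = 1 := by cases r <;> simp [etlSg]

theorem etlN_eq (r : Bool) (x : ℝ) : etlN r x = etlSg r * x := by cases r <;> simp [etlN, etlSg]

open Classical in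
/-- the polar form of `Qf` -/
theorem etl_polar (T : Top c) (a : ℝ) (ha : 0 < a) (w₁ w₂ : Face c → ℝ) :
    (T.Qf a (w₁ + w₂) - T.Qf a w₁ - T.Qf a w₂) / 2 = ∑ f ∈ T.faces, ∑ f' ∈ T.faces, T.Qmat a f f' * w₁ f * w₂ f' := by
  rw [(Qf_quadratic T a ha _).1, (Qf_quadratic T a ha w₁).1, (Qf_quadratic T a ha w₂).1]
  have hsw : ∑ f ∈ T.faces, ∑ f' ∈ T.faces, T.Qmat a f f' * w₂ f * w₁ f' = ∑ f ∈ T.faces, ∑ f' ∈ T.faces, T.Qmat a f f' * w₁ f * w₂ f' := by
    rw [Finset.sum_comm]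
    refine Finset.sum_congr rfl fun f _ => Finset.sum_congr rfl fun f' _ => ?_
    rw [pr_Q_symm a T f' f]
    ring
  have hex : ∑ f ∈ T.faces, ∑ f' ∈ T.faces, T.Qmat a f f' * (w₁ + w₂) f * (w₁ + w₂) f'
      = ∑ f ∈ T.faces, ∑ f' ∈ T.faces, T.Qmat a f f' * w₁ f * w₁ f' + ∑ f ∈ T.faces, ∑ f' ∈ T.faces, T.Qmat a f f' * w₁ f * w₂ f'
        + ∑ f ∈ T.faces, ∑ f' ∈ T.faces, T.Qmat a f f' * w₂ f * w₁ f' + ∑ f ∈ T.faces, ∑ f' ∈ T.faces, T.Qmat a f f' * w₂ f * w₂ f' := by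
    simp only [← Finset.sum_add_distrib]
    refine Finset.sum_congr rfl fun f _ => Finset.sum_congr rfl fun f' _ => ?_
    simp only [Pi.add_apply]
    ring
  rw [hex, hsw]
  ring

open Classical in
/-- **transport of the matrices** -/
theorem etl_Qmat (Φ : EtlIso T T') (a : ℝ) (ha : 0 < a) {f f' : Face c} (hf : f ∈ T.faces) (hf' : f' ∈ T.faces) :
    T'.Qmat a (Φ.Ff f) (Φ.Ff f') = etlSg (Φ.sg f) * etlSg (Φ.sg f') * T.Qmat a f f' := by
  have key : ∀ g ∈ T.faces, Φ.FRel (fun k => if k = g then etlSg (Φ.sg g) else 0) (Pi.single (Φ.Ff g) 1) := by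
    intro g hg k hk
    rw [etlN_eq]
    show _ = _ * (if k = g then etlSg (Φ.sg g) else 0)
    by_cases h : k = g
    · subst h
      rw [Pi.single_eq_same, if_pos rfl, etlSg_mul_self]
    · rw [if_neg h, mul_zero, Pi.single_eq_of_ne fun h' => h (Φ.Ff_inj hk hg h')]
  have hadd : Φ.FRel ((fun k => if k = f then etlSg (Φ.sg f) else 0) + fun k => if k = f' then etlSg (Φ.sg f') else 0)
      (Pi.single (Φ.Ff f) 1 + Pi.single (Φ.Ff f') 1) := by
    intro k hk
    rw [Pi.add_apply, key f hf k hk, key f' hf' k hk, etlN_eq, etlN_eq, etlN_eq, Pi.add_apply]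
    ring
  unfold Top.Qmat
  rw [etl_Qf Φ a _ _ hadd, etl_Qf Φ a _ _ (key f hf), etl_Qf Φ a _ _ (key f' hf'), etl_polar T a ha]
  have h1 : ∀ g ∈ T.faces, ∑ g' ∈ T.faces, T.Qmat a g g' * (if g = f then etlSg (Φ.sg f) else 0) * (if g' = f' then etlSg (Φ.sg f') else 0)
      = T.Qmat a g f' * (if g = f then etlSg (Φ.sg f) else 0) * etlSg (Φ.sg f') := by
    intro g _
    rw [Finset.sum_eq_single f']
    · rw [if_pos rfl]
    · intro g' _ hne
      rw [if_neg hne, mul_zero]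
    · intro h; exact absurd hf' h
  rw [Finset.sum_congr rfl h1, Finset.sum_eq_single f]
  · rw [if_pos rfl]
    unfold Top.Qmat
    ring
  · intro g _ hne
    rw [if_neg hne]
    ring
  · intro h; exact absurd hf h

end

end Claimed.Agent.R285.Ent
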