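import Claimed.Agent.R285.Ent.TrDefs
import Claimed.Agent.R285.Ent.TrSite
import Claimed.Agent.R285.F4a.EnB

/-!
# ROW 285, POST TRANSPORT, SITE LEVEL: a morphism of volumes gives an isomorphism of every well-formed cut topology with its image      (helper225)
`etlOf Φ hΦ hc hc' T hT : EtlIso T (Φ.top T)`.  No sorry.
-/

set_option autoImplicit false

namespace Claimed.Agent.R285.Ent

open scoped BigOperators
open Claimed.Agent.R285 Claimed.Agent.R285.RG Claimed.Agent.R285.F4a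

noncomputable section

variable {G G' : Geom} {c g : Grid G} {c' g' : Grid G'} {N : Nest c g} {N' : Nest c' g'}

theorem etl_mem_top (Φ : Mor N N') (T : Top c) {i : c.I} (hi : i ∈ T.cells) : Φ.φ i ∈ (Φ.top T).cells :=
  Finset.mem_image_of_mem _ hi

theorem etl_of_mem_top (Φ : Mor N N') {R : ℕ} (hΦ : Φ.Ok R) (T : Top c) {i : c.I} (hi : Φ.φ i ∈ (Φ.top T).cells) : i ∈ T.cells := by
  obtain ⟨j, hj, h⟩ := Finset.mem_image.1 hi
  rw [← hΦ.φ_inj h]
  exact hj

/-- the target of the image of a bond -/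
theorem etl_E_tgt (Φ : Mor N N') {R : ℕ} (hΦ : Φ.Ok R) (e : G.V × Bool) (he : stp e.1 e.2 ≠ e.1) :
    stp (Φ.E e).1 (Φ.E e).2 = if Φ.rv e.2 then Φ.ψ e.1 else Φ.ψ (stp e.1 e.2) := by
  have h := hΦ.bond e.1 e.2 he
  unfold Mor.E
  cases hr : Φ.rv e.2
  · rw [hr] at h
    simpa using h
  · rw [hr] at h
    simpa using h

theorem etl_F_inj (Φ : Mor N N') {R : ℕ} (hΦ : Φ.Ok R) {f f' : Face c} (hf : IsFace c f) (hf' : IsFace c f') (h : Φ.F f = Φ.F f') : f = f' := by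
  have h2 : f.2 = f'.2 := hΦ.δ_inj (congrArg Prod.snd h)
  have h1 := congrArg Prod.fst h
  have k := (hΦ.face f hf).2
  have k' := (hΦ.face f' hf').2
  rw [h, k', ← h2] at k
  unfold Mor.F at h1
  simp only [← h2] at h1
  cases hr : Φ.rv f.2
  · rw [hr] at h1
    exact Prod.ext (hΦ.φ_inj (by simpa using h1)) h2
  · rw [hr] at k
    exact Prod.ext (hΦ.φ_inj (by simpa using k.symm)) h2

/-- the image of a retained bond is a retained bond -/
theorem etl_E_edge (Φ : Mor N N') {R : ℕ} (hΦ : Φ.Ok R) (hc : Whole c) (T : Top c) (e : G.V × Bool) (he : T.IsEdge e) : (Φ.top T).IsEdge (Φ.E e) := by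
  obtain ⟨h0, h1, h2, h3⟩ := he
  have ht := etl_E_tgt Φ hΦ e h0
  have hs : (Φ.E e).1 = if Φ.rv e.2 then Φ.ψ (stp e.1 e.2) else Φ.ψ e.1 := rfl
  have hd : (Φ.E e).2 = Φ.δ e.2 := rfl
  unfold Top.IsEdge
  rw [ht, hs, hd]
  cases hr : Φ.rv e.2
  · simp only [Bool.false_eq_true, if_false]
    refine ⟨fun h => h0 (hΦ.ψ_inj h), ?_, ?_, ?_⟩
    · rw [hΦ.blk]; exact etl_mem_top Φ T h1
    · rw [hΦ.blk]; exact etl_mem_top Φ T h2
    · rcases h3 with h3 | h3
      · left; rw [hΦ.blk, hΦ.blk, h3]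
      · right
        refine Finset.mem_image.2 ⟨_, h3, ?_⟩
        unfold Mor.F
        simp only [hr, Bool.false_eq_true, if_false, hΦ.blk]
  · simp only [if_true]
    refine ⟨fun h => h0 (hΦ.ψ_inj h).symm, ?_, ?_, ?_⟩
    · rw [hΦ.blk]; exact etl_mem_top Φ T h2
    · rw [hΦ.blk]; exact etl_mem_top Φ T h1
    · by_cases hin : c.blk (stp e.1 e.2) = c.blk e.1
      · left; rw [hΦ.blk, hΦ.blk, hin]
      · right
        refine Finset.mem_image.2 ⟨_, h3.resolve_left hin, ?_⟩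
        unfold Mor.F
        simp only [hr, if_true, hΦ.blk]
        rw [enb_blk_stp hc e.1 e.2 hin]

theorem etl_E_inj (Φ : Mor N N') {R : ℕ} (hΦ : Φ.Ok R) {e e' : G.V × Bool} (he : stp e.1 e.2 ≠ e.1) (he' : stp e'.1 e'.2 ≠ e'.1)
    (h : Φ.E e = Φ.E e') : e = e' := by
  have h2 : e.2 = e'.2 := hΦ.δ_inj (congrArg Prod.snd h)
  have h1 := congrArg Prod.fst h
  have k := etl_E_tgt Φ hΦ e he
  have k' := etl_E_tgt Φ hΦ e' he'
  rw [h, k', ← h2] at k
  unfold Mor.E at h1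
  simp only [← h2] at h1
  cases hr : Φ.rv e.2
  · rw [hr] at h1
    exact Prod.ext (hΦ.ψ_inj (by simpa using h1)) h2
  · rw [hr] at k
    exact Prod.ext (hΦ.ψ_inj (by simpa using k.symm)) h2

/-- every retained bond of the image comes from a retained bond -/
theorem etl_E_surj (Φ : Mor N N') {R : ℕ} (hΦ : Φ.Ok R) (hc' : Whole c') (T : Top c) (hT : T.Ok) (e' : G'.V × Bool) (he' : (Φ.top T).IsEdge e') :
    ∃ e, T.IsEdge e ∧ Φ.E e = e' := by
  obtain ⟨v', d'⟩ := e'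
  obtain ⟨h0, h1, h2, h3⟩ := he'
  simp only at h0 h1 h2 h3
  obtain ⟨i, hi, hi'⟩ := Finset.mem_image.1 h1
  obtain ⟨j, hj, hj'⟩ := Finset.mem_image.1 h2
  obtain ⟨v, rfl⟩ := hΦ.blk_lift i v' hi'.symm
  obtain ⟨w, hw⟩ := hΦ.blk_lift j _ hj'.symm
  have bi : c.blk v = i := hΦ.φ_inj (by rw [← hΦ.blk, hi'])
  have bj : c.blk w = j := hΦ.φ_inj (by rw [← hΦ.blk, hw, hj'])
  subst bi bj
  have hvw : v ≠ w := by
    rintro rfl
    exact h0 hw.symm
  by_cases hin : c'.blk (stp (Φ.ψ v) d') = c'.blk (Φ.ψ v)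
  · have hb : c.blk v = c.blk w := by
      rw [← hw, hΦ.blk, hΦ.blk] at hin
      exact (hΦ.φ_inj hin).symm
    obtain ⟨d, hd, hst⟩ := hΦ.bond_lift v w d' hw.symm hvw (Or.inl hb)
    cases hr : Φ.rv d
    · rw [hr] at hst
      simp only [Bool.false_eq_true, if_false] at hst
      refine ⟨(v, d), ⟨by simp only [hst]; exact hvw.symm, hi, by simp only [hst]; exact hj, Or.inl (by simp only [hst]; exact hb.symm)⟩, ?_⟩
      unfold Mor.E
      simp only [hr, Bool.false_eq_true, if_false, hd]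
    · rw [hr] at hst
      simp only [if_true] at hst
      refine ⟨(w, d), ⟨by simp only [hst]; exact hvw, hj, by simp only [hst]; exact hi, Or.inl (by simp only [hst]; exact hb)⟩, ?_⟩
      unfold Mor.E
      simp only [hr, if_true, hd, hst]
  · obtain ⟨f, hf, hF⟩ := Finset.mem_image.1 (h3.resolve_left hin)
    obtain ⟨hf0, hf1, hf2⟩ := hT f hf
    have hnb := enb_blk_stp hc' _ _ hin
    rw [← hF, (hΦ.face f hf0).2, ← hw, hΦ.blk] at hnb
    have hF1 : (if Φ.rv f.2 then Φ.φ (fnb c f) else Φ.φ f.1) = Φ.φ (c.blk v) := by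
      have := congrArg Prod.fst hF
      rw [hΦ.blk] at this
      exact this
    have hF2 : Φ.δ f.2 = d' := congrArg Prod.snd hF
    cases hr : Φ.rv f.2
    · rw [hr] at hF1 hnb
      simp only [Bool.false_eq_true, if_false] at hF1 hnb
      have e1 : f.1 = c.blk v := hΦ.φ_inj hF1
      have e2 : c.blk w = fnb c f := hΦ.φ_inj hnb
      obtain ⟨d, hd, hst⟩ := hΦ.bond_lift v w d' hw.symm hvw (Or.inr ⟨f, hf0, Or.inl ⟨e1, e2.symm⟩⟩)
      have hdf : d = f.2 := hΦ.δ_inj (hd.trans hF2.symm)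
      subst hdf
      rw [hr] at hst
      simp only [Bool.false_eq_true, if_false] at hst
      refine ⟨(v, f.2), ⟨by simp only [hst]; exact hvw.symm, hi, by simp only [hst]; exact hj, Or.inr ?_⟩, ?_⟩
      · simp only [← e1]; exact hf
      · unfold Mor.E
        simp only [hr, Bool.false_eq_true, if_false, hd]
    · rw [hr] at hF1 hnb
      simp only [if_true] at hF1 hnb
      have e1 : fnb c f = c.blk v := hΦ.φ_inj hF1
      have e2 : c.blk w = f.1 := hΦ.φ_inj hnb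
      obtain ⟨d, hd, hst⟩ := hΦ.bond_lift v w d' hw.symm hvw (Or.inr ⟨f, hf0, Or.inr ⟨e2.symm, e1⟩⟩)
      have hdf : d = f.2 := hΦ.δ_inj (hd.trans hF2.symm)
      subst hdf
      rw [hr] at hst
      simp only [if_true] at hst
      refine ⟨(w, f.2), ⟨by simp only [hst]; exact hvw, hj, by simp only [hst]; exact hi, Or.inr ?_⟩, ?_⟩
      · simp only [e2]; exact hf
      · unfold Mor.E
        simp only [hr, if_true, hd, hst]

/-- the bijection of the retained sites -/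
def etlV (Φ : Mor N N') {R : ℕ} (hΦ : Φ.Ok R) (T : Top c) : T.graph.V ≃ (Φ.top T).graph.V :=
  Equiv.ofBijective (fun v => (⟨Φ.ψ v.1, by rw [hΦ.blk]; exact etl_mem_top Φ T v.2⟩ : {v' : G'.V // c'.blk v' ∈ (Φ.top T).cells}))
    ⟨fun v w h => Subtype.ext (hΦ.ψ_inj (congrArg Subtype.val h)), fun v' => by
      obtain ⟨i, hi, hi'⟩ := Finset.mem_image.1 v'.2
      obtain ⟨v, hv⟩ := hΦ.blk_lift i v'.1 hi'.symm
      have bi : c.blk v = i := hΦ.φ_inj (by rw [← hΦ.blk, hv, hi'])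
      exact ⟨⟨v, bi ▸ hi⟩, Subtype.ext hv⟩⟩

/-- the bijection of the retained bonds -/
def etlE (Φ : Mor N N') {R : ℕ} (hΦ : Φ.Ok R) (hc : Whole c) (hc' : Whole c') (T : Top c) (hT : T.Ok) : T.graph.E ≃ (Φ.top T).graph.E :=
  Equiv.ofBijective (fun e => (⟨Φ.E e.1, etl_E_edge Φ hΦ hc T e.1 e.2⟩ : {e' : G'.V × Bool // (Φ.top T).IsEdge e'}))
    ⟨fun e e' h => Subtype.ext (etl_E_inj Φ hΦ e.2.1 e'.2.1 (congrArg Subtype.val h)), fun e' => by
      obtain ⟨e, he, h⟩ := etl_E_surj Φ hΦ hc' T hT e'.1 e'.2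
      exact ⟨⟨e, he⟩, Subtype.ext h⟩⟩

/-- **the isomorphism of a well-formed topology with its image** -/
def etlOf (Φ : Mor N N') {R : ℕ} (hΦ : Φ.Ok R) (hc : Whole c) (hc' : Whole c') (T : Top c) (hT : T.Ok) : EtlIso T (Φ.top T) where
  φ := Φ.φ
  eV := etlV Φ hΦ T
  eE := etlE Φ hΦ hc hc' T hT
  Ff := Φ.F
  sg := fun f => Φ.rv f.2
  rv := fun e => Φ.rv e.1.2
  m_eq := hΦ.m_eq
  φ_inj := hΦ.φ_inj.injOn
  cells := rfl
  blk := fun v => hΦ.blk v.1
  src := fun e => by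
    apply Subtype.ext
    show (Φ.E e.1).1 = Φ.ψ (if Φ.rv e.1.2 then T.graph.tgt e else T.graph.src e).1
    unfold Mor.E
    cases Φ.rv e.1.2 <;> rfl
  tgt := fun e => by
    apply Subtype.ext
    show stp (Φ.E e.1).1 (Φ.E e.1).2 = Φ.ψ (if Φ.rv e.1.2 then T.graph.src e else T.graph.tgt e).1
    rw [etl_E_tgt Φ hΦ e.1 e.2.1]
    cases Φ.rv e.1.2 <;> rfl
  Ff_inj := fun f hf f' hf' h => etl_F_inj Φ hΦ (hT f hf).1 (hT f' hf').1 h
  faces := rfl
  f_src := fun f _ => by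
    unfold Mor.F
    cases Φ.rv f.2 <;> rfl
  f_tgt := fun f hf => by
    rw [(hΦ.face f (hT f hf).1).2]
    cases Φ.rv f.2 <;> rfl
  cross := fun e he => by
    refine ⟨?_, rfl⟩
    show (c'.blk (Φ.E e.1).1, (Φ.E e.1).2) = Φ.F (c.blk e.1.1, e.1.2)
    unfold Mor.E Mor.F
    cases hr : Φ.rv e.1.2
    · simp only [Bool.false_eq_true, if_false, hΦ.blk]
    · simp only [if_true, hΦ.blk]
      rw [enb_blk_stp hc e.1.1 e.1.2 he]

end

end Claimed.Agent.R285.Ent
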