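import Claimed.Agent.R285.Ent.TrDefs
import Claimed.Agent.R285.Ent.TrSite
import Claimed.Agent.R285.F4a.UnitB

/-!
# ROW 285, POST TRANSPORT, SITE LEVEL, part C: integral gauges      (helper225)
`etl_gauge_ZobsC`: a shift `h ↦ h + κ` of the heights changes the connection by `∇κ` and the observation by `B_s (2π κ)`.
`etl_const_cell`, `etl_face_bond`: geometry of whole cells.  `etl_gauge_rel`: the relation `YRel` for the identity.  No sorry.
-/

set_option autoImplicit false

namespace Claimed.Agent.R285.Ent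

open scoped BigOperators
open Claimed.Agent.R285 Claimed.Agent.R285.RG Claimed.Agent.R285.F4a Claimed.Agent.R285.F4b

noncomputable section

variable {G : Geom} {c : Grid G}

theorem etl_avgC_add (c : Grid G) (u v : G.V → ℂ) (i : c.I) : avgC c (fun x => u x + v x) i = avgC c u i + avgC c v i := by
  unfold avgC
  rw [Finset.sum_add_distrib, add_div]

/-- **the shift of the heights by an integral function** -/
theorem etl_gauge_ZobsC (T : Top c) (b : ℂ) (τ τ₀ : Face c → ℤ) (κ : G.V → ℤ)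
    (hκ : ∀ e : T.graph.E, T.econn τ e = T.econn τ₀ e + (κ (stp e.1.1 e.1.2) - κ e.1.1)) (y y' : c.I → ℂ)
    (hy : ∀ i ∈ T.cells, y' i = y i + avgC c (fun v => (2 * Real.pi * (κ v : ℝ) : ℂ)) i) :
    ZobsC T b τ y = ZobsC T b τ₀ y' := by
  unfold ZobsC
  refine Eq.trans ?_ ((Equiv.addRight (fun v : T.graph.V => κ v.1)).tsum_eq _)
  refine tsum_congr fun h => ?_
  have hap : ∀ v, (Equiv.addRight (fun v : T.graph.V => κ v.1)) h v = h v + κ v.1 := fun v => rfl
  have hP : ∀ e : T.graph.E, besC b (h (T.graph.tgt e) - h (T.graph.src e) + T.econn τ e)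
      = besC b ((Equiv.addRight (fun v : T.graph.V => κ v.1)) h (T.graph.tgt e) - (Equiv.addRight (fun v : T.graph.V => κ v.1)) h (T.graph.src e)
          + T.econn τ₀ e) := by
    intro e
    rw [hap, hap, hκ e]
    have h1 : (T.graph.tgt e).1 = stp e.1.1 e.1.2 := rfl
    have h2 : (T.graph.src e).1 = e.1.1 := rfl
    rw [h1, h2]
    congr 1
    ring
  have hS : ∀ i ∈ T.cells, ((∑ v : T.graph.V, if c.blk v.1 = i then (2 * Real.pi * (h v : ℝ) : ℂ) else 0) / ((c.sites {i}).card : ℂ) - y i) ^ 2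
      = ((∑ v : T.graph.V, if c.blk v.1 = i then (2 * Real.pi * ((Equiv.addRight (fun v : T.graph.V => κ v.1)) h v : ℝ) : ℂ) else 0)
          / ((c.sites {i}).card : ℂ) - y' i) ^ 2 := by
    intro i hi
    rw [hy i hi]
    unfold avgC
    rw [etl_sum_cell T hi]
    simp only [hap]
    have : ∀ v : T.graph.V, (if c.blk v.1 = i then (2 * Real.pi * ((h v + κ v.1 : ℤ) : ℝ) : ℂ) else 0)
        = (if c.blk v.1 = i then (2 * Real.pi * (h v : ℝ) : ℂ) else 0) + (if c.blk v.1 = i then (2 * Real.pi * (κ v.1 : ℝ) : ℂ) else 0) := by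
      intro v
      split_ifs
      · push_cast; ring
      · simp
    rw [Finset.sum_congr rfl fun v _ => this v, Finset.sum_add_distrib, add_div]
    congr 1
    ring
  rw [Finset.prod_congr rfl fun e _ => hP e, Finset.sum_congr rfl hS]

/-- the observation of a field shifted by a multiple of the period -/
theorem etl_obsv_shift (a : ℝ) (ha : 0 < a) (c : Grid G) (z : G.V → ℂ) (κ : G.V → ℤ) (e : c.I → ℝ) (i : c.I) :
    obsv a c (z + toC fun x => 2 * Real.pi / Real.sqrt a * (κ x : ℝ)) e i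
      = obsv a c z e i + avgC c (fun v => (2 * Real.pi * (κ v : ℝ) : ℂ)) i := by
  unfold obsv
  have hs : (Real.sqrt a : ℂ) ≠ 0 := by
    exact_mod_cast (Real.sqrt_pos.2 ha).ne'
  have : (fun x => (Real.sqrt a : ℂ) * (z + toC fun x => 2 * Real.pi / Real.sqrt a * (κ x : ℝ)) x)
      = fun x => (Real.sqrt a : ℂ) * z x + (2 * Real.pi * (κ x : ℝ) : ℂ) := by
    funext x
    simp only [Pi.add_apply, toC]
    push_cast
    field_simp
  rw [this, etl_avgC_add]
  ring

/-! ## Whole cells -/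

theorem etl_const_fst (hc : Whole c) (κ : G.V → ℤ) (i : c.I) (h : ∀ v d, c.blk v = i → c.blk (stp v d) = i → κ (stp v d) = κ v) :
    ∀ (n : ℕ) (v w : G.V), c.blk v = i → c.blk w = i → v.2 = w.2 → (w.1 : ℕ) = v.1 + n → κ v = κ w := by
  intro n
  induction n with
  | zero =>
    intro v w _ _ h2 h1
    have : v = w := Prod.ext (Fin.ext (by omega)) h2
    rw [this]
  | succ n ih =>
    intro v w hv hw h2 h1
    have hlt : (v.1 : ℕ) + 1 < G.M := by have := w.1.2; omega
    have e1 : ((stp v true).1 : ℕ) = v.1 + 1 := by rw [stp_true]; exact enb_fold_succ v.1 hlt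
    have e2 : (stp v true).2 = v.2 := by rw [stp_true]
    have hb : c.blk (stp v true) = i := by
      have a1 : c.blk1 v.1 ≤ c.blk1 (stp v true).1 := hc.mono (by rw [Fin.le_def]; omega)
      have a2 : c.blk1 (stp v true).1 ≤ c.blk1 w.1 := hc.mono (by rw [Fin.le_def]; omega)
      have b1 : c.blk1 v.1 = i.1 := congrArg Prod.fst hv
      have b2 : c.blk1 w.1 = i.1 := congrArg Prod.fst hw
      have b3 : c.blk1 v.2 = i.2 := congrArg Prod.snd hv
      refine Prod.ext (le_antisymm (b2 ▸ a2) (b1 ▸ a1)) ?_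
      show c.blk1 (stp v true).2 = i.2
      rw [e2, b3]
    rw [← h v true hv hb]
    exact ih _ w hb hw (e2.trans h2) (by omega)

theorem etl_const_snd (hc : Whole c) (κ : G.V → ℤ) (i : c.I) (h : ∀ v d, c.blk v = i → c.blk (stp v d) = i → κ (stp v d) = κ v) :
    ∀ (n : ℕ) (v w : G.V), c.blk v = i → c.blk w = i → v.1 = w.1 → (w.2 : ℕ) = v.2 + n → κ v = κ w := by
  intro n
  induction n with
  | zero =>
    intro v w _ _ h2 h1
    have : v = w := Prod.ext h2 (Fin.ext (by omega))
    rw [this]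
  | succ n ih =>
    intro v w hv hw h2 h1
    have hlt : (v.2 : ℕ) + 1 < G.M := by have := w.2.2; omega
    have e1 : ((stp v false).2 : ℕ) = v.2 + 1 := by rw [stp_false]; exact enb_fold_succ v.2 hlt
    have e2 : (stp v false).1 = v.1 := by rw [stp_false]
    have hb : c.blk (stp v false) = i := by
      have a1 : c.blk1 v.2 ≤ c.blk1 (stp v false).2 := hc.mono (by rw [Fin.le_def]; omega)
      have a2 : c.blk1 (stp v false).2 ≤ c.blk1 w.2 := hc.mono (by rw [Fin.le_def]; omega)
      have b1 : c.blk1 v.2 = i.2 := congrArg Prod.snd hv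
      have b2 : c.blk1 w.2 = i.2 := congrArg Prod.snd hw
      have b3 : c.blk1 v.1 = i.1 := congrArg Prod.fst hv
      refine Prod.ext ?_ (le_antisymm (b2 ▸ a2) (b1 ▸ a1))
      show c.blk1 (stp v false).1 = i.1
      rw [e2, b3]
    rw [← h v false hv hb]
    exact ih _ w hb hw (e2.trans h2) (by omega)

/-- a function which does not change along the bonds inside a cell is constant on the cell -/
theorem etl_const_cell (hc : Whole c) (κ : G.V → ℤ) (i : c.I) (h : ∀ v d, c.blk v = i → c.blk (stp v d) = i → κ (stp v d) = κ v)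
    (v w : G.V) (hv : c.blk v = i) (hw : c.blk w = i) : κ v = κ w := by
  have hu : c.blk (w.1, v.2) = i := by
    have a1 : c.blk1 w.1 = i.1 := congrArg Prod.fst hw
    have a2 : c.blk1 v.2 = i.2 := congrArg Prod.snd hv
    exact Prod.ext a1 a2
  have s1 : κ v = κ (w.1, v.2) := by
    rcases le_total (v.1 : ℕ) (w.1 : ℕ) with hle | hle
    · exact etl_const_fst hc κ i h ((w.1 : ℕ) - v.1) v (w.1, v.2) hv hu rfl (by simp only; omega)
    · exact (etl_const_fst hc κ i h ((v.1 : ℕ) - w.1) (w.1, v.2) v hu hv rfl (by simp only; omega)).symm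
  have s2 : κ (w.1, v.2) = κ w := by
    rcases le_total (v.2 : ℕ) (w.2 : ℕ) with hle | hle
    · exact etl_const_snd hc κ i h ((w.2 : ℕ) - v.2) (w.1, v.2) w hu hw rfl (by simp only; omega)
    · exact (etl_const_snd hc κ i h ((v.2 : ℕ) - w.2) w (w.1, v.2) hw hu rfl (by simp only; omega)).symm
  exact s1.trans s2

/-- the last index of a cell which is not the last cell -/
theorem etl_last (hc : Whole c) (j : Fin c.n) (hj : (j : ℕ) + 1 < c.n) :
    ∃ t : Fin G.M, c.blk1 t = j ∧ (t : ℕ) + 1 < G.M ∧ ∀ t' : Fin G.M, (t' : ℕ) = t + 1 → c.blk1 t' ≠ j := by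
  have hM := whole_card hc
  have hm := hc.pos
  have h1 : ((j : ℕ) + 2) * c.m ≤ c.n * c.m := Nat.mul_le_mul_right _ hj
  have h2 : ((j : ℕ) + 2) * c.m = (j : ℕ) * c.m + c.m + c.m := by ring
  have hlt : (j : ℕ) * c.m + (c.m - 1) < G.M := by omega
  refine ⟨⟨(j : ℕ) * c.m + (c.m - 1), hlt⟩, ?_, by simp only; omega, ?_⟩
  · apply Fin.ext
    rw [whole_blk1 hc]
    simp only
    rw [Nat.mul_comm, Nat.mul_add_div hm, Nat.div_eq_of_lt (by omega), add_zero]
  · intro t' ht' hb
    have := whole_blk1 hc t'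
    rw [hb, ht'] at this
    simp only at this
    have e : (j : ℕ) * c.m + (c.m - 1) + 1 = c.m * ((j : ℕ) + 1) := by
      have : c.m - 1 + 1 = c.m := by omega
      rw [add_assoc, this]; ring
    rw [e, Nat.mul_div_cancel_left _ hm] at this
    omega

/-- every face of a free square is crossed by a bond -/
theorem etl_face_bond (hc : Whole c) (hG : G.bc = BC.free) (f : Face c) (hf : IsFace c f) :
    ∃ v : G.V, c.blk v = f.1 ∧ c.blk (stp v f.2) = fnb c f ∧ c.blk (stp v f.2) ≠ c.blk v := by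
  obtain ⟨⟨i1, i2⟩, d⟩ := f
  have hf' := hf.resolve_left (by rw [hG]; exact fun h => by cases h)
  cases d
  · simp only [Bool.false_eq_true, if_false] at hf'
    obtain ⟨t, ht, hlt, hne⟩ := etl_last hc i2 hf'
    obtain ⟨u, hu⟩ := enb_blk1_surj hc i1
    have hb : c.blk (u, t) = (i1, i2) := Prod.ext hu ht
    have hx : c.blk (stp (u, t) false) ≠ c.blk (u, t) := by
      rw [hb, stp_false]
      intro h
      exact hne _ (enb_fold_succ t hlt) (congrArg Prod.snd h)
    refine ⟨(u, t), hb, ?_, hx⟩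
    rw [enb_blk_stp hc _ _ hx, hb]
  · simp only [if_true] at hf'
    obtain ⟨t, ht, hlt, hne⟩ := etl_last hc i1 hf'
    obtain ⟨u, hu⟩ := enb_blk1_surj hc i2
    have hb : c.blk (t, u) = (i1, i2) := Prod.ext ht hu
    have hx : c.blk (stp (t, u) true) ≠ c.blk (t, u) := by
      rw [hb, stp_true]
      intro h
      exact hne _ (enb_fold_succ t hlt) (congrArg Prod.fst h)
    refine ⟨(t, u), hb, ?_, hx⟩
    rw [enb_blk_stp hc _ _ hx, hb]

/-- averages of functions which are constant on a cell -/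
theorem etl_avgC_const (hc : Whole c) (u : G.V → ℂ) (i : c.I) (x : ℂ) (h : ∀ v, c.blk v = i → u v = x) : avgC c u i = x := by
  unfold avgC
  have h1 : ∑ v ∈ c.sites {i}, u v = ∑ v ∈ c.sites {i}, x := by
    refine Finset.sum_congr rfl fun v hv => h v ?_
    simpa [Grid.sites] using hv
  have h2 : ((c.sites {i}).card : ℂ) ≠ 0 := by
    rw [whole_sites_card hc]
    have := hc.pos
    exact_mod_cast (pow_pos this 2).ne'
  rw [h1, Finset.sum_const, nsmul_eq_mul]
  field_simp

/-! ## The relation -/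

/-- **gauge transformations, abstract form**: `κ` is an integral gauge for `τ - τ₀` on the sites of the cells `D` -/
theorem etl_gauge_rel {g : Grid G} (N : Nest c g) (hc : Whole c) (hG : G.bc = BC.free) (a b0 : ℝ) (b : ℂ) (τ τ₀ : Face c → ℤ) (D : Finset c.I) (κ : G.V → ℤ)
    (hin : ∀ v d, c.blk v ∈ D → c.blk (stp v d) = c.blk v → κ (stp v d) = κ v)
    (hcr : ∀ v d, c.blk v ∈ D → c.blk (stp v d) ∈ D → c.blk (stp v d) ≠ c.blk v → κ (stp v d) - κ v = τ (c.blk v, d) - τ₀ (c.blk v, d))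
    (y y' : c.I → ℂ) (hy : ∀ i, y' i = y i + avgC c (fun v => (2 * Real.pi * (κ v : ℝ) : ℂ)) i) :
    YRel (Mor.id N) (xyWt c a b0 b τ) (xyWt c a b0 b τ₀) D y y' := by
  have hw : ∀ f, IsFace c f → f.1 ∈ D → fnb c f ∈ D → wfC c τ y f = wfC c τ₀ y' f := by
    intro f hf h1 h2
    obtain ⟨v, hv, hs, hne⟩ := etl_face_bond hc hG f hf
    have k1 : avgC c (fun v => (2 * Real.pi * (κ v : ℝ) : ℂ)) f.1 = (2 * Real.pi * (κ v : ℝ) : ℂ) := by
      refine etl_avgC_const hc _ _ _ fun w hw => ?_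
      rw [etl_const_cell hc κ f.1 (fun v d h h' => hin v d (h ▸ h1) (h'.trans h.symm)) w v hw hv]
    have k2 : avgC c (fun v => (2 * Real.pi * (κ v : ℝ) : ℂ)) (fnb c f) = (2 * Real.pi * (κ (stp v f.2) : ℝ) : ℂ) := by
      refine etl_avgC_const hc _ _ _ fun w hw => ?_
      rw [etl_const_cell hc κ (fnb c f) (fun v d h h' => hin v d (h ▸ h2) (h'.trans h.symm)) w (stp v f.2) hw hs]
    have k3 := hcr v f.2 (hv ▸ h1) (hs ▸ h2) hne
    rw [hv] at k3
    have k4 : (κ (stp v f.2) : ℂ) = κ v + τ f - τ₀ f := by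
      have : κ (stp v f.2) = κ v + τ f - τ₀ f := by
        have e : (f.1, f.2) = f := rfl
        rw [e] at k3
        omega
      rw [this]; push_cast; ring
    unfold wfC
    rw [hy, hy, k1, k2]
    push_cast
    rw [k4]
    ring
  refine ⟨fun T hT hD => ?_, fun f hf h1 h2 => ?_⟩
  · rw [Mor.id_top]
    show ZhatC T b τ y = ZhatC T b τ₀ y'
    unfold ZhatC
    congr 1
    · refine etl_gauge_ZobsC T b τ τ₀ κ (fun e => ?_) y y' fun i _ => hy i
      unfold Top.econn
      by_cases h : c.blk (stp e.1.1 e.1.2) = c.blk e.1.1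
      · rw [if_pos h, if_pos h, hin _ _ (hD e.2.2.1) h]
        ring
      · rw [if_neg h, if_neg h, hcr _ _ (hD e.2.2.1) (hD e.2.2.2.1) h]
        ring
    · refine Finset.prod_congr rfl fun f hf => ?_
      obtain ⟨q0, q1, q2⟩ := hT f hf
      rw [hw f q0 (hD q1) (hD q2)]
  · rw [Mor.id_sg, Mor.id_F]
    show wfC c τ y f = _ * wfC c τ₀ y' f
    rw [hw f hf h1 h2]
    simp

end

end Claimed.Agent.R285.Ent
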