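import Claimed.Agent.R285.Ent.TrDefs
import Claimed.Agent.R285.Ent.Geo
import Claimed.Agent.R285.Ent.Exp

/-!
# ROW 285, POST TRANSPORT, CELL LEVEL: every object of `Ent/Defs.lean` is carried by a morphism            (architect helper238)
Paper-free.  Standing data: `Φ : Mor N N'`, `hΦ : Φ.Ok R`, metric facts `TrMet` of both volumes.  Nothing else is known about `Φ`: use ONLY the fields of `Mor.Ok` (`Ent/TrDefs.lean`).
GENERAL PATTERN of all proofs `object' (label') = image of object (label)`: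
 `⊇`: push forward with the covariance fields (`tile`, `key`, `face`, `dd_le` …);
 `⊆`: an element of the target object is CLOSE (`TrMet` in the target volume) to the image of a deep cell, hence it is an image (`lift`, `face_lift`), distances are the same (`etr_idist_eq`), labels by injectivity (`θT_inj`, `θE_inj`).
Depth bookkeeping: `deep_mono`, `deep_step`.  All thresholds are generous (`2 R`, `6 R`); supports are `etrMu R = 160 R` deep.
LEAVES: subtasks `L-ETR-*` (target row285).  Prove IN PLACE, statements verbatim, report defects to helper238.  Earlier statements of this file are black boxes.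
-/

set_option autoImplicit false

namespace Claimed.Agent.R285.Ent

open scoped BigOperators ENNReal NNReal
open MeasureTheory ProbabilityTheory
open Claimed.Agent.R285 Claimed.Agent.R285.RG Claimed.Agent.R285.F4a

noncomputable section

variable {G G' : Geom} {c g : Grid G} {c' g' : Grid G'} {N : Nest c g} {N' : Nest c' g'}

/-! ## 0. The metric facts of one volume which are used -/

/-- metric facts of the geometry of `Ent/Defs.lean` (consequences of `GeoOK`; `Ent/Geo.lean`) -/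
structure TrMet (c : Grid G) (R : ℕ) : Prop where
  n3 : 3 ≤ c.n
  pos : 0 < R
  tile_diam : ∀ i i', tile c R i = tile c R i' → c.idist i i' ≤ R
  core_diam : ∀ k i i', i ∈ core c R k → i' ∈ core c R k → c.idist i i' ≤ R
  core_patch : ∀ k, core c R k ⊆ patch c R k
  patch_near : ∀ k i, i ∈ patch c R k → ∃ a ∈ core c R k, c.idist a i ≤ R
  patch_halC : ∀ S k, k ∈ S ∪ skp c R S → patch c R k ⊆ halC c R S

/-- L-ETR-MET -/
theorem etr_met {R : ℕ} (h : GeoOK c R) : TrMet c R := by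
  have ha := h.adm
  have hp := ha.pos
  have hbig := ha.big
  obtain ⟨t, ht⟩ := ha.d64
  refine ⟨by omega, hp, ?_, ?_, fun k => core_subset_patch k, ?_, fun S k hk => patch_subset_halC ha hk⟩
  · intro i i' e
    have := tile_diam ha e
    omega
  · intro k i i' hi hi'
    have := box_diam ha (Nat.zero_le _) (core_box ha hi) (core_box ha hi')
    omega
  · intro k i hi
    obtain ⟨a, ha', hd⟩ := mem_nbh.1 (patch_subset_nbh k hi)
    exact ⟨a, ha', hd.trans (Nat.div_le_self _ _)⟩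

/-! ## 1. Cells, faces, topologies -/

theorem etr_nx_inj {n : ℕ} : Function.Injective (nx : Fin n → Fin n) := by
  intro i j h
  have h1 : (i.1 + 1) % n = (j.1 + 1) % n := congrArg Fin.val h
  have hi := i.2
  have hj := j.2
  apply Fin.ext
  by_cases h2 : i.1 + 1 < n
  · by_cases h3 : j.1 + 1 < n
    · rw [Nat.mod_eq_of_lt h2, Nat.mod_eq_of_lt h3] at h1
      omega
    · have : j.1 + 1 = n := by omega
      rw [Nat.mod_eq_of_lt h2, this, Nat.mod_self] at h1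
      omega
  · have e2 : i.1 + 1 = n := by omega
    by_cases h3 : j.1 + 1 < n
    · rw [Nat.mod_eq_of_lt h3, e2, Nat.mod_self] at h1
      omega
    · omega

theorem etr_fnb_inj (c : Grid G) {f f' : Face c} (hd : f.2 = f'.2) (h : fnb c f = fnb c f') : f = f' := by
  obtain ⟨⟨a, b⟩, d⟩ := f
  obtain ⟨⟨a', b'⟩, d'⟩ := f'
  simp only at hd
  subst hd
  unfold fnb at h
  cases d
  · simp only [Bool.false_eq_true, if_false, Prod.mk.injEq] at h
    rw [h.1, etr_nx_inj h.2]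
  · simp only [if_true, Prod.mk.injEq] at h
    rw [h.2, etr_nx_inj h.1]

section basic

variable (Φ : Mor N N') {R : ℕ} (hΦ : Φ.Ok R)
include hΦ

theorem etr_idist_max (i j : c.I) : c'.idist (Φ.φ i) (Φ.φ j) = max (dd c' (Φ.δ true) (Φ.φ i) (Φ.φ j)) (dd c' (Φ.δ false) (Φ.φ i) (Φ.φ j)) := by
  have h0 : c'.idist (Φ.φ i) (Φ.φ j) = max (dd c' true (Φ.φ i) (Φ.φ j)) (dd c' false (Φ.φ i) (Φ.φ j)) := by
    simp [dd, Grid.idist]
  have hne : Φ.δ true ≠ Φ.δ false := fun h => by simpa using hΦ.δ_inj h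
  rw [h0]
  rcases ht : Φ.δ true with _ | _ <;> rcases hf : Φ.δ false with _ | _
  · exact absurd (ht.trans hf.symm) hne
  · exact max_comm _ _
  · rfl
  · exact absurd (ht.trans hf.symm) hne

theorem etr_idist_le (i j : c.I) : c'.idist (Φ.φ i) (Φ.φ j) ≤ c.idist i j := by
  have h0 : c.idist i j = max (dd c true i j) (dd c false i j) := by
    simp [dd, Grid.idist]
  rw [etr_idist_max Φ hΦ, h0]
  exact max_le_max (hΦ.dd_le true i j) (hΦ.dd_le false i j)

theorem etr_idist_eq {ρ : ℕ} {i j : c.I} (hi : Φ.deep ρ i) (hd : c'.idist (Φ.φ i) (Φ.φ j) ≤ ρ) :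
    c.idist i j = c'.idist (Φ.φ i) (Φ.φ j) := by
  have h0 : c.idist i j = max (dd c true i j) (dd c false i j) := by
    simp [dd, Grid.idist]
  rw [etr_idist_max Φ hΦ, h0, hΦ.dd_eq ρ true i j hi hd, hΦ.dd_eq ρ false i j hi hd]

/-- lifting of a ball, with the depth which remains -/
theorem etr_lift {ρ ρ' : ℕ} {i : c.I} {j' : c'.I} (hi : Φ.deep (ρ + ρ') i) (hd : c'.idist (Φ.φ i) j' ≤ ρ) :
    ∃ j, Φ.φ j = j' ∧ c.idist i j = c'.idist (Φ.φ i) j' ∧ Φ.deep ρ' j := by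
  have hi' : Φ.deep ρ i := hΦ.deep_mono (ρ + ρ') ρ i (Nat.le_add_right _ _) hi
  obtain ⟨j, rfl⟩ := hΦ.lift ρ i j' hi' hd
  have he := etr_idist_eq Φ hΦ hi' hd
  exact ⟨j, rfl, he, hΦ.deep_step ρ ρ' i j hi (he.trans_le hd)⟩

theorem etr_F_inj (hn : 3 ≤ c.n) : Set.InjOn Φ.F {f | IsFace c f} := by
  intro f _ f' _ h
  have h2 : f.2 = f'.2 := hΦ.δ_inj (congrArg Prod.snd h)
  have h1 : (Φ.F f).1 = (Φ.F f').1 := congrArg Prod.fst h
  unfold Mor.F at h1
  simp only at h1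
  rw [← h2] at h1
  by_cases hr : Φ.rv f.2 = true
  · rw [if_pos hr, if_pos hr] at h1
    exact etr_fnb_inj c h2 (hΦ.φ_inj h1)
  · rw [if_neg hr, if_neg hr] at h1
    exact Prod.ext (hΦ.φ_inj h1) h2

theorem etr_fcl {f : Face c} (hf : IsFace c f) : fcl c' (Φ.F f) = (fcl c f).image Φ.φ := by
  classical
  unfold fcl
  rw [(hΦ.face f hf).2, Finset.image_insert, Finset.image_singleton]
  unfold Mor.F
  simp only
  by_cases hr : Φ.rv f.2 = true
  · rw [if_pos hr, if_pos hr, Finset.pair_comm]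
  · rw [if_neg hr, if_neg hr]

theorem etr_top_ok {T : Top c} (hT : T.Ok) : (Φ.top T).Ok := by
  classical
  intro f' hf'
  obtain ⟨f, hf, rfl⟩ := Finset.mem_image.1 hf'
  obtain ⟨h1, h2, h3⟩ := hT f hf
  obtain ⟨h4, h5⟩ := hΦ.face f h1
  refine ⟨h4, ?_, ?_⟩
  · show (if Φ.rv f.2 then Φ.φ (fnb c f) else Φ.φ f.1) ∈ T.cells.image Φ.φ
    split_ifs
    · exact Finset.mem_image_of_mem _ h3
    · exact Finset.mem_image_of_mem _ h2
  · rw [h5]
    show (if Φ.rv f.2 then Φ.φ f.1 else Φ.φ (fnb c f)) ∈ T.cells.image Φ.φ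
    split_ifs
    · exact Finset.mem_image_of_mem _ h2
    · exact Finset.mem_image_of_mem _ h3

theorem etr_nbh {r : ℕ} {A : Finset c.I} (hA : ∀ i ∈ A, Φ.deep r i) : nbh c' r (A.image Φ.φ) = (nbh c r A).image Φ.φ := by
  classical
  ext j'
  unfold nbh
  simp only [Finset.mem_filter, Finset.mem_univ, true_and, Finset.mem_image]
  constructor
  · rintro ⟨_, ⟨a, ha, rfl⟩, hd⟩
    obtain ⟨j, hj, he, _⟩ := etr_lift Φ hΦ (ρ := r) (ρ' := 0) (hA a ha) hd
    exact ⟨j, ⟨a, ha, by rw [he]; exact hd⟩, hj⟩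
  · rintro ⟨j, ⟨a, ha, hd⟩, rfl⟩
    exact ⟨Φ.φ a, ⟨a, ha, rfl⟩, (etr_idist_le Φ hΦ a j).trans hd⟩

/-- the cells of a neighbourhood of deep cells are deep -/
theorem etr_nbh_deep {r ρ : ℕ} {A : Finset c.I} (hA : ∀ i ∈ A, Φ.deep (r + ρ) i) : ∀ i ∈ nbh c r A, Φ.deep ρ i := by
  classical
  intro i hi
  unfold nbh at hi
  obtain ⟨a, ha, hd⟩ := (Finset.mem_filter.1 hi).2
  exact hΦ.deep_step r ρ a i (hA a ha) hd

end basic

/-! ## 2. Tiles -/

section tiles

variable (Φ : Mor N N') {R : ℕ} (hΦ : Φ.Ok R) (hM : TrMet c R) (hM' : TrMet c' R)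
include hΦ

theorem etr_tiles_mem {t : Tile} (ht : t ∈ tiles c R) : Φ.θT t ∈ tiles c' R := by
  classical
  unfold tiles at ht ⊢
  obtain ⟨i, _, rfl⟩ := Finset.mem_image.1 ht
  rw [← hΦ.tile i]
  exact Finset.mem_image_of_mem _ (Finset.mem_univ _)

include hM' in
/-- the cells of tiles which contain an `R`-deep cell -/
theorem etr_cellsOf {A : Finset Tile} (hA : ∀ t ∈ A, ∃ i, tile c R i = t ∧ Φ.deep R i) :
    cellsOf c' R (A.image Φ.θT) = (cellsOf c R A).image Φ.φ := by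
  classical
  ext j'
  unfold cellsOf
  simp only [Finset.mem_filter, Finset.mem_univ, true_and, Finset.mem_image]
  constructor
  · rintro ⟨t, ht, he⟩
    obtain ⟨i, hi, hd⟩ := hA t ht
    have h1 : tile c' R (Φ.φ i) = tile c' R j' := by rw [hΦ.tile i, hi, he]
    obtain ⟨j, hj⟩ := hΦ.lift R i j' hd (hM'.tile_diam _ _ h1)
    refine ⟨j, ?_, hj⟩
    have h2 : Φ.θT (tile c R j) = Φ.θT t := by rw [← hΦ.tile j, hj, he]
    have m1 : tile c R j ∈ tiles c R := Finset.mem_image_of_mem _ (Finset.mem_univ _)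
    have m2 : t ∈ tiles c R := by rw [← hi]; exact Finset.mem_image_of_mem _ (Finset.mem_univ _)
    rw [hΦ.θT_inj m1 m2 h2]
    exact ht
  · rintro ⟨j, hj, rfl⟩
    exact ⟨tile c R j, hj, (hΦ.tile j).symm⟩

include hM in
theorem etr_cellsOf_deep {ρ : ℕ} {A : Finset Tile} (hA : ∀ t ∈ A, ∃ i, tile c R i = t ∧ Φ.deep (R + ρ) i) :
    ∀ j ∈ cellsOf c R A, Φ.deep ρ j := by
  classical
  intro j hj
  unfold cellsOf at hj
  obtain ⟨i, hi, hd⟩ := hA _ (Finset.mem_filter.1 hj).2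
  exact hΦ.deep_step R ρ i j hd (hM.tile_diam i j hi)

end tiles

/-! ## 3. Seam, events, cores, patches -/

section events

variable (Φ : Mor N N') {R : ℕ} (hΦ : Φ.Ok R) (hM : TrMet c R) (hM' : TrMet c' R)
include hΦ

/-- the two cells of the image of a face -/
theorem etr_F_cells {f : Face c} (hf : IsFace c f) :
    ((Φ.F f).1 = Φ.φ f.1 ∧ fnb c' (Φ.F f) = Φ.φ (fnb c f)) ∨ ((Φ.F f).1 = Φ.φ (fnb c f) ∧ fnb c' (Φ.F f) = Φ.φ f.1) := by
  have h2 := (hΦ.face f hf).2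
  by_cases hr : Φ.rv f.2 = true
  · right
    rw [if_pos hr] at h2
    exact ⟨by simp only [Mor.F, if_pos hr], h2⟩
  · left
    rw [if_neg hr] at h2
    exact ⟨by simp only [Mor.F, if_neg hr], h2⟩

theorem etr_tile_eq_iff (i j : c.I) : tile c' R (Φ.φ i) = tile c' R (Φ.φ j) ↔ tile c R i = tile c R j := by
  rw [hΦ.tile, hΦ.tile]
  constructor
  · intro h
    exact hΦ.θT_inj (Finset.mem_coe.2 (Finset.mem_image_of_mem _ (Finset.mem_univ i)))
      (Finset.mem_coe.2 (Finset.mem_image_of_mem _ (Finset.mem_univ j))) h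
  · intro h
    rw [h]

theorem etr_seam {f : Face c} (hf : IsFace c f) : Φ.F f ∈ seam c' R ↔ f ∈ seam c R := by
  have h1 := (hΦ.face f hf).1
  unfold seam
  simp only [Finset.mem_filter, Finset.mem_univ, true_and]
  rcases etr_F_cells Φ hΦ hf with ⟨ha, hb⟩ | ⟨ha, hb⟩
  · rw [ha, hb]
    constructor
    · rintro ⟨-, h⟩
      exact ⟨hf, fun h' => h ((etr_tile_eq_iff Φ hΦ _ _).2 h')⟩
    · rintro ⟨-, h⟩
      exact ⟨h1, fun h' => h ((etr_tile_eq_iff Φ hΦ _ _).1 h')⟩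
  · rw [ha, hb]
    constructor
    · rintro ⟨-, h⟩
      exact ⟨hf, fun h' => h ((etr_tile_eq_iff Φ hΦ _ _).2 h'.symm)⟩
    · rintro ⟨-, h⟩
      exact ⟨h1, fun h' => h ((etr_tile_eq_iff Φ hΦ _ _).1 h').symm⟩

omit hΦ in
theorem etr_seam_face {G₀ : Geom} {c₀ : Grid G₀} {f : Face c₀} (hf : f ∈ seam c₀ R) : IsFace c₀ f := by
  unfold seam at hf
  simp only [Finset.mem_filter, Finset.mem_univ, true_and] at hf
  exact hf.1

theorem etr_events_mem {k : EvId} (hk : k ∈ events c R) : Φ.θE k ∈ events c' R := by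
  obtain ⟨f, hf, rfl⟩ := Finset.mem_image.1 hk
  rw [← hΦ.key f hf]
  exact Finset.mem_image_of_mem _ ((etr_seam Φ hΦ (etr_seam_face hf)).2 hf)

theorem etr_evV_mem {k : EvId} (hk : k ∈ events c R) : Φ.θE k ∈ evV c' R ↔ k ∈ evV c R := by
  unfold evV
  simp only [Finset.mem_filter, hΦ.θE_fst]
  constructor
  · rintro ⟨-, h⟩
    exact ⟨hk, h⟩
  · rintro ⟨-, h⟩
    exact ⟨etr_events_mem Φ hΦ hk, h⟩

/-- an event of the target with a core cell which is the image of a `1`-deep cell -/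
theorem etr_event_lift {k' : EvId} {i : c.I} (hi' : Φ.φ i ∈ core c' R k') (hi : Φ.deep 1 i) :
    ∃ k ∈ events c R, Φ.θE k = k' ∧ i ∈ core c R k := by
  obtain ⟨f', hf', hk', hif⟩ := mem_core.1 hi'
  have hF' : IsFace c' f' := etr_seam_face hf'
  obtain ⟨f, hf, rfl⟩ := hΦ.face_lift f' i hF' hi (hif.imp Eq.symm Eq.symm)
  have hs : f ∈ seam c R := (etr_seam Φ hΦ hf).1 hf'
  refine ⟨evKey c R f, Finset.mem_image_of_mem _ hs, ?_, ?_⟩
  · rw [← hΦ.key f hs, hk']
  · refine mem_core.2 ⟨f, hs, rfl, ?_⟩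
    rcases etr_F_cells Φ hΦ hf with ⟨ha, hb⟩ | ⟨ha, hb⟩
    · rw [ha, hb] at hif
      exact hif.imp (fun h => hΦ.φ_inj h) (fun h => hΦ.φ_inj h)
    · rw [ha, hb] at hif
      exact (hif.imp (fun h => hΦ.φ_inj h) (fun h => hΦ.φ_inj h)).symm

include hM in
theorem etr_core_deep {k : EvId} {i₀ : c.I} (h0 : i₀ ∈ core c R k) {ρ : ℕ} (hd : Φ.deep (R + ρ) i₀) : ∀ i ∈ core c R k, Φ.deep ρ i := by
  intro i hi
  exact hΦ.deep_step R ρ i₀ i hd (hM.core_diam k i₀ i h0 hi)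

include hM hM' in
theorem etr_cutF {k : EvId} (hk : k ∈ events c R) (hd : ∀ i ∈ core c R k, Φ.deep (2 * R) i) :
    cutF c' R (Φ.θE k) = (cutF c R k).image Φ.F := by
  classical
  have hface : ∀ f, f ∈ seam c R → IsFace c f := fun f hf => (Finset.mem_filter.1 hf).2.1
  have hface' : ∀ f, f ∈ seam c' R → IsFace c' f := fun f hf => (Finset.mem_filter.1 hf).2.1
  have hsup : ∀ f ∈ cutF c R k, Φ.F f ∈ cutF c' R (Φ.θE k) := by
    intro f hf
    obtain ⟨hs, hkey⟩ := Finset.mem_filter.1 hf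
    refine Finset.mem_filter.2 ⟨(etr_seam Φ hΦ (hface f hs)).2 hs, ?_⟩
    rw [hΦ.key f hs, hkey]
  ext f'
  constructor
  · intro hf'
    obtain ⟨hs', hkey'⟩ := Finset.mem_filter.1 hf'
    obtain ⟨f0, hf0s, hf0k⟩ := Finset.mem_image.1 hk
    have hf0 : f0 ∈ cutF c R k := Finset.mem_filter.2 ⟨hf0s, hf0k⟩
    have hF0 := hsup f0 hf0
    -- the first cell of the image of `f0` is the image of a core cell
    obtain ⟨i1, hi1, hi1F⟩ : ∃ i1 ∈ core c R k, (Φ.F f0).1 = Φ.φ i1 := by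
      by_cases hrv : Φ.rv f0.2 = true
      · exact ⟨fnb c f0, Finset.mem_union_right _ (Finset.mem_image_of_mem _ hf0), by simp [Mor.F, hrv]⟩
      · exact ⟨f0.1, Finset.mem_union_left _ (Finset.mem_image_of_mem _ hf0), by simp [Mor.F, hrv]⟩
    have hc1 : Φ.φ i1 ∈ core c' R (Φ.θE k) := by
      rw [← hi1F]
      exact Finset.mem_union_left _ (Finset.mem_image_of_mem _ hF0)
    have hc2 : f'.1 ∈ core c' R (Φ.θE k) := Finset.mem_union_left _ (Finset.mem_image_of_mem _ hf')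
    have hdist := hM'.core_diam _ _ _ hc1 hc2
    have hdeep : Φ.deep (R + R) i1 := by
      have := hd i1 hi1
      rwa [two_mul] at this
    obtain ⟨j, hj, -, hjd⟩ := etr_lift Φ hΦ hdeep hdist
    have hj1 : Φ.deep 1 j := hΦ.deep_mono R 1 j hM.pos hjd
    obtain ⟨f, hfF, hFf⟩ := hΦ.face_lift f' j (hface' f' hs') hj1 (Or.inl hj.symm)
    have hfs : f ∈ seam c R := (etr_seam Φ hΦ hfF).1 (by rw [hFf]; exact hs')
    have hk2 : Φ.θE (evKey c R f) = Φ.θE k := by
      rw [← hΦ.key f hfs, hFf, hkey']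
    have hk3 : evKey c R f = k := hΦ.θE_inj (Finset.mem_coe.2 (Finset.mem_image_of_mem _ hfs)) (Finset.mem_coe.2 hk) hk2
    exact Finset.mem_image.2 ⟨f, Finset.mem_filter.2 ⟨hfs, hk3⟩, hFf⟩
  · intro hf'
    obtain ⟨f, hf, rfl⟩ := Finset.mem_image.1 hf'
    exact hsup f hf

include hM hM' in
theorem etr_core {k : EvId} (hk : k ∈ events c R) (hd : ∀ i ∈ core c R k, Φ.deep (2 * R) i) :
    core c' R (Φ.θE k) = (core c R k).image Φ.φ := by
  classical
  have hcut := etr_cutF Φ hΦ hM hM' hk hd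
  have hface : ∀ f, f ∈ cutF c R k → IsFace c f := fun f hf => (Finset.mem_filter.1 (Finset.mem_filter.1 hf).1).2.1
  have h1 : ∀ f, (Φ.F f).1 = if Φ.rv f.2 then Φ.φ (fnb c f) else Φ.φ f.1 := fun f => rfl
  ext i'
  unfold core
  rw [hcut]
  simp only [Finset.mem_union, Finset.mem_image]
  constructor
  · rintro (⟨f', ⟨f, hf, rfl⟩, rfl⟩ | ⟨f', ⟨f, hf, rfl⟩, rfl⟩)
    · by_cases hrv : Φ.rv f.2 = true
      · exact ⟨fnb c f, Or.inr ⟨f, hf, rfl⟩, by rw [h1, if_pos hrv]⟩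
      · exact ⟨f.1, Or.inl ⟨f, hf, rfl⟩, by rw [h1, if_neg hrv]⟩
    · have h2 := (hΦ.face f (hface f hf)).2
      by_cases hrv : Φ.rv f.2 = true
      · exact ⟨f.1, Or.inl ⟨f, hf, rfl⟩, by rw [h2, if_pos hrv]⟩
      · exact ⟨fnb c f, Or.inr ⟨f, hf, rfl⟩, by rw [h2, if_neg hrv]⟩
  · rintro ⟨i, (⟨f, hf, rfl⟩ | ⟨f, hf, rfl⟩), rfl⟩
    · have h2 := (hΦ.face f (hface f hf)).2
      by_cases hrv : Φ.rv f.2 = true
      · exact Or.inr ⟨Φ.F f, ⟨f, hf, rfl⟩, by rw [h2, if_pos hrv]⟩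
      · exact Or.inl ⟨Φ.F f, ⟨f, hf, rfl⟩, by rw [h1, if_neg hrv]⟩
    · have h2 := (hΦ.face f (hface f hf)).2
      by_cases hrv : Φ.rv f.2 = true
      · exact Or.inl ⟨Φ.F f, ⟨f, hf, rfl⟩, by rw [h1, if_pos hrv]⟩
      · exact Or.inr ⟨Φ.F f, ⟨f, hf, rfl⟩, by rw [h2, if_neg hrv]⟩

include hM hM' in
theorem etr_patch {k : EvId} (hk : k ∈ events c R) (hd : ∀ i ∈ core c R k, Φ.deep (2 * R) i) :
    patch c' R (Φ.θE k) = (patch c R k).image Φ.φ := by
  have hcore := etr_core Φ hΦ hM hM' hk hd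
  have h1 : nbh c' (R / 32) (core c' R (Φ.θE k)) = (nbh c (R / 32) (core c R k)).image Φ.φ := by
    rw [hcore]
    exact etr_nbh Φ hΦ fun i hi => hΦ.deep_mono (2 * R) (R / 32) i (by omega) (hd i hi)
  have h2 : ctl c' R (Φ.θE k) = (ctl c R k).image Φ.φ := by
    unfold ctl
    rw [hcore, Finset.image_image]
    have e : (core c R k).image (tile c' R ∘ Φ.φ) = ((core c R k).image (tile c R)).image Φ.θT := by
      rw [Finset.image_image]
      exact Finset.image_congr fun i _ => hΦ.tile i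
    rw [e]
    refine etr_cellsOf Φ hΦ hM' fun t ht => ?_
    obtain ⟨i, hi, rfl⟩ := Finset.mem_image.1 ht
    exact ⟨i, rfl, hΦ.deep_mono (2 * R) R i (by omega) (hd i hi)⟩
  unfold patch
  rw [h1, h2, Finset.image_inter _ _ hΦ.φ_inj]

include hM in
theorem etr_patch_deep {k : EvId} {ρ : ℕ} (hd : ∀ i ∈ core c R k, Φ.deep (R + ρ) i) : ∀ i ∈ patch c R k, Φ.deep ρ i := by
  intro i hi
  obtain ⟨a, ha, hai⟩ := hM.patch_near k i hi
  exact hΦ.deep_step R ρ a i (hd a ha) hai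

end events

/-! ## 4. Topologies -/

/-- membership in the faces of a restriction -/
theorem etr_mem_restr_faces {T : Top c} {O : Finset c.I} {f : Face c} :
    f ∈ (T.restr O).faces ↔ f ∈ T.faces ∧ f.1 ∈ O ∧ fnb c f ∈ O := by
  classical
  unfold Top.restr
  simp only [Finset.mem_filter]

theorem etr_ok_restr_topU (R : ℕ) (U : Finset EvId) (O : Finset c.I) : ((topU c R U).restr O).Ok := by
  intro f hf
  obtain ⟨h1, h2, h3⟩ := etr_mem_restr_faces.1 hf
  refine ⟨(mem_topU_faces.1 h1).1, ?_, ?_⟩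
  · show f.1 ∈ (topU c R U).cells ∩ O
    rw [topU_cells]; simpa using h2
  · show fnb c f ∈ (topU c R U).cells ∩ O
    rw [topU_cells]; simpa using h3

theorem etr_ok_restr_full (O : Finset c.I) : ((Top.full c).restr O).Ok := by
  rw [← topU_events 0]
  exact etr_ok_restr_topU 0 _ O

section tops

variable (Φ : Mor N N') {R : ℕ} (hΦ : Φ.Ok R) (hM : TrMet c R) (hM' : TrMet c' R)
include hΦ hM

/-- **the basic lemma on topologies**: `U'` and `U` contain corresponding events among those which are seen in `O` -/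
theorem etr_top_restr_topU {U U' : Finset EvId} {O : Finset c.I} (hO : ∀ i ∈ O, Φ.deep 1 i)
    (hU : ∀ f ∈ seam c R, f.1 ∈ O → fnb c f ∈ O → (Φ.θE (evKey c R f) ∈ U' ↔ evKey c R f ∈ U)) :
    Φ.top ((topU c R U).restr O) = (topU c' R U').restr (O.image Φ.φ) := by
  classical
  refine top_ext ?_ ?_
  · show ((topU c R U).cells ∩ O).image Φ.φ = (topU c' R U').cells ∩ O.image Φ.φ
    rw [topU_cells, topU_cells, Finset.univ_inter, Finset.univ_inter]
  · show ((topU c R U).restr O).faces.image Φ.F = ((topU c' R U').restr (O.image Φ.φ)).faces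
    ext f'
    rw [Finset.mem_image, etr_mem_restr_faces, mem_topU_faces]
    constructor
    · rintro ⟨f, hf, rfl⟩
      obtain ⟨h1, h2, h3⟩ := etr_mem_restr_faces.1 hf
      obtain ⟨hF, h4⟩ := mem_topU_faces.1 h1
      have hF' := (hΦ.face f hF).1
      have m2 := Finset.mem_image_of_mem Φ.φ h2
      have m3 := Finset.mem_image_of_mem Φ.φ h3
      have hcells : (Φ.F f).1 ∈ O.image Φ.φ ∧ fnb c' (Φ.F f) ∈ O.image Φ.φ := by
        rcases etr_F_cells Φ hΦ hF with ⟨a, b⟩ | ⟨a, b⟩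
        · rw [a, b]; exact ⟨m2, m3⟩
        · rw [a, b]; exact ⟨m3, m2⟩
      refine ⟨⟨hF', ?_⟩, hcells⟩
      by_cases hs : f ∈ seam c R
      · right
        rw [hΦ.key f hs]
        refine (hU f hs h2 h3).2 ?_
        rcases h4 with h4 | h4
        · exact absurd h4 (mem_seam.1 hs).2
        · exact h4
      · left
        have hs' : Φ.F f ∉ seam c' R := fun q => hs ((etr_seam Φ hΦ hF).1 q)
        by_contra q
        exact hs' (mem_seam.2 ⟨hF', q⟩)
    · rintro ⟨⟨hF', h4⟩, h2, h3⟩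
      obtain ⟨i, hi, hi'⟩ := Finset.mem_image.1 h2
      obtain ⟨j, hj, hj'⟩ := Finset.mem_image.1 h3
      obtain ⟨f, hF, rfl⟩ := hΦ.face_lift f' i hF' (hO i hi) (Or.inl hi'.symm)
      have hcells : f.1 ∈ O ∧ fnb c f ∈ O := by
        rcases etr_F_cells Φ hΦ hF with ⟨a, b⟩ | ⟨a, b⟩
        · rw [a] at hi'; rw [b] at hj'
          rw [← hΦ.φ_inj hi', ← hΦ.φ_inj hj']; exact ⟨hi, hj⟩
        · rw [a] at hi'; rw [b] at hj'
          rw [← hΦ.φ_inj hi', ← hΦ.φ_inj hj']; exact ⟨hj, hi⟩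
      refine ⟨f, etr_mem_restr_faces.2 ⟨mem_topU_faces.2 ⟨hF, ?_⟩, hcells⟩, rfl⟩
      by_cases hs : f ∈ seam c R
      · right
        refine (hU f hs hcells.1 hcells.2).1 ?_
        rw [← hΦ.key f hs]
        rcases h4 with h4 | h4
        · exact absurd h4 (mem_seam.1 ((etr_seam Φ hΦ hF).2 hs)).2
        · exact h4
      · left
        by_contra q
        exact hs (mem_seam.2 ⟨hF, q⟩)

theorem etr_top_restr_full {O : Finset c.I} (hO : ∀ i ∈ O, Φ.deep 1 i) :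
    Φ.top ((Top.full c).restr O) = (Top.full c').restr (O.image Φ.φ) := by
  rw [← topU_events R, ← topU_events R]
  refine etr_top_restr_topU Φ hΦ hM hO fun f hf _ _ => ?_
  have h1 : evKey c R f ∈ events c R := Finset.mem_image_of_mem _ hf
  exact ⟨fun _ => h1, fun _ => etr_events_mem Φ hΦ h1⟩

/-- the cells of a patch with a `2 R`-deep core are `1`-deep -/
theorem etr_P2_deep {k : EvId} (hd : ∀ i ∈ core c R k, Φ.deep (2 * R) i) : ∀ i ∈ patch c R k, Φ.deep 1 i := fun i hi =>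
  hΦ.deep_mono R 1 i hM.pos (etr_patch_deep Φ hΦ hM (ρ := R) (fun a ha => by rw [← two_mul]; exact hd a ha) i hi)

omit hM in
/-- the events which are not yet cut correspond -/
theorem etr_P2_pre (k : EvId) {e : EvId} (he : e ∈ events c R) : Φ.θE e ∈ pre c' R (Φ.θE k) ↔ e ∈ pre c R k := by
  unfold pre
  rw [hΦ.θE_fst k]
  split_ifs
  · exact etr_evV_mem Φ hΦ he
  · exact ⟨fun _ => he, fun _ => etr_events_mem Φ hΦ he⟩

include hM' in
theorem etr_topO {k : EvId} (hk : k ∈ events c R) (hd : ∀ i ∈ core c R k, Φ.deep (2 * R) i) :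
    Φ.top (topO c R k) = topO c' R (Φ.θE k) := by
  unfold topO
  rw [etr_patch Φ hΦ hM hM' hk hd]
  refine etr_top_restr_topU Φ hΦ hM (etr_P2_deep Φ hΦ hM hd) fun f hf _ _ => ?_
  exact etr_P2_pre Φ hΦ k (Finset.mem_image_of_mem _ hf)

include hM' in
theorem etr_topC {k : EvId} (hk : k ∈ events c R) (hd : ∀ i ∈ core c R k, Φ.deep (2 * R) i) :
    Φ.top (topC c R k) = topC c' R (Φ.θE k) := by
  unfold topC
  rw [etr_patch Φ hΦ hM hM' hk hd]
  refine etr_top_restr_topU Φ hΦ hM (etr_P2_deep Φ hΦ hM hd) fun f hf _ _ => ?_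
  have hf' : evKey c R f ∈ events c R := Finset.mem_image_of_mem _ hf
  rw [Finset.mem_sdiff, Finset.mem_sdiff, Finset.mem_singleton, Finset.mem_singleton, etr_P2_pre Φ hΦ k hf']
  refine and_congr_right fun _ => not_congr ⟨fun h => hΦ.θE_inj hf' hk h, fun h => by rw [h]⟩

include hM' in
theorem etr_tileTop {t : Tile} (ht : ∃ i, tile c R i = t ∧ Φ.deep (2 * R) i) :
    Φ.top (tileTop c R t) = tileTop c' R (Φ.θT t) := by
  obtain ⟨i₀, h0, hd0⟩ := ht
  have hA : ∀ t' ∈ ({t} : Finset Tile), ∃ i, tile c R i = t' ∧ Φ.deep (R + R) i := by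
    intro t' ht'
    rw [Finset.mem_singleton] at ht'
    exact ⟨i₀, h0.trans ht'.symm, by rw [← two_mul]; exact hd0⟩
  have hdeep : ∀ j ∈ cellsOf c R {t}, Φ.deep 1 j := fun j hj =>
    hΦ.deep_mono R 1 j hM.pos (etr_cellsOf_deep Φ hΦ hM hA j hj)
  have hc : cellsOf c' R {Φ.θT t} = (cellsOf c R {t}).image Φ.φ := by
    rw [← Finset.image_singleton]
    refine etr_cellsOf Φ hΦ hM' fun t' ht' => ?_
    obtain ⟨i, hi, hdi⟩ := hA t' ht'
    exact ⟨i, hi, hΦ.deep_mono (R + R) R i (by omega) hdi⟩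
  unfold tileTop
  rw [hc]
  exact etr_top_restr_full Φ hΦ hM hdeep

end tops

/-! ## 5. Skipped events, halos -/

/-- a set of events whose cores are `ρ`-deep -/
def EvDeep (Φ : Mor N N') (R ρ : ℕ) (S : Finset EvId) : Prop := S ⊆ events c R ∧ ∀ k ∈ S, ∀ i ∈ core c R k, Φ.deep ρ i

section halos

variable (Φ : Mor N N') {R : ℕ} (hΦ : Φ.Ok R) (hM : TrMet c R) (hM' : TrMet c' R)
include hΦ hM

/-- a cell of the patch of a deep event is deep -/
theorem etr_h1_patch_deep {k : EvId} {ρ : ℕ} (hd : ∀ i ∈ core c R k, Φ.deep (R + ρ) i) {x : c.I} (hx : x ∈ patch c R k) : Φ.deep ρ x := by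
  obtain ⟨a, ha, hax⟩ := hM.patch_near k x hx
  exact hΦ.deep_step R ρ a x (hd a ha) hax

/-- the core of an event whose patch contains a deep cell is deep -/
theorem etr_h1_core_deep {v : EvId} {ρ : ℕ} {x : c.I} (hx : x ∈ patch c R v) (hd : Φ.deep (R + (R + ρ)) x) : ∀ i ∈ core c R v, Φ.deep ρ i := by
  intro i hi
  obtain ⟨a, ha, hax⟩ := hM.patch_near v x hx
  have h1 : Φ.deep (R + ρ) a := hΦ.deep_step R (R + ρ) x a hd (by rw [Geo.geo_idist_comm]; exact hax)
  exact hΦ.deep_step R ρ a i h1 (hM.core_diam v a i ha hi)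

theorem etr_skp_deep {S : Finset EvId} (hS : EvDeep Φ R (6 * R) S) : EvDeep Φ R (2 * R) (S ∪ skp c R S) := by
  classical
  obtain ⟨hS1, hS2⟩ := hS
  refine ⟨?_, ?_⟩
  · intro k hk
    rcases Finset.mem_union.1 hk with h | h
    · exact hS1 h
    · unfold skp evV at h
      exact (Finset.mem_filter.1 (Finset.mem_filter.1 h).1).1
  · intro k hk i hi
    rcases Finset.mem_union.1 hk with h | h
    · exact hΦ.deep_mono (6 * R) (2 * R) i (by omega) (hS2 k h i hi)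
    · unfold skp at h
      obtain ⟨e, he, -, hnd⟩ := (Finset.mem_filter.1 h).2
      obtain ⟨x, hx1, hx2⟩ := Finset.not_disjoint_iff.1 hnd
      have h5 : Φ.deep (R + (R + 2 * R)) x := by
        apply etr_h1_patch_deep Φ hΦ hM (k := e) (ρ := R + (R + 2 * R)) ?_ hx1
        intro j hj
        exact hΦ.deep_mono (6 * R) _ j (by omega) (hS2 e he j hj)
      exact etr_h1_core_deep Φ hΦ hM hx2 h5 i hi

include hM' in
theorem etr_skp {S : Finset EvId} (hS : EvDeep Φ R (6 * R) S) : skp c' R (S.image Φ.θE) = (skp c R S).image Φ.θE := by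
  classical
  have hdeep := etr_skp_deep Φ hΦ hM hS
  obtain ⟨hS1, hS2⟩ := hS
  have hpS : ∀ e ∈ S, patch c' R (Φ.θE e) = (patch c R e).image Φ.φ := fun e he =>
    etr_patch Φ hΦ hM hM' (hS1 he) (fun i hi => hdeep.2 e (Finset.mem_union_left _ he) i hi)
  ext v'
  constructor
  · intro hv'
    unfold skp at hv'
    obtain ⟨hv1, e', he', he1, hnd⟩ := Finset.mem_filter.1 hv'
    obtain ⟨e, he, rfl⟩ := Finset.mem_image.1 he'
    obtain ⟨x', hx1, hx2⟩ := Finset.not_disjoint_iff.1 hnd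
    rw [hpS e he] at hx1
    obtain ⟨x, hx, rfl⟩ := Finset.mem_image.1 hx1
    have h5 : Φ.deep (R + 4 * R) x := by
      apply etr_h1_patch_deep Φ hΦ hM (k := e) (ρ := R + 4 * R) ?_ hx
      intro j hj
      exact hΦ.deep_mono (6 * R) _ j (by omega) (hS2 e he j hj)
    obtain ⟨a', ha', hax⟩ := hM'.patch_near v' _ hx2
    obtain ⟨j, hj, -, hjd⟩ := etr_lift Φ hΦ (ρ := R) (ρ' := 4 * R) h5 (by rw [Geo.geo_idist_comm]; exact hax)
    have hR := hM.pos
    obtain ⟨v, hv, hvv, hjv⟩ := etr_event_lift Φ hΦ (k' := v') (i := j) (by rw [hj]; exact ha')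
      (hΦ.deep_mono (4 * R) 1 j (by omega) hjd)
    subst hvv
    have hvd : ∀ i ∈ core c R v, Φ.deep (2 * R) i :=
      etr_core_deep Φ hΦ hM hjv (hΦ.deep_mono (4 * R) (R + 2 * R) j (by omega) hjd)
    rw [etr_patch Φ hΦ hM hM' hv hvd] at hx2
    obtain ⟨y, hy, hyx⟩ := Finset.mem_image.1 hx2
    rw [hΦ.φ_inj hyx] at hy
    refine Finset.mem_image.2 ⟨v, ?_, rfl⟩
    unfold skp
    refine Finset.mem_filter.2 ⟨(etr_evV_mem Φ hΦ hv).1 hv1, e, he, ?_, Finset.not_disjoint_iff.2 ⟨x, hx, hy⟩⟩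
    rw [← hΦ.θE_fst e]
    exact he1
  · intro hv'
    obtain ⟨v, hv, rfl⟩ := Finset.mem_image.1 hv'
    have hvE : v ∈ events c R := hdeep.1 (Finset.mem_union_right _ hv)
    have hvd : ∀ i ∈ core c R v, Φ.deep (2 * R) i := hdeep.2 v (Finset.mem_union_right _ hv)
    unfold skp at hv
    obtain ⟨hv1, e, he, he1, hnd⟩ := Finset.mem_filter.1 hv
    obtain ⟨x, hx1, hx2⟩ := Finset.not_disjoint_iff.1 hnd
    unfold skp
    refine Finset.mem_filter.2 ⟨(etr_evV_mem Φ hΦ hvE).2 hv1, Φ.θE e, Finset.mem_image_of_mem _ he, ?_, ?_⟩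
    · rw [hΦ.θE_fst e]
      exact he1
    · rw [hpS e he, etr_patch Φ hΦ hM hM' hvE hvd]
      exact Finset.not_disjoint_iff.2 ⟨Φ.φ x, Finset.mem_image_of_mem _ hx1, Finset.mem_image_of_mem _ hx2⟩

include hM' in
theorem etr_halT {S : Finset EvId} (hS : EvDeep Φ R (6 * R) S) : halT c' R (S.image Φ.θE) = (halT c R S).image Φ.θT := by
  have hD := etr_skp_deep Φ hΦ hM hS
  have hcore : ∀ k ∈ S ∪ skp c R S, core c' R (Φ.θE k) = (core c R k).image Φ.φ := fun k hk =>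
    etr_core Φ hΦ hM hM' (hD.1 hk) (hD.2 k hk)
  unfold halT
  rw [etr_skp Φ hΦ hM hM' hS, ← Finset.image_union, Finset.image_biUnion, Finset.biUnion_congr rfl hcore]
  ext t
  simp only [Finset.mem_image, Finset.mem_biUnion]
  constructor
  · rintro ⟨i', ⟨k, hk, i, hi, rfl⟩, rfl⟩
    exact ⟨tile c R i, ⟨i, ⟨k, hk, hi⟩, rfl⟩, (hΦ.tile i).symm⟩
  · rintro ⟨t0, ⟨i, ⟨k, hk, hi⟩, rfl⟩, rfl⟩
    exact ⟨Φ.φ i, ⟨k, hk, i, hi, rfl⟩, hΦ.tile i⟩

/-- every tile of a halo contains a `2 R`-deep cell -/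
theorem etr_halT_deep {S : Finset EvId} (hS : EvDeep Φ R (6 * R) S) : ∀ t ∈ halT c R S, ∃ i, tile c R i = t ∧ Φ.deep (2 * R) i := by
  intro t ht
  have hD := etr_skp_deep Φ hΦ hM hS
  unfold halT at ht
  obtain ⟨i, hi, rfl⟩ := Finset.mem_image.1 ht
  obtain ⟨k, hk, hik⟩ := Finset.mem_biUnion.1 hi
  exact ⟨i, rfl, hD.2 k hk i hik⟩

include hM' in
theorem etr_halC {S : Finset EvId} (hS : EvDeep Φ R (6 * R) S) : halC c' R (S.image Φ.θE) = (halC c R S).image Φ.φ := by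
  unfold halC
  rw [etr_halT Φ hΦ hM hM' hS]
  exact etr_cellsOf Φ hΦ hM' fun t ht => by
    obtain ⟨i, h1, h2⟩ := etr_halT_deep Φ hΦ hM hS t ht
    exact ⟨i, h1, hΦ.deep_mono _ _ i (by omega) h2⟩

theorem etr_halC_deep {S : Finset EvId} (hS : EvDeep Φ R (6 * R) S) : ∀ i ∈ halC c R S, Φ.deep R i :=
  etr_cellsOf_deep Φ hΦ hM (ρ := R) (A := halT c R S) fun t ht => by
    obtain ⟨i, h1, h2⟩ := etr_halT_deep Φ hΦ hM hS t ht
    exact ⟨i, h1, by rw [← two_mul]; exact h2⟩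

include hM' in
theorem etr_valid {S : Finset EvId} (hS : EvDeep Φ R (6 * R) S) : Valid c' R (S.image Φ.θE) ↔ Valid c R S := by
  have hD := etr_skp_deep Φ hΦ hM hS
  unfold Valid
  rw [etr_skp Φ hΦ hM hM' hS]
  constructor
  · rintro ⟨-, h⟩
    refine ⟨hS.1, Finset.disjoint_left.2 fun k hk hk' => ?_⟩
    exact Finset.disjoint_left.1 h (Finset.mem_image_of_mem _ hk) (Finset.mem_image_of_mem _ hk')
  · rintro ⟨-, h⟩
    refine ⟨fun k' hk' => ?_, Finset.disjoint_left.2 fun k' hk' hk'' => ?_⟩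
    · obtain ⟨k, hk, rfl⟩ := Finset.mem_image.1 hk'
      exact etr_events_mem Φ hΦ (hS.1 hk)
    · obtain ⟨k, hk, rfl⟩ := Finset.mem_image.1 hk'
      obtain ⟨k₂, hk₂, he⟩ := Finset.mem_image.1 hk''
      have h2 : k₂ = k := hΦ.θE_inj (Finset.mem_coe.2 (hD.1 (Finset.mem_union_right _ hk₂)))
        (Finset.mem_coe.2 (hD.1 (Finset.mem_union_left _ hk))) he
      exact Finset.disjoint_left.1 h hk (h2 ▸ hk₂)

include hM' in
theorem etr_halTop {S O : Finset EvId} (hS : EvDeep Φ R (6 * R) S) (hO : O ⊆ S) :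
    Φ.top (halTop c R S O) = halTop c' R (S.image Φ.θE) (O.image Φ.θE) := by
  have hD := etr_skp_deep Φ hΦ hM hS
  unfold halTop
  rw [etr_skp Φ hΦ hM hM' hS, etr_halC Φ hΦ hM hM' hS, ← Finset.image_union]
  refine etr_top_restr_topU Φ hΦ hM (fun i hi => hΦ.deep_mono _ _ i hM.pos (etr_halC_deep Φ hΦ hM hS i hi))
    fun f hf _ _ => ?_
  have hk : evKey c R f ∈ events c R := Finset.mem_image_of_mem _ hf
  have hU : skp c R S ∪ O ⊆ events c R := fun k hk => by
    rcases Finset.mem_union.1 hk with h | h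
    · exact hD.1 (Finset.mem_union_right _ h)
    · exact hS.1 (hO h)
  constructor
  · intro h
    obtain ⟨k, hk', he⟩ := Finset.mem_image.1 h
    exact hΦ.θE_inj (Finset.mem_coe.2 (hU hk')) (Finset.mem_coe.2 hk) he ▸ hk'
  · exact Finset.mem_image_of_mem _

end halos

end

end Claimed.Agent.R285.Ent
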