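import Claimed.Agent.R285.Base.RG

/-!
# ROW 285, POST TRANSPORT, INSTANCES, part 1: affine index maps in one dimension      (helper225)
PAPER-FREE, pure arithmetic.  One LEVEL = a boundary convention and a number of indices `(bc, n)`.
`etiA n' r a x` = `x + a` (`r = false`) or `a - x` (`r = true`), wrapped once modulo `n'`.
-/

set_option autoImplicit false

namespace Claimed.Agent.R285.Ent

open Claimed.Agent.R285 Claimed.Agent.R285.RG

/-- the affine index map -/
def etiA (n' : ℕ) (r : Bool) (a x : ℕ) : ℕ :=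
  if r then (if x ≤ a then a - x else a + n' - x) else (if x + a < n' then x + a else x + a - n')

/-- index distance of a level -/
def etiD (bc : BC) (n x y : ℕ) : ℕ :=
  match bc with
  | BC.per => min ((x : ℤ) - y).natAbs (n - ((x : ℤ) - y).natAbs)
  | BC.free => ((x : ℤ) - y).natAbs

/-- the cyclic successor -/
def etiS (n x : ℕ) : ℕ := if x + 1 < n then x + 1 else 0

/-- the step from `x` to its successor exists -/
def etiF (bc : BC) (n x : ℕ) : Prop := bc = BC.per ∨ x + 1 < n

/-- admissible maps of levels -/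
structure EtiAdm (bc bc' : BC) (n n' : ℕ) (r : Bool) (a : ℕ) : Prop where
  a_lt : a < n'
  n_le : n ≤ n'
  per : bc = BC.per → bc' = BC.per ∧ n' = n
  free : bc' = BC.free → if r then n ≤ a + 1 else n + a ≤ n'
  gap : bc = BC.free → bc' = BC.per → n < n'

/-- depth -/
def etiDp (bc bc' : BC) (n n' ρ x : ℕ) : Prop := (bc = bc' ∧ n = n') ∨ (ρ ≤ x ∧ x + ρ < n)

variable {bc bc' : BC} {n n' : ℕ} {r : Bool} {a : ℕ}

theorem etiA_lt (h : EtiAdm bc bc' n n' r a) {x : ℕ} (hx : x < n) : etiA n' r a x < n' := by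
  obtain ⟨h1, h2, -, -, -⟩ := h
  unfold etiA
  split_ifs <;> omega

theorem etiA_inj (h : EtiAdm bc bc' n n' r a) {x y : ℕ} (hx : x < n) (hy : y < n) (e : etiA n' r a x = etiA n' r a y) : x = y := by
  obtain ⟨h1, h2, -, -, -⟩ := h
  unfold etiA at e
  split_ifs at e <;> omega

theorem etiD_le (h : EtiAdm bc bc' n n' r a) {x y : ℕ} (hx : x < n) (hy : y < n) :
    etiD bc' n' (etiA n' r a x) (etiA n' r a y) ≤ etiD bc n x y := by
  obtain ⟨h1, h2, h3, h4, -⟩ := h
  unfold etiA etiD
  cases bc <;> cases bc' <;> cases r <;> simp at h3 h4 ⊢ <;> split_ifs <;> omega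

theorem etiD_eq (h : EtiAdm bc bc' n n' r a) {ρ x y : ℕ} (hx : x < n) (hy : y < n) (hd : etiDp bc bc' n n' ρ x)
    (hl : etiD bc' n' (etiA n' r a x) (etiA n' r a y) ≤ ρ) : etiD bc' n' (etiA n' r a x) (etiA n' r a y) = etiD bc n x y := by
  obtain ⟨h1, h2, h3, h4, -⟩ := h
  unfold etiA etiD etiDp at *
  cases bc <;> cases bc' <;> cases r <;> simp at h3 h4 hd hl ⊢ <;> split_ifs at hl ⊢ <;> omega

theorem etiDp_mono {ρ ρ' x : ℕ} (hρ : ρ' ≤ ρ) (hd : etiDp bc bc' n n' ρ x) : etiDp bc bc' n n' ρ' x := by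
  rcases hd with hd | hd
  · exact Or.inl hd
  · exact Or.inr (by omega)

theorem etiDp_step (h : EtiAdm bc bc' n n' r a) {ρ ρ' x y : ℕ} (hd : etiDp bc bc' n n' (ρ + ρ') x) (hl : etiD bc n x y ≤ ρ) :
    etiDp bc bc' n n' ρ' y := by
  obtain ⟨h1, h2, h3, h4, -⟩ := h
  unfold etiD etiDp at *
  cases bc <;> cases bc' <;> simp at h3 hd hl ⊢ <;> omega

theorem etiDp_ge {ρ x : ℕ} (hd : etiDp bc bc' n n' ρ x) : ρ ≤ n ∨ n' ≤ n := by
  rcases hd with hd | hd
  · exact Or.inr hd.2.symm.le
  · exact Or.inl (by omega)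

/-- the inverse map -/
def etiB (n' : ℕ) (r : Bool) (a y : ℕ) : ℕ :=
  if r then (if y ≤ a then a - y else a + n' - y) else (if a ≤ y then y - a else y + n' - a)

theorem etiA_B (h : EtiAdm bc bc' n n' r a) {y : ℕ} (hy : y < n') : etiA n' r a (etiB n' r a y) = y := by
  obtain ⟨h1, h2, -, -, -⟩ := h
  unfold etiA etiB
  split_ifs <;> omega

theorem eti_lift (h : EtiAdm bc bc' n n' r a) {ρ x y' : ℕ} (hx : x < n) (hy : y' < n') (hd : etiDp bc bc' n n' ρ x)
    (hl : etiD bc' n' (etiA n' r a x) y' ≤ ρ) : ∃ y < n, etiA n' r a y = y' := by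
  refine ⟨etiB n' r a y', ?_, etiA_B h hy⟩
  obtain ⟨h1, h2, h3, h4, -⟩ := h
  unfold etiA etiD etiDp etiB at *
  cases bc <;> cases bc' <;> cases r <;> simp at h3 h4 hd hl ⊢ <;> split_ifs at hl ⊢ <;> omega

theorem eti_cross (h : EtiAdm bc bc' n n' r a) {ρ μ p : ℕ} (hμ : 1 ≤ μ) (hp : p < n)
    (H : ∀ x < n, etiD bc n x p ≤ ρ → etiDp bc bc' n n' μ x) : etiDp bc bc' n n' (ρ + μ) p := by
  by_cases hg : bc = bc' ∧ n = n'
  · exact Or.inl hg
  have hf : bc = BC.free := by
    cases hbc : bc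
    · exact absurd ⟨by rw [hbc, (h.per hbc).1], (h.per hbc).2.symm⟩ hg
    · rfl
  subst hf
  have H1 := (H (p - ρ) (by omega) (by unfold etiD; simp only; omega)).resolve_left hg
  have H2 := (H (min (p + ρ) (n - 1)) (by omega) (by unfold etiD; simp only; omega)).resolve_left hg
  exact Or.inr (by omega)

theorem etiD_self (bc : BC) (n x : ℕ) : etiD bc n x x = 0 := by
  unfold etiD
  cases bc <;> simp

theorem eti_cross' (h : EtiAdm bc bc' n n' r a) {ρ μ p : ℕ} (hμ : 1 ≤ μ) (hp : p < n)
    (H : ∀ x' < n', etiD bc' n' x' (etiA n' r a p) ≤ ρ → ∃ x < n, etiA n' r a x = x' ∧ etiDp bc bc' n n' μ x) : etiDp bc bc' n n' (ρ + μ) p := by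
  by_cases hg : bc = bc' ∧ n = n'
  · exact Or.inl hg
  have hf : bc = BC.free := by
    cases hbc : bc
    · exact absurd ⟨by rw [hbc, (h.per hbc).1], (h.per hbc).2.symm⟩ hg
    · rfl
  subst hf
  have key : ∀ q < n, ((q : ℤ) - p).natAbs ≤ ρ → μ ≤ q ∧ q + μ < n := by
    intro q hq hqp
    obtain ⟨x, hx, e, hd⟩ := H _ (etiA_lt h hq) ((etiD_le h hq hp).trans hqp)
    rw [etiA_inj h hx hq e] at hd
    exact hd.resolve_left hg
  have k0 := key p hp (by simp)
  refine Or.inr ⟨?_, ?_⟩
  · by_contra hc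
    have := key (μ - 1) (by omega) (by omega)
    omega
  · by_contra hc
    have := key (n - μ) (by omega) (by omega)
    omega

theorem eti_succ (h : EtiAdm bc bc' n n' r a) {x : ℕ} (hx : x < n) (hf : etiF bc n x) :
    etiF bc' n' (if r then etiA n' r a (etiS n x) else etiA n' r a x) ∧
      etiS n' (if r then etiA n' r a (etiS n x) else etiA n' r a x) = if r then etiA n' r a x else etiA n' r a (etiS n x) := by
  obtain ⟨h1, h2, h3, h4, -⟩ := h
  unfold etiA etiS etiF at *
  cases bc <;> cases bc' <;> cases r <;> simp at h3 h4 hf ⊢ <;> split_ifs <;> omega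

theorem eti_succ_lift (h : EtiAdm bc bc' n n' r a) {x y : ℕ} (hx : x < n) (hy : y < n) (hf : etiF bc' n' (etiA n' r a x))
    (e : etiS n' (etiA n' r a x) = etiA n' r a y) :
    if r then etiF bc n y ∧ etiS n y = x else etiF bc n x ∧ etiS n x = y := by
  obtain ⟨h1, h2, h3, h4, h5⟩ := h
  unfold etiA etiS etiF at *
  cases bc <;> cases bc' <;> cases r <;> simp at h3 h4 h5 hf e ⊢ <;> split_ifs at e ⊢ <;> omega

theorem etiS_lt {x : ℕ} (hx : x < n) : etiS n x < n := by
  unfold etiS
  split_ifs <;> omega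

theorem etiD_succ {x : ℕ} (hx : x < n) (hf : etiF bc n x) : etiD bc n x (etiS n x) ≤ 1 ∧ etiD bc n (etiS n x) x ≤ 1 := by
  unfold etiD etiS etiF at *
  cases bc <;> simp at hf ⊢ <;> split_ifs <;> omega

theorem eti_face_lift (h : EtiAdm bc bc' n n' r a) {u x : ℕ} (hu : u < n') (hf : etiF bc' n' u) (hx : x < n) (hd : etiDp bc bc' n n' 1 x)
    (e : u = etiA n' r a x ∨ etiS n' u = etiA n' r a x) :
    ∃ y < n, etiF bc n y ∧ (if r then etiA n' r a (etiS n y) else etiA n' r a y) = u := by
  have d1 : etiD bc' n' (etiA n' r a x) u ≤ 1 := by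
    rcases e with e | e
    · rw [← e, etiD_self]; omega
    · rw [← e]; exact (etiD_succ hu hf).2
  have d2 : etiD bc' n' (etiA n' r a x) (etiS n' u) ≤ 1 := by
    rcases e with e | e
    · rw [← e]; exact (etiD_succ hu hf).1
    · rw [← e, etiD_self]; omega
  obtain ⟨p, hp, ep⟩ := eti_lift h hx hu hd d1
  obtain ⟨q, hq, eq⟩ := eti_lift h hx (etiS_lt hu) hd d2
  have := eti_succ_lift h hp hq (by rw [ep]; exact hf) (by rw [ep, eq])
  cases r
  · simp only [Bool.false_eq_true, if_false] at this ⊢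
    exact ⟨p, hp, this.1, ep⟩
  · simp only [if_true] at this ⊢
    exact ⟨q, hq, this.1, by rw [this.2, ep]⟩

theorem etiD_eq_zero {x y : ℕ} (hx : x < n) (hy : y < n) : etiD bc n x y = 0 ↔ x = y := by
  unfold etiD
  cases bc <;> simp <;> omega

/-! ## Change of scale -/

/-- the offset at the finer level: `s` fine indices in one coarse index -/
def etiSc (s : ℕ) (r : Bool) (a : ℕ) : ℕ := if r then s * a + (s - 1) else s * a

theorem eti_adm_sc (h : EtiAdm bc bc' n n' r a) {s : ℕ} (hs : 0 < s) : EtiAdm bc bc' (s * n) (s * n') r (etiSc s r a) := by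
  obtain ⟨h1, h2, h3, h4, h5⟩ := h
  refine ⟨?_, Nat.mul_le_mul_left s h2, fun hb => ⟨(h3 hb).1, by rw [(h3 hb).2]⟩, fun hb => ?_, fun hb hb' => Nat.mul_lt_mul_of_pos_left (h5 hb hb') hs⟩
  · have : s * (a + 1) ≤ s * n' := Nat.mul_le_mul_left s h1
    have e : s * (a + 1) = s * a + s := by ring
    unfold etiSc
    split_ifs <;> omega
  · have := h4 hb
    unfold etiSc
    cases r
    · simp only [Bool.false_eq_true, if_false] at this ⊢
      calc s * n + s * a = s * (n + a) := by ring
        _ ≤ s * n' := Nat.mul_le_mul_left s this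
    · simp only [if_true] at this ⊢
      calc s * n ≤ s * (a + 1) := Nat.mul_le_mul_left s this
        _ = s * a + (s - 1) + 1 := by rw [Nat.mul_add]; omega

/-- division of `s u + t`, `t < s` -/
theorem eti_div_aux {s u t : ℕ} (ht : t < s) : (s * u + t) / s = u := by
  rw [Nat.mul_add_div (by omega), Nat.div_eq_of_lt ht, add_zero]

/-- **the fine map covers the coarse map** -/
theorem etiA_div (h : EtiAdm bc bc' n n' r a) {s : ℕ} (hs : 0 < s) {x : ℕ} (hx : x < s * n) :
    etiA (s * n') r (etiSc s r a) x / s = etiA n' r a (x / s) ∧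
      etiA (s * n') r (etiSc s r a) x % s = if r then s - 1 - x % s else x % s := by
  obtain ⟨h1, h2, -, -, -⟩ := h
  obtain ⟨q, t, ht, rfl⟩ : ∃ q t, t < s ∧ x = s * q + t := ⟨x / s, x % s, Nat.mod_lt _ hs, (Nat.div_add_mod x s).symm⟩
  have hq : q < n := by
    by_contra hc
    have : s * n ≤ s * q := Nat.mul_le_mul_left s (by omega)
    omega
  have e1 : (s * q + t) / s = q := eti_div_aux ht
  have e2 : (s * q + t) % s = t := by rw [Nat.mul_add_mod, Nat.mod_eq_of_lt ht]
  rw [e1, e2]
  have key : ∀ u v : ℕ, v < s → ∀ z, z = s * u + v → z / s = u ∧ z % s = v := by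
    intro u v hv z hz
    subst hz
    exact ⟨eti_div_aux hv, by rw [Nat.mul_add_mod, Nat.mod_eq_of_lt hv]⟩
  unfold etiA etiSc
  cases r
  · simp only [Bool.false_eq_true, if_false]
    by_cases hc : q + a < n'
    · have : s * q + t + s * a < s * n' := by
        have : s * (q + a + 1) ≤ s * n' := Nat.mul_le_mul_left s hc
        nlinarith
      rw [if_pos this, if_pos hc]
      exact key (q + a) t ht _ (by ring)
    · have : ¬ s * q + t + s * a < s * n' := by
        have : s * n' ≤ s * (q + a) := Nat.mul_le_mul_left s (by omega)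
        nlinarith
      rw [if_neg this, if_neg hc]
      refine key (q + a - n') t ht _ ?_
      have e : s * (q + a - n') = s * (q + a) - s * n' := Nat.mul_sub s _ _
      have : s * n' ≤ s * (q + a) := Nat.mul_le_mul_left s (by omega)
      rw [e]
      have e3 : s * (q + a) = s * q + s * a := by ring
      omega
  · simp only [if_true]
    by_cases hc : q ≤ a
    · have : s * q + t ≤ s * a + (s - 1) := by
        have : s * q ≤ s * a := Nat.mul_le_mul_left s hc
        omega
      rw [if_pos this, if_pos hc]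
      refine key (a - q) (s - 1 - t) (by omega) _ ?_
      have e : s * (a - q) = s * a - s * q := Nat.mul_sub s _ _
      have : s * q ≤ s * a := Nat.mul_le_mul_left s hc
      omega
    · have : ¬ s * q + t ≤ s * a + (s - 1) := by
        have : s * (a + 1) ≤ s * q := Nat.mul_le_mul_left s (by omega)
        have e3 : s * (a + 1) = s * a + s := by ring
        omega
      rw [if_neg this, if_neg hc]
      refine key (a + n' - q) (s - 1 - t) (by omega) _ ?_
      have e : s * (a + n' - q) = s * (a + n') - s * q := Nat.mul_sub s _ _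
      have : s * q ≤ s * (a + n') := Nat.mul_le_mul_left s (by omega)
      have e3 : s * (a + n') = s * a + s * n' := by ring
      omega

/-- lifting through a change of scale -/
theorem eti_sc_lift (h : EtiAdm bc bc' n n' r a) {s : ℕ} (hs : 0 < s) {x' i : ℕ} (hi : i < n) (e : x' / s = etiA n' r a i) :
    ∃ x < s * n, etiA (s * n') r (etiSc s r a) x = x' ∧ x / s = i := by
  have ht : (if r then s - 1 - x' % s else x' % s) < s := by
    have := Nat.mod_lt x' hs
    split_ifs <;> omega
  have hx : s * i + (if r then s - 1 - x' % s else x' % s) < s * n := by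
    have : s * (i + 1) ≤ s * n := Nat.mul_le_mul_left s hi
    have e3 : s * (i + 1) = s * i + s := by ring
    omega
  have e1 : (s * i + (if r then s - 1 - x' % s else x' % s)) / s = i := eti_div_aux ht
  have e2 : (s * i + (if r then s - 1 - x' % s else x' % s)) % s = (if r then s - 1 - x' % s else x' % s) := by
    rw [Nat.mul_add_mod, Nat.mod_eq_of_lt ht]
  refine ⟨_, hx, ?_, e1⟩
  obtain ⟨d1, d2⟩ := etiA_div h hs hx
  rw [e1, ← e] at d1
  rw [e2] at d2
  have d3 : etiA (s * n') r (etiSc s r a) (s * i + (if r then s - 1 - x' % s else x' % s)) % s = x' % s := by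
    rw [d2]
    have := Nat.mod_lt x' hs
    cases r
    · simp
    · simp only [if_true]; omega
  rw [← Nat.div_add_mod (etiA (s * n') r (etiSc s r a) (s * i + (if r then s - 1 - x' % s else x' % s))) s, d1, d3, Nat.div_add_mod]

/-- depth at the coarse level -/
theorem etiDp_sc {s : ℕ} (hs : 0 < s) {ρ x : ℕ} (hd : etiDp bc bc' (s * n) (s * n') ((ρ + 1) * s) x) : etiDp bc bc' n n' ρ (x / s) := by
  rcases hd with hd | hd
  · exact Or.inl ⟨hd.1, Nat.eq_of_mul_eq_mul_left hs hd.2⟩
  · refine Or.inr ⟨?_, ?_⟩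
    · have : ρ + 1 ≤ x / s := (Nat.le_div_iff_mul_le hs).2 hd.1
      omega
    · have h1 : (x + (ρ + 1) * s) / s < n := (Nat.div_lt_iff_lt_mul hs).2 (by rw [Nat.mul_comm n s]; exact hd.2)
      rw [Nat.add_mul_div_right _ _ hs] at h1
      omega

/-! ## `Fin` -/

/-- a natural number as an index -/
def etiFin {n : ℕ} (h : 0 < n) (x : ℕ) : Fin n := ⟨x % n, Nat.mod_lt _ h⟩

/-- the map of a level -/
def etiM {n n' : ℕ} (h : 0 < n') (r : Bool) (a : ℕ) (x : Fin n) : Fin n' := etiFin h (etiA n' r a x)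

theorem etiM_val (hA : EtiAdm bc bc' n n' r a) (h : 0 < n') (x : Fin n) : ((etiM h r a x : Fin n') : ℕ) = etiA n' r a x :=
  Nat.mod_eq_of_lt (etiA_lt hA x.2)

theorem etiM_inj (hA : EtiAdm bc bc' n n' r a) (h : 0 < n') : Function.Injective (etiM h r a : Fin n → Fin n') := by
  intro x y e
  have := congrArg Fin.val e
  rw [etiM_val hA, etiM_val hA] at this
  exact Fin.ext (etiA_inj hA x.2 y.2 this)

end Claimed.Agent.R285.Ent
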