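import Claimed.Agent.R285.Ent.TrI1

/-!
# ROW 285, POST TRANSPORT, INSTANCES, part 2: the labels of the `R`-grid in one dimension      (helper225)
PAPER-FREE, pure arithmetic.  Cells `x < R * ng`, blocks `x / R`, vertices of the `R`-grid `(x + σ) / R` (reduced modulo `ng` on a torus).
-/

set_option autoImplicit false

namespace Claimed.Agent.R285.Ent

open Claimed.Agent.R285 Claimed.Agent.R285.RG

/-- indices of vertices -/
def etiRed (bc : BC) (ng k : ℕ) : ℕ :=
  match bc with
  | BC.per => k % ng
  | BC.free => k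

/-- the map of the indices of the vertices -/
def etiLV (bc' : BC) (ng' : ℕ) (r : Bool) (T k : ℕ) : ℕ :=
  match bc' with
  | BC.per => (if r then T + 1 + ng' - k else k + T) % ng'
  | BC.free => if r then T + 1 - k else k + T

theorem eti_mod3 {z ng : ℕ} (h : z < 3 * ng) : z % ng = if z < ng then z else if z < 2 * ng then z - ng else z - 2 * ng := by
  split_ifs with h1 h2
  · exact Nat.mod_eq_of_lt h1
  · rw [Nat.mod_eq_sub_mod (by omega), Nat.mod_eq_of_lt (by omega)]
  · rw [Nat.mod_eq_sub_mod (by omega), Nat.mod_eq_sub_mod (by omega), Nat.mod_eq_of_lt (by omega)]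
    omega

theorem eti_mod3' {z ng : ℕ} (h : z < 3 * ng) :
    (z < ng ∧ z % ng = z) ∨ (ng ≤ z ∧ z < 2 * ng ∧ z % ng = z - ng) ∨ (2 * ng ≤ z ∧ z % ng = z - 2 * ng) := by
  rw [eti_mod3 h]
  split_ifs <;> omega

theorem eti_ite (p : Prop) [Decidable p] (a b : ℕ) : (p ∧ (if p then a else b) = a) ∨ (¬ p ∧ (if p then a else b) = b) := by
  by_cases h : p
  · exact Or.inl ⟨h, if_pos h⟩
  · exact Or.inr ⟨h, if_neg h⟩

variable {bc bc' : BC} {ng ng' : ℕ} {r : Bool} {T : ℕ}

/-- quotient of a shifted number -/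
theorem eti_shift_div {R σ x : ℕ} (hR : 0 < R) (hσ : σ ≤ R) : (x + σ) / R = x / R + if R ≤ x % R + σ then 1 else 0 := by
  have h1 := Nat.div_add_mod x R
  have h2 := Nat.mod_lt x hR
  split_ifs with h
  · have : x + σ = R * (x / R + 1) + (x % R + σ - R) := by rw [Nat.mul_add]; omega
    rw [this]
    exact eti_div_aux (by omega)
  · have : x + σ = R * (x / R) + (x % R + σ) := by omega
    rw [this, add_zero]
    exact eti_div_aux (by omega)

/-- **the vertex next to a cell in a band around the lines of the grid** -/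
theorem eti_vertex (h : EtiAdm bc bc' ng ng' r T) {R σ x : ℕ} (hR : 0 < R) (hσ : 2 * σ ≤ R) (hσ0 : 0 < σ) (hx : x < R * ng)
    (hb : x % R < σ ∨ R ≤ x % R + σ) :
    etiRed bc' ng' ((etiA (R * ng') r (etiSc R r T) x + σ) / R) = etiLV bc' ng' r T (etiRed bc ng ((x + σ) / R)) := by
  obtain ⟨d1, d2⟩ := etiA_div h hR hx
  have hq : x / R < ng := (Nat.div_lt_iff_lt_mul hR).2 (by rw [Nat.mul_comm]; exact hx)
  have ht := Nat.mod_lt x hR
  rw [eti_shift_div hR (by omega), eti_shift_div hR (by omega), d1, d2]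
  obtain ⟨h1, h2, h3, h4, h5⟩ := h
  generalize x / R = q at *
  generalize x % R = t at *
  unfold etiRed etiLV etiA
  obtain ⟨ε, hε, e1, e2⟩ : ∃ ε ≤ 1, (if R ≤ t + σ then 1 else 0) = ε ∧ (if R ≤ R - 1 - t + σ then 1 else 0) = 1 - ε := by
    by_cases hc : R ≤ t + σ
    · exact ⟨1, le_rfl, if_pos hc, if_neg (by omega)⟩
    · exact ⟨0, by omega, if_neg hc, if_pos (by omega)⟩
  clear hb hσ hσ0 ht d1 d2 hx
  cases bc <;> cases bc' <;> cases r <;> simp at h3 h4 h5 ⊢ <;> simp only [e1, e2] <;> clear e1 e2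
  · subst h3
    have i3 := eti_ite (q + T < ng') (q + T) (q + T - ng')
    generalize (if q + T < ng' then q + T else q + T - ng') = q' at *
    have m0 := eti_mod3' (z := q + ε) (ng := ng') (by omega)
    generalize (q + ε) % ng' = k at *
    have m1 := eti_mod3' (z := q' + ε) (ng := ng') (by omega)
    have m2 := eti_mod3' (z := k + T) (ng := ng') (by omega)
    omega
  · subst h3
    have i4 := eti_ite (q ≤ T) (T - q) (T + ng' - q)
    generalize (if q ≤ T then T - q else T + ng' - q) = q' at *
    have m0 := eti_mod3' (z := q + ε) (ng := ng') (by omega)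
    generalize (q + ε) % ng' = k at *
    have m1 := eti_mod3' (z := q' + (1 - ε)) (ng := ng') (by omega)
    have m2 := eti_mod3' (z := T + 1 + ng' - k) (ng := ng') (by omega)
    omega
  · have i3 := eti_ite (q + T < ng') (q + T) (q + T - ng')
    generalize (if q + T < ng' then q + T else q + T - ng') = q' at *
    have m1 := eti_mod3' (z := q' + ε) (ng := ng') (by omega)
    have m2 := eti_mod3' (z := q + ε + T) (ng := ng') (by omega)
    omega
  · have i4 := eti_ite (q ≤ T) (T - q) (T + ng' - q)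
    generalize (if q ≤ T then T - q else T + ng' - q) = q' at *
    have m1 := eti_mod3' (z := q' + (1 - ε)) (ng := ng') (by omega)
    have m2 := eti_mod3' (z := T + 1 + ng' - (q + ε)) (ng := ng') (by omega)
    omega
  · have i3 := eti_ite (q + T < ng') (q + T) (q + T - ng')
    omega
  · have i4 := eti_ite (q ≤ T) (T - q) (T + ng' - q)
    omega

/-- the range of the indices of vertices -/
def etiVR (bc : BC) (ng k : ℕ) : Prop :=
  match bc with
  | BC.per => k < ng
  | BC.free => k ≤ ng

theorem etiRed_mem {j : ℕ} (hng : 0 < ng) (hj : j ≤ ng) : etiVR bc ng (etiRed bc ng j) := by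
  unfold etiVR etiRed
  cases bc
  · exact Nat.mod_lt _ hng
  · exact hj

theorem etiLV_inj (h : EtiAdm bc bc' ng ng' r T) {k k' : ℕ} (hk : etiVR bc ng k) (hk' : etiVR bc ng k')
    (e : etiLV bc' ng' r T k = etiLV bc' ng' r T k') : k = k' := by
  obtain ⟨h1, h2, h3, h4, h5⟩ := h
  unfold etiVR etiLV at *
  cases bc <;> cases bc' <;> cases r <;> simp at h3 h4 h5 hk hk' e
  · have m1 := eti_mod3' (z := k + T) (ng := ng') (by omega)
    have m2 := eti_mod3' (z := k' + T) (ng := ng') (by omega)
    omega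
  · have m1 := eti_mod3' (z := T + 1 + ng' - k) (ng := ng') (by omega)
    have m2 := eti_mod3' (z := T + 1 + ng' - k') (ng := ng') (by omega)
    omega
  · have m1 := eti_mod3' (z := k + T) (ng := ng') (by omega)
    have m2 := eti_mod3' (z := k' + T) (ng := ng') (by omega)
    omega
  · have m1 := eti_mod3' (z := T + 1 + ng' - k) (ng := ng') (by omega)
    have m2 := eti_mod3' (z := T + 1 + ng' - k') (ng := ng') (by omega)
    omega
  · omega
  · omega

end Claimed.Agent.R285.Ent
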