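import Claimed.Agent.R285.Ent.TrDefs
import Claimed.Agent.R285.Ent.Geo
import Claimed.Agent.R285.Ent.TrI2
import Claimed.Agent.R285.F4a.UnitB

/-!
# ROW 285, POST TRANSPORT, INSTANCES, part 3: THE AFFINE MORPHISMS `etiMor`: definition, levels, metric fields      (helper225)
`etiMor N N' R r T`: on the axis `k` the blocks are mapped by `u ↦ u + T_k` (`r_k = false`) or `u ↦ T_k - u` (`r_k = true`), wrapped modulo `g'.n`; cells and sites by the scaled maps.
`EtiOK` = the hypotheses.  Covers: embeddings of a free square into a larger torus or a larger free square, translations of a torus by blocks, reflections (both conventions), identity.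
-/

set_option autoImplicit false

namespace Claimed.Agent.R285.Ent

open scoped BigOperators
open Claimed.Agent.R285 Claimed.Agent.R285.RG Claimed.Agent.R285.F4a

noncomputable section

variable {G G' : Geom} {c g : Grid G} {c' g' : Grid G'}

theorem eti_pos (c : Grid G) : 0 < c.n := (c.blk1 ⟨0, G.hM⟩).pos

/-- a volume with whole cells and blocks of `R × R` cells -/
structure EtiVol (N : Nest c g) (R : ℕ) : Prop where
  whole : Whole c
  admN : AdmN N R
  gm : g.m = R * c.m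

theorem etiVol_of {N : Nest c g} {R : ℕ} (h : GeoOK c R) (hg : g.Ok) (hN : NestOK N R) : EtiVol N R :=
  ⟨h.whole, admN_of h hg hN, hN.1⟩

namespace EtiVol

variable {N : Nest c g} {R : ℕ} (h : EtiVol N R)
include h

theorem Rpos : 0 < R := h.admN.adm.pos

theorem cn : c.n = R * g.n := by
  rw [h.admN.n, Nat.mul_div_cancel' h.admN.adm.dvd]

theorem M : G.M = c.m * c.n := by
  rw [whole_card h.whole, Nat.mul_comm]

theorem blk1 (t : Fin G.M) : ((c.blk1 t : Fin c.n) : ℕ) = (t : ℕ) / c.m := whole_blk1 h.whole t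

theorem up1 (i : Fin c.n) : ((N.up1 i : Fin g.n) : ℕ) = (i : ℕ) / R := h.admN.up i

end EtiVol

/-- the map of the labels of tiles and events -/
def etiTh (bc' : BC) (ng' : ℕ) (r : Bool × Bool) (T : ℕ × ℕ) (t : Tile) : Tile :=
  (t.1, t.2.1,
    if t.1 = t.2.1 then etiA ng' r.1 T.1 t.2.2.1 else etiLV bc' ng' r.1 T.1 t.2.2.1,
    if t.2.1 then etiLV bc' ng' r.2 T.2 t.2.2.2 else etiA ng' r.2 T.2 t.2.2.2)

/-- **the affine morphisms** -/
def etiMor (N : Nest c g) (N' : Nest c' g') (R : ℕ) (r : Bool × Bool) (T : ℕ × ℕ) : Mor N N' where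
  φ i := (etiM (eti_pos c') r.1 (etiSc R r.1 T.1) i.1, etiM (eti_pos c') r.2 (etiSc R r.2 T.2) i.2)
  φg u := (etiM (eti_pos g') r.1 T.1 u.1, etiM (eti_pos g') r.2 T.2 u.2)
  ψ v := (etiM G'.hM r.1 (etiSc c.m r.1 (etiSc R r.1 T.1)) v.1, etiM G'.hM r.2 (etiSc c.m r.2 (etiSc R r.2 T.2)) v.2)
  δ := id
  rv d := if d then r.1 else r.2
  θT := etiTh G'.bc g'.n r T
  θE := etiTh G'.bc g'.n r T
  deep ρ i := etiDp G.bc G'.bc c.n c'.n ρ i.1 ∧ etiDp G.bc G'.bc c.n c'.n ρ i.2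

/-- the hypotheses -/
structure EtiOK (N : Nest c g) (N' : Nest c' g') (R : ℕ) (r : Bool × Bool) (T : ℕ × ℕ) : Prop where
  vol : EtiVol N R
  vol' : EtiVol N' R
  m_eq : c'.m = c.m
  a1 : EtiAdm G.bc G'.bc g.n g'.n r.1 T.1
  a2 : EtiAdm G.bc G'.bc g.n g'.n r.2 T.2
  refl : (r.1 = true ∨ r.2 = true) → G.bc = G'.bc ∧ g.n = g'.n

variable {N : Nest c g} {N' : Nest c' g'} {R : ℕ} {r : Bool × Bool} {T : ℕ × ℕ}

namespace EtiOK

variable (h : EtiOK N N' R r T)
include h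

/-- the level of the cells -/
theorem c1 : EtiAdm G.bc G'.bc c.n c'.n r.1 (etiSc R r.1 T.1) := by
  rw [h.vol.cn, h.vol'.cn]; exact eti_adm_sc h.a1 h.vol.Rpos

theorem c2 : EtiAdm G.bc G'.bc c.n c'.n r.2 (etiSc R r.2 T.2) := by
  rw [h.vol.cn, h.vol'.cn]; exact eti_adm_sc h.a2 h.vol.Rpos

/-- the level of the sites -/
theorem s1 : EtiAdm G.bc G'.bc G.M G'.M r.1 (etiSc c.m r.1 (etiSc R r.1 T.1)) := by
  rw [h.vol.M, h.vol'.M, h.m_eq]; exact eti_adm_sc h.c1 h.vol.whole.pos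

theorem s2 : EtiAdm G.bc G'.bc G.M G'.M r.2 (etiSc c.m r.2 (etiSc R r.2 T.2)) := by
  rw [h.vol.M, h.vol'.M, h.m_eq]; exact eti_adm_sc h.c2 h.vol.whole.pos

end EtiOK

/-! ## bridges -/

theorem eti_idist1 (c : Grid G) (a b : Fin c.n) : c.idist1 a b = etiD G.bc c.n a b := by
  unfold Grid.idist1 etiD
  cases G.bc <;> rfl

theorem eti_nx {n : ℕ} (i : Fin n) : ((nx i : Fin n) : ℕ) = etiS n i := by
  unfold nx etiS
  simp only
  have := i.2
  split_ifs with hc
  · exact Nat.mod_eq_of_lt hc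
  · have : (i : ℕ) + 1 = n := by omega
    rw [this, Nat.mod_self]

theorem eti_isFace (c : Grid G) (f : Face c) : IsFace c f ↔ etiF G.bc c.n (if f.2 then (f.1.1 : ℕ) else (f.1.2 : ℕ)) := by
  unfold IsFace etiF
  cases f.2 <;> simp

/-! ## values -/

section values

variable (h : EtiOK N N' R r T)
include h

theorem eti_φ1 (i : c.I) : ((((etiMor N N' R r T).φ i).1 : Fin c'.n) : ℕ) = etiA c'.n r.1 (etiSc R r.1 T.1) i.1 := etiM_val h.c1 (eti_pos c') i.1
theorem eti_φ2 (i : c.I) : ((((etiMor N N' R r T).φ i).2 : Fin c'.n) : ℕ) = etiA c'.n r.2 (etiSc R r.2 T.2) i.2 := etiM_val h.c2 (eti_pos c') i.2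
theorem eti_g1 (u : g.I) : ((((etiMor N N' R r T).φg u).1 : Fin g'.n) : ℕ) = etiA g'.n r.1 T.1 u.1 := etiM_val h.a1 (eti_pos g') u.1
theorem eti_g2 (u : g.I) : ((((etiMor N N' R r T).φg u).2 : Fin g'.n) : ℕ) = etiA g'.n r.2 T.2 u.2 := etiM_val h.a2 (eti_pos g') u.2
theorem eti_ψ1 (v : G.V) : ((((etiMor N N' R r T).ψ v).1 : Fin G'.M) : ℕ) = etiA G'.M r.1 (etiSc c.m r.1 (etiSc R r.1 T.1)) v.1 := etiM_val h.s1 G'.hM v.1
theorem eti_ψ2 (v : G.V) : ((((etiMor N N' R r T).ψ v).2 : Fin G'.M) : ℕ) = etiA G'.M r.2 (etiSc c.m r.2 (etiSc R r.2 T.2)) v.2 := etiM_val h.s2 G'.hM v.2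

theorem eti_φ_inj : Function.Injective (etiMor N N' R r T).φ := fun _ _ e =>
  Prod.ext (etiM_inj h.c1 (eti_pos c') (congrArg Prod.fst e)) (etiM_inj h.c2 (eti_pos c') (congrArg Prod.snd e))

theorem eti_φg_inj : Function.Injective (etiMor N N' R r T).φg := fun _ _ e =>
  Prod.ext (etiM_inj h.a1 (eti_pos g') (congrArg Prod.fst e)) (etiM_inj h.a2 (eti_pos g') (congrArg Prod.snd e))

theorem eti_ψ_inj : Function.Injective (etiMor N N' R r T).ψ := fun _ _ e =>
  Prod.ext (etiM_inj h.s1 G'.hM (congrArg Prod.fst e)) (etiM_inj h.s2 G'.hM (congrArg Prod.snd e))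

/-- directional distances -/
theorem eti_dd' (d : Bool) (i j : c.I) : dd c' d ((etiMor N N' R r T).φ i) ((etiMor N N' R r T).φ j)
    = if d then etiD G'.bc c'.n (etiA c'.n r.1 (etiSc R r.1 T.1) i.1) (etiA c'.n r.1 (etiSc R r.1 T.1) j.1)
      else etiD G'.bc c'.n (etiA c'.n r.2 (etiSc R r.2 T.2) i.2) (etiA c'.n r.2 (etiSc R r.2 T.2) j.2) := by
  unfold dd
  cases d
  · simp only [Bool.false_eq_true, if_false]
    rw [eti_idist1, eti_φ2 h, eti_φ2 h]
  · simp only [if_true]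
    rw [eti_idist1, eti_φ1 h, eti_φ1 h]

end values

theorem eti_dd (c : Grid G) (d : Bool) (i j : c.I) : dd c d i j = if d then etiD G.bc c.n i.1 j.1 else etiD G.bc c.n i.2 j.2 := by
  unfold dd
  cases d <;> simp [eti_idist1]

end

end Claimed.Agent.R285.Ent
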