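import Claimed.Agent.R285.Ent.TrI3

/-!
# ROW 285, POST TRANSPORT, INSTANCES, part 4: the metric fields of `Mor.Ok` for `etiMor`      (helper225)
-/

set_option autoImplicit false

namespace Claimed.Agent.R285.Ent

open scoped BigOperators
open Claimed.Agent.R285 Claimed.Agent.R285.RG Claimed.Agent.R285.F4a

noncomputable section

variable {G G' : Geom} {c g : Grid G} {c' g' : Grid G'} {N : Nest c g} {N' : Nest c' g'} {R : ℕ} {r : Bool × Bool} {T : ℕ × ℕ}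

section

variable (h : EtiOK N N' R r T)
include h

theorem eti_gm_eq : g'.m = g.m := by rw [h.vol.gm, h.vol'.gm, h.m_eq]

theorem eti_n_le : c.n ≤ c'.n := h.c1.n_le

omit h in
theorem eti_n_ge (ρ : ℕ) (i : c.I) (hd : (etiMor N N' R r T).deep ρ i) : ρ ≤ c.n ∨ c'.n ≤ c.n := etiDp_ge hd.1

omit h in
theorem eti_deep_mono (ρ ρ' : ℕ) (i : c.I) (hρ : ρ' ≤ ρ) (hd : (etiMor N N' R r T).deep ρ i) : (etiMor N N' R r T).deep ρ' i :=
  ⟨etiDp_mono hρ hd.1, etiDp_mono hρ hd.2⟩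

theorem eti_deep_step (ρ ρ' : ℕ) (i j : c.I) (hd : (etiMor N N' R r T).deep (ρ + ρ') i) (hl : c.idist i j ≤ ρ) : (etiMor N N' R r T).deep ρ' j := by
  have l1 : c.idist1 i.1 j.1 ≤ ρ := (le_max_left _ _).trans hl
  have l2 : c.idist1 i.2 j.2 ≤ ρ := (le_max_right _ _).trans hl
  rw [eti_idist1] at l1 l2
  exact ⟨etiDp_step h.c1 hd.1 l1, etiDp_step h.c2 hd.2 l2⟩

theorem eti_lift2 (ρ : ℕ) (i : c.I) (j' : c'.I) (hd : (etiMor N N' R r T).deep ρ i) (hl : c'.idist ((etiMor N N' R r T).φ i) j' ≤ ρ) :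
    ∃ j, (etiMor N N' R r T).φ j = j' := by
  have l1 : c'.idist1 ((etiMor N N' R r T).φ i).1 j'.1 ≤ ρ := (le_max_left _ _).trans hl
  have l2 : c'.idist1 ((etiMor N N' R r T).φ i).2 j'.2 ≤ ρ := (le_max_right _ _).trans hl
  rw [eti_idist1, eti_φ1 h] at l1
  rw [eti_idist1, eti_φ2 h] at l2
  obtain ⟨y1, hy1, e1⟩ := eti_lift h.c1 i.1.2 j'.1.2 hd.1 l1
  obtain ⟨y2, hy2, e2⟩ := eti_lift h.c2 i.2.2 j'.2.2 hd.2 l2
  refine ⟨(⟨y1, hy1⟩, ⟨y2, hy2⟩), Prod.ext (Fin.ext ?_) (Fin.ext ?_)⟩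
  · rw [eti_φ1 h]; exact e1
  · rw [eti_φ2 h]; exact e2

theorem eti_dd_zero (d : Bool) (i j : c.I) :
    dd c' ((etiMor N N' R r T).δ d) ((etiMor N N' R r T).φ i) ((etiMor N N' R r T).φ j) = 0 ↔ dd c d i j = 0 := by
  show dd c' d _ _ = 0 ↔ _
  rw [eti_dd' h, eti_dd]
  cases d
  · simp only [Bool.false_eq_true, if_false]
    rw [etiD_eq_zero (etiA_lt h.c2 i.2.2) (etiA_lt h.c2 j.2.2), etiD_eq_zero i.2.2 j.2.2]
    exact ⟨fun e => etiA_inj h.c2 i.2.2 j.2.2 e, fun e => by rw [e]⟩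
  · simp only [if_true]
    rw [etiD_eq_zero (etiA_lt h.c1 i.1.2) (etiA_lt h.c1 j.1.2), etiD_eq_zero i.1.2 j.1.2]
    exact ⟨fun e => etiA_inj h.c1 i.1.2 j.1.2 e, fun e => by rw [e]⟩

theorem eti_dd_le (d : Bool) (i j : c.I) :
    dd c' ((etiMor N N' R r T).δ d) ((etiMor N N' R r T).φ i) ((etiMor N N' R r T).φ j) ≤ dd c d i j := by
  show dd c' d _ _ ≤ _
  rw [eti_dd' h, eti_dd]
  cases d
  · exact etiD_le h.c2 i.2.2 j.2.2
  · exact etiD_le h.c1 i.1.2 j.1.2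

theorem eti_dd_eq (ρ : ℕ) (d : Bool) (i j : c.I) (hd : (etiMor N N' R r T).deep ρ i)
    (hl : c'.idist ((etiMor N N' R r T).φ i) ((etiMor N N' R r T).φ j) ≤ ρ) :
    dd c' ((etiMor N N' R r T).δ d) ((etiMor N N' R r T).φ i) ((etiMor N N' R r T).φ j) = dd c d i j := by
  have l1 : c'.idist1 ((etiMor N N' R r T).φ i).1 ((etiMor N N' R r T).φ j).1 ≤ ρ := (le_max_left _ _).trans hl
  have l2 : c'.idist1 ((etiMor N N' R r T).φ i).2 ((etiMor N N' R r T).φ j).2 ≤ ρ := (le_max_right _ _).trans hl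
  rw [eti_idist1, eti_φ1 h, eti_φ1 h] at l1
  rw [eti_idist1, eti_φ2 h, eti_φ2 h] at l2
  show dd c' d _ _ = _
  rw [eti_dd' h, eti_dd]
  cases d
  · exact etiD_eq h.c2 i.2.2 j.2.2 hd.2 l2
  · exact etiD_eq h.c1 i.1.2 j.1.2 hd.1 l1

theorem eti_cross2 (ρ μ : ℕ) (p : c.I) (hμ : 1 ≤ μ) (H : ∀ i, OnCross c ρ p i → (etiMor N N' R r T).deep μ i) : (etiMor N N' R r T).deep (ρ + μ) p := by
  refine ⟨eti_cross h.c1 hμ p.1.2 fun x hx hl => ?_, eti_cross h.c2 hμ p.2.2 fun x hx hl => ?_⟩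
  · refine (H (⟨x, hx⟩, p.2) (Or.inr ⟨?_, ?_⟩)).1
    · rw [eti_dd]; simp [etiD_self]
    · rw [eti_dd]; simpa using hl
  · refine (H (p.1, ⟨x, hx⟩) (Or.inl ⟨?_, ?_⟩)).2
    · rw [eti_dd]; simp [etiD_self]
    · rw [eti_dd]; simpa using hl

theorem eti_cross2' (ρ μ : ℕ) (p : c.I) (hμ : 1 ≤ μ)
    (H : ∀ i', OnCross c' ρ ((etiMor N N' R r T).φ p) i' → ∃ i, (etiMor N N' R r T).φ i = i' ∧ (etiMor N N' R r T).deep μ i) :
    (etiMor N N' R r T).deep (ρ + μ) p := by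
  refine ⟨eti_cross' h.c1 hμ p.1.2 fun x hx hl => ?_, eti_cross' h.c2 hμ p.2.2 fun x hx hl => ?_⟩
  · have hc : OnCross c' ρ ((etiMor N N' R r T).φ p) (⟨x, hx⟩, ((etiMor N N' R r T).φ p).2) := by
      refine Or.inr ⟨?_, ?_⟩
      · simp [eti_dd, etiD_self]
      · rw [eti_dd]
        simp only [if_true]
        rw [eti_φ1 h]; exact hl
    obtain ⟨i, e, hd⟩ := H _ hc
    refine ⟨i.1, i.1.2, ?_, hd.1⟩
    rw [← eti_φ1 h, e]
  · have hc : OnCross c' ρ ((etiMor N N' R r T).φ p) (((etiMor N N' R r T).φ p).1, ⟨x, hx⟩) := by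
      refine Or.inl ⟨?_, ?_⟩
      · simp [eti_dd, etiD_self]
      · rw [eti_dd]
        simp only [Bool.false_eq_true, if_false]
        rw [eti_φ2 h]; exact hl
    obtain ⟨i, e, hd⟩ := H _ hc
    refine ⟨i.2, i.2.2, ?_, hd.2⟩
    rw [← eti_φ2 h, e]

end

end

end Claimed.Agent.R285.Ent
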