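import Claimed.Agent.R285.Ent.TrI4

/-!
# ROW 285, POST TRANSPORT, INSTANCES, part 5: faces, blocks and sites for `etiMor`      (helper225)
-/

set_option autoImplicit false

namespace Claimed.Agent.R285.Ent

open scoped BigOperators
open Claimed.Agent.R285 Claimed.Agent.R285.RG Claimed.Agent.R285.F4a

noncomputable section

variable {G G' : Geom} {c g : Grid G} {c' g' : Grid G'} {N : Nest c g} {N' : Nest c' g'} {R : ℕ} {r : Bool × Bool} {T : ℕ × ℕ}

instance etiFDec (bc : BC) (n x : ℕ) : Decidable (etiF bc n x) := by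
  unfold etiF
  infer_instance

/-- the folded successor -/
theorem eti_fold_succ (x : Fin G.M) : ((G.fold ((x : ℕ) + 1) : Fin G.M) : ℕ) = if etiF G.bc G.M x then etiS G.M x else x := by
  unfold etiF etiS
  have hx := x.2
  rcases hG : G.bc with _ | _
  · have := fold_per_val hG ((x : ℕ) + 1)
    simp only [true_or, if_true]
    split_ifs with hc
    · have e : (((x : ℕ) : ℤ) + 1) % (G.M : ℤ) = (x : ℕ) + 1 := Int.emod_eq_of_lt (by omega) (by omega)
      omega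
    · have e1 : ((x : ℕ) : ℤ) + 1 = G.M := by omega
      have e2 : (((x : ℕ) : ℤ) + 1) % (G.M : ℤ) = 0 := by rw [e1, Int.emod_self]
      omega
  · simp only [reduceCtorEq, false_or]
    split_ifs with hc
    · exact (fold_succ_free hG x).1 hc
    · rw [(fold_succ_free hG x).2 (by omega)]

theorem eti_stp1 (v : G.V) : ((stp v true).1 : ℕ) = (if etiF G.bc G.M v.1 then etiS G.M v.1 else v.1) ∧ (stp v true).2 = v.2 := by
  rw [stp_true]
  exact ⟨eti_fold_succ v.1, rfl⟩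

theorem eti_stp2 (v : G.V) : ((stp v false).2 : ℕ) = (if etiF G.bc G.M v.2 then etiS G.M v.2 else v.2) ∧ (stp v false).1 = v.1 := by
  rw [stp_false]
  exact ⟨eti_fold_succ v.2, rfl⟩

theorem eti_stp1_ne (v : G.V) (hne : stp v true ≠ v) : etiF G.bc G.M v.1 := by
  by_contra hc
  obtain ⟨e1, e2⟩ := eti_stp1 v
  rw [if_neg hc] at e1
  exact hne (Prod.ext (Fin.ext e1) e2)

theorem eti_stp2_ne (v : G.V) (hne : stp v false ≠ v) : etiF G.bc G.M v.2 := by
  by_contra hc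
  obtain ⟨e1, e2⟩ := eti_stp2 v
  rw [if_neg hc] at e1
  exact hne (Prod.ext e2 (Fin.ext e1))

theorem eti_ψ_fst {v w : G.V} (e : v.1 = w.1) : ((etiMor N N' R r T).ψ v).1 = ((etiMor N N' R r T).ψ w).1 := by
  show etiM G'.hM _ _ v.1 = etiM G'.hM _ _ w.1
  rw [e]

theorem eti_ψ_snd {v w : G.V} (e : v.2 = w.2) : ((etiMor N N' R r T).ψ v).2 = ((etiMor N N' R r T).ψ w).2 := by
  show etiM G'.hM _ _ v.2 = etiM G'.hM _ _ w.2
  rw [e]

section

variable (h : EtiOK N N' R r T)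
include h

theorem eti_face (f : Face c) (hf : IsFace c f) :
    IsFace c' ((etiMor N N' R r T).F f) ∧
      fnb c' ((etiMor N N' R r T).F f) = if (etiMor N N' R r T).rv f.2 then (etiMor N N' R r T).φ f.1 else (etiMor N N' R r T).φ (fnb c f) := by
  obtain ⟨i, d⟩ := f
  rw [eti_isFace] at hf ⊢
  cases d
  · simp only [Bool.false_eq_true, if_false] at hf
    obtain ⟨s1, s2⟩ := eti_succ h.c2 i.2.2 hf
    have e0 : fnb c (i, false) = (i.1, nx i.2) := rfl
    have hrv : (etiMor N N' R r T).rv false = r.2 := rfl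
    have hF : (etiMor N N' R r T).F (i, false) = (if r.2 then (etiMor N N' R r T).φ (i.1, nx i.2) else (etiMor N N' R r T).φ i, false) := rfl
    have v2 : ((((etiMor N N' R r T).F (i, false)).1.2 : Fin c'.n) : ℕ)
        = if r.2 then etiA c'.n r.2 (etiSc R r.2 T.2) (etiS c.n i.2) else etiA c'.n r.2 (etiSc R r.2 T.2) i.2 := by
      rw [hF]
      by_cases hr : r.2 = true
      · rw [if_pos hr, if_pos hr, eti_φ2 h, eti_nx]
      · rw [if_neg hr, if_neg hr, eti_φ2 h]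
    have v1 : ((etiMor N N' R r T).F (i, false)).1.1 = ((etiMor N N' R r T).φ i).1 := by
      rw [hF]
      by_cases hr : r.2 = true
      · rw [if_pos hr]; rfl
      · rw [if_neg hr]
    refine ⟨?_, ?_⟩
    · have : ((etiMor N N' R r T).F (i, false)).2 = false := rfl
      rw [this]
      simp only [Bool.false_eq_true, if_false]
      rw [v2]; exact s1
    · have e1 : fnb c' ((etiMor N N' R r T).F (i, false)) = (((etiMor N N' R r T).F (i, false)).1.1, nx ((etiMor N N' R r T).F (i, false)).1.2) := rfl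
      rw [e1, hrv, e0, v1]
      refine Prod.ext ?_ (Fin.ext ?_)
      · by_cases hr : r.2 = true
        · rw [if_pos hr]
        · rw [if_neg hr]; rfl
      · simp only
        rw [eti_nx, v2, s2]
        by_cases hr : r.2 = true
        · rw [if_pos hr, if_pos hr, eti_φ2 h]
        · rw [if_neg hr, if_neg hr, eti_φ2 h, eti_nx]
  · simp only [if_true] at hf
    obtain ⟨s1, s2⟩ := eti_succ h.c1 i.1.2 hf
    have e0 : fnb c (i, true) = (nx i.1, i.2) := rfl
    have hrv : (etiMor N N' R r T).rv true = r.1 := rfl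
    have hF : (etiMor N N' R r T).F (i, true) = (if r.1 then (etiMor N N' R r T).φ (nx i.1, i.2) else (etiMor N N' R r T).φ i, true) := rfl
    have v2 : ((((etiMor N N' R r T).F (i, true)).1.1 : Fin c'.n) : ℕ)
        = if r.1 then etiA c'.n r.1 (etiSc R r.1 T.1) (etiS c.n i.1) else etiA c'.n r.1 (etiSc R r.1 T.1) i.1 := by
      rw [hF]
      by_cases hr : r.1 = true
      · rw [if_pos hr, if_pos hr, eti_φ1 h, eti_nx]
      · rw [if_neg hr, if_neg hr, eti_φ1 h]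
    have v1 : ((etiMor N N' R r T).F (i, true)).1.2 = ((etiMor N N' R r T).φ i).2 := by
      rw [hF]
      by_cases hr : r.1 = true
      · rw [if_pos hr]; rfl
      · rw [if_neg hr]
    refine ⟨?_, ?_⟩
    · have : ((etiMor N N' R r T).F (i, true)).2 = true := rfl
      rw [this]
      simp only [if_true]
      rw [v2]; exact s1
    · have e1 : fnb c' ((etiMor N N' R r T).F (i, true)) = (nx ((etiMor N N' R r T).F (i, true)).1.1, ((etiMor N N' R r T).F (i, true)).1.2) := rfl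
      rw [e1, hrv, e0, v1]
      refine Prod.ext (Fin.ext ?_) ?_
      · simp only
        rw [eti_nx, v2, s2]
        by_cases hr : r.1 = true
        · rw [if_pos hr, if_pos hr, eti_φ1 h]
        · rw [if_neg hr, if_neg hr, eti_φ1 h, eti_nx]
      · by_cases hr : r.1 = true
        · rw [if_pos hr]
        · rw [if_neg hr]; rfl

theorem eti_face_lift2 (f' : Face c') (i : c.I) (hf : IsFace c' f') (hd : (etiMor N N' R r T).deep 1 i)
    (e : f'.1 = (etiMor N N' R r T).φ i ∨ fnb c' f' = (etiMor N N' R r T).φ i) : ∃ f, IsFace c f ∧ (etiMor N N' R r T).F f = f' := by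
  obtain ⟨⟨u, w⟩, d⟩ := f'
  rw [eti_isFace] at hf
  cases d
  · simp only [Bool.false_eq_true, if_false] at hf
    have e0 : fnb c' ((u, w), false) = (u, nx w) := rfl
    rw [e0] at e
    have eu : u = ((etiMor N N' R r T).φ i).1 := by
      rcases e with e | e <;> exact congrArg Prod.fst e
    have ew : (w : ℕ) = etiA c'.n r.2 (etiSc R r.2 T.2) i.2 ∨ etiS c'.n w = etiA c'.n r.2 (etiSc R r.2 T.2) i.2 := by
      rcases e with e | e
      · left; rw [← eti_φ2 h, ← e]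
      · right; rw [← eti_φ2 h, ← e, eti_nx]
    obtain ⟨y, hy, fy, ey⟩ := eti_face_lift h.c2 w.2 hf i.2.2 hd.2 ew
    refine ⟨((i.1, ⟨y, hy⟩), false), ?_, ?_⟩
    · rw [eti_isFace]; exact fy
    · have hF : (etiMor N N' R r T).F ((i.1, ⟨y, hy⟩), false)
          = (if r.2 then (etiMor N N' R r T).φ (i.1, nx ⟨y, hy⟩) else (etiMor N N' R r T).φ (i.1, ⟨y, hy⟩), false) := rfl
      rw [hF]
      refine Prod.ext (Prod.ext ?_ (Fin.ext ?_)) rfl
      · rw [eu]
        by_cases hr : r.2 = true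
        · rw [if_pos hr]; rfl
        · rw [if_neg hr]; rfl
      · rw [← ey]
        by_cases hr : r.2 = true
        · rw [if_pos hr, if_pos hr, eti_φ2 h, eti_nx]
        · rw [if_neg hr, if_neg hr, eti_φ2 h]
  · simp only [if_true] at hf
    have e0 : fnb c' ((u, w), true) = (nx u, w) := rfl
    rw [e0] at e
    have ew : w = ((etiMor N N' R r T).φ i).2 := by
      rcases e with e | e <;> exact congrArg Prod.snd e
    have eu : (u : ℕ) = etiA c'.n r.1 (etiSc R r.1 T.1) i.1 ∨ etiS c'.n u = etiA c'.n r.1 (etiSc R r.1 T.1) i.1 := by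
      rcases e with e | e
      · left; rw [← eti_φ1 h, ← e]
      · right; rw [← eti_φ1 h, ← e, eti_nx]
    obtain ⟨y, hy, fy, ey⟩ := eti_face_lift h.c1 u.2 hf i.1.2 hd.1 eu
    refine ⟨((⟨y, hy⟩, i.2), true), ?_, ?_⟩
    · rw [eti_isFace]; exact fy
    · have hF : (etiMor N N' R r T).F ((⟨y, hy⟩, i.2), true)
          = (if r.1 then (etiMor N N' R r T).φ (nx ⟨y, hy⟩, i.2) else (etiMor N N' R r T).φ (⟨y, hy⟩, i.2), true) := rfl
      rw [hF]
      refine Prod.ext (Prod.ext (Fin.ext ?_) ?_) rfl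
      · rw [← ey]
        by_cases hr : r.1 = true
        · rw [if_pos hr, if_pos hr, eti_φ1 h, eti_nx]
        · rw [if_neg hr, if_neg hr, eti_φ1 h]
      · rw [ew]
        by_cases hr : r.1 = true
        · rw [if_pos hr]; rfl
        · rw [if_neg hr]; rfl

/-! ## blocks -/

theorem eti_up (i : c.I) : N'.up ((etiMor N N' R r T).φ i) = (etiMor N N' R r T).φg (N.up i) := by
  refine Prod.ext (Fin.ext ?_) (Fin.ext ?_)
  · show ((N'.up1 ((etiMor N N' R r T).φ i).1 : Fin g'.n) : ℕ) = (((etiMor N N' R r T).φg (N.up i)).1 : ℕ)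
    rw [h.vol'.up1, eti_φ1 h, eti_g1 h]
    show _ = etiA g'.n r.1 T.1 (N.up1 i.1 : Fin g.n)
    rw [h.vol.up1, h.vol'.cn]
    exact (etiA_div h.a1 h.vol.Rpos (h.vol.cn ▸ i.1.2)).1
  · show ((N'.up1 ((etiMor N N' R r T).φ i).2 : Fin g'.n) : ℕ) = (((etiMor N N' R r T).φg (N.up i)).2 : ℕ)
    rw [h.vol'.up1, eti_φ2 h, eti_g2 h]
    show _ = etiA g'.n r.2 T.2 (N.up1 i.2 : Fin g.n)
    rw [h.vol.up1, h.vol'.cn]
    exact (etiA_div h.a2 h.vol.Rpos (h.vol.cn ▸ i.2.2)).1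

theorem eti_up_lift (u : g.I) (i' : c'.I) (e : N'.up i' = (etiMor N N' R r T).φg u) : ∃ i, (etiMor N N' R r T).φ i = i' := by
  have e1 : (i'.1 : ℕ) / R = etiA g'.n r.1 T.1 u.1 := by
    rw [← h.vol'.up1, ← eti_g1 h, ← e]; rfl
  have e2 : (i'.2 : ℕ) / R = etiA g'.n r.2 T.2 u.2 := by
    rw [← h.vol'.up1, ← eti_g2 h, ← e]; rfl
  obtain ⟨x1, hx1, a1, -⟩ := eti_sc_lift h.a1 h.vol.Rpos u.1.2 e1
  obtain ⟨x2, hx2, a2, -⟩ := eti_sc_lift h.a2 h.vol.Rpos u.2.2 e2
  rw [← h.vol.cn] at hx1 hx2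
  rw [← h.vol'.cn] at a1 a2
  refine ⟨(⟨x1, hx1⟩, ⟨x2, hx2⟩), Prod.ext (Fin.ext ?_) (Fin.ext ?_)⟩
  · rw [eti_φ1 h]; exact a1
  · rw [eti_φ2 h]; exact a2

theorem eti_gd_le (u v : g.I) : g'.idist ((etiMor N N' R r T).φg u) ((etiMor N N' R r T).φg v) ≤ g.idist u v := by
  unfold Grid.idist
  rw [eti_idist1, eti_idist1, eti_idist1, eti_idist1, eti_g1 h, eti_g1 h, eti_g2 h, eti_g2 h]
  exact max_le_max (etiD_le h.a1 u.1.2 v.1.2) (etiD_le h.a2 u.2.2 v.2.2)

theorem eti_gd_eq (ρ : ℕ) (i : c.I) (v : g.I) (hd : (etiMor N N' R r T).deep ((ρ + 1) * R) i)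
    (hl : g'.idist ((etiMor N N' R r T).φg (N.up i)) ((etiMor N N' R r T).φg v) ≤ ρ) :
    g.idist (N.up i) v = g'.idist ((etiMor N N' R r T).φg (N.up i)) ((etiMor N N' R r T).φg v) := by
  have key : ∀ x : ℕ, etiDp G.bc G'.bc c.n c'.n ((ρ + 1) * R) x → etiDp G.bc G'.bc g.n g'.n ρ (x / R) := by
    intro x hx
    rw [h.vol.cn, h.vol'.cn] at hx
    exact etiDp_sc h.vol.Rpos hx
  have d1 : etiDp G.bc G'.bc g.n g'.n ρ ((N.up i).1 : Fin g.n) := by
    have k := key _ hd.1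
    rw [← h.vol.up1] at k
    exact k
  have d2 : etiDp G.bc G'.bc g.n g'.n ρ ((N.up i).2 : Fin g.n) := by
    have k := key _ hd.2
    rw [← h.vol.up1] at k
    exact k
  unfold Grid.idist at hl ⊢
  rw [eti_idist1, eti_idist1, eti_g1 h, eti_g1 h, eti_g2 h, eti_g2 h] at hl
  rw [eti_idist1, eti_idist1, eti_idist1, eti_idist1, eti_g1 h, eti_g1 h, eti_g2 h, eti_g2 h,
    etiD_eq h.a1 (N.up i).1.2 v.1.2 d1 ((le_max_left _ _).trans hl), etiD_eq h.a2 (N.up i).2.2 v.2.2 d2 ((le_max_right _ _).trans hl)]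

/-! ## sites -/

theorem eti_blk (v : G.V) : c'.blk ((etiMor N N' R r T).ψ v) = (etiMor N N' R r T).φ (c.blk v) := by
  refine Prod.ext (Fin.ext ?_) (Fin.ext ?_)
  · show ((c'.blk1 ((etiMor N N' R r T).ψ v).1 : Fin c'.n) : ℕ) = (((etiMor N N' R r T).φ (c.blk v)).1 : ℕ)
    rw [h.vol'.blk1, eti_ψ1 h, eti_φ1 h]
    show _ = etiA c'.n r.1 (etiSc R r.1 T.1) (c.blk1 v.1 : Fin c.n)
    rw [h.vol.blk1, h.vol'.M, h.m_eq]
    exact (etiA_div h.c1 h.vol.whole.pos (h.vol.M ▸ v.1.2)).1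
  · show ((c'.blk1 ((etiMor N N' R r T).ψ v).2 : Fin c'.n) : ℕ) = (((etiMor N N' R r T).φ (c.blk v)).2 : ℕ)
    rw [h.vol'.blk1, eti_ψ2 h, eti_φ2 h]
    show _ = etiA c'.n r.2 (etiSc R r.2 T.2) (c.blk1 v.2 : Fin c.n)
    rw [h.vol.blk1, h.vol'.M, h.m_eq]
    exact (etiA_div h.c2 h.vol.whole.pos (h.vol.M ▸ v.2.2)).1

theorem eti_blk_lift (i : c.I) (v' : G'.V) (e : c'.blk v' = (etiMor N N' R r T).φ i) : ∃ v, (etiMor N N' R r T).ψ v = v' := by
  have e1 : (v'.1 : ℕ) / c.m = etiA c'.n r.1 (etiSc R r.1 T.1) i.1 := by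
    rw [← h.m_eq, ← h.vol'.blk1, ← eti_φ1 h, ← e]; rfl
  have e2 : (v'.2 : ℕ) / c.m = etiA c'.n r.2 (etiSc R r.2 T.2) i.2 := by
    rw [← h.m_eq, ← h.vol'.blk1, ← eti_φ2 h, ← e]; rfl
  obtain ⟨x1, hx1, a1, -⟩ := eti_sc_lift h.c1 h.vol.whole.pos i.1.2 e1
  obtain ⟨x2, hx2, a2, -⟩ := eti_sc_lift h.c2 h.vol.whole.pos i.2.2 e2
  rw [← h.vol.M] at hx1 hx2
  have hM' : c.m * c'.n = G'.M := by rw [h.vol'.M, h.m_eq]
  rw [hM'] at a1 a2
  refine ⟨(⟨x1, hx1⟩, ⟨x2, hx2⟩), Prod.ext (Fin.ext ?_) (Fin.ext ?_)⟩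
  · rw [eti_ψ1 h]; exact a1
  · rw [eti_ψ2 h]; exact a2

theorem eti_bond (v : G.V) (d : Bool) (hne : stp v d ≠ v) :
    if (etiMor N N' R r T).rv d then stp ((etiMor N N' R r T).ψ (stp v d)) ((etiMor N N' R r T).δ d) = (etiMor N N' R r T).ψ v
    else stp ((etiMor N N' R r T).ψ v) ((etiMor N N' R r T).δ d) = (etiMor N N' R r T).ψ (stp v d) := by
  cases d
  · have hf := eti_stp2_ne v hne
    obtain ⟨s1, s2⟩ := eti_succ h.s2 v.2.2 hf
    obtain ⟨a1, a2⟩ := eti_stp2 v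
    rw [if_pos hf] at a1
    show if r.2 then stp ((etiMor N N' R r T).ψ (stp v false)) false = (etiMor N N' R r T).ψ v
      else stp ((etiMor N N' R r T).ψ v) false = (etiMor N N' R r T).ψ (stp v false)
    by_cases hr : r.2 = true
    · rw [if_pos hr] at s1 s2 ⊢
      rw [if_pos hr] at s2
      obtain ⟨b1, b2⟩ := eti_stp2 ((etiMor N N' R r T).ψ (stp v false))
      rw [eti_ψ2 h, a1, if_pos s1, s2] at b1
      refine Prod.ext ?_ (Fin.ext ?_)
      · rw [b2]
        exact eti_ψ_fst a2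
      · rw [b1, eti_ψ2 h]
    · rw [if_neg hr] at s1 s2 ⊢
      rw [if_neg hr] at s2
      obtain ⟨b1, b2⟩ := eti_stp2 ((etiMor N N' R r T).ψ v)
      rw [eti_ψ2 h, if_pos s1, s2] at b1
      refine Prod.ext ?_ (Fin.ext ?_)
      · rw [b2]
        exact eti_ψ_fst a2.symm
      · rw [b1, eti_ψ2 h, a1]
  · have hf := eti_stp1_ne v hne
    obtain ⟨s1, s2⟩ := eti_succ h.s1 v.1.2 hf
    obtain ⟨a1, a2⟩ := eti_stp1 v
    rw [if_pos hf] at a1
    show if r.1 then stp ((etiMor N N' R r T).ψ (stp v true)) true = (etiMor N N' R r T).ψ v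
      else stp ((etiMor N N' R r T).ψ v) true = (etiMor N N' R r T).ψ (stp v true)
    by_cases hr : r.1 = true
    · rw [if_pos hr] at s1 s2 ⊢
      rw [if_pos hr] at s2
      obtain ⟨b1, b2⟩ := eti_stp1 ((etiMor N N' R r T).ψ (stp v true))
      rw [eti_ψ1 h, a1, if_pos s1, s2] at b1
      refine Prod.ext (Fin.ext ?_) ?_
      · rw [b1, eti_ψ1 h]
      · rw [b2]
        exact eti_ψ_snd a2
    · rw [if_neg hr] at s1 s2 ⊢
      rw [if_neg hr] at s2
      obtain ⟨b1, b2⟩ := eti_stp1 ((etiMor N N' R r T).ψ v)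
      rw [eti_ψ1 h, if_pos s1, s2] at b1
      refine Prod.ext (Fin.ext ?_) ?_
      · rw [b1, eti_ψ1 h, a1]
      · rw [b2]
        exact eti_ψ_snd a2.symm

theorem eti_bond_lift (v w : G.V) (d' : Bool) (e : stp ((etiMor N N' R r T).ψ v) d' = (etiMor N N' R r T).ψ w) (hvw : v ≠ w) :
    ∃ d, (etiMor N N' R r T).δ d = d' ∧ if (etiMor N N' R r T).rv d then stp w d = v else stp v d = w := by
  refine ⟨d', rfl, ?_⟩
  have hne : stp ((etiMor N N' R r T).ψ v) d' ≠ (etiMor N N' R r T).ψ v := by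
    rw [e]
    exact fun e' => hvw (eti_ψ_inj h e').symm
  cases d'
  · have hf := eti_stp2_ne _ hne
    obtain ⟨b1, b2⟩ := eti_stp2 ((etiMor N N' R r T).ψ v)
    rw [if_pos hf, e, eti_ψ2 h, eti_ψ2 h] at b1
    rw [e] at b2
    rw [eti_ψ2 h] at hf
    have e1 : w.1 = v.1 := etiM_inj h.s1 G'.hM b2
    have key := eti_succ_lift h.s2 v.2.2 w.2.2 hf b1.symm
    show if r.2 then stp w false = v else stp v false = w
    by_cases hr : r.2 = true
    · rw [if_pos hr] at key ⊢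
      obtain ⟨a1, a2⟩ := eti_stp2 w
      rw [if_pos key.1, key.2] at a1
      exact Prod.ext (a2.trans e1) (Fin.ext a1)
    · rw [if_neg hr] at key ⊢
      obtain ⟨a1, a2⟩ := eti_stp2 v
      rw [if_pos key.1, key.2] at a1
      exact Prod.ext (a2.trans e1.symm) (Fin.ext a1)
  · have hf := eti_stp1_ne _ hne
    obtain ⟨b1, b2⟩ := eti_stp1 ((etiMor N N' R r T).ψ v)
    rw [if_pos hf, e, eti_ψ1 h, eti_ψ1 h] at b1
    rw [e] at b2
    rw [eti_ψ1 h] at hf
    have e1 : w.2 = v.2 := etiM_inj h.s2 G'.hM b2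
    have key := eti_succ_lift h.s1 v.1.2 w.1.2 hf b1.symm
    show if r.1 then stp w true = v else stp v true = w
    by_cases hr : r.1 = true
    · rw [if_pos hr] at key ⊢
      obtain ⟨a1, a2⟩ := eti_stp1 w
      rw [if_pos key.1, key.2] at a1
      exact Prod.ext (Fin.ext a1) (a2.trans e1)
    · rw [if_neg hr] at key ⊢
      obtain ⟨a1, a2⟩ := eti_stp1 v
      rw [if_pos key.1, key.2] at a1
      exact Prod.ext (Fin.ext a1) (a2.trans e1.symm)

end

end

end Claimed.Agent.R285.Ent
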