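import Claimed.Agent.R285.Ent.GeoLip
import Claimed.Agent.R285.Ent.TrI5

/-!
# ROW 285, POST TRANSPORT, INSTANCES, part 6: the LABELS (tiles, events) for `etiMor`      (architect helper225)
Tools: `Geo.tile_cases`, `near_iff`, `line_iff`, `keyOf`, `evKey_eq`, `event_eq_tile` (`Ent/Geo.lean`); `etiA_div` (quotient and remainder modulo `R` of the image of a cell),
`eti_vertex` (index of the vertex next to a cell in a band, `σ = R/4` and `σ = R/16`), `etiLV_inj`, `etiRed_mem`, `etiA_inj` (`TrI1`, `TrI2`); `eti_φ1`, `eti_φ2`, `EtiVol.cn`, `eti_face`.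
`red c R k = etiRed G.bc g.n k` (`eti_red`).
-/

set_option autoImplicit false

namespace Claimed.Agent.R285.Ent

open scoped BigOperators
open Claimed.Agent.R285 Claimed.Agent.R285.RG Claimed.Agent.R285.F4a

noncomputable section

variable {G G' : Geom} {c g : Grid G} {c' g' : Grid G'} {N : Nest c g} {N' : Nest c' g'} {R : ℕ} {r : Bool × Bool} {T : ℕ × ℕ}

theorem eti_red (h : EtiVol N R) (k : ℕ) : red c R k = etiRed G.bc g.n k := by
  unfold red etiRed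
  rw [h.admN.n]
  cases G.bc <;> rfl

/-- quotient and remainder of the image of a coordinate -/
theorem eti_co1 (h : EtiOK N N' R r T) (i : c.I) :
    ((((etiMor N N' R r T).φ i).1 : Fin c'.n) : ℕ) / R = etiA g'.n r.1 T.1 ((i.1 : ℕ) / R) ∧
      ((((etiMor N N' R r T).φ i).1 : Fin c'.n) : ℕ) % R = (if r.1 then R - 1 - (i.1 : ℕ) % R else (i.1 : ℕ) % R) := by
  rw [eti_φ1 h, h.vol'.cn]
  exact etiA_div h.a1 h.vol.Rpos (by rw [← h.vol.cn]; exact i.1.2)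

theorem eti_co2 (h : EtiOK N N' R r T) (i : c.I) :
    ((((etiMor N N' R r T).φ i).2 : Fin c'.n) : ℕ) / R = etiA g'.n r.2 T.2 ((i.2 : ℕ) / R) ∧
      ((((etiMor N N' R r T).φ i).2 : Fin c'.n) : ℕ) % R = (if r.2 then R - 1 - (i.2 : ℕ) % R else (i.2 : ℕ) % R) := by
  rw [eti_φ2 h, h.vol'.cn]
  exact etiA_div h.a2 h.vol.Rpos (by rw [← h.vol.cn]; exact i.2.2)

theorem eti_vx1 (h : EtiOK N N' R r T) (i : c.I) {σ : ℕ} (hσ : 2 * σ ≤ R) (hσ0 : 0 < σ) (hb : (i.1 : ℕ) % R < σ ∨ R ≤ (i.1 : ℕ) % R + σ) :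
    red c' R ((((((etiMor N N' R r T).φ i).1 : Fin c'.n) : ℕ) + σ) / R) = etiLV G'.bc g'.n r.1 T.1 (red c R (((i.1 : ℕ) + σ) / R)) := by
  rw [eti_red h.vol', eti_red h.vol, eti_φ1 h, h.vol'.cn]
  exact eti_vertex h.a1 h.vol.Rpos hσ hσ0 (by rw [← h.vol.cn]; exact i.1.2) hb

theorem eti_vx2 (h : EtiOK N N' R r T) (i : c.I) {σ : ℕ} (hσ : 2 * σ ≤ R) (hσ0 : 0 < σ) (hb : (i.2 : ℕ) % R < σ ∨ R ≤ (i.2 : ℕ) % R + σ) :
    red c' R ((((((etiMor N N' R r T).φ i).2 : Fin c'.n) : ℕ) + σ) / R) = etiLV G'.bc g'.n r.2 T.2 (red c R (((i.2 : ℕ) + σ) / R)) := by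
  rw [eti_red h.vol', eti_red h.vol, eti_φ2 h, h.vol'.cn]
  exact eti_vertex h.a2 h.vol.Rpos hσ hσ0 (by rw [← h.vol.cn]; exact i.2.2) hb
/-- LEAF L-ETI-TILE -/
theorem eti_tile (h : EtiOK N N' R r T) (i : c.I) : tile c' R ((etiMor N N' R r T).φ i) = (etiMor N N' R r T).θT (tile c R i) := by
  have hA := h.vol.admN.adm
  have hA' := h.vol'.admN.adm
  have h64 := hA.d64
  have hp := hA.pos
  obtain ⟨q1, m1⟩ := eti_co1 h i
  obtain ⟨q2, m2⟩ := eti_co2 h i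
  have l1 := Nat.mod_lt (i.1 : ℕ) hp
  have l2 := Nat.mod_lt (i.2 : ℕ) hp
  have i1 := eti_ite (r.1 = true) (R - 1 - (i.1 : ℕ) % R) ((i.1 : ℕ) % R)
  have i2 := eti_ite (r.2 = true) (R - 1 - (i.2 : ℕ) % R) ((i.2 : ℕ) % R)
  show _ = etiTh G'.bc g'.n r T _
  rcases tile_cases hA i with ⟨c1, e1⟩ | ⟨c1, e1⟩ | ⟨c1, e1⟩ | ⟨c1, e1⟩ <;>
  rcases tile_cases hA' ((etiMor N N' R r T).φ i) with ⟨c2, e2⟩ | ⟨c2, e2⟩ | ⟨c2, e2⟩ | ⟨c2, e2⟩ <;>
  first
    | (exfalso; omega)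
    | skip
  · rw [e1, e2, eti_vx1 h i (σ := R / 4) (by omega) (by omega) (by omega), eti_vx2 h i (σ := R / 4) (by omega) (by omega) (by omega)]
    rfl
  · rw [e1, e2, q1, eti_vx2 h i (σ := R / 16) (by omega) (by omega) (by omega)]
    rfl
  · rw [e1, e2, q2, eti_vx1 h i (σ := R / 16) (by omega) (by omega) (by omega)]
    rfl
  · rw [e1, e2, q1, q2]
    rfl

theorem eti_div_lt (h : EtiVol N R) (x : Fin c.n) : (x : ℕ) / R < g.n :=
  (Nat.div_lt_iff_lt_mul h.Rpos).2 (by rw [Nat.mul_comm, ← h.cn]; exact x.2)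

theorem eti_red_mem (h : EtiVol N R) (x : Fin c.n) {σ : ℕ} (hσ : σ ≤ R) : etiVR G.bc g.n (red c R (((x : ℕ) + σ) / R)) := by
  rw [eti_red h]
  have hx := eti_div_lt h x
  have hg : 0 < g.n := lt_of_le_of_lt (Nat.zero_le _) hx
  refine etiRed_mem hg ?_
  have := eti_shift_div (x := (x : ℕ)) h.Rpos hσ
  rw [this]
  split_ifs <;> omega
/-- LEAF L-ETI-TINJ -/
theorem eti_θT_inj (h : EtiOK N N' R r T) : Set.InjOn (etiMor N N' R r T).θT (tiles c R) := by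
  have hA := h.vol.admN.adm
  have h64 := hA.d64
  have hp := hA.pos
  intro t ht t' ht' e
  obtain ⟨i, -, rfl⟩ := Finset.mem_image.1 (Finset.mem_coe.1 ht)
  obtain ⟨j, -, rfl⟩ := Finset.mem_image.1 (Finset.mem_coe.1 ht')
  have e' : etiTh G'.bc g'.n r T (tile c R i) = etiTh G'.bc g'.n r T (tile c R j) := e
  have A1 : ∀ x y : Fin c.n, etiA g'.n r.1 T.1 ((x : ℕ) / R) = etiA g'.n r.1 T.1 ((y : ℕ) / R) → (x : ℕ) / R = (y : ℕ) / R :=
    fun x y => etiA_inj h.a1 (eti_div_lt h.vol x) (eti_div_lt h.vol y)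
  have A2 : ∀ x y : Fin c.n, etiA g'.n r.2 T.2 ((x : ℕ) / R) = etiA g'.n r.2 T.2 ((y : ℕ) / R) → (x : ℕ) / R = (y : ℕ) / R :=
    fun x y => etiA_inj h.a2 (eti_div_lt h.vol x) (eti_div_lt h.vol y)
  have L1 : ∀ (x y : Fin c.n) (σ : ℕ), σ ≤ R → etiLV G'.bc g'.n r.1 T.1 (red c R (((x : ℕ) + σ) / R)) = etiLV G'.bc g'.n r.1 T.1 (red c R (((y : ℕ) + σ) / R)) →
      red c R (((x : ℕ) + σ) / R) = red c R (((y : ℕ) + σ) / R) :=
    fun x y σ hσ => etiLV_inj h.a1 (eti_red_mem h.vol x hσ) (eti_red_mem h.vol y hσ)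
  have L2 : ∀ (x y : Fin c.n) (σ : ℕ), σ ≤ R → etiLV G'.bc g'.n r.2 T.2 (red c R (((x : ℕ) + σ) / R)) = etiLV G'.bc g'.n r.2 T.2 (red c R (((y : ℕ) + σ) / R)) →
      red c R (((x : ℕ) + σ) / R) = red c R (((y : ℕ) + σ) / R) :=
    fun x y σ hσ => etiLV_inj h.a2 (eti_red_mem h.vol x hσ) (eti_red_mem h.vol y hσ)
  rcases tile_cases hA i with ⟨-, e1⟩ | ⟨-, e1⟩ | ⟨-, e1⟩ | ⟨-, e1⟩ <;>
  rcases tile_cases hA j with ⟨-, e2⟩ | ⟨-, e2⟩ | ⟨-, e2⟩ | ⟨-, e2⟩ <;>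
  rw [e1, e2] at e' ⊢ <;>
  simp only [etiTh, Prod.mk.injEq, Bool.false_eq_true, Bool.true_eq_false, if_true, if_false, true_and, false_and, and_false] at e' ⊢
  · exact ⟨L1 _ _ _ (by omega) e'.1, L2 _ _ _ (by omega) e'.2⟩
  · exact ⟨A1 _ _ e'.1, L2 _ _ _ (by omega) e'.2⟩
  · exact ⟨L1 _ _ _ (by omega) e'.1, A2 _ _ e'.2⟩
  · exact ⟨A1 _ _ e'.1, A2 _ _ e'.2⟩

/-- LEAF L-ETI-KSYM: the two tiles of a seam face have different kinds (`V|E`, `V|F`, `E|F`), so that the event does not depend on the orientation of the face -/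
theorem eti_keyOf_symm (h : Adm c R) {f : Face c} (hf : f ∈ seam c R) :
    keyOf (tile c R (fnb c f)) (tile c R f.1) = keyOf (tile c R f.1) (tile c R (fnb c f)) := by
  obtain ⟨hF, hne⟩ := mem_seam.1 hf
  have hb := (face_box h hf).2.2
  rw [evKey_eq] at hb
  have hVV := fun a b => hne (gl_VV h hF a b)
  have hEE := fun a b => hne (gl_EE h hF a b)
  generalize tile c R f.1 = t at *
  generalize tile c R (fnb c f) = t' at *
  obtain ⟨a, b, p, q⟩ := t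
  obtain ⟨a', b', p', q'⟩ := t'
  cases a <;> cases b <;> cases a' <;> cases b' <;> simp [keyOf] at hb hVV hEE ⊢

theorem eti_keyOf_th (bc' : BC) (ng' : ℕ) (r : Bool × Bool) (T : ℕ × ℕ) (t t' : Tile) :
    keyOf (etiTh bc' ng' r T t) (etiTh bc' ng' r T t') = etiTh bc' ng' r T (keyOf t t') := by
  unfold keyOf
  have e1 : ∀ t : Tile, (etiTh bc' ng' r T t).1 = t.1 := fun _ => rfl
  have e2 : ∀ t : Tile, (etiTh bc' ng' r T t).2.1 = t.2.1 := fun _ => rfl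
  simp only [e1, e2]
  split_ifs <;> rfl

theorem eti_key (h : EtiOK N N' R r T) (f : Face c) (hf : f ∈ seam c R) :
    evKey c' R ((etiMor N N' R r T).F f) = (etiMor N N' R r T).θE (evKey c R f) := by
  have hF : IsFace c f := (mem_seam.1 hf).1
  have h2 := (eti_face h f hF).2
  have h1 : ((etiMor N N' R r T).F f).1 = if (etiMor N N' R r T).rv f.2 then (etiMor N N' R r T).φ (fnb c f) else (etiMor N N' R r T).φ f.1 := rfl
  rw [evKey_eq, evKey_eq, h1, h2]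
  show _ = etiTh G'.bc g'.n r T _
  by_cases hr : (etiMor N N' R r T).rv f.2 = true
  · rw [if_pos hr, if_pos hr, eti_tile h, eti_tile h, ← eti_keyOf_symm h.vol.admN.adm hf]
    exact eti_keyOf_th _ _ _ _ _ _
  · rw [if_neg hr, if_neg hr, eti_tile h, eti_tile h]
    exact eti_keyOf_th _ _ _ _ _ _

theorem eti_events_sub : (events c R : Set EvId) ⊆ tiles c R := by
  intro k hk
  obtain ⟨j, -, e⟩ := event_eq_tile hk
  exact Finset.mem_coe.2 (Finset.mem_image.2 ⟨j, Finset.mem_univ _, e⟩)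

theorem eti_θE_inj (h : EtiOK N N' R r T) : Set.InjOn (etiMor N N' R r T).θE (events c R) :=
  (eti_θT_inj h).mono eti_events_sub

end

end Claimed.Agent.R285.Ent
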