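import Claimed.Agent.R285.Ent.TrDefs
import Claimed.Agent.R285.Ent.TrCons
import Claimed.Agent.R285.Ent.TrAvg
import Claimed.Agent.R285.Ent.TrGauge
import Claimed.Agent.R285.F4a.EnC

/-!
# ROW 285, POST TRANSPORT, SITE LEVEL: laws, averages, gauge            (architect helper225; interface written by helper238)
The EXPORTS below are consumed VERBATIM by `Ent/TrMain.lean`.  Paper-free.
Files of the site level: `TrSite.lean` (`EtlIso`, transport of `ZobsC`, `ZhatC`, `Zobs`, `En`, `Qf`, `Qmat`), `TrCons.lean` (`etlOf : EtlIso T (Φ.top T)` from `Mor.Ok`),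
`TrAvg.lean` (`EtlLoc`, `etl_eav_loc`), `TrGauge.lean` (integral gauges).
-/

set_option autoImplicit false

namespace Claimed.Agent.R285.Ent

open scoped BigOperators ENNReal NNReal
open MeasureTheory ProbabilityTheory
open Claimed.Agent.R285 Claimed.Agent.R285.RG Claimed.Agent.R285.F4a Claimed.Agent.R285.F4b

noncomputable section

variable {G G' : Geom} {c g : Grid G} {c' g' : Grid G'} {N : Nest c g} {N' : Nest c' g'}

theorem etl_sg_cast (Φ : Mor N N') (f : Face c) : ((Φ.sg f : ℤ) : ℝ) = etlSg (Φ.rv f.2) := by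
  unfold Mor.sg etlSg
  cases Φ.rv f.2 <;> simp

/-- **EXPORT (A)**: the XY weights are carried by every morphism -/
theorem etl_xy_iso (Φ : Mor N N') {R : ℕ} (hΦ : Φ.Ok R) (hc : Whole c) (hc' : Whole c') (hn : 3 ≤ c.n) (hn' : 3 ≤ c'.n) (a b0 : ℝ) (ha : 0 < a) (b : ℂ)
    (τ : Face c → ℤ) (τ' : Face c' → ℤ) (hτ : ∀ f, IsFace c f → τ' (Φ.F f) = Φ.sg f * τ f) :
    WtIso Φ (xyWt c a b0 b τ) (xyWt c' a b0 b τ') where
  Q := fun T hT f f' hf hf' => by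
    show T.Qmat a f f' = _ * _ * (Φ.top T).Qmat a (Φ.F f) (Φ.F f')
    by_cases h : f ∈ T.faces ∧ f' ∈ T.faces
    · have := etl_Qmat (etlOf Φ hΦ hc hc' T hT) a ha h.1 h.2
      have e : (Φ.top T).Qmat a (Φ.F f) (Φ.F f') = etlSg (Φ.rv f.2) * etlSg (Φ.rv f'.2) * T.Qmat a f f' := this
      rw [e, etl_sg_cast, etl_sg_cast]
      have h1 := etlSg_mul_self (Φ.rv f.2)
      have h2 := etlSg_mul_self (Φ.rv f'.2)
      calc T.Qmat a f f' = (etlSg (Φ.rv f.2) * etlSg (Φ.rv f.2)) * (etlSg (Φ.rv f'.2) * etlSg (Φ.rv f'.2)) * T.Qmat a f f' := by rw [h1, h2]; ring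
        _ = _ := by ring
    · have h' : f ∉ T.faces ∨ f' ∉ T.faces := by
        by_contra hcon
        exact h ⟨by_contra fun h1 => hcon (Or.inl h1), by_contra fun h1 => hcon (Or.inr h1)⟩
      have key : ∀ k, IsFace c k → k ∉ T.faces → Φ.F k ∉ (Φ.top T).faces := by
        intro k hk hkT hmem
        obtain ⟨k', hk', e⟩ := Finset.mem_image.1 hmem
        exact hkT (etl_F_inj Φ hΦ (hT k' hk').1 hk e ▸ hk')
      rw [pr_Q_supp a ha T f f' h', pr_Q_supp a ha (Φ.top T) _ _ (h'.imp (key f hf) (key f' hf')), mul_zero]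
  N := fun T hT => (etl_N (etlOf Φ hΦ hc hc' T hT) b0).symm
  Zh := fun T hT y y' hy => by
    refine (etl_ZhatC (etlOf Φ hΦ hc hc' T hT) hT b τ τ' (fun f hf => ?_) y y' hy).symm
    show τ' (Φ.F f) = etlN (Φ.rv f.2) (τ f)
    rw [hτ f (hT f hf).1]
    unfold Mor.sg etlN
    cases Φ.rv f.2 <;> simp
  τ := hτ

/-- the local bijection of a morphism -/
def etlLocOf (Φ : Mor N N') {R : ℕ} (hΦ : Φ.Ok R) (D : Finset c.I) : EtlLoc c c' D where
  φ := Φ.φ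
  ψ := Φ.ψ
  φ_inj := hΦ.φ_inj.injOn
  ψ_inj := hΦ.ψ_inj.injOn
  img := fun i _ => by
    ext v'
    simp only [Grid.sites, Finset.mem_filter, Finset.mem_univ, true_and, Finset.mem_singleton, Finset.mem_image]
    constructor
    · intro h
      obtain ⟨v, rfl⟩ := hΦ.blk_lift i v' h
      exact ⟨v, hΦ.φ_inj (by rw [← hΦ.blk, h]), rfl⟩
    · rintro ⟨v, hv, rfl⟩
      rw [hΦ.blk, hv]

/-- **EXPORT (B)**: averages of corresponding local functions -/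
theorem etl_eav (Φ : Mor N N') {R : ℕ} (hΦ : Φ.Ok R) (hc : Whole c) (hc' : Whole c') (hm : 1 ≤ g.m) (a : ℝ) (D : Finset c.I) (hD : ∀ i ∈ D, Φ.deep (40 * R) i)
    (F : (c.I → ℂ) → ℂ) (F' : (c'.I → ℂ) → ℂ) (hF : ∀ y y', (∀ i ∈ D, y' (Φ.φ i) = y i) → F y = F' y')
    (z : G.V → ℂ) (z' : G'.V → ℂ) (hz : ∀ v, c.blk v ∈ D → z' (Φ.ψ v) = z v) :
    eav a c g.m F z = eav a c' g'.m F' z' := by
  have hs : ∀ v, v ∈ c.sites D → c.blk v ∈ D := fun v hv => by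
    simpa [Grid.sites] using hv
  rw [hΦ.gm_eq]
  refine (etl_eav_loc (etlLocOf Φ hΦ D) a g.m (Ker.low_psd G Fam.entry Ker.entry_adm g.m hm) (Ker.low_psd G' Fam.entry Ker.entry_adm g.m hm)
    (fun v hv w hw => ?_) F F' (fun y y' h => (hF y y' h).symm) z z' fun v hv => hz v (hs v hv)).symm
  have := hΦ.ker v w (hD _ (hs v hv)) (hD _ (hs w hw))
  rw [hΦ.gm_eq] at this
  exact this

/-- the sites of the cells under `X` lie in the rectangle -/
theorem etl_under_hull (𝒱 : Vol) (X : Finset 𝒱.g.I) (v : 𝒱.G.V) (hv : 𝒱.c.blk v ∈ under (vNest 𝒱) X) : v ∈ 𝒱.hull (𝒱.g.Dm X) := by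
  classical
  have h1 : (vNest 𝒱).up (𝒱.c.blk v) ∈ X := by
    simpa [under] using hv
  have h2 : 𝒱.g.blk v = (vNest 𝒱).up (𝒱.c.blk v) := Prod.ext ((vNest 𝒱).comm v.1) ((vNest 𝒱).comm v.2)
  have h0 : ∀ t : Fin 𝒱.g.n, 𝒱.g.idist1 t t = 0 := by
    intro t
    unfold Grid.idist1
    cases 𝒱.G.bc <;> simp
  have h3 : v ∈ 𝒱.g.Dm X := by
    unfold Grid.Dm Grid.sites Grid.collar
    simp only [Finset.mem_filter, Finset.mem_univ, true_and]
    refine ⟨_, h2 ▸ h1, ?_⟩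
    unfold Grid.idist
    rw [h0, h0]
    simp
  unfold Vol.hull
  simp only [Finset.mem_filter, Finset.mem_univ, true_and]
  exact ⟨⟨v, h3, le_rfl⟩, ⟨v, h3, le_rfl⟩, ⟨v, h3, le_rfl⟩, ⟨v, h3, le_rfl⟩⟩

/-- **EXPORT (C)**: on a rectangle with an integral gauge the unit sector is the centred sector at the shifted observation -/
theorem etl_gauge (a b0 : ℝ) (𝒱 : Vol) (ha : 0 < a) (hfree : 𝒱.G.bc = BC.free) (h2 : 2 * 𝒱.m ∣ 𝒱.G.M) (hG : GeoOK 𝒱.c (vR 𝒱))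
    (X : Finset 𝒱.g.I) (κ : 𝒱.G.V → ℤ) (hκ : IsGauge 𝒱 X κ) (b : ℂ) (z : 𝒱.G.V → ℂ) (e : 𝒱.c.I → ℝ) :
    YRel (Mor.id (vNest 𝒱)) (xyWt 𝒱.c a b0 b (tauU 𝒱.c)) (xyWt 𝒱.c a b0 b 0) (under (vNest 𝒱) X)
      (obsv a 𝒱.c z e) (obsv a 𝒱.c (z + toC fun x => 2 * Real.pi / Real.sqrt a * (κ x : ℝ)) e) := by
  classical
  have hc := hG.whole
  obtain ⟨t, ht⟩ := h2
  have hM : 𝒱.G.M = 2 * (𝒱.G.M / 2) := by
    have : 𝒱.G.M = 2 * (𝒱.m * t) := by rw [ht, mul_assoc]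
    omega
  have hal : 𝒱.c.m ∣ 𝒱.G.M / 2 := by
    have e1 : 𝒱.G.M / 2 = 𝒱.m * t := by
      rw [ht, mul_assoc, Nat.mul_div_cancel_left _ (by norm_num)]
    rw [e1]
    exact Dvd.dvd.mul_right 𝒱.hsm t
  -- the value of the gauge on a bond
  have key : ∀ v d, 𝒱.c.blk v ∈ under (vNest 𝒱) X → 𝒱.c.blk (stp v d) ∈ under (vNest 𝒱) X → stp v d ≠ v →
      κ (stp v d) - κ v = if 𝒱.c.blk (stp v d) = 𝒱.c.blk v then 0 else tauU 𝒱.c (𝒱.c.blk v, d) := by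
    intro v d h1 h2 hne
    have hE : (Top.full 𝒱.c).IsEdge (v, d) := by
      refine ⟨hne, Finset.mem_univ _, Finset.mem_univ _, ?_⟩
      by_cases h : 𝒱.c.blk (stp v d) = 𝒱.c.blk v
      · exact Or.inl h
      · exact Or.inr (Finset.mem_filter.2 ⟨Finset.mem_univ _, enc_isFace hc v d h⟩)
    rw [hκ (v, d) hne (etl_under_hull 𝒱 X v h1) (etl_under_hull 𝒱 X _ h2), ← econn_tauU (𝒱.G.M / 2) hfree hM hc hal ⟨(v, d), hE⟩]
    rfl
  refine etl_gauge_rel (vNest 𝒱) hc hfree a b0 b (tauU 𝒱.c) 0 (under (vNest 𝒱) X) κ (fun v d h1 h => ?_) (fun v d h1 h2 h => ?_) _ _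
    (fun i => etl_obsv_shift a ha 𝒱.c z κ e i)
  · by_cases hne : stp v d = v
    · rw [hne]
    · have := key v d h1 (h ▸ h1) hne
      rw [if_pos h] at this
      omega
  · have hne : stp v d ≠ v := fun h' => h (by rw [h'])
    rw [key v d h1 h2 hne, if_neg h]
    simp

end

end Claimed.Agent.R285.Ent
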