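import Claimed.Agent.R285.Ent.TrGeo

/-!
# ROW 285, POST TRANSPORT, CELL LEVEL, part 2: links and weights            (architect helper238)
Paper-free.  Conventions, pattern of the proofs and rules for provers: header of `Ent/TrGeo.lean`; all statements of `TrGeo.lean` and the earlier ones of this file are black boxes.
A link `l = (f, f', j)` is `Live` (`Ent/Geo.lean`): two faces, `f'` inside the box `lbox f j` of radius `2^j R`.  Its cells `lcells` contain the CROSS of radius `2^j R` at `f.1`: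
if all cells of the link are `μ`-deep, the fields `cross`, `cross'` of `Mor.Ok` give that `f.1` is `(2^j R + μ)`-deep, so the whole box is carried isometrically.
-/

set_option autoImplicit false

namespace Claimed.Agent.R285.Ent

open scoped BigOperators ENNReal NNReal
open MeasureTheory ProbabilityTheory
open Claimed.Agent.R285 Claimed.Agent.R285.RG Claimed.Agent.R285.F4a

noncomputable section

variable {G G' : Geom} {c g : Grid G} {c' g' : Grid G'} {N : Nest c g} {N' : Nest c' g'}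

/-! ## 6. Links: geometry -/

theorem etr_idist1_eq_zero (c : Grid G) (a b : Fin c.n) : c.idist1 a b = 0 ↔ a = b := by
  constructor
  · intro h
    have ha := a.2
    have hb := b.2
    rcases hbc : G.bc with _ | _
    · rw [Geo.geo_idist1_per c hbc] at h
      exact Fin.ext (by omega)
    · rw [Geo.geo_idist1_free c hbc] at h
      exact Fin.ext (by omega)
  · rintro rfl
    exact Geo.geo_idist1_self c a

/-- `lcells` in terms of directional distances (symmetric under the exchange of the two directions) -/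
theorem etr_mem_lcells (c : Grid G) (R : ℕ) (l : Link c) (i : c.I) : i ∈ lcells c R l ↔ ∃ p ∈ fcl c l.1, ∃ p' ∈ fcl c l.2.1, ∃ d : Bool,
    (dd c (!d) i p = 0 ∧ dd c d i p ≤ 2 ^ l.2.2 * R) ∨ (dd c (!d) i p' = 0 ∧ dd c d i p ≤ dd c d p' p) := by
  simp only [lcells, Finset.mem_filter, Finset.mem_univ, true_and]
  constructor
  · rintro ⟨p, hp, p', hp', h⟩
    refine ⟨p, hp, p', hp', ?_⟩
    rcases h with ⟨h1, h2⟩ | ⟨h1, h2⟩ | ⟨h1, h2⟩ | ⟨h1, h2⟩
    · exact ⟨true, Or.inl ⟨by simpa [dd] using (etr_idist1_eq_zero c _ _).2 h1, by simpa [dd] using h2⟩⟩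
    · exact ⟨false, Or.inl ⟨by simpa [dd] using (etr_idist1_eq_zero c _ _).2 h1, by simpa [dd] using h2⟩⟩
    · exact ⟨true, Or.inr ⟨by simpa [dd] using (etr_idist1_eq_zero c _ _).2 h1, by simpa [dd] using h2⟩⟩
    · exact ⟨false, Or.inr ⟨by simpa [dd] using (etr_idist1_eq_zero c _ _).2 h1, by simpa [dd] using h2⟩⟩
  · rintro ⟨p, hp, p', hp', d, h⟩
    refine ⟨p, hp, p', hp', ?_⟩
    cases d
    · rcases h with ⟨h1, h2⟩ | ⟨h1, h2⟩
      · exact Or.inr (Or.inl ⟨(etr_idist1_eq_zero c _ _).1 (by simpa [dd] using h1), by simpa [dd] using h2⟩)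
      · exact Or.inr (Or.inr (Or.inr ⟨(etr_idist1_eq_zero c _ _).1 (by simpa [dd] using h1), by simpa [dd] using h2⟩))
    · rcases h with ⟨h1, h2⟩ | ⟨h1, h2⟩
      · exact Or.inl ⟨(etr_idist1_eq_zero c _ _).1 (by simpa [dd] using h1), by simpa [dd] using h2⟩
      · exact Or.inr (Or.inr (Or.inl ⟨(etr_idist1_eq_zero c _ _).1 (by simpa [dd] using h1), by simpa [dd] using h2⟩))

/-- the cross at EITHER cell of the first face -/
theorem etr_cross_lcells' (c : Grid G) (R : ℕ) (l : Link c) {p : c.I} (hp : p ∈ fcl c l.1) (i : c.I)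
    (hi : OnCross c (2 ^ l.2.2 * R) p i) : i ∈ lcells c R l := by
  rw [etr_mem_lcells]
  refine ⟨p, hp, l.2.1.1, by simp [fcl], ?_⟩
  rcases hi with ⟨h1, h2⟩ | ⟨h1, h2⟩
  · exact ⟨false, Or.inl ⟨h1, h2⟩⟩
  · exact ⟨true, Or.inl ⟨h1, h2⟩⟩

/-- the cells of the second face belong to the link -/
theorem etr_fcl2_lcells (c : Grid G) (R : ℕ) (l : Link c) {p' : c.I} (hp' : p' ∈ fcl c l.2.1) : p' ∈ lcells c R l := by
  rw [etr_mem_lcells]
  refine ⟨l.1.1, by simp [fcl], p', hp', true, Or.inr ⟨?_, le_rfl⟩⟩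
  simp [dd, Geo.geo_idist1_self]

theorem etr_cross_lcells (c : Grid G) (R : ℕ) (l : Link c) (i : c.I) (hi : OnCross c (2 ^ l.2.2 * R) l.1.1 i) : i ∈ lcells c R l :=
  etr_cross_lcells' c R l (by simp [fcl]) i hi

theorem etr_lc_dd_comm (c : Grid G) (d : Bool) (i j : c.I) : dd c d i j = dd c d j i := by
  unfold dd
  split_ifs
  · exact Geo.geo_idist1_comm c _ _
  · exact Geo.geo_idist1_comm c _ _

theorem etr_lc_dd_tri (c : Grid G) (d : Bool) (i j k : c.I) : dd c d i k ≤ dd c d i j + dd c d j k := by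
  unfold dd
  split_ifs
  · exact Geo.geo_idist1_triangle c _ _ _
  · exact Geo.geo_idist1_triangle c _ _ _

theorem etr_lc_dd_le (c : Grid G) (d : Bool) (i j : c.I) : dd c d i j ≤ c.idist i j := by
  unfold dd Grid.idist
  split_ifs
  · exact le_max_left _ _
  · exact le_max_right _ _

theorem etr_lc_idist_le (c : Grid G) (d : Bool) (i j : c.I) {r : ℕ} (h1 : dd c d i j ≤ r) (h2 : dd c (!d) i j ≤ r) : c.idist i j ≤ r := by
  cases d
  · simp only [dd, Bool.not_false, if_true, Bool.false_eq_true, if_false] at h1 h2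
    exact max_le h2 h1
  · simp only [dd, Bool.not_true, if_true, Bool.false_eq_true, if_false] at h1 h2
    exact max_le h1 h2

theorem etr_lc_not (δ : Bool → Bool) (h : Function.Injective δ) (d : Bool) : δ (!d) = !(δ d) := by
  have h1 : δ (!d) ≠ δ d := fun e => by
    have := h e
    cases d <;> simp at this
  revert h1
  cases δ (!d) <;> cases δ d <;> simp

theorem etr_lc_surj (δ : Bool → Bool) (h : Function.Injective δ) (d' : Bool) : ∃ d, δ d = d' := by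
  by_cases h1 : δ true = d'
  · exact ⟨true, h1⟩
  · refine ⟨false, ?_⟩
    have h2 := etr_lc_not δ h true
    simp only [Bool.not_true] at h2
    rw [h2]
    revert h1
    cases δ true <;> cases d' <;> simp

section links

variable (Φ : Mor N N') {R : ℕ} (hΦ : Φ.Ok R) (hM : TrMet c R) (hM' : TrMet c' R)
include hΦ

/-- the cross certifies the box (source) -/
theorem etr_link_deep {l : Link c} {μ : ℕ} (hμ : 1 ≤ μ) (hd : ∀ i ∈ lcells c R l, Φ.deep μ i) : Φ.deep (2 ^ l.2.2 * R + μ) l.1.1 :=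
  hΦ.cross _ μ _ hμ fun i hi => hd i (etr_cross_lcells c R l i hi)

theorem etr_scale_le {j : ℕ} {p : c.I} (hR : 0 < R) (hd : Φ.deep (2 ^ j * R) p) (hj : j ≤ c'.n) : j ≤ c.n := by
  rcases hΦ.n_ge _ _ hd with h | h
  · have h1 : j < 2 ^ j := Nat.lt_two_pow_self
    have h2 : 2 ^ j ≤ 2 ^ j * R := Nat.le_mul_of_pos_right _ hR
    omega
  · exact hj.trans h

/-- both cells of a face whose first cell is `(1 + ρ)`-deep are `ρ`-deep -/
theorem etr_fcl_deep {f : Face c} (hf : IsFace c f) {ρ : ℕ} (hd : Φ.deep (1 + ρ) f.1) : ∀ i ∈ fcl c f, Φ.deep ρ i := by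
  intro i hi
  exact hΦ.deep_step 1 ρ f.1 i hd (idist_fcl hf (by simp [fcl]) hi)

theorem etr_lbox {f : Face c} (hf : IsFace c f) {j : ℕ} (hd : Φ.deep (2 ^ j * R + 1) f.1) :
    lbox c' R (Φ.F f) j = (lbox c R f j).image Φ.φ := by
  unfold lbox
  rw [etr_fcl Φ hΦ hf]
  exact etr_nbh Φ hΦ (etr_fcl_deep Φ hΦ hf (by rwa [add_comm]))

theorem etr_lbox_deep {f : Face c} (hf : IsFace c f) {j ρ : ℕ} (hd : Φ.deep (2 ^ j * R + 1 + ρ) f.1) : ∀ i ∈ lbox c R f j, Φ.deep ρ i := by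
  unfold lbox
  refine etr_nbh_deep Φ hΦ (etr_fcl_deep Φ hΦ hf ?_)
  have e : 1 + (2 ^ j * R + ρ) = 2 ^ j * R + 1 + ρ := by ring
  rwa [e]

theorem etr_live {l : Link c} (hl : Live c R l) (hd : Φ.deep (2 ^ l.2.2 * R + 1) l.1.1) : Live c' R (Φ.θL l) := by
  obtain ⟨h1, h2, h3⟩ := hl
  refine ⟨(hΦ.face _ h1).1, (hΦ.face _ h2).1, ?_⟩
  show fcl c' (Φ.F l.2.1) ⊆ lbox c' R (Φ.F l.1) l.2.2
  rw [etr_fcl Φ hΦ h2, etr_lbox Φ hΦ h1 hd]
  exact Finset.image_subset_image h3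

theorem etr_lcells {l : Link c} (hl : Live c R l) (hd : Φ.deep (2 ^ l.2.2 * R + 3) l.1.1) :
    lcells c' R (Φ.θL l) = (lcells c R l).image Φ.φ := by
  obtain ⟨f, f', j⟩ := l
  obtain ⟨hf, hf', hbox⟩ := hl
  dsimp only at hf hf' hbox hd
  obtain ⟨ρ, hρ⟩ : ∃ ρ, ρ = 2 ^ j * R := ⟨_, rfl⟩
  rw [← hρ] at hd
  have hface : ∀ p ∈ fcl c f, ∀ a ∈ fcl c f, c.idist p a ≤ 1 := by
    intro p hp a ha
    have h1 := idist_face hf
    have h2 : c.idist (fnb c f) f.1 ≤ 1 := by rw [Geo.geo_idist_comm]; exact h1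
    simp only [fcl, Finset.mem_insert, Finset.mem_singleton] at hp ha
    rcases hp with rfl | rfl <;> rcases ha with rfl | rfl
    · rw [Geo.geo_idist_self]; exact Nat.zero_le _
    · exact h1
    · exact h2
    · rw [Geo.geo_idist_self]; exact Nat.zero_le _
  have hf1 : f.1 ∈ fcl c f := by simp [fcl]
  -- the cells of the first face are deep
  have hdeep : ∀ p ∈ fcl c f, Φ.deep (ρ + 2) p := by
    intro p hp
    refine hΦ.deep_step 1 (ρ + 2) f.1 p ?_ (hface _ hf1 _ hp)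
    rw [show 1 + (ρ + 2) = ρ + 3 by ring]
    exact hd
  -- the second face is close
  have hdist : ∀ p ∈ fcl c f, ∀ p' ∈ fcl c f', c.idist p p' ≤ ρ + 1 := by
    intro p hp p' hp'
    have h1 := hbox hp'
    obtain ⟨a, ha, hap⟩ : ∃ a ∈ fcl c f, c.idist a p' ≤ ρ := by
      rw [hρ]
      simpa [lbox, nbh] using h1
    have h2 := Geo.geo_idist_triangle c p a p'
    have h3 := hface p hp a ha
    omega
  -- directional distances, centre in the first face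
  have hddeq : ∀ p ∈ fcl c f, ∀ (i : c.I) (d : Bool), c'.idist (Φ.φ p) (Φ.φ i) ≤ ρ + 2 →
      dd c' (Φ.δ d) (Φ.φ i) (Φ.φ p) = dd c d i p := by
    intro p hp i d h
    rw [etr_lc_dd_comm c', etr_lc_dd_comm c]
    exact hΦ.dd_eq (ρ + 2) d p i (hdeep p hp) h
  have hpp : ∀ p ∈ fcl c f, ∀ p' ∈ fcl c f', c'.idist (Φ.φ p) (Φ.φ p') ≤ ρ + 1 := fun p hp p' hp' =>
    (etr_idist_le Φ hΦ p p').trans (hdist p hp p' hp')
  ext i'
  rw [etr_mem_lcells, Finset.mem_image]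
  show (∃ p ∈ fcl c' (Φ.F f), ∃ p' ∈ fcl c' (Φ.F f'), ∃ d : Bool,
    (dd c' (!d) i' p = 0 ∧ dd c' d i' p ≤ 2 ^ j * R) ∨ (dd c' (!d) i' p' = 0 ∧ dd c' d i' p ≤ dd c' d p' p)) ↔ _
  rw [etr_fcl Φ hΦ hf, etr_fcl Φ hΦ hf', ← hρ]
  constructor
  · rintro ⟨q, hq, q', hq', d', h⟩
    obtain ⟨p, hp, rfl⟩ := Finset.mem_image.1 hq
    obtain ⟨p', hp', rfl⟩ := Finset.mem_image.1 hq'
    obtain ⟨d, rfl⟩ := etr_lc_surj Φ.δ hΦ.δ_inj d'
    have hq'q : ∀ e : Bool, dd c' e (Φ.φ p') (Φ.φ p) ≤ ρ + 1 := fun e => by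
      rw [etr_lc_dd_comm]
      exact (etr_lc_dd_le c' e _ _).trans (hpp p hp p' hp')
    have hclose : c'.idist (Φ.φ p) i' ≤ ρ + 1 := by
      rw [Geo.geo_idist_comm]
      rcases h with ⟨h1, h2⟩ | ⟨h1, h2⟩
      · exact etr_lc_idist_le c' (Φ.δ d) _ _ (h2.trans (Nat.le_succ _)) (by rw [h1]; exact Nat.zero_le _)
      · refine etr_lc_idist_le c' (Φ.δ d) _ _ (h2.trans (hq'q _)) ?_
        have h3 := etr_lc_dd_tri c' (!Φ.δ d) i' (Φ.φ p') (Φ.φ p)
        have h4 := hq'q (!Φ.δ d)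
        omega
    obtain ⟨i, rfl, -, -⟩ := etr_lift Φ hΦ (ρ := ρ + 1) (ρ' := 1) (hdeep p hp) hclose
    refine ⟨i, ?_, rfl⟩
    rw [etr_mem_lcells]
    refine ⟨p, hp, p', hp', d, ?_⟩
    show (dd c (!d) i p = 0 ∧ dd c d i p ≤ 2 ^ j * R) ∨ (dd c (!d) i p' = 0 ∧ dd c d i p ≤ dd c d p' p)
    rw [← hρ]
    rw [← etr_lc_not Φ.δ hΦ.δ_inj, hΦ.dd_zero, hΦ.dd_zero, hddeq p hp i d (hclose.trans (Nat.le_succ _)),
      hddeq p hp p' d ((hpp p hp p' hp').trans (Nat.le_succ _))] at h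
    exact h
  · rintro ⟨i, hi, rfl⟩
    rw [etr_mem_lcells] at hi
    obtain ⟨p, hp, p', hp', d, h⟩ := hi
    change (dd c (!d) i p = 0 ∧ dd c d i p ≤ 2 ^ j * R) ∨ (dd c (!d) i p' = 0 ∧ dd c d i p ≤ dd c d p' p) at h
    rw [← hρ] at h
    refine ⟨Φ.φ p, Finset.mem_image_of_mem _ hp, Φ.φ p', Finset.mem_image_of_mem _ hp', Φ.δ d, ?_⟩
    rw [← etr_lc_not Φ.δ hΦ.δ_inj, hΦ.dd_zero, hΦ.dd_zero, hddeq p hp p' d ((hpp p hp p' hp').trans (Nat.le_succ _))]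
    rcases h with ⟨h1, h2⟩ | ⟨h1, h2⟩
    · exact Or.inl ⟨h1, (hΦ.dd_le d i p).trans h2⟩
    · exact Or.inr ⟨h1, (hΦ.dd_le d i p).trans h2⟩

include hM in
/-- the cross certifies the box (target): lifting of a link -/
theorem etr_link_lift {l' : Link c'} (hl' : Live c' R l') {μ : ℕ} (hμ : 1 ≤ μ)
    (hd : ∀ i' ∈ lcells c' R l', ∃ i, Φ.φ i = i' ∧ Φ.deep (μ + 1) i) :
    ∃ l, Live c R l ∧ Φ.θL l = l' ∧ Φ.deep (2 ^ l.2.2 * R + μ) l.1.1 := by
  obtain ⟨⟨f1', f2', j⟩, rfl⟩ : ∃ x : Face c' × Face c' × ℕ, x = l' := ⟨l', rfl⟩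
  obtain ⟨hf1', hf2', hsub⟩ := hl'
  simp only at hf1' hf2' hsub
  -- the first face
  obtain ⟨i0, hi0, hd0⟩ := hd f1'.1 (etr_cross_lcells c' R (f1', f2', j) f1'.1
    (Or.inl ⟨by simp [dd, Geo.geo_idist1_self], by simp [dd, Geo.geo_idist1_self]⟩))
  obtain ⟨f1, hf1, hF1⟩ := hΦ.face_lift f1' i0 hf1' (hΦ.deep_mono _ 1 _ (by omega) hd0) (Or.inl hi0.symm)
  -- the second face
  obtain ⟨i2, hi2, hd2⟩ := hd f2'.1 (etr_fcl2_lcells c' R (f1', f2', j) (by simp [fcl]))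
  obtain ⟨f2, hf2, hF2⟩ := hΦ.face_lift f2' i2 hf2' (hΦ.deep_mono _ 1 _ (by omega) hd2) (Or.inl hi2.symm)
  -- depth of the first cell
  have hmem : Φ.φ f1.1 ∈ fcl c' f1' := by
    rw [← hF1, etr_fcl Φ hΦ hf1]
    exact Finset.mem_image_of_mem _ (by simp [fcl])
  have hdeep : Φ.deep (2 ^ j * R + (μ + 1)) f1.1 :=
    hΦ.cross' _ (μ + 1) _ (by omega) fun i' hi' => hd i' (etr_cross_lcells' c' R (f1', f2', j) hmem i' hi')
  refine ⟨(f1, f2, j), ⟨hf1, hf2, ?_⟩, ?_, hΦ.deep_mono _ _ _ (by show 2 ^ j * R + μ ≤ _; omega) hdeep⟩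
  · show fcl c f2 ⊆ lbox c R f1 j
    rw [← hF1, ← hF2, etr_fcl Φ hΦ hf2, etr_lbox Φ hΦ hf1 (hΦ.deep_mono _ _ _ (by omega) hdeep)] at hsub
    exact (Finset.image_subset_image_iff hΦ.φ_inj).1 hsub
  · show (Φ.F f1, Φ.F f2, j) = (f1', f2', j)
    rw [hF1, hF2]

include hM in
theorem etr_θL_inj : Set.InjOn Φ.θL {l | Live c R l} := by
  rintro ⟨f1, f2, j⟩ h ⟨e1, e2, j'⟩ h' heq
  have h0 : (Φ.F f1, Φ.F f2, j) = (Φ.F e1, Φ.F e2, j') := heq
  simp only [Prod.mk.injEq] at h0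
  obtain ⟨a1, a2, a3⟩ := h0
  have b1 : f1 = e1 := etr_F_inj Φ hΦ hM.n3 h.1 h'.1 a1
  have b2 : f2 = e2 := etr_F_inj Φ hΦ hM.n3 h.2.1 h'.2.1 a2
  rw [b1, b2, a3]

omit hΦ in
/-- a performed event is an event and its core lies in the box (one volume) -/
theorem etr_perf_core_one {G₀ : Geom} {c : Grid G₀} {R : ℕ} (hM : TrMet c R) {O : Finset c.I} {k : EvId} (hk : k ∈ Wt.perf (c := c) R O) :
    k ∈ events c R ∧ core c R k ⊆ O := by
  unfold Wt.perf at hk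
  obtain ⟨h1, h2⟩ := Finset.mem_filter.1 hk
  refine ⟨h1, ?_⟩
  by_cases hk1 : k.1 = true
  · rw [if_pos hk1] at h2
    intro i hi
    refine h2 ?_
    unfold nbh
    refine Finset.mem_filter.2 ⟨Finset.mem_univ _, i, hi, ?_⟩
    have := hM.core_diam k i i hi hi
    exact this
  · rw [if_neg hk1] at h2
    exact (hM.core_patch k).trans h2

omit hΦ in
/-- the core of an event is not empty -/
theorem etr_core_nonempty {G₀ : Geom} {c : Grid G₀} {R : ℕ} {k : EvId} (hk : k ∈ events c R) : (core c R k).Nonempty := by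
  unfold events at hk
  obtain ⟨f, hf, rfl⟩ := Finset.mem_image.1 hk
  refine ⟨f.1, ?_⟩
  unfold core cutF
  exact Finset.mem_union_left _ (Finset.mem_image.2 ⟨f, Finset.mem_filter.2 ⟨hf, rfl⟩, rfl⟩)

include hM in
theorem etr_perf_core {O : Finset c.I} {k : EvId} (hk : k ∈ Wt.perf (c := c) R O) : k ∈ events c R ∧ core c R k ⊆ O := by
  exact etr_perf_core_one hM hk

include hM hM' in
/-- membership of the image of an event with a deep core -/
theorem etr_perf_iff {O : Finset c.I} {k : EvId} (hk : k ∈ events c R) (hd : ∀ i ∈ core c R k, Φ.deep (2 * R) i) :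
    Φ.θE k ∈ Wt.perf (c := c') R (O.image Φ.φ) ↔ k ∈ Wt.perf (c := c) R O := by
  unfold Wt.perf
  rw [Finset.mem_filter, Finset.mem_filter, hΦ.θE_fst k]
  have e1 : Φ.θE k ∈ events c' R := etr_events_mem Φ hΦ hk
  have e2 := etr_core Φ hΦ hM hM' hk hd
  have e3 := etr_patch Φ hΦ hM hM' hk hd
  have e4 : nbh c' R ((core c R k).image Φ.φ) = (nbh c R (core c R k)).image Φ.φ :=
    etr_nbh Φ hΦ fun i hi => hΦ.deep_mono _ _ i (by omega) (hd i hi)
  rw [e2, e3, e4, Finset.image_subset_image_iff hΦ.φ_inj, Finset.image_subset_image_iff hΦ.φ_inj]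
  exact ⟨fun h => ⟨hk, h.2⟩, fun h => ⟨e1, h.2⟩⟩

include hM hM' in
theorem etr_perf {O : Finset c.I} (hO : ∀ i ∈ O, Φ.deep (3 * R) i) :
    Wt.perf (c := c') R (O.image Φ.φ) = (Wt.perf (c := c) R O).image Φ.θE := by
  have hR := hM.pos
  ext k'
  constructor
  · intro hk'
    obtain ⟨h1, h2⟩ := etr_perf_core_one hM' hk'
    obtain ⟨i', hi'⟩ := etr_core_nonempty h1
    obtain ⟨i, hi, rfl⟩ := Finset.mem_image.1 (h2 hi')
    obtain ⟨k, hk, rfl, hik⟩ := etr_event_lift Φ hΦ hi' (hΦ.deep_mono _ _ i (by omega) (hO i hi))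
    have hd : ∀ j ∈ core c R k, Φ.deep (2 * R) j :=
      etr_core_deep Φ hΦ hM hik (ρ := 2 * R) (by
        have : R + 2 * R = 3 * R := by ring
        rw [this]
        exact hO i hi)
    exact Finset.mem_image.2 ⟨k, (etr_perf_iff Φ hΦ hM hM' hk hd).1 hk', rfl⟩
  · intro hk'
    obtain ⟨k, hk, rfl⟩ := Finset.mem_image.1 hk'
    obtain ⟨h1, h2⟩ := etr_perf_core_one hM hk
    have hd : ∀ j ∈ core c R k, Φ.deep (2 * R) j := fun j hj => hΦ.deep_mono _ _ j (by omega) (hO j (h2 hj))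
    exact (etr_perf_iff Φ hΦ hM hM' h1 hd).2 hk

end links

/-! ## 7. The field-independent weights -/

section weightsQ

variable (Φ : Mor N N') {R : ℕ} (hΦ : Φ.Ok R) (hM : TrMet c R) (hM' : TrMet c' R) {W : Wt c} {W' : Wt c'} (hQ : QNIso Φ W W')
include hΦ hM hM' hQ

theorem etr_Mbox {O : Finset c.I} (hO : ∀ i ∈ O, Φ.deep (3 * R) i) {f f' : Face c} (hf : IsFace c f) (hf' : IsFace c f') :
    W.Mbox R O f f' = (Φ.sg f : ℝ) * (Φ.sg f' : ℝ) * W'.Mbox R (O.image Φ.φ) (Φ.F f) (Φ.F f') := by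
  have hR := hM.pos
  have hO1 : ∀ i ∈ O, Φ.deep 1 i := fun i hi => hΦ.deep_mono _ _ i (by omega) (hO i hi)
  have hperf := etr_perf Φ hΦ hM hM' hO
  have hcore : ∀ k ∈ Wt.perf (c := c) R O, k ∈ events c R ∧ ∀ j ∈ core c R k, Φ.deep (2 * R) j := by
    intro k hk
    obtain ⟨h1, h2⟩ := etr_perf_core Φ hΦ hM hk
    exact ⟨h1, fun j hj => hΦ.deep_mono _ _ j (by omega) (hO j (h2 hj))⟩
  unfold Wt.Mbox
  rw [hQ.Q _ (etr_ok_restr_full O) f f' hf hf', hQ.Q _ (etr_ok_restr_topU R _ O) f f' hf hf',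
    etr_top_restr_full Φ hΦ hM hO1,
    etr_top_restr_topU Φ hΦ hM (U' := events c' R \ Wt.perf (c := c') R (O.image Φ.φ)) hO1 (by
      intro e he _ _
      have hk : evKey c R e ∈ events c R := Finset.mem_image.2 ⟨e, he, rfl⟩
      rw [Finset.mem_sdiff, Finset.mem_sdiff, hperf]
      constructor
      · intro h
        exact ⟨hk, fun hn => h.2 (Finset.mem_image.2 ⟨_, hn, rfl⟩)⟩
      · intro h
        refine ⟨etr_events_mem Φ hΦ hk, fun hn => h.2 ?_⟩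
        obtain ⟨k, hk2, hkk⟩ := Finset.mem_image.1 hn
        have := hΦ.θE_inj (Finset.mem_coe.2 (hcore k hk2).1) (Finset.mem_coe.2 hk) hkk
        rw [← this]
        exact hk2),
    hperf, Finset.sum_image (fun x hx y hy hxy =>
      hΦ.θE_inj (Finset.mem_coe.2 (hcore x hx).1) (Finset.mem_coe.2 (hcore y hy).1) hxy)]
  have hsum : ∑ k ∈ Wt.perf (c := c) R O, (W.Q (topO c R k) f f' - W.Q (topC c R k) f f')
      = (Φ.sg f : ℝ) * (Φ.sg f' : ℝ) * ∑ k ∈ Wt.perf (c := c) R O,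
        (W'.Q (topO c' R (Φ.θE k)) (Φ.F f) (Φ.F f') - W'.Q (topC c' R (Φ.θE k)) (Φ.F f) (Φ.F f')) := by
    rw [Finset.mul_sum]
    refine Finset.sum_congr rfl fun k hk => ?_
    obtain ⟨h1, h2⟩ := hcore k hk
    rw [hQ.Q (topO c R k) (etr_ok_restr_topU R _ _) f f' hf hf', hQ.Q (topC c R k) (etr_ok_restr_topU R _ _) f f' hf hf',
      etr_topO Φ hΦ hM hM' h1 h2, etr_topC Φ hΦ hM hM' h1 h2]
    ring
  rw [hsum]
  ring

theorem etr_lkc {l : Link c} (hl : Live c R l) (hd : Φ.deep (2 ^ l.2.2 * R + 1 + 3 * R) l.1.1) :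
    W.lkc R l = (Φ.sg l.1 : ℝ) * (Φ.sg l.2.1 : ℝ) * W'.lkc R (Φ.θL l) := by
  obtain ⟨hf, hf', -⟩ := hl
  unfold Wt.lkc
  have e0 : (Φ.θL l).1 = Φ.F l.1 := rfl
  have e1 : (Φ.θL l).2.1 = Φ.F l.2.1 := rfl
  have e2 : (Φ.θL l).2.2 = l.2.2 := rfl
  rw [e0, e1, e2]
  have key : ∀ j, j ≤ l.2.2 → W.Mbox R (lbox c R l.1 j) l.1 l.2.1
      = (Φ.sg l.1 : ℝ) * (Φ.sg l.2.1 : ℝ) * W'.Mbox R (lbox c' R (Φ.F l.1) j) (Φ.F l.1) (Φ.F l.2.1) := by
    intro j hj
    have hpow : 2 ^ j * R ≤ 2 ^ l.2.2 * R := Nat.mul_le_mul_right _ (Nat.pow_le_pow_right (by norm_num) hj)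
    have hd' : Φ.deep (2 ^ j * R + 1 + 3 * R) l.1.1 := hΦ.deep_mono _ _ _ (by omega) hd
    rw [etr_lbox Φ hΦ hf (hΦ.deep_mono _ _ _ (by omega) hd')]
    exact etr_Mbox Φ hΦ hM hM' hQ (etr_lbox_deep Φ hΦ hf hd') hf hf'
  rw [key _ le_rfl]
  by_cases h0 : l.2.2 = 0
  · rw [if_pos h0, if_pos h0]
    ring
  · rw [if_neg h0, if_neg h0, key _ (Nat.sub_le _ _)]
    ring

end weightsQ

/-! ## 8. The field-dependent weights -/

omit N in
/-- the energy only sees the retained faces -/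
theorem etr_En_faces {W : Wt c} (hW : W.Str) (T : Top c) (y : c.I → ℂ) :
    W.En T y = ∑ f ∈ T.faces, ∑ f' ∈ T.faces, (W.Q T f f' : ℂ) * W.w y f * W.w y f' := by
  unfold Wt.En
  rw [← Finset.sum_subset (Finset.subset_univ T.faces)]
  · refine Finset.sum_congr rfl fun f _ => ?_
    rw [← Finset.sum_subset (Finset.subset_univ T.faces)]
    intro f' _ hf'
    rw [hW.Q_supp T f f' (Or.inr hf')]
    simp
  · intro f _ hf
    refine Finset.sum_eq_zero fun f' _ => ?_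
    rw [hW.Q_supp T f f' (Or.inl hf)]
    simp

theorem etr_sg_sq (Φ : Mor N N') (f : Face c) : ((Φ.sg f : ℤ) : ℂ) * ((Φ.sg f : ℤ) : ℂ) = 1 := by
  unfold Mor.sg
  split_ifs <;> simp

section weightsY

variable (Φ : Mor N N') {R : ℕ} (hΦ : Φ.Ok R) (hM : TrMet c R) (hM' : TrMet c' R) {W : Wt c} {W' : Wt c'} (hW : W.Str) (hW' : W'.Str)
  (hQ : QNIso Φ W W') {D : Finset c.I} {y : c.I → ℂ} {y' : c'.I → ℂ} (hY : YRel Φ W W' D y y')
include hΦ hM hM' hW hW' hQ hY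

theorem etr_En {T : Top c} (hT : T.Ok) (hD : T.cells ⊆ D) : W.En T y = W'.En (Φ.top T) y' := by
  have hinj : Set.InjOn Φ.F (T.faces : Set (Face c)) :=
    (etr_F_inj Φ hΦ hM.n3).mono fun f hf => (hT f hf).1
  rw [etr_En_faces hW, etr_En_faces hW']
  show _ = ∑ f ∈ T.faces.image Φ.F, ∑ f' ∈ T.faces.image Φ.F, _
  rw [Finset.sum_image hinj]
  refine Finset.sum_congr rfl fun f hf => ?_
  rw [Finset.sum_image hinj]
  refine Finset.sum_congr rfl fun f' hf' => ?_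
  obtain ⟨h1, h2, h3⟩ := hT f hf
  obtain ⟨h1', h2', h3'⟩ := hT f' hf'
  rw [hQ.Q T hT f f' h1 h1', hY.w f h1 (hD h2) (hD h3), hY.w f' h1' (hD h2') (hD h3')]
  push_cast
  linear_combination ((W'.Q (Φ.top T) (Φ.F f) (Φ.F f') : ℂ) * W'.w y' (Φ.F f) * W'.w y' (Φ.F f')) *
    (((Φ.sg f' : ℤ) : ℂ) * ((Φ.sg f' : ℤ) : ℂ) * etr_sg_sq Φ f + etr_sg_sq Φ f')

theorem etr_prox {k : EvId} (hk : k ∈ events c R) (hd : ∀ i ∈ core c R k, Φ.deep (2 * R) i) (hD : patch c R k ⊆ D) :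
    W.prox R k y = W'.prox R (Φ.θE k) y' := by
  have hO : (topO c R k).Ok := etr_ok_restr_topU R _ _
  have hC : (topC c R k).Ok := etr_ok_restr_topU R _ _
  have hOD : (topO c R k).cells ⊆ D := Finset.inter_subset_right.trans hD
  have hCD : (topC c R k).cells ⊆ D := Finset.inter_subset_right.trans hD
  unfold Wt.prox
  rw [hQ.N _ hO, hQ.N _ hC, etr_En Φ hΦ hM hM' hW hW' hQ hY hO hOD, etr_En Φ hΦ hM hM' hW hW' hQ hY hC hCD,
    etr_topO Φ hΦ hM hM' hk hd, etr_topC Φ hΦ hM hM' hk hd]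

theorem etr_tdiv {t : Tile} (ht : ∃ i, tile c R i = t ∧ Φ.deep (2 * R) i) (hD : cellsOf c R {t} ⊆ D) :
    W.tdiv R t y = W'.tdiv R (Φ.θT t) y' := by
  have hO : (tileTop c R t).Ok := etr_ok_restr_full _
  have hOD : (tileTop c R t).cells ⊆ D := Finset.inter_subset_right.trans hD
  unfold Wt.tdiv
  rw [hQ.N _ hO, etr_En Φ hΦ hM hM' hW hW' hQ hY hO hOD, etr_tileTop Φ hΦ hM hM' ht]

theorem etr_tfac {t : Tile} (ht : ∃ i, tile c R i = t ∧ Φ.deep (2 * R) i) (hD : cellsOf c R {t} ⊆ D) :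
    W.tfac R t y = W'.tfac R (Φ.θT t) y' := by
  have hO : (tileTop c R t).Ok := etr_ok_restr_full _
  have hOD : (tileTop c R t).cells ⊆ D := Finset.inter_subset_right.trans hD
  unfold Wt.tfac
  rw [hY.Zh _ hO hOD, etr_tdiv Φ hΦ hM hM' hW hW' hQ hY ht hD, etr_tileTop Φ hΦ hM hM' ht]

omit hΦ hM hM' hW hW' hQ hY in
/-- sums over the subsets of an image under a map which is injective on the set -/
theorem etr_sum_powerset_image {α α' β : Type} [DecidableEq α] [DecidableEq α'] [AddCommMonoid β] (A : Finset α) (e : α → α')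
    (he : Set.InjOn e A) (f : Finset α' → β) : ∑ ε ∈ (A.image e).powerset, f ε = ∑ ε ∈ A.powerset, f (ε.image e) := by
  rw [Finset.powerset_image, Finset.sum_image]
  intro x hx y hy hxy
  have hx' : x ⊆ A := Finset.mem_powerset.1 hx
  have hy' : y ⊆ A := Finset.mem_powerset.1 hy
  have aux : ∀ x y : Finset α, x ⊆ A → y ⊆ A → x.image e = y.image e → x ⊆ y := by
    intro x y hx hy hxy a ha
    have : e a ∈ y.image e := hxy ▸ Finset.mem_image_of_mem e ha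
    obtain ⟨b, hb, hab⟩ := Finset.mem_image.1 this
    have := he (Finset.mem_coe.2 (hy hb)) (Finset.mem_coe.2 (hx ha)) hab
    rw [← this]
    exact hb
  exact Finset.Subset.antisymm (aux x y hx' hy' hxy) (aux y x hy' hx' hxy.symm)

theorem etr_haloTerm {S O : Finset EvId} (hS : EvDeep Φ R (6 * R) S) (hO : O ⊆ S) (hD : halC c R S ⊆ D) :
    W.haloTerm R S O y = W'.haloTerm R (S.image Φ.θE) (O.image Φ.θE) y' := by
  have hS2 := etr_skp_deep Φ hΦ hM hS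
  have hsub : skp c R S ∪ O ⊆ S ∪ skp c R S :=
    Finset.union_subset Finset.subset_union_right (hO.trans Finset.subset_union_left)
  unfold Wt.haloTerm
  rw [← etr_halTop Φ hΦ hM hM' hS hO, etr_skp Φ hΦ hM hM' hS, etr_halT Φ hΦ hM hM' hS, ← Finset.image_union,
    Finset.prod_image (fun x hx y hy hxy =>
      hΦ.θE_inj (Finset.mem_coe.2 (hS2.1 (hsub hx))) (Finset.mem_coe.2 (hS2.1 (hsub hy))) hxy),
    Finset.prod_image (fun x hx y hy hxy => by
      have tl : ∀ t ∈ halT c R S, t ∈ tiles c R := by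
        intro t ht
        unfold halT at ht
        obtain ⟨i, -, rfl⟩ := Finset.mem_image.1 ht
        exact Finset.mem_image.2 ⟨i, Finset.mem_univ _, rfl⟩
      exact hΦ.θT_inj (Finset.mem_coe.2 (tl x hx)) (Finset.mem_coe.2 (tl y hy)) hxy)]
  have e1 : W.Zh (halTop c R S O) y = W'.Zh (Φ.top (halTop c R S O)) y' := by
    refine hY.Zh _ (etr_ok_restr_topU R _ _) ?_
    exact Finset.inter_subset_right.trans hD
  have e2 : ∏ k ∈ skp c R S ∪ O, W.prox R k y = ∏ k ∈ skp c R S ∪ O, W'.prox R (Φ.θE k) y' := by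
    refine Finset.prod_congr rfl fun k hk => ?_
    exact etr_prox Φ hΦ hM hM' hW hW' hQ hY (hS2.1 (hsub hk)) (hS2.2 k (hsub hk)) ((hM.patch_halC S k (hsub hk)).trans hD)
  have e3 : ∏ t ∈ halT c R S, W.tdiv R t y = ∏ t ∈ halT c R S, W'.tdiv R (Φ.θT t) y' := by
    refine Finset.prod_congr rfl fun t ht => ?_
    refine etr_tdiv Φ hΦ hM hM' hW hW' hQ hY (etr_halT_deep Φ hΦ hM hS t ht) ?_
    refine Finset.Subset.trans ?_ hD
    intro i hi
    unfold cellsOf at hi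
    unfold halC cellsOf
    have := (Finset.mem_filter.1 hi).2
    rw [Finset.mem_singleton] at this
    exact Finset.mem_filter.2 ⟨Finset.mem_univ _, this ▸ ht⟩
  rw [e1, e2, e3]

theorem etr_halo {S : Finset EvId} (hS : EvDeep Φ R (6 * R) S) (hD : halC c R S ⊆ D) :
    W.halo R S y = W'.halo R (S.image Φ.θE) y' := by
  have hinj : Set.InjOn Φ.θE S := hΦ.θE_inj.mono (Finset.coe_subset.2 hS.1)
  unfold Wt.halo
  rw [etr_sum_powerset_image S Φ.θE hinj]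
  refine Finset.sum_congr rfl fun O hO => ?_
  have hO' : O ⊆ S := Finset.mem_powerset.1 hO
  rw [etr_haloTerm Φ hΦ hM hM' hW hW' hQ hY hS hO' hD]
  congr 2
  have : S.image Φ.θE \ O.image Φ.θE = (S \ O).image Φ.θE := by
    ext k'
    simp only [Finset.mem_sdiff, Finset.mem_image]
    constructor
    · rintro ⟨⟨k, hk, rfl⟩, h2⟩
      exact ⟨k, ⟨hk, fun hn => h2 ⟨k, hn, rfl⟩⟩, rfl⟩
    · rintro ⟨k, ⟨hk, hn⟩, rfl⟩
      refine ⟨⟨k, hk, rfl⟩, ?_⟩
      rintro ⟨k2, hk2, hkk⟩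
      have := hinj (Finset.mem_coe.2 (hO' hk2)) (Finset.mem_coe.2 hk) hkk
      exact hn (this ▸ hk2)
  rw [this, Finset.card_image_of_injOn (hinj.mono (Finset.coe_subset.2 Finset.sdiff_subset))]

theorem etr_lfac {l : Link c} (hl : Live c R l) (hd : Φ.deep (2 ^ l.2.2 * R + 1 + 3 * R) l.1.1) (hD : lcells c R l ⊆ D) :
    W.lfac R l y = W'.lfac R (Φ.θL l) y' := by
  have h1 : l.1.1 ∈ D := hD (fcl_subset_lcells R l (by simp [fcl]))
  have h2 : fnb c l.1 ∈ D := hD (fcl_subset_lcells R l (by simp [fcl]))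
  have h3 : l.2.1.1 ∈ D := hD (fcl_subset_lcells' R l (by simp [fcl]))
  have h4 : fnb c l.2.1 ∈ D := hD (fcl_subset_lcells' R l (by simp [fcl]))
  have e1 := etr_lkc Φ hΦ hM hM' hQ hl hd
  have e2 := hY.w l.1 hl.1 h1 h2
  have e3 := hY.w l.2.1 hl.2.1 h3 h4
  have s1 : ((Φ.sg l.1 : ℤ) : ℂ) * ((Φ.sg l.1 : ℤ) : ℂ) = 1 := by
    unfold Mor.sg
    split_ifs <;> simp
  have s2 : ((Φ.sg l.2.1 : ℤ) : ℂ) * ((Φ.sg l.2.1 : ℤ) : ℂ) = 1 := by
    unfold Mor.sg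
    split_ifs <;> simp
  unfold Wt.lfac
  rw [e1, e2, e3]
  have e4 : (((Φ.sg l.1 : ℝ) * (Φ.sg l.2.1 : ℝ) * W'.lkc R (Φ.θL l) : ℝ) : ℂ) * ((Φ.sg l.1 : ℂ) * W'.w y' (Φ.F l.1))
      * ((Φ.sg l.2.1 : ℂ) * W'.w y' (Φ.F l.2.1))
      = (((Φ.sg l.1 : ℤ) : ℂ) * ((Φ.sg l.1 : ℤ) : ℂ)) * (((Φ.sg l.2.1 : ℤ) : ℂ) * ((Φ.sg l.2.1 : ℤ) : ℂ))
        * ((W'.lkc R (Φ.θL l) : ℂ) * W'.w y' (Φ.F l.1) * W'.w y' (Φ.F l.2.1)) := by
    push_cast
    ring
  rw [e4, s1, s2, one_mul, one_mul]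
  rfl

end weightsY

end

end Claimed.Agent.R285.Ent
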