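import Claimed.Agent.R285.Ent.TrPat
import Claimed.Agent.R285.Ent.TrLaw

/-!
# ROW 285, POST TRANSPORT: the transport theorem            (helper238)
`etr_Kact`, `etr_Jact`: the activities of two volumes related by a morphism agree on deep supports, for GENERAL weights related by `WtIso`.
-/

set_option autoImplicit false

namespace Claimed.Agent.R285.Ent

open scoped BigOperators ENNReal NNReal
open MeasureTheory ProbabilityTheory
open Claimed.Agent.R285 Claimed.Agent.R285.RG Claimed.Agent.R285.F4a Claimed.Agent.R285.F4b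

noncomputable section

variable {G G' : Geom} {c g : Grid G} {c' g' : Grid G'} {N : Nest c g} {N' : Nest c' g'}

/-- related observations -/
theorem WtIso.yrel {Φ : Mor N N'} {R : ℕ} (hΦ : Φ.Ok R) {W : Wt c} {W' : Wt c'} (h : WtIso Φ W W') (D : Finset c.I) {y : c.I → ℂ} {y' : c'.I → ℂ}
    (hy : ∀ i ∈ D, y' (Φ.φ i) = y i) : YRel Φ W W' D y y' := by
  refine ⟨fun T hT hD => h.Zh T hT y y' fun i hi => hy i (hD hi), fun f hf h1 h2 => ?_⟩
  have hF := hΦ.face f hf
  have hτ := h.τ f hf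
  unfold Wt.w wfC
  rw [hτ, hF.2]
  unfold Mor.F Mor.sg
  by_cases hr : Φ.rv f.2
  · simp only [hr, if_true]
    rw [hy _ h1, hy _ h2]
    push_cast
    ring
  · simp only [hr, if_false, Bool.false_eq_true]
    rw [hy _ h1, hy _ h2]
    push_cast
    ring

section transport

variable (Φ : Mor N N') {R : ℕ} (hΦ : Φ.Ok R) (hc : GeoOK c R) (hc' : GeoOK c' R) (hg : g.Ok)
  {W : Wt c} {W' : Wt c'} (hW : W.Str) (hW' : W'.Str) (hI : WtIso Φ W W')
include hΦ hc hc' hg hW hW' hI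

omit hΦ hc hc' hg hW hW' hI in
theorem etr_site_under (X : Finset g.I) {z : G.V → ℂ} {z' : G'.V → ℂ} (hz : ∀ v ∈ g.sites X, z' (Φ.ψ v) = z v) :
    ∀ v, c.blk v ∈ under N X → z' (Φ.ψ v) = z v := by
  intro v hv
  refine hz v ?_
  have h1 : N.up (c.blk v) ∈ X := (Finset.mem_filter.1 hv).2
  have h2 : g.blk v = N.up (c.blk v) := Prod.ext (N.comm v.1) (N.comm v.2)
  exact Finset.mem_filter.2 ⟨Finset.mem_univ _, h2 ▸ h1⟩

omit hΦ hc hc' hW hW' hI in
theorem etr_up_surj : Function.Surjective N.up := by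
  intro u
  obtain ⟨v1, h1⟩ := hg.surj u.1
  obtain ⟨v2, h2⟩ := hg.surj u.2
  exact ⟨(c.blk1 v1, c.blk1 v2), Prod.ext ((N.comm v1).symm.trans h1) ((N.comm v2).symm.trans h2)⟩

/-- **THE TRANSPORT THEOREM, labelled form** -/
theorem etr_Jact (a : ℝ) (X Cs : Finset g.I) (hX : ∀ i ∈ under N X, Φ.deep (etrMu R) i) {t0 : Tile} (ht0 : ∃ i, tile c R i = t0 ∧ Φ.deep (2 * R) i)
    (hD0 : cellsOf c R {t0} ⊆ under N X) (z : G.V → ℂ) (z' : G'.V → ℂ) (hz : ∀ v ∈ g.sites X, z' (Φ.ψ v) = z v) :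
    W.Jact a N R t0 Cs X z = W'.Jact a N' R (Φ.θT t0) (Cs.image Φ.φg) (X.image Φ.φg) z' := by
  have hconn := etr_conn Φ hΦ (etr_up_surj (N := N) hg) X hX
  have hM := etr_met hc
  have hM' := etr_met hc'
  unfold Wt.Jact
  by_cases h : g.Conn RR X
  · rw [if_pos h, if_pos (hconn.2 h), Finset.sum_apply, Finset.sum_apply]
    refine etr_sum_patterns Φ hΦ hM hM' X Cs hX (fun π => eav a c g.m (W.pfacL R t0 π) z)
      (fun π' => eav a c' g'.m (W'.pfacL R (Φ.θT t0) π') z') fun π hπ => ?_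
    refine etl_eav Φ hΦ hc.whole hc'.whole hg.pos a (under N X) (fun i hi => hΦ.deep_mono _ _ i (by unfold etrMu; omega) (hX i hi)) _ _
      (fun y y' hy => ?_) z z' (etr_site_under Φ X hz)
    exact etr_pfacL Φ hΦ hM hM' hW hW' hI.toQNIso (hI.yrel hΦ _ hy) hπ ht0 hD0
  · rw [if_neg h, if_neg fun h' => h (hconn.1 h')]
    rfl

/-- **THE TRANSPORT THEOREM** -/
theorem etr_Kact (a : ℝ) (X : Finset g.I) (hX : ∀ i ∈ under N X, Φ.deep (etrMu R) i) (z : G.V → ℂ) (z' : G'.V → ℂ)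
    (hz : ∀ v ∈ g.sites X, z' (Φ.ψ v) = z v) :
    W.Kact a N R X z = W'.Kact a N' R (X.image Φ.φg) z' := by
  have hconn := etr_conn Φ hΦ (etr_up_surj (N := N) hg) X hX
  have hM := etr_met hc
  have hM' := etr_met hc'
  unfold Wt.Kact Wt.EF
  by_cases h : g.Conn RR X
  · rw [if_pos h, if_pos (hconn.2 h), Finset.sum_apply, Finset.sum_apply]
    have key := etr_sum_patterns Φ hΦ hM hM' X ∅ hX (fun π => eav a c g.m (W.pfac R π) z)
      (fun π' => eav a c' g'.m (W'.pfac R π') z') fun π hπ => ?_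
    · simpa only [Finset.image_empty, Finset.empty_union] using key
    refine etl_eav Φ hΦ hc.whole hc'.whole hg.pos a (under N X) (fun i hi => hΦ.deep_mono _ _ i (by unfold etrMu; omega) (hX i hi)) _ _
      (fun y y' hy => ?_) z z' (etr_site_under Φ X hz)
    exact etr_pfac Φ hΦ hM hM' hW hW' hI.toQNIso (hI.yrel hΦ _ hy) hπ
  · rw [if_neg h, if_neg fun h' => h (hconn.1 h')]
    rfl

end transport

end

end Claimed.Agent.R285.Ent
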