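import Claimed.Agent.R285.Ent.TrLink

/-!
# ROW 285, POST TRANSPORT, CELL LEVEL, part 3: items, patterns, covers, the reindexing of the sums            (architect helper238)
Paper-free.  Conventions and rules for provers: header of `Ent/TrGeo.lean`; all statements of `TrGeo.lean`, `TrLink.lean` and the earlier ones of this file are black boxes.
-/

set_option autoImplicit false

namespace Claimed.Agent.R285.Ent

open scoped BigOperators ENNReal NNReal
open MeasureTheory ProbabilityTheory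
open Claimed.Agent.R285 Claimed.Agent.R285.RG Claimed.Agent.R285.F4a

noncomputable section

variable {G G' : Geom} {c g : Grid G} {c' g' : Grid G'} {N : Nest c g} {N' : Nest c' g'}

/-! ## 9. Items -/

/-- all cells of the item are `ρ`-deep -/
def ItemDeep (Φ : Mor N N') (R ρ : ℕ) (I : Item c) : Prop := ∀ i ∈ icells c R I, Φ.deep ρ i

theorem etr_mem_items {R : ℕ} {I : Item c} : I ∈ items c R ↔
    match I with
    | Sum.inl k => k ∈ events c R
    | Sum.inr (Sum.inl t) => t ∈ tiles c R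
    | Sum.inr (Sum.inr l) => l.2.2 ≤ c.n ∧ Live c R l := by
  rcases I with k | t | l
  · simp [items]
  · simp [items]
  · simp [items, links, linksAll]

/-- a core cell of an event -/
theorem etr_core_ne {R : ℕ} {k : EvId} (hk : k ∈ events c R) : ∃ i, i ∈ core c R k := by
  obtain ⟨f, hf, rfl⟩ := Finset.mem_image.1 hk
  refine ⟨f.1, Finset.mem_union_left _ (Finset.mem_image.2 ⟨f, ?_, rfl⟩)⟩
  exact Finset.mem_filter.2 ⟨hf, rfl⟩

theorem etr_core_icells {R : ℕ} (hM : TrMet c R) (k : EvId) : core c R k ⊆ icells c R (Sum.inl k) := by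
  intro i hi
  exact hM.patch_halC {k} k (Finset.mem_union_left _ (Finset.mem_singleton_self k)) (hM.core_patch k hi)

theorem etr_icells_ne {R : ℕ} (hM : TrMet c R) {I : Item c} (h : I ∈ items c R) : (icells c R I).Nonempty := by
  rw [etr_mem_items] at h
  rcases I with k | t | l
  · obtain ⟨i, hi⟩ := etr_core_ne h
    exact ⟨i, etr_core_icells hM k hi⟩
  · obtain ⟨i, -, rfl⟩ := Finset.mem_image.1 h
    exact ⟨i, Finset.mem_filter.2 ⟨Finset.mem_univ _, Finset.mem_singleton_self _⟩⟩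
  · refine ⟨l.1.1, etr_cross_lcells c R l l.1.1 (Or.inl ⟨?_, ?_⟩)⟩
    · simp [dd, Geo.geo_idist1_self]
    · simp [dd, Geo.geo_idist1_self]

section items

variable (Φ : Mor N N') {R : ℕ} (hΦ : Φ.Ok R) (hM : TrMet c R) (hM' : TrMet c' R)
include hΦ hM hM'

theorem etr_mark_deep {k : EvId} (hk : k ∈ events c R) (hd : ItemDeep Φ R (6 * R) (Sum.inl k)) : EvDeep Φ R (6 * R) {k} := by
  refine ⟨Finset.singleton_subset_iff.2 hk, fun k' hk' i hi => ?_⟩
  rw [Finset.mem_singleton] at hk'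
  subst hk'
  exact hd i (etr_core_icells hM _ hi)

/-- depth of the first cell of a link all of whose cells are `6 R`-deep -/
theorem etr_link_deep6 {l : Link c} (hd : ItemDeep Φ R (6 * R) (Sum.inr (Sum.inr l))) : Φ.deep (2 ^ l.2.2 * R + 3) l.1.1 := by
  have hR := hM.pos
  have h1 := etr_link_deep Φ hΦ (l := l) (μ := 6 * R) (by omega) hd
  exact hΦ.deep_mono _ _ _ (by omega) h1

theorem etr_item_mem {I : Item c} (h : I ∈ items c R) (hd : ItemDeep Φ R (6 * R) I) : Φ.Θ I ∈ items c' R := by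
  rw [etr_mem_items] at h
  rw [etr_mem_items]
  rcases I with k | t | l
  · exact etr_events_mem Φ hΦ h
  · exact etr_tiles_mem Φ hΦ h
  · refine ⟨le_trans h.1 hΦ.n_le, etr_live Φ hΦ h.2 ?_⟩
    exact hΦ.deep_mono _ _ _ (by omega) (etr_link_deep6 Φ hΦ hM hM' hd)

theorem etr_icells {I : Item c} (h : I ∈ items c R) (hd : ItemDeep Φ R (6 * R) I) : icells c' R (Φ.Θ I) = (icells c R I).image Φ.φ := by
  rw [etr_mem_items] at h
  rcases I with k | t | l
  · have := etr_halC Φ hΦ hM hM' (etr_mark_deep Φ hΦ hM hM' h hd)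
    rwa [Finset.image_singleton] at this
  · have := etr_cellsOf Φ hΦ hM' (A := {t}) (fun t' ht' => by
      rw [Finset.mem_singleton] at ht'
      subst ht'
      obtain ⟨i, -, hi⟩ := Finset.mem_image.1 h
      refine ⟨i, hi, hΦ.deep_mono _ _ _ (by omega) (hd i ?_)⟩
      exact Finset.mem_filter.2 ⟨Finset.mem_univ _, Finset.mem_singleton.2 hi⟩)
    rwa [Finset.image_singleton] at this
  · exact etr_lcells Φ hΦ h.2 (etr_link_deep6 Φ hΦ hM hM' hd)

/-- lifting of an item whose cells are images of deep cells -/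
theorem etr_item_lift {I' : Item c'} (h' : I' ∈ items c' R) (hd : ∀ i' ∈ icells c' R I', ∃ i, Φ.φ i = i' ∧ Φ.deep (8 * R) i) :
    ∃ I ∈ items c R, Φ.Θ I = I' := by
  have hR := hM.pos
  rw [etr_mem_items] at h'
  rcases I' with k' | t' | l'
  · obtain ⟨i', hi'⟩ := etr_core_ne h'
    obtain ⟨i, rfl, hi⟩ := hd i' (etr_core_icells hM' k' hi')
    obtain ⟨k, hk, rfl, -⟩ := etr_event_lift Φ hΦ hi' (hΦ.deep_mono _ _ _ (by omega) hi)
    exact ⟨Sum.inl k, etr_mem_items.2 hk, rfl⟩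
  · obtain ⟨i', -, hi'⟩ := Finset.mem_image.1 h'
    obtain ⟨i, rfl, -⟩ := hd i' (Finset.mem_filter.2 ⟨Finset.mem_univ _, Finset.mem_singleton.2 hi'⟩)
    refine ⟨Sum.inr (Sum.inl (tile c R i)), etr_mem_items.2 (Finset.mem_image_of_mem _ (Finset.mem_univ _)), ?_⟩
    show Sum.inr (Sum.inl (Φ.θT (tile c R i))) = _
    rw [← hΦ.tile, hi']
  · obtain ⟨l, hl, rfl, hdl⟩ := etr_link_lift Φ hΦ hM h'.2 (μ := 1) le_rfl (fun i' hi' => by
      obtain ⟨i, h1, h2⟩ := hd i' hi'
      exact ⟨i, h1, hΦ.deep_mono _ _ _ (by omega) h2⟩)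
    refine ⟨Sum.inr (Sum.inr l), etr_mem_items.2 ⟨?_, hl⟩, rfl⟩
    exact etr_scale_le Φ hΦ hR (hΦ.deep_mono _ _ _ (by omega) hdl) h'.1

theorem etr_Θ_inj : Set.InjOn Φ.Θ (items c R) := by
  intro I hI J hJ hIJ
  have hI' := etr_mem_items.1 (Finset.mem_coe.1 hI)
  have hJ' := etr_mem_items.1 (Finset.mem_coe.1 hJ)
  rcases I with k | t | l <;> rcases J with k2 | t2 | l2
  · have : Φ.θE k = Φ.θE k2 := Sum.inl_injective hIJ
    rw [hΦ.θE_inj hI' hJ' this]
  · exact absurd hIJ (by simp [Mor.Θ])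
  · exact absurd hIJ (by simp [Mor.Θ])
  · exact absurd hIJ (by simp [Mor.Θ])
  · have : Φ.θT t = Φ.θT t2 := Sum.inl_injective (Sum.inr_injective hIJ)
    rw [hΦ.θT_inj hI' hJ' this]
  · exact absurd hIJ (by simp [Mor.Θ])
  · exact absurd hIJ (by simp [Mor.Θ])
  · exact absurd hIJ (by simp [Mor.Θ])
  · have : Φ.θL l = Φ.θL l2 := Sum.inr_injective (Sum.inr_injective hIJ)
    rw [etr_θL_inj Φ hΦ hM hI'.2 hJ'.2 this]

end items

/-! ## 10. Blocks, covers -/

section covers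

variable (Φ : Mor N N') {R : ℕ} (hΦ : Φ.Ok R)
include hΦ

theorem etr_cl (A : Finset c.I) : N'.cl (A.image Φ.φ) = (N.cl A).image Φ.φg := by
  unfold Nest.cl
  rw [Finset.image_image, Finset.image_image]
  refine Finset.image_congr fun i _ => ?_
  exact hΦ.up i

theorem etr_under (X : Finset g.I) : under N' (X.image Φ.φg) = (under N X).image Φ.φ := by
  ext i'
  simp only [under, Finset.mem_filter, Finset.mem_univ, true_and, Finset.mem_image]
  constructor
  · rintro ⟨u, hu, h⟩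
    obtain ⟨i, rfl⟩ := hΦ.up_lift u i' h.symm
    refine ⟨i, ?_, rfl⟩
    rw [hΦ.up] at h
    rwa [← hΦ.φg_inj h]
  · rintro ⟨i, hi, rfl⟩
    exact ⟨N.up i, hi, (hΦ.up i).symm⟩

theorem etr_gblk (v : G.V) : g'.blk (Φ.ψ v) = Φ.φg (g.blk v) := by
  have h1 : ∀ w : G'.V, g'.blk w = N'.up (c'.blk w) := fun w => by
    simp only [Grid.blk, Nest.up, N'.comm]
  have h2 : ∀ w : G.V, g.blk w = N.up (c.blk w) := fun w => by
    simp only [Grid.blk, Nest.up, N.comm]
  rw [h1, h2, hΦ.blk, hΦ.up]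

/-- polymers -/
theorem etr_conn (hup : Function.Surjective N.up) (X : Finset g.I) (hX : ∀ i ∈ under N X, Φ.deep (etrMu R) i) :
    g'.Conn RR (X.image Φ.φg) ↔ g.Conn RR X := by
  constructor
  · rintro ⟨hne, hc⟩
    refine ⟨Finset.image_nonempty.1 hne, fun a ha b hb => ?_⟩
    have key : ∀ y', Relation.ReflTransGen (fun u v => u ∈ X.image Φ.φg ∧ v ∈ X.image Φ.φg ∧ g'.idist u v ≤ RR) (Φ.φg a) y' →
        ∃ y, Φ.φg y = y' ∧ Relation.ReflTransGen (fun u v => u ∈ X ∧ v ∈ X ∧ g.idist u v ≤ RR) a y := by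
      intro y' hy'
      induction hy' with
      | refl => exact ⟨a, rfl, Relation.ReflTransGen.refl⟩
      | tail _ hst ih =>
        obtain ⟨y, rfl, hy⟩ := ih
        obtain ⟨h1, h2, h3⟩ := hst
        obtain ⟨y0, hy0, e0⟩ := Finset.mem_image.1 h1
        have e0' := hΦ.φg_inj e0
        subst e0'
        obtain ⟨z, hz, rfl⟩ := Finset.mem_image.1 h2
        refine ⟨z, rfl, hy.tail ⟨hy0, hz, ?_⟩⟩
        obtain ⟨i, rfl⟩ := hup y0
        have hi : Φ.deep (etrMu R) i := hX i (Finset.mem_filter.2 ⟨Finset.mem_univ _, hy0⟩)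
        have hi' : Φ.deep ((RR + 1) * R) i := hΦ.deep_mono _ _ _ (by
          have : RR = 156 := rfl
          rw [this]; unfold etrMu; omega) hi
        rw [hΦ.gd_eq RR i z hi' h3]
        exact h3
    obtain ⟨y, hy, hr⟩ := key _ (hc _ (Finset.mem_image_of_mem _ ha) _ (Finset.mem_image_of_mem _ hb))
    rwa [hΦ.φg_inj hy] at hr
  · rintro ⟨hne, hc⟩
    refine ⟨hne.image _, fun a' ha' b' hb' => ?_⟩
    obtain ⟨a, ha, rfl⟩ := Finset.mem_image.1 ha'
    obtain ⟨b, hb, rfl⟩ := Finset.mem_image.1 hb'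
    refine (hc a ha b hb).lift Φ.φg (fun u v h => ?_)
    exact ⟨Finset.mem_image_of_mem _ h.1, Finset.mem_image_of_mem _ h.2.1, le_trans (hΦ.gd_le u v) h.2.2⟩

end covers

/-! ## 11. Patterns -/

/-- membership in the image under a map which is injective on a set -/
theorem etr_mem_image_injOn {α β : Type} [DecidableEq β] {f : α → β} {T : Set α} (hf : Set.InjOn f T) {A : Finset α} (hA : ∀ a ∈ A, a ∈ T)
    {a : α} (ha : a ∈ T) : f a ∈ A.image f ↔ a ∈ A := by
  constructor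
  · intro h
    obtain ⟨b, hb, e⟩ := Finset.mem_image.1 h
    exact hf (hA b hb) ha e ▸ hb
  · exact Finset.mem_image_of_mem f

/-- disjointness of images under a map which is injective on a set -/
theorem etr_disjoint_image_injOn {α β : Type} [DecidableEq β] {f : α → β} {T : Set α} (hf : Set.InjOn f T) {A B : Finset α}
    (hA : ∀ a ∈ A, a ∈ T) (hB : ∀ a ∈ B, a ∈ T) : Disjoint (A.image f) (B.image f) ↔ Disjoint A B := by
  simp only [Finset.disjoint_left]
  constructor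
  · intro h a ha hb
    exact h (Finset.mem_image_of_mem f ha) (Finset.mem_image_of_mem f hb)
  · intro h b' ha hb
    obtain ⟨a, ha', rfl⟩ := Finset.mem_image.1 ha
    exact h ha' ((etr_mem_image_injOn hf hB (hA a ha')).1 hb)

/-- the three parts of the image of a pattern -/
theorem etr_pS (Φ : Mor N N') (π : Finset (Item c)) : pS (π.image Φ.Θ) = (pS π).image Φ.θE := by
  ext k'
  simp only [mem_pS, Finset.mem_image]
  constructor
  · rintro ⟨I, hI, h⟩
    rcases I with k | t | l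
    · exact ⟨k, hI, Sum.inl_injective h⟩
    · cases h
    · cases h
  · rintro ⟨k, hk, rfl⟩
    exact ⟨Sum.inl k, hk, rfl⟩

theorem etr_pQ (Φ : Mor N N') (π : Finset (Item c)) : pQ (π.image Φ.Θ) = (pQ π).image Φ.θT := by
  ext k'
  simp only [mem_pQ, Finset.mem_image]
  constructor
  · rintro ⟨I, hI, h⟩
    rcases I with k | t | l
    · cases h
    · exact ⟨t, hI, Sum.inl_injective (Sum.inr_injective h)⟩
    · cases h
  · rintro ⟨k, hk, rfl⟩
    exact ⟨Sum.inr (Sum.inl k), hk, rfl⟩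

theorem etr_pL (Φ : Mor N N') (π : Finset (Item c)) : pL (π.image Φ.Θ) = (pL π).image Φ.θL := by
  ext k'
  simp only [mem_pL, Finset.mem_image]
  constructor
  · rintro ⟨I, hI, h⟩
    rcases I with k | t | l
    · cases h
    · cases h
    · exact ⟨l, hI, Sum.inr_injective (Sum.inr_injective h)⟩
  · rintro ⟨k, hk, rfl⟩
    exact ⟨Sum.inr (Sum.inr k), hk, rfl⟩

/-- a pattern of items of the volume, all of whose cells are deep and lie in `D` -/
structure PatDeep (Φ : Mor N N') (R : ℕ) (D : Finset c.I) (π : Finset (Item c)) : Prop where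
  ok : π ⊆ items c R
  deep : ∀ I ∈ π, ItemDeep Φ R (8 * R) I
  sub : ∀ I ∈ π, icells c R I ⊆ D

section patterns

variable (Φ : Mor N N') {R : ℕ} (hΦ : Φ.Ok R) (hM : TrMet c R) (hM' : TrMet c' R)
include hΦ hM hM'

theorem etr_pS_deep {D : Finset c.I} {π : Finset (Item c)} (hπ : PatDeep Φ R D π) : EvDeep Φ R (6 * R) (pS π) ∧ halC c R (pS π) ⊆ D := by
  refine ⟨⟨fun k hk => ?_, fun k hk i hi => ?_⟩, fun i hi => ?_⟩
  · exact etr_mem_items.1 (hπ.ok (mem_pS.1 hk))
  · have h1 : i ∈ icells c R (Sum.inl k) :=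
      hM.patch_halC {k} k (Finset.mem_union_left _ (Finset.mem_singleton_self k)) (hM.core_patch k hi)
    exact hΦ.deep_mono _ _ i (by omega) (hπ.deep _ (mem_pS.1 hk) i h1)
  · obtain ⟨I, hI, hi'⟩ := Finset.mem_biUnion.1 (halC_subset_pcells R π hi)
    exact hπ.sub I hI hi'

theorem etr_patOk {D : Finset c.I} {π : Finset (Item c)} (hπ : PatDeep Φ R D π) : PatOk c' R (π.image Φ.Θ) ↔ PatOk c R π := by
  have hS := (etr_pS_deep Φ hΦ hM hM' hπ).1
  unfold PatOk
  rw [etr_pS, etr_pQ, etr_valid Φ hΦ hM hM' hS, etr_halT Φ hΦ hM hM' hS,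
    etr_disjoint_image_injOn hΦ.θT_inj (fun t ht => pQ_subset hπ.ok ht) (fun t ht => halT_subset R _ ht)]

theorem etr_cover {D : Finset c.I} {π : Finset (Item c)} (hπ : PatDeep Φ R D π) : cover N' R (π.image Φ.Θ) = (cover N R π).image Φ.φg := by
  unfold cover
  rw [Finset.image_biUnion, Finset.biUnion_image]
  refine Finset.biUnion_congr rfl fun I hI => ?_
  unfold cov
  rw [etr_icells Φ hΦ hM hM' (hπ.ok hI) (fun i hi => hΦ.deep_mono _ _ i (by omega) (hπ.deep I hI i hi)), etr_cl Φ hΦ]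

variable {W : Wt c} {W' : Wt c'} (hW : W.Str) (hW' : W'.Str) (hQ : QNIso Φ W W') {D : Finset c.I} {y : c.I → ℂ} {y' : c'.I → ℂ}
  (hY : YRel Φ W W' D y y')
include hW hW' hQ hY

/-- **EXPORT: the factor of a pattern is carried by `Φ`** -/
theorem etr_pfac {π : Finset (Item c)} (hπ : PatDeep Φ R D π) : W.pfac R π y = W'.pfac R (π.image Φ.Θ) y' := by
  classical
  obtain ⟨hS, hSD⟩ := etr_pS_deep Φ hΦ hM hM' hπ
  have hpo := etr_patOk Φ hΦ hM hM' hπ
  unfold Wt.pfac
  by_cases hp : PatOk c R π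
  swap
  · rw [if_neg hp, if_neg fun h => hp (hpo.1 h)]
  rw [if_pos hp, if_pos (hpo.2 hp), etr_pS, etr_pQ, etr_pL, ← etr_halo Φ hΦ hM hM' hW hW' hQ hY hS hSD,
    Finset.prod_image (fun t ht t' ht' h => hΦ.θT_inj (pQ_subset hπ.ok ht) (pQ_subset hπ.ok ht') h),
    Finset.prod_image (fun l hl l' hl' h => etr_θL_inj Φ hΦ hM (etr_mem_items.1 (hπ.ok (mem_pL.1 hl))).2
      (etr_mem_items.1 (hπ.ok (mem_pL.1 hl'))).2 h)]
  congr 1
  · congr 1
    refine Finset.prod_congr rfl fun t ht => ?_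
    obtain ⟨i, -, hi⟩ := Finset.mem_image.1 (pQ_subset hπ.ok ht)
    have hic : i ∈ icells c R (Sum.inr (Sum.inl t)) := mem_cellsOf.2 (Finset.mem_singleton.2 hi)
    rw [etr_tfac Φ hΦ hM hM' hW hW' hQ hY ⟨i, hi, hΦ.deep_mono _ _ i (by omega) (hπ.deep _ (mem_pQ.1 ht) i hic)⟩
      (hπ.sub _ (mem_pQ.1 ht))]
  · refine Finset.prod_congr rfl fun l hl => ?_
    have hR := hM.pos
    have hd := etr_link_deep Φ hΦ (l := l) (μ := 8 * R) (by omega) (hπ.deep _ (mem_pL.1 hl))
    exact etr_lfac Φ hΦ hM hM' hW hW' hQ hY (etr_mem_items.1 (hπ.ok (mem_pL.1 hl))).2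
      (hΦ.deep_mono _ _ _ (by omega) hd) (hπ.sub _ (mem_pL.1 hl))

/-- **EXPORT: the factor of a labelled pattern is carried by `Φ`** -/
theorem etr_pfacL {π : Finset (Item c)} (hπ : PatDeep Φ R D π) {t0 : Tile} (ht0 : ∃ i, tile c R i = t0 ∧ Φ.deep (2 * R) i)
    (hD0 : cellsOf c R {t0} ⊆ D) : W.pfacL R t0 π y = W'.pfacL R (Φ.θT t0) (π.image Φ.Θ) y' := by
  classical
  obtain ⟨hS, hSD⟩ := etr_pS_deep Φ hΦ hM hM' hπ
  have ht : t0 ∈ tiles c R := by
    obtain ⟨i, hi, -⟩ := ht0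
    exact Finset.mem_image.2 ⟨i, Finset.mem_univ _, hi⟩
  have h1 : Φ.θT t0 ∈ pQ (π.image Φ.Θ) ↔ t0 ∈ pQ π := by
    rw [etr_pQ]
    exact etr_mem_image_injOn hΦ.θT_inj (fun t ht => pQ_subset hπ.ok ht) ht
  have h2 : Φ.θT t0 ∈ halT c' R (pS (π.image Φ.Θ)) ↔ t0 ∈ halT c R (pS π) := by
    rw [etr_pS, etr_halT Φ hΦ hM hM' hS]
    exact etr_mem_image_injOn hΦ.θT_inj (fun t ht => halT_subset R _ ht) ht
  unfold Wt.pfacL
  simp only [h1, h2]
  rw [etr_pfac Φ hΦ hM hM' hW hW' hQ hY hπ, etr_tfac Φ hΦ hM hM' hW hW' hQ hY ht0 hD0]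

end patterns

/-! ## 12. The sums over patterns -/

/-- an item whose image lies in the image of a deep region lies in this region -/
theorem etr_item_sub (Φ : Mor N N') {R : ℕ} (hΦ : Φ.Ok R) (hM : TrMet c R) (hM' : TrMet c' R) {D : Finset c.I}
    (hD : ∀ i ∈ D, Φ.deep (8 * R) i) {I : Item c} (hI : I ∈ items c R) (hI' : Φ.Θ I ∈ items c' R)
    (hs : icells c' R (Φ.Θ I) ⊆ D.image Φ.φ) : icells c R I ⊆ D := by
  classical
  have hback : ∀ A : Finset c.I, A.image Φ.φ ⊆ D.image Φ.φ → A ⊆ D := by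
    intro A hA i hi
    obtain ⟨j, hj, hji⟩ := Finset.mem_image.1 (hA (Finset.mem_image_of_mem _ hi))
    rw [← hΦ.φ_inj hji]; exact hj
  rcases I with k | t | l
  · -- an event
    have hk : k ∈ events c R := etr_mem_items.1 hI
    have hk' : Φ.θE k ∈ events c' R := etr_events_mem Φ hΦ hk
    obtain ⟨f', hf', hkey⟩ := Finset.mem_image.1 hk'
    have hcut : f' ∈ cutF c' R (Φ.θE k) := Finset.mem_filter.2 ⟨hf', hkey⟩
    have hcore : f'.1 ∈ core c' R (Φ.θE k) := Finset.mem_union_left _ (Finset.mem_image_of_mem _ hcut)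
    have hhal : f'.1 ∈ halC c' R {Φ.θE k} :=
      hM'.patch_halC {Φ.θE k} (Φ.θE k) (Finset.mem_union_left _ (Finset.mem_singleton_self _)) (hM'.core_patch _ hcore)
    obtain ⟨i, hi, hif⟩ := Finset.mem_image.1 (hs hhal)
    have hdi := hD i hi
    rw [← hif] at hcore
    obtain ⟨k₂, hk₂, hθ, hic⟩ := etr_event_lift Φ hΦ hcore (hΦ.deep_mono _ _ i (by have := hM.pos; omega) hdi)
    have : k₂ = k := hΦ.θE_inj (Finset.mem_coe.2 hk₂) (Finset.mem_coe.2 hk) hθ
    subst this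
    have hdeep : ∀ j ∈ core c R k₂, Φ.deep (6 * R) j :=
      etr_core_deep Φ hΦ hM hic (ρ := 6 * R) (hΦ.deep_mono _ _ i (by omega) hdi)
    have hS : EvDeep Φ R (6 * R) {k₂} :=
      ⟨Finset.singleton_subset_iff.2 hk, fun k' hk' => by rw [Finset.mem_singleton.1 hk']; exact hdeep⟩
    have h1 := etr_halC Φ hΦ hM hM' hS
    rw [Finset.image_singleton] at h1
    refine hback _ ?_
    show (halC c R {k₂}).image Φ.φ ⊆ _
    rw [← h1]; exact hs
  · -- a tile
    intro i hi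
    have hi1 : tile c R i = t := by simpa [icells, mem_cellsOf] using hi
    have : Φ.φ i ∈ icells c' R (Φ.Θ (Sum.inr (Sum.inl t))) := by
      show Φ.φ i ∈ cellsOf c' R {Φ.θT t}
      rw [mem_cellsOf, hΦ.tile, hi1]; exact Finset.mem_singleton_self _
    obtain ⟨j, hj, hji⟩ := Finset.mem_image.1 (hs this)
    rw [← hΦ.φ_inj hji]; exact hj
  · -- a link
    have hl : Live c R l := (etr_mem_items.1 hI).2
    have hl' : Live c' R (Φ.θL l) := (etr_mem_items.1 hI').2
    obtain ⟨l₂, hl₂, hθ, hd₂⟩ := etr_link_lift Φ hΦ hM hl' (μ := 3) (by norm_num) (by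
      intro i' hi'
      obtain ⟨i, hi, hii⟩ := Finset.mem_image.1 (hs hi')
      exact ⟨i, hii, hΦ.deep_mono _ _ i (by have := hM.pos; omega) (hD i hi)⟩)
    have : l₂ = l := etr_θL_inj Φ hΦ hM hl₂ hl hθ
    subst this
    have h1 := etr_lcells Φ hΦ hl hd₂
    refine hback _ ?_
    show (lcells c R l₂).image Φ.φ ⊆ _
    rw [← h1]; exact hs

/-- **EXPORT: reindexing of the sum over the patterns with a given deep cover.** -/
theorem etr_sum_patterns (Φ : Mor N N') {R : ℕ} (hΦ : Φ.Ok R) (hM : TrMet c R) (hM' : TrMet c' R) {β : Type} [AddCommMonoid β]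
    (X Cs : Finset g.I) (hX : ∀ i ∈ under N X, Φ.deep (etrMu R) i) (E : Finset (Item c) → β) (E' : Finset (Item c') → β)
    (hE : ∀ π, PatDeep Φ R (under N X) π → E π = E' (π.image Φ.Θ)) :
    ∑ π ∈ (items c R).powerset.filter (fun π => Cs ∪ cover N R π = X), E π
      = ∑ π' ∈ (items c' R).powerset.filter (fun π' => Cs.image Φ.φg ∪ cover N' R π' = X.image Φ.φg), E' π' := by
  classical
  have hD8 : ∀ i ∈ under N X, Φ.deep (8 * R) i := fun i hi => hΦ.deep_mono _ _ i (by unfold etrMu; omega) (hX i hi)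
  have hD6 : ∀ i ∈ under N X, Φ.deep (6 * R) i := fun i hi => hΦ.deep_mono _ _ i (by unfold etrMu; omega) (hX i hi)
  -- cells of an item with cover in `X`
  have hund : ∀ (π : Finset (Item c)), cover N R π ⊆ X → ∀ I ∈ π, icells c R I ⊆ under N X := by
    intro π hπ I hI i hi
    refine Finset.mem_filter.2 ⟨Finset.mem_univ _, hπ ?_⟩
    exact Finset.mem_biUnion.2 ⟨I, hI, Finset.mem_image_of_mem _ hi⟩
  have hund' : ∀ (π' : Finset (Item c')), cover N' R π' ⊆ X.image Φ.φg → ∀ I' ∈ π', icells c' R I' ⊆ (under N X).image Φ.φ := by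
    intro π' hπ' I' hI' i' hi'
    rw [← etr_under Φ hΦ X]
    refine Finset.mem_filter.2 ⟨Finset.mem_univ _, hπ' ?_⟩
    exact Finset.mem_biUnion.2 ⟨I', hI', Finset.mem_image_of_mem _ hi'⟩
  have hpat : ∀ π, π ⊆ items c R → (∀ I ∈ π, icells c R I ⊆ under N X) → PatDeep Φ R (under N X) π :=
    fun π h1 h2 => ⟨h1, fun I hI i hi => hD8 i (h2 I hI hi), h2⟩
  refine Finset.sum_bij (fun π _ => π.image Φ.Θ) ?_ ?_ ?_ ?_
  · intro π hπ
    obtain ⟨h1, h2⟩ := Finset.mem_filter.1 hπ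
    have h1 := Finset.mem_powerset.1 h1
    have hc : cover N R π ⊆ X := h2 ▸ Finset.subset_union_right
    have hP := hpat π h1 (hund π hc)
    refine Finset.mem_filter.2 ⟨Finset.mem_powerset.2 ?_, ?_⟩
    · intro I' hI'
      obtain ⟨I, hI, rfl⟩ := Finset.mem_image.1 hI'
      exact etr_item_mem Φ hΦ hM hM' (h1 hI) fun i hi => hD6 i (hund π hc I hI hi)
    · rw [etr_cover Φ hΦ hM hM' hP, ← Finset.image_union, h2]
  · intro π₁ h₁ π₂ h₂ h
    have s₁ := Finset.mem_powerset.1 (Finset.mem_filter.1 h₁).1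
    have s₂ := Finset.mem_powerset.1 (Finset.mem_filter.1 h₂).1
    have key : ∀ π π' : Finset (Item c), π ⊆ items c R → π' ⊆ items c R → π.image Φ.Θ = π'.image Φ.Θ → π ⊆ π' := by
      intro π π' s s' h I hI
      have : Φ.Θ I ∈ π'.image Φ.Θ := h ▸ Finset.mem_image_of_mem _ hI
      obtain ⟨J, hJ, hJI⟩ := Finset.mem_image.1 this
      rw [← etr_Θ_inj Φ hΦ hM hM' (Finset.mem_coe.2 (s' hJ)) (Finset.mem_coe.2 (s hI)) hJI]; exact hJ
    exact Finset.Subset.antisymm (key _ _ s₁ s₂ h) (key _ _ s₂ s₁ h.symm)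
  · intro π' hπ'
    obtain ⟨h1, h2⟩ := Finset.mem_filter.1 hπ'
    have h1 := Finset.mem_powerset.1 h1
    have hc : cover N' R π' ⊆ X.image Φ.φg := h2 ▸ Finset.subset_union_right
    have himg : ((items c R).filter fun I => Φ.Θ I ∈ π').image Φ.Θ = π' := by
      ext I'
      constructor
      · intro h
        obtain ⟨I, hI, rfl⟩ := Finset.mem_image.1 h
        exact (Finset.mem_filter.1 hI).2
      · intro hI'
        obtain ⟨I, hI, rfl⟩ := etr_item_lift Φ hΦ hM hM' (h1 hI') (by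
          intro i' hi'
          obtain ⟨i, hi, hii⟩ := Finset.mem_image.1 (hund' π' hc I' hI' hi')
          exact ⟨i, hii, hD8 i hi⟩)
        exact Finset.mem_image_of_mem _ (Finset.mem_filter.2 ⟨hI, hI'⟩)
    have hP : PatDeep Φ R (under N X) ((items c R).filter fun I => Φ.Θ I ∈ π') := by
      refine hpat _ (Finset.filter_subset _ _) fun I hI => ?_
      obtain ⟨hI1, hI2⟩ := Finset.mem_filter.1 hI
      exact etr_item_sub Φ hΦ hM hM' hD8 hI1 (h1 hI2) (hund' π' hc _ hI2)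
    refine ⟨(items c R).filter fun I => Φ.Θ I ∈ π', Finset.mem_filter.2 ⟨Finset.mem_powerset.2 (Finset.filter_subset _ _), ?_⟩, himg⟩
    have h3 := etr_cover Φ hΦ hM hM' hP
    rw [himg] at h3
    rw [h3, ← Finset.image_union] at h2
    exact Finset.image_injective hΦ.φg_inj h2
  · intro π hπ
    obtain ⟨h1, h2⟩ := Finset.mem_filter.1 hπ
    have h1 := Finset.mem_powerset.1 h1
    have hc : cover N R π ⊆ X := h2 ▸ Finset.subset_union_right
    exact hE π (hpat π h1 (hund π hc))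

end

end Claimed.Agent.R285.Ent
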