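import Claimed.Agent.R285.Ent.TrCopy

/-!
# ROW 285, POST TRANSPORT: the unit sector of `CopyStmt`, and the exit `etr_copy : CopyStmt`            (architect helper238)
Paper-free.  Two CENTRED free squares `𝒱`, `𝒱'` with the same `(s, m)`, `2 m ∣ M, M'`, `M ≤ M'`.  The smaller one is shifted into the larger one by
`t = ctr' - ctr = (D, D)`, `D = ctrD = (M' - M) / 2` (a multiple of `m`): `CtrPair`.
* §1 (leaves, pure arithmetic): the three maps are translations (`etr_ctr_site`, `etr_ctr_blk`, `etr_ctr_cell`), hence `tauU`, `tauE`, `entT0`, `entCs`, the block distance, `hull (D_m X)` are carried.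
* §2 (glue, proved): existence of gauges, `entKT`, `entJT`, `etr_unit_core`.
* §3 (glue, proved): `etr_copy : CopyStmt`.
Prove the leaves IN PLACE, statements verbatim; report defects to helper238.  All grids are `torusGrid`s: `𝒱.g.blk v = (v.1 / m, v.2 / m)`, `𝒱.c.blk v = (v.1 / s, v.2 / s)` by `rfl`; `𝒱.c.n = M / s`, `𝒱.g.n = M / m` by `rfl`.
-/

set_option autoImplicit false

namespace Claimed.Agent.R285.Ent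

open scoped BigOperators ENNReal NNReal
open MeasureTheory ProbabilityTheory
open Claimed.Agent.R285 Claimed.Agent.R285.RG Claimed.Agent.R285.B4 Claimed.Agent.R285.F4a Claimed.Agent.R285.F4b

noncomputable section

/-! ## 1. The centred shift -/

/-- the shift (in sites) -/
def ctrD (𝒱 𝒱' : Vol) : ℕ := (𝒱'.G.M - 𝒱.G.M) / 2

/-- two centred free squares, the smaller one shifted into the larger one -/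
structure CtrPair (𝒱 𝒱' : Vol) (Φ : Mor (vNest 𝒱) (vNest 𝒱')) : Prop where
  hs : 𝒱.s = 𝒱'.s
  hm : 𝒱.m = 𝒱'.m
  hG : GeoOK 𝒱.c (vR 𝒱)
  hG' : GeoOK 𝒱'.c (vR 𝒱)
  hf : 𝒱.G.bc = BC.free
  hf' : 𝒱'.G.bc = BC.free
  h2 : 2 * 𝒱.m ∣ 𝒱.G.M
  h2' : 2 * 𝒱.m ∣ 𝒱'.G.M
  hle : 𝒱.G.M ≤ 𝒱'.G.M
  ok : Φ.Ok (vR 𝒱)
  sh : IsShift Φ (𝒱'.ctr - 𝒱.ctr)

/-- blocks at distance `≥ ρ` (in blocks) from the walls -/
def BDeep (𝒱 : Vol) (ρ : ℕ) (X : Finset 𝒱.g.I) : Prop :=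
  ∀ u ∈ X, ρ ≤ (u.1 : ℕ) ∧ (u.1 : ℕ) + ρ < 𝒱.g.n ∧ ρ ≤ (u.2 : ℕ) ∧ (u.2 : ℕ) + ρ < 𝒱.g.n

theorem etr_fits_div (M m c1 : ℕ) (hm : 0 < m) (hmM : m ∣ M) (p : ℕ) (h1 : c1 * m ≤ p) (h2 : p + c1 * m < M) : c1 ≤ p / m ∧ p / m + c1 < M / m := by
  obtain ⟨k, rfl⟩ := hmM
  rw [Nat.mul_div_cancel_left _ hm]
  refine ⟨(Nat.le_div_iff_mul_le hm).2 h1, ?_⟩
  have h3 : (p + c1 * m) / m < k := (Nat.div_lt_iff_lt_mul hm).2 (by rwa [mul_comm k m])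
  rwa [Nat.add_mul_div_right _ _ hm] at h3

theorem etr_fits_fold (G : Geom) (hf : G.bc = BC.free) (z : ℤ) (r : ℕ) (h0 : (r : ℤ) ≤ z) (h1 : z + r < G.M) :
    r ≤ (G.fold z : ℕ) ∧ (G.fold z : ℕ) + r < G.M := by
  have h := fold_free_val hf z
  have h2 : z % (2 * (G.M : ℤ)) = z := Int.emod_eq_of_lt (by omega) (by omega)
  rw [h2, if_pos (by omega)] at h
  omega

/-- L-ETU-0: `u = blk (π (y + o))`, `π p = p` in the box, `c1 m ≤ p.k`, `p.k + c1 m < M` give `c1 ≤ p.k / m`, `p.k / m + c1 < M / m` -/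
theorem etr_fits_bdeep (𝒱 : Vol) (hm : 0 < 𝒱.m) (hf : 𝒱.G.bc = BC.free) {o : ℤ × ℤ} {S : Finset (ℤ × ℤ)} {c1 : ℕ} (hfit : Fits 𝒱.G o (c1 * 𝒱.m) S) :
    BDeep 𝒱 c1 (𝒱.g.foldS (S.image (· + o))) := by
  intro u hu
  unfold Grid.foldS at hu
  obtain ⟨p, hp, rfl⟩ := Finset.mem_image.1 hu
  obtain ⟨y, hy, rfl⟩ := Finset.mem_image.1 hp
  obtain ⟨a1, a2, a3, a4⟩ := hfit.2 hf y hy
  obtain ⟨b1, b2⟩ := etr_fits_fold 𝒱.G hf _ _ a1 a2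
  obtain ⟨b3, b4⟩ := etr_fits_fold 𝒱.G hf _ _ a3 a4
  obtain ⟨c1', c2'⟩ := etr_fits_div 𝒱.G.M 𝒱.m c1 hm 𝒱.hmM _ b1 b2
  obtain ⟨c3', c4'⟩ := etr_fits_div 𝒱.G.M 𝒱.m c1 hm 𝒱.hmM _ b3 b4
  exact ⟨c1', c2', c3', c4'⟩

theorem etr_ctr_dvd (𝒱 : Vol) {m : ℕ} (h2 : 2 * m ∣ 𝒱.G.M) : (m : ℤ) ∣ 𝒱.ctr.1 ∧ (m : ℤ) ∣ 𝒱.ctr.2 := by
  obtain ⟨k, hk⟩ := h2
  have h : 𝒱.G.M / 2 = m * k := by rw [hk, mul_assoc]; exact Nat.mul_div_cancel_left _ (by norm_num)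
  have h' : (m : ℤ) ∣ ((𝒱.G.M / 2 : ℕ) : ℤ) := by rw [h]; exact ⟨k, by push_cast; ring⟩
  exact ⟨h', h'⟩

/-- the cell `(R k, R k)` of a free square lies in the vertex tile `(k, k)` -/
theorem etr_tile_vertex {G : Geom} (c : Grid G) (hf : G.bc = BC.free) (R : ℕ) (h64 : 64 ∣ R) (hR : 0 < R) (i : c.I) (k : ℕ)
    (h1 : (i.1 : ℕ) = R * k) (h2 : (i.2 : ℕ) = R * k) : tile c R i = (false, true, k, k) := by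
  have hq : R / 4 < R := Nat.div_lt_self hR (by norm_num)
  have e1 : (R * k + R / 4) % R = R / 4 := by rw [Nat.mul_add_mod]; exact Nat.mod_eq_of_lt hq
  have e2 : (R * k + R / 4) / R = k := by rw [Nat.mul_add_div hR, Nat.div_eq_of_lt hq, add_zero]
  have e3 : R / 4 < R / 2 := by obtain ⟨j, rfl⟩ := h64; omega
  have hred : ∀ x, red c R x = x := fun x => by unfold red; rw [hf]
  unfold tile
  rw [h1, h2, e1, e2, if_pos ⟨e3, e3⟩, hred]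

/-- one axis of `etr_entCs_shift`: the points `m B + M / 2` lie in the box -/
theorem etr_entCs_box (s R M : ℕ) (hR : 0 < R) (hM : 0 < M) (hbig : 8 * (s * R ^ 5) ≤ M) (B : ℤ) (h1 : -(2 * (R : ℤ) ^ 4 + 1) ≤ B)
    (h2 : B ≤ 2 * (R : ℤ) ^ 4) : 0 ≤ ((s * R : ℕ) : ℤ) * B + ((M / 2 : ℕ) : ℤ) ∧ ((s * R : ℕ) : ℤ) * B + ((M / 2 : ℕ) : ℤ) < M := by
  have hM2 : 4 * (s * R ^ 5) ≤ M / 2 := by omega
  have hM2' : (4 : ℤ) * ((s : ℤ) * (R : ℤ) ^ 5) ≤ ((M / 2 : ℕ) : ℤ) := by exact_mod_cast hM2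
  have hMM : ((M / 2 : ℕ) : ℤ) + ((M / 2 : ℕ) : ℤ) ≤ M := by
    have : M / 2 + M / 2 ≤ M := by omega
    exact_mod_cast this
  have hlt : ((M / 2 : ℕ) : ℤ) < M := by
    have : M / 2 < M := by omega
    exact_mod_cast this
  have hsR : (0 : ℤ) ≤ ((s * R : ℕ) : ℤ) := Int.natCast_nonneg _
  have hR1 : (1 : ℤ) ≤ (R : ℤ) ^ 4 := one_le_pow₀ (by exact_mod_cast hR)
  have e5 : ((s * R : ℕ) : ℤ) * (R : ℤ) ^ 4 = (s : ℤ) * (R : ℤ) ^ 5 := by push_cast; ring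
  have a1 := mul_le_mul_of_nonneg_left h1 hsR
  have a2 := mul_le_mul_of_nonneg_left h2 hsR
  have a3 := mul_le_mul_of_nonneg_left hR1 hsR
  obtain ⟨q, hq⟩ : ∃ q : ℤ, q = ((s * R : ℕ) : ℤ) := ⟨_, rfl⟩
  obtain ⟨P, hP⟩ : ∃ P : ℤ, P = (R : ℤ) ^ 4 := ⟨_, rfl⟩
  obtain ⟨x, hx⟩ : ∃ x : ℤ, x = (s : ℤ) * (R : ℤ) ^ 5 := ⟨_, rfl⟩
  rw [← hq, ← hP] at a1 a2 a3 e5
  rw [← hq] at hsR
  rw [← hx] at e5 hM2'
  rw [← hq]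
  constructor
  · linarith
  · linarith

section pair

variable {𝒱 𝒱' : Vol} {Φ : Mor (vNest 𝒱) (vNest 𝒱')} (h : CtrPair 𝒱 𝒱' Φ)
include h

/-- L-ETU-1: the sites are translated by `(D, D)`  (`IsShift.ψ`; `ctr' - ctr = (D, D)` since `M`, `M'` are even; `ι v + (D, D)` lies in the box of `𝒱'`, where `π'` is the identity) -/
theorem etr_ctr_site (v : 𝒱.G.V) : ((Φ.ψ v).1 : ℕ) = (v.1 : ℕ) + ctrD 𝒱 𝒱' ∧ ((Φ.ψ v).2 : ℕ) = (v.2 : ℕ) + ctrD 𝒱 𝒱' := by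
  have hψ := h.sh.ψ v
  obtain ⟨a, ha⟩ := h.h2
  obtain ⟨b, hb⟩ := h.h2'
  rw [mul_assoc] at ha hb
  have hle := h.hle
  have hv1 := v.1.2
  have hv2 := v.2.2
  have hD : ctrD 𝒱 𝒱' = (𝒱'.G.M - 𝒱.G.M) / 2 := rfl
  generalize 𝒱.m * a = ka at ha
  generalize 𝒱.m * b = kb at hb
  have hc : (((𝒱'.G.M / 2 : ℕ) : ℤ) - ((𝒱.G.M / 2 : ℕ) : ℤ)) = ((ctrD 𝒱 𝒱' : ℕ) : ℤ) := by
    rw [hD]; omega
  have key : ∀ x : ℕ, x < 𝒱.G.M → ((𝒱'.G.fold ((x : ℤ) + (((𝒱'.G.M / 2 : ℕ) : ℤ) - ((𝒱.G.M / 2 : ℕ) : ℤ))) : Fin 𝒱'.G.M) : ℕ) = x + ctrD 𝒱 𝒱' := by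
    intro x hx
    have h1 := Reg.regl_fold_in 𝒱'.G ((x : ℤ) + (((𝒱'.G.M / 2 : ℕ) : ℤ) - ((𝒱.G.M / 2 : ℕ) : ℤ))) (by rw [hc]; omega) (by rw [hc, hD]; omega)
    rw [hc] at h1 ⊢
    exact_mod_cast h1
  rw [hψ]
  exact ⟨key _ hv1, key _ hv2⟩

/-- L-ETU-2: the blocks are translated  (`etr_gblk` at the site `(u.1 * m, u.2 * m)`, `etr_ctr_site`, `m ∣ D`) -/
theorem etr_ctr_blk (u : 𝒱.g.I) : ((Φ.φg u).1 : ℕ) = (u.1 : ℕ) + ctrD 𝒱 𝒱' / 𝒱.m ∧ ((Φ.φg u).2 : ℕ) = (u.2 : ℕ) + ctrD 𝒱 𝒱' / 𝒱.m := by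
  have hn : 0 < 𝒱.G.M / 𝒱.m := lt_of_le_of_lt (Nat.zero_le _) u.1.2
  have hm : 0 < 𝒱.m := by
    rcases Nat.eq_zero_or_pos 𝒱.m with h0 | h0
    · rw [h0, Nat.div_zero] at hn
      exact absurd hn (lt_irrefl _)
    · exact h0
  have hb : ∀ a : Fin 𝒱.g.n, 𝒱.m * (a : ℕ) < 𝒱.G.M := by
    intro a
    have ha : (a : ℕ) < 𝒱.G.M / 𝒱.m := a.2
    calc 𝒱.m * (a : ℕ) < 𝒱.m * (𝒱.G.M / 𝒱.m) := Nat.mul_lt_mul_of_pos_left ha hm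
      _ ≤ 𝒱.G.M := Nat.mul_div_le _ _
  obtain ⟨v, hv1, hv2⟩ : ∃ v : 𝒱.G.V, (v.1 : ℕ) = 𝒱.m * (u.1 : ℕ) ∧ (v.2 : ℕ) = 𝒱.m * (u.2 : ℕ) :=
    ⟨(⟨𝒱.m * (u.1 : ℕ), hb u.1⟩, ⟨𝒱.m * (u.2 : ℕ), hb u.2⟩), rfl, rfl⟩
  have hv : 𝒱.g.blk v = u := by
    refine Prod.ext (Fin.ext ?_) (Fin.ext ?_)
    · show (v.1 : ℕ) / 𝒱.m = (u.1 : ℕ)
      rw [hv1]
      exact Nat.mul_div_cancel_left _ hm
    · show (v.2 : ℕ) / 𝒱.m = (u.2 : ℕ)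
      rw [hv2]
      exact Nat.mul_div_cancel_left _ hm
  have h1 := etr_gblk Φ h.ok v
  rw [hv] at h1
  obtain ⟨s1, s2⟩ := etr_ctr_site h v
  rw [← h1]
  constructor
  · show ((Φ.ψ v).1 : ℕ) / 𝒱'.m = _
    rw [s1, ← h.hm, hv1]
    exact Nat.mul_add_div hm _ _
  · show ((Φ.ψ v).2 : ℕ) / 𝒱'.m = _
    rw [s2, ← h.hm, hv2]
    exact Nat.mul_add_div hm _ _

/-- L-ETU-3: the cells are translated  (`Mor.Ok.blk` at the site `(i.1 * s, i.2 * s)`, `etr_ctr_site`, `s ∣ D`) -/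
theorem etr_ctr_cell (i : 𝒱.c.I) : ((Φ.φ i).1 : ℕ) = (i.1 : ℕ) + ctrD 𝒱 𝒱' / 𝒱.s ∧ ((Φ.φ i).2 : ℕ) = (i.2 : ℕ) + ctrD 𝒱 𝒱' / 𝒱.s := by
  have hs : 0 < 𝒱.s := h.hG.whole.pos
  obtain ⟨v, hv⟩ : ∃ v : 𝒱.G.V, v = (⟨(i.1 : ℕ) * 𝒱.s, vol_site_lt 𝒱 i.1⟩, ⟨(i.2 : ℕ) * 𝒱.s, vol_site_lt 𝒱 i.2⟩) := ⟨_, rfl⟩
  have hb : 𝒱.c.blk v = i := by
    rw [hv]
    refine Prod.ext (Fin.ext ?_) (Fin.ext ?_)
    · show (i.1 : ℕ) * 𝒱.s / 𝒱.s = i.1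
      exact Nat.mul_div_cancel _ hs
    · show (i.2 : ℕ) * 𝒱.s / 𝒱.s = i.2
      exact Nat.mul_div_cancel _ hs
  have h1 := h.ok.blk v
  rw [hb] at h1
  obtain ⟨e1, e2⟩ := etr_ctr_site h v
  have v1 : (v.1 : ℕ) = (i.1 : ℕ) * 𝒱.s := by rw [hv]
  have v2 : (v.2 : ℕ) = (i.2 : ℕ) * 𝒱.s := by rw [hv]
  rw [← h1]
  constructor
  · show ((Φ.ψ v).1 : ℕ) / 𝒱'.s = _
    rw [← h.hs, e1, v1, mul_comm, Nat.mul_add_div hs]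
  · show ((Φ.ψ v).2 : ℕ) / 𝒱'.s = _
    rw [← h.hs, e2, v2, mul_comm, Nat.mul_add_div hs]

/-- the half sides in cells -/
theorem etr_ctr_half : 𝒱'.c.n / 2 = 𝒱.c.n / 2 + ctrD 𝒱 𝒱' / 𝒱.s := by
  have hs : 0 < 𝒱.s := h.hG.whole.pos
  obtain ⟨r, hr⟩ := 𝒱.hsm
  obtain ⟨k, hk⟩ := h.h2
  obtain ⟨k', hk'⟩ := h.h2'
  have hM : 𝒱.G.M = 𝒱.s * (2 * (r * k)) := by rw [hk, hr]; ring
  have hM' : 𝒱'.G.M = 𝒱.s * (2 * (r * k')) := by rw [hk', hr]; ring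
  have hle : r * k ≤ r * k' := by
    have h1 := h.hle
    rw [hM, hM'] at h1
    have h2 := Nat.le_of_mul_le_mul_left h1 hs
    omega
  have n1 : 𝒱.c.n = 2 * (r * k) := by
    show 𝒱.G.M / 𝒱.s = _
    rw [hM]
    exact Nat.mul_div_cancel_left _ hs
  have n2 : 𝒱'.c.n = 2 * (r * k') := by
    show 𝒱'.G.M / 𝒱'.s = _
    rw [← h.hs, hM']
    exact Nat.mul_div_cancel_left _ hs
  have hD : ctrD 𝒱 𝒱' = 𝒱.s * (r * k' - r * k) := by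
    unfold ctrD
    rw [hM, hM', ← Nat.mul_sub, ← Nat.mul_sub, ← mul_assoc, mul_comm 𝒱.s 2, mul_assoc]
    exact Nat.mul_div_cancel_left _ (by norm_num)
  rw [n1, n2, hD, Nat.mul_div_cancel_left _ hs]
  omega

/-- L-ETU-4: the cut of the unit sector is carried  (`rv = false`, `δ = id`, `etr_ctr_cell`, `c'.n / 2 = c.n / 2 + D / s`) -/
theorem etr_tauU_shift (f : Face 𝒱.c) : tauU 𝒱'.c (Φ.F f) = Φ.sg f * tauU 𝒱.c f := by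
  have hF : Φ.F f = (Φ.φ f.1, f.2) := by
    unfold Mor.F
    rw [h.sh.rv, h.sh.δ]
    rfl
  have hsg : Φ.sg f = 1 := by
    unfold Mor.sg
    rw [h.sh.rv]
    rfl
  rw [hF, hsg, one_mul]
  obtain ⟨e1, e2⟩ := etr_ctr_cell h f.1
  have hh := etr_ctr_half h
  unfold tauU
  refine if_congr ?_ rfl rfl
  show (f.2 = false ∧ ((Φ.φ f.1).2 : ℕ) + 1 = 𝒱'.c.n / 2 ∧ 𝒱'.c.n / 2 ≤ ((Φ.φ f.1).1 : ℕ)) ↔ _
  rw [e1, e2, hh]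
  constructor
  · rintro ⟨a, b, c⟩
    exact ⟨a, by omega, by omega⟩
  · rintro ⟨a, b, c⟩
    exact ⟨a, by omega, by omega⟩

/-- L-ETU-5: the same for bonds  (`etr_ctr_site`, `M' / 2 = M / 2 + D`) -/
theorem etr_tauE_shift (v : 𝒱.G.V) (d : Bool) : tauE (𝒱'.G.M / 2) (Φ.ψ v, d) = tauE (𝒱.G.M / 2) (v, d) := by
  obtain ⟨h1, h2⟩ := etr_ctr_site h v
  have hM : 𝒱'.G.M / 2 = 𝒱.G.M / 2 + ctrD 𝒱 𝒱' := by
    unfold ctrD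
    obtain ⟨k, hk⟩ := h.h2
    obtain ⟨k', hk'⟩ := h.h2'
    have := h.hle
    rw [mul_assoc] at hk hk'
    omega
  have hiff : (d = false ∧ ((Φ.ψ v).2 : ℕ) + 1 = 𝒱'.G.M / 2 ∧ 𝒱'.G.M / 2 ≤ ((Φ.ψ v).1 : ℕ)) ↔
      (d = false ∧ (v.2 : ℕ) + 1 = 𝒱.G.M / 2 ∧ 𝒱.G.M / 2 ≤ (v.1 : ℕ)) := by
    rw [h1, h2, hM]
    constructor <;> rintro ⟨a, b, c⟩ <;> exact ⟨a, by omega, by omega⟩
  unfold tauE
  simp only [hiff]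

/-- L-ETU-6: the source tile  (`Mor.Ok.tile` at the centre cell `i0 = (c.n / 2, c.n / 2)`: `tile c R i0 = entT0 𝒱` since `R ∣ c.n / 2`, `red = id` on a free square; `φ i0 = (c'.n / 2, c'.n / 2)` by `etr_ctr_cell`) -/
theorem etr_entT0_shift : Φ.θT (entT0 𝒱) = entT0 𝒱' := by
  have hR := h.hG.pos
  obtain ⟨k, hk⟩ := h.h2
  obtain ⟨k', hk'⟩ := h.h2'
  have hs : 0 < 𝒱.s := by
    rcases Nat.eq_zero_or_pos 𝒱.s with h0 | h0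
    · have : vR 𝒱 = 0 := by unfold vR; rw [h0, Nat.div_zero]
      omega
    · exact h0
  have hmR : 𝒱.m = 𝒱.s * vR 𝒱 := (Nat.mul_div_cancel' 𝒱.hsm).symm
  have hM : 𝒱.G.M = 𝒱.s * (2 * (vR 𝒱 * k)) := by rw [hk, hmR]; ring
  have hM' : 𝒱'.G.M = 𝒱.s * (2 * (vR 𝒱 * k')) := by rw [hk', hmR]; ring
  have hn : 𝒱.c.n = 2 * (vR 𝒱 * k) := by
    show 𝒱.G.M / 𝒱.s = _
    rw [hM, Nat.mul_div_cancel_left _ hs]
  have hn' : 𝒱'.c.n = 2 * (vR 𝒱 * k') := by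
    show 𝒱'.G.M / 𝒱'.s = _
    rw [← h.hs, hM', Nat.mul_div_cancel_left _ hs]
  have hkk : vR 𝒱 * k ≤ vR 𝒱 * k' := by
    have h1 := h.hle
    rw [hM, hM'] at h1
    have := Nat.le_of_mul_le_mul_left h1 hs
    omega
  have hD : ctrD 𝒱 𝒱' / 𝒱.s = vR 𝒱 * k' - vR 𝒱 * k := by
    unfold ctrD
    rw [hM, hM', ← Nat.mul_sub, ← Nat.mul_sub, show 𝒱.s * (2 * (vR 𝒱 * k' - vR 𝒱 * k)) = 2 * (𝒱.s * (vR 𝒱 * k' - vR 𝒱 * k)) by ring,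
      Nat.mul_div_cancel_left _ (by norm_num), Nat.mul_div_cancel_left _ hs]
  have hpos : 𝒱.c.n / 2 < 𝒱.c.n := by
    have := h.hG.big
    omega
  have t0 : tile 𝒱.c (vR 𝒱) (⟨𝒱.c.n / 2, hpos⟩, ⟨𝒱.c.n / 2, hpos⟩) = (false, true, k, k) :=
    etr_tile_vertex _ h.hf _ h.hG.r64 hR _ k (by show 𝒱.c.n / 2 = _; omega) (by show 𝒱.c.n / 2 = _; omega)
  have t1 : tile 𝒱'.c (vR 𝒱) (Φ.φ (⟨𝒱.c.n / 2, hpos⟩, ⟨𝒱.c.n / 2, hpos⟩)) = (false, true, k', k') :=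
    etr_tile_vertex _ h.hf' _ h.hG.r64 hR _ k'
      (by rw [(etr_ctr_cell h _).1, hD]; show 𝒱.c.n / 2 + _ = _; omega) (by rw [(etr_ctr_cell h _).2, hD]; show 𝒱.c.n / 2 + _ = _; omega)
  have hR' : vR 𝒱' = vR 𝒱 := by unfold vR; rw [h.hs, h.hm]
  have e0 : entT0 𝒱 = (false, true, k, k) := by
    unfold entT0
    rw [hn, Nat.mul_div_cancel_left _ (by norm_num), Nat.mul_div_cancel_left _ hR]
  have e1 : entT0 𝒱' = (false, true, k', k') := by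
    unfold entT0
    rw [hn', hR', Nat.mul_div_cancel_left _ (by norm_num), Nat.mul_div_cancel_left _ hR]
  rw [e0, e1, ← t0, ← h.ok.tile, t1]

/-- L-ETU-7: the compulsory set  (`bemb`, `etr_gblk`, `IsShift.ψ`; the points `m B + ctr`, `B ∈ entCst`, lie in the box of `𝒱`: `(2 R⁴ + 1) m ≤ M / 2`) -/
theorem etr_entCs_shift (hbig : 8 * (𝒱.s * vR 𝒱 ^ 5) ≤ 𝒱.G.M) : (entCs 𝒱).image Φ.φg = entCs 𝒱' := by
  have hmR : 𝒱.m = 𝒱.s * vR 𝒱 := (Nat.mul_div_cancel' 𝒱.hsm).symm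
  unfold entCs
  rw [Finset.image_image, ← h.hs, ← h.hm]
  refine Finset.image_congr fun B hB => ?_
  have hB' : B ∈ entCst 𝒱.s 𝒱.m := hB
  unfold entCst at hB'
  rw [Finset.mem_product, Finset.mem_Icc, Finset.mem_Icc] at hB'
  obtain ⟨⟨b1, b2⟩, b3, b4⟩ := hB'
  have x1 := etr_entCs_box 𝒱.s (vR 𝒱) 𝒱.G.M h.hG.pos 𝒱.G.hM hbig B.1 b1 b2
  have x2 := etr_entCs_box 𝒱.s (vR 𝒱) 𝒱.G.M h.hG.pos 𝒱.G.hM hbig B.2 b3 b4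
  rw [← hmR] at x1 x2
  have hbox : InBox 𝒱.G (((𝒱.m : ℤ) * B.1, (𝒱.m : ℤ) * B.2) + 𝒱.ctr) := ⟨x1.1, x1.2, x2.1, x2.2⟩
  show Φ.φg (𝒱.bemb 𝒱.ctr B) = 𝒱'.bemb 𝒱'.ctr B
  unfold Vol.bemb
  rw [← etr_gblk Φ h.ok, h.sh.ψ, etr_iota_pi _ _ hbox, ← h.hm]
  congr 2
  abel

/-- L-ETU-8: the block distance  (`etr_ctr_blk`; both squares are free) -/
theorem etr_ctr_gdist (u v : 𝒱.g.I) : 𝒱'.g.idist (Φ.φg u) (Φ.φg v) = 𝒱.g.idist u v := by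
  obtain ⟨u1, u2⟩ := etr_ctr_blk h u
  obtain ⟨v1, v2⟩ := etr_ctr_blk h v
  unfold Grid.idist
  rw [Geo.geo_idist1_free _ h.hf', Geo.geo_idist1_free _ h.hf', Geo.geo_idist1_free _ h.hf, Geo.geo_idist1_free _ h.hf, u1, u2, v1, v2]
  congr 1 <;> congr 1 <;> push_cast <;> ring

theorem etr_hull_image (S : Finset 𝒱.G.V) : 𝒱'.hull (S.image Φ.ψ) = (𝒱.hull S).image Φ.ψ := by
  ext v'
  unfold Vol.hull
  simp only [Finset.mem_filter, Finset.mem_univ, true_and, Finset.exists_mem_image]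
  simp only [Finset.mem_filter, Finset.mem_univ, true_and, Finset.mem_image]
  constructor
  · rintro ⟨⟨a, ha, a1⟩, ⟨b, hb, b1⟩, ⟨c, hc, c1⟩, ⟨d, hd, d1⟩⟩
    rw [Fin.le_def] at a1 b1 c1 d1
    rw [(etr_ctr_site h a).1] at a1
    rw [(etr_ctr_site h b).1] at b1
    rw [(etr_ctr_site h c).2] at c1
    rw [(etr_ctr_site h d).2] at d1
    have hb2 := b.1.2
    have hd2 := d.2.2
    refine ⟨(⟨(v'.1 : ℕ) - ctrD 𝒱 𝒱', by omega⟩, ⟨(v'.2 : ℕ) - ctrD 𝒱 𝒱', by omega⟩), ⟨⟨a, ha, ?_⟩, ⟨b, hb, ?_⟩, ⟨c, hc, ?_⟩, ⟨d, hd, ?_⟩⟩, ?_⟩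
    · rw [Fin.le_def]
      show (a.1 : ℕ) ≤ (v'.1 : ℕ) - ctrD 𝒱 𝒱'
      omega
    · rw [Fin.le_def]
      show (v'.1 : ℕ) - ctrD 𝒱 𝒱' ≤ (b.1 : ℕ)
      omega
    · rw [Fin.le_def]
      show (c.2 : ℕ) ≤ (v'.2 : ℕ) - ctrD 𝒱 𝒱'
      omega
    · rw [Fin.le_def]
      show (v'.2 : ℕ) - ctrD 𝒱 𝒱' ≤ (d.2 : ℕ)
      omega
    · obtain ⟨e1, e2⟩ := etr_ctr_site h (⟨(v'.1 : ℕ) - ctrD 𝒱 𝒱', by omega⟩, ⟨(v'.2 : ℕ) - ctrD 𝒱 𝒱', by omega⟩)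
      refine Prod.ext (Fin.ext ?_) (Fin.ext ?_)
      · rw [e1]
        show (v'.1 : ℕ) - ctrD 𝒱 𝒱' + ctrD 𝒱 𝒱' = (v'.1 : ℕ)
        omega
      · rw [e2]
        show (v'.2 : ℕ) - ctrD 𝒱 𝒱' + ctrD 𝒱 𝒱' = (v'.2 : ℕ)
        omega
  · rintro ⟨v, ⟨⟨a, ha, a1⟩, ⟨b, hb, b1⟩, ⟨c, hc, c1⟩, ⟨d, hd, d1⟩⟩, rfl⟩
    rw [Fin.le_def] at a1 b1 c1 d1
    refine ⟨⟨a, ha, ?_⟩, ⟨b, hb, ?_⟩, ⟨c, hc, ?_⟩, ⟨d, hd, ?_⟩⟩
    · rw [Fin.le_def, (etr_ctr_site h a).1, (etr_ctr_site h v).1]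
      omega
    · rw [Fin.le_def, (etr_ctr_site h b).1, (etr_ctr_site h v).1]
      omega
    · rw [Fin.le_def, (etr_ctr_site h c).2, (etr_ctr_site h v).2]
      omega
    · rw [Fin.le_def, (etr_ctr_site h d).2, (etr_ctr_site h v).2]
      omega

theorem etr_sites_image (Y : Finset 𝒱.g.I) : 𝒱'.g.sites (Y.image Φ.φg) = (𝒱.g.sites Y).image Φ.ψ := by
  ext v'
  unfold Grid.sites
  simp only [Finset.mem_filter, Finset.mem_univ, true_and, Finset.mem_image]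
  constructor
  · rintro ⟨y, hy, e⟩
    have hup : (vNest 𝒱').up (𝒱'.c.blk v') = Φ.φg y := by
      rw [e]
      exact Prod.ext ((vNest 𝒱').comm v'.1).symm ((vNest 𝒱').comm v'.2).symm
    obtain ⟨i, hi⟩ := h.ok.up_lift y _ hup
    obtain ⟨v, hv⟩ := h.ok.blk_lift i v' hi.symm
    refine ⟨v, ?_, hv⟩
    rw [← hv, etr_gblk Φ h.ok] at e
    rw [← h.ok.φg_inj e]
    exact hy
  · rintro ⟨v, hv, rfl⟩
    exact ⟨_, hv, (etr_gblk Φ h.ok v).symm⟩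

theorem etr_collar_image (X : Finset 𝒱.g.I) (hX : BDeep 𝒱 3 X) : 𝒱'.g.collar (X.image Φ.φg) = (𝒱.g.collar X).image Φ.φg := by
  ext b'
  unfold Grid.collar
  simp only [Finset.mem_filter, Finset.mem_univ, true_and, Finset.exists_mem_image]
  simp only [Finset.mem_filter, Finset.mem_univ, true_and, Finset.mem_image]
  constructor
  · rintro ⟨a, ha, hd⟩
    obtain ⟨x1, x2, x3, x4⟩ := hX a ha
    obtain ⟨a1, a2⟩ := etr_ctr_blk h a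
    have hd' := hd
    unfold Grid.idist at hd'
    rw [Geo.geo_idist1_free _ h.hf', Geo.geo_idist1_free _ h.hf', a1, a2] at hd'
    have d1 := (le_max_left _ _).trans hd'
    have d2 := (le_max_right _ _).trans hd'
    have hb : Φ.φg (⟨(b'.1 : ℕ) - ctrD 𝒱 𝒱' / 𝒱.m, by omega⟩, ⟨(b'.2 : ℕ) - ctrD 𝒱 𝒱' / 𝒱.m, by omega⟩) = b' := by
      obtain ⟨e1, e2⟩ := etr_ctr_blk h (⟨(b'.1 : ℕ) - ctrD 𝒱 𝒱' / 𝒱.m, by omega⟩, ⟨(b'.2 : ℕ) - ctrD 𝒱 𝒱' / 𝒱.m, by omega⟩)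
      refine Prod.ext (Fin.ext ?_) (Fin.ext ?_)
      · rw [e1]
        show (b'.1 : ℕ) - ctrD 𝒱 𝒱' / 𝒱.m + ctrD 𝒱 𝒱' / 𝒱.m = (b'.1 : ℕ)
        omega
      · rw [e2]
        show (b'.2 : ℕ) - ctrD 𝒱 𝒱' / 𝒱.m + ctrD 𝒱 𝒱' / 𝒱.m = (b'.2 : ℕ)
        omega
    refine ⟨_, ⟨a, ha, ?_⟩, hb⟩
    rw [← etr_ctr_gdist h, hb]
    exact hd
  · rintro ⟨b, ⟨a, ha, hd⟩, rfl⟩
    exact ⟨a, ha, by rw [etr_ctr_gdist h]; exact hd⟩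

/-- L-ETU-9: the rectangle spanned by `D_m (X)`  (`collar' (φg X) = φg (collar X)`: `etr_ctr_blk`, `etr_ctr_gdist`, `BDeep 3`; `sites' (φg Y) = ψ (sites Y)`: `etr_gblk`, `etr_ctr_site`; the hull of a translated set is the translated hull) -/
theorem etr_hull_shift (X : Finset 𝒱.g.I) (hX : BDeep 𝒱 3 X) : 𝒱'.hull (𝒱'.g.Dm (X.image Φ.φg)) = (𝒱.hull (𝒱.g.Dm X)).image Φ.ψ := by
  unfold Grid.Dm
  rw [etr_collar_image h X hX, etr_sites_image h, etr_hull_image h]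

/-- L-ETU-10: bonds between images  (`etr_ctr_site`; `stp v d = π (ι v + bdir d)`) -/
theorem etr_ctr_stp (v w : 𝒱.G.V) (d : Bool) (hne : stp (Φ.ψ v) d ≠ Φ.ψ v) (hw : stp (Φ.ψ v) d = Φ.ψ w) : stp v d = w ∧ stp v d ≠ v := by
  have hi := iota_stp_free h.hf' (Φ.ψ v) d hne
  rw [hw] at hi
  obtain ⟨v1, v2⟩ := etr_ctr_site h v
  obtain ⟨w1, w2⟩ := etr_ctr_site h w
  obtain ⟨s1, s2, s3, s4⟩ := stp_free h.hf v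
  cases d
  · have e1 : (((Φ.ψ w).1 : ℕ) : ℤ) = ((Φ.ψ v).1 : ℕ) + 0 := congrArg Prod.fst hi
    have e2 : (((Φ.ψ w).2 : ℕ) : ℤ) = ((Φ.ψ v).2 : ℕ) + 1 := congrArg Prod.snd hi
    have hlt : (v.2 : ℕ) + 1 < 𝒱.G.M := by
      have := w.2.2
      omega
    obtain ⟨a, b⟩ := s3 hlt
    refine ⟨Prod.ext (by rw [b]; apply Fin.ext; omega) (Fin.ext (by omega)), fun hh => ?_⟩
    rw [hh] at a
    omega
  · have e1 : (((Φ.ψ w).1 : ℕ) : ℤ) = ((Φ.ψ v).1 : ℕ) + 1 := congrArg Prod.fst hi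
    have e2 : (((Φ.ψ w).2 : ℕ) : ℤ) = ((Φ.ψ v).2 : ℕ) + 0 := congrArg Prod.snd hi
    have hlt : (v.1 : ℕ) + 1 < 𝒱.G.M := by
      have := w.1.2
      omega
    obtain ⟨a, b⟩ := s1 hlt
    refine ⟨Prod.ext (Fin.ext (by omega)) (by rw [b]; apply Fin.ext; omega), fun hh => ?_⟩
    rw [hh] at a
    omega

/-! ## 2. Glue -/

theorem etr_ctr_sep (Cs X : Finset 𝒱.g.I) : 𝒱'.g.Sep RR (Cs.image Φ.φg) (X.image Φ.φg) ↔ 𝒱.g.Sep RR Cs X := by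
  unfold Grid.Sep
  simp only [Finset.forall_mem_image, etr_ctr_gdist h]

theorem etr_gauge_iff (X : Finset 𝒱.g.I) (hX : BDeep 𝒱 3 X) : (∃ κ', IsGauge 𝒱' (X.image Φ.φg) κ') ↔ ∃ κ, IsGauge 𝒱 X κ := by
  have hH := etr_hull_shift h X hX
  constructor
  · rintro ⟨κ', hκ'⟩
    refine ⟨fun v => κ' (Φ.ψ v), fun e he h1 h2 => ?_⟩
    have hb : stp (Φ.ψ e.1) e.2 = Φ.ψ (stp e.1 e.2) := by
      have := h.ok.bond e.1 e.2 he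
      rwa [h.sh.rv, if_neg (by simp), h.sh.δ] at this
    have := hκ' (Φ.ψ e.1, e.2) (by show stp (Φ.ψ e.1) e.2 ≠ Φ.ψ e.1; rw [hb]; exact fun hh => he (h.ok.ψ_inj hh))
      (by rw [hH]; exact Finset.mem_image_of_mem _ h1) (by show stp (Φ.ψ e.1) e.2 ∈ _; rw [hH, hb]; exact Finset.mem_image_of_mem _ h2)
    have h3 : κ' (stp (Φ.ψ e.1) e.2) - κ' (Φ.ψ e.1) = tauE (𝒱'.G.M / 2) (Φ.ψ e.1, e.2) := this
    rw [hb, etr_tauE_shift h] at h3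
    exact h3
  · rintro ⟨κ, hκ⟩
    refine ⟨Function.extend Φ.ψ κ 0, fun e' he' h1 h2 => ?_⟩
    rw [hH] at h1 h2
    obtain ⟨v, hv, ev⟩ := Finset.mem_image.1 h1
    obtain ⟨w, hw, ew⟩ := Finset.mem_image.1 h2
    obtain ⟨e1, d⟩ := e'
    simp only at ev ew he' ⊢
    subst ev
    obtain ⟨hs1, hs2⟩ := etr_ctr_stp h v w d he' ew.symm
    rw [← ew, h.ok.ψ_inj.extend_apply, h.ok.ψ_inj.extend_apply, etr_tauE_shift h, ← hs1]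
    exact hκ (v, d) hs2 hv (by show stp v d ∈ _; rw [hs1]; exact hw)

end pair

end

end Claimed.Agent.R285.Ent
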